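import Crest.Agent.H3.PTMore
import Crest.Agent.H6.CCCore
import Crest.Prelude.Def_TimeBound
import Crest.Prelude.Def_IntMul

/-! Row 326 (fast integer multiplication): interface between the modules. -/

set_option autoImplicit false

namespace Crest.Agent.H9.IM
open Crest.Agent.H3.Ptime

def scan {σ α β : Type} (f : σ × α → σ × β) : σ → List α → σ × List β
  | s, [] => (s, [])
  | s, a :: l => ((scan f (f (s, a)).1 l).1, (f (s, a)).2 :: (scan f (f (s, a)).1 l).2)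

/-- the inputs on which `f` is called by `scan` -/
def visits {σ α β : Type} (f : σ × α → σ × β) : σ → List α → List (σ × α)
  | _, [] => []
  | s, a :: l => (s, a) :: visits f (f (s, a)).1 l

/-- the first `l.length / k` blocks of length `k` -/
def chunks {α : Type} (k : ℕ) (l : List α) : List (List α) :=
  (List.range (l.length / k)).map (fun j => (l.drop (j * k)).take k)

structure CoreStmt : Prop where
  scan' : ∀ {σ α β : Type} [Enc σ] [Enc α] [Enc β] {f : σ × α → σ × β} {S : σ × α → ℕ → Prop},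
    CC f S → CC (fun x : σ × List α => scan f x.1 x.2) (fun x T => ∃ τ : σ × α → ℕ,
      (∀ y ∈ visits f x.1 x.2, S y (τ y)) ∧
      ((visits f x.1 x.2).map (fun y => τ y + sz y.1)).sum ≤ T)
  map : ∀ {ε α β : Type} [Enc ε] [Enc α] [Enc β] {f : ε × α → β} {S : ε × α → ℕ → Prop},
    CC f S → CC (fun x : ε × List α => x.2.map (fun a => f (x.1, a))) (fun x T => ∃ τ : α → ℕ,
      (∀ a ∈ x.2, S (x.1, a) (τ a)) ∧ (x.2.map (fun a => τ a + sz x.1)).sum ≤ T)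
  loop : ∀ {σ : Type} [Enc σ] {step : σ → σ} {cont : σ → Bool} {S Sc : σ → ℕ → Prop},
    CC step S → CC cont Sc → ∀ n : σ → ℕ, CC (fun s => step^[n s] s) (fun s T =>
      (∀ i < n s, cont (step^[i] s) = true) ∧ cont (step^[n s] s) = false ∧ ∃ τ : ℕ → ℕ,
        (∀ i ≤ n s, Sc (step^[i] s) (τ i) ∧ (i < n s → S (step^[i] s) (τ i))) ∧
        ∑ i ∈ Finset.range (n s + 1), (τ i + sz (step^[i] s)) ≤ T)
  append : ∀ {α : Type} [Enc α], Lin (fun x : List α × List α => x.1 ++ x.2)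
  reverse : ∀ {α : Type} [Enc α], Lin (fun l : List α => l.reverse)
  flatten : ∀ {α : Type} [Enc α], Lin (fun l : List (List α) => l.flatten)
  zip : ∀ {α β : Type} [Enc α] [Enc β], Lin (fun x : List α × List β => x.1.zip x.2)
  take : ∀ {α β : Type} [Enc α] [Enc β], Lin (fun x : List α × List β => x.1.take x.2.length)
  drop : ∀ {α β : Type} [Enc α] [Enc β], Lin (fun x : List α × List β => x.1.drop x.2.length)
  chunks' : ∀ {α : Type} [Enc α], Lin (fun x : List Unit × List α => chunks x.1.length x.2)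
  unary : CC (fun n : ℕ => List.replicate n ()) (fun n T => n * (sz n + 1) ≤ T)
  merge : ∀ {α : Type} [Enc α] {le : α × α → Bool} {S : α × α → ℕ → Prop}, CC le S →
    CC (fun x : List α × List α => List.merge x.1 x.2 (fun a b => le (a, b))) (fun x T =>
      ∃ τ w : ℕ, (∀ a ∈ x.1, ∀ b ∈ x.2, S (a, b) τ) ∧ (∀ a ∈ x.1 ++ x.2, sz a ≤ w) ∧
        (x.1.length + x.2.length) * (τ + w) ≤ T)

/-- states of the staged recursion -/
def rst {σ α β : Type} (init : α → σ) (arg : ℕ → σ → α) (post : ℕ → σ × β → σ) (F : α → β)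
    (a : α) : ℕ → σ
  | 0 => init a
  | i + 1 => post i (rst init arg post F a i, F (arg i (rst init arg post F a i)))

/-- recursion with a fixed number `n` of stages, one recursive call per stage -/
def RecStmt : Prop :=
  ∀ {σ α β : Type} [Enc σ] [Enc α] [Enc β] (n : ℕ) (base : α → Bool) (g : α → β) (init : α → σ)
    (fin : σ → β) (arg : ℕ → σ → α) (post : ℕ → σ × β → σ) (F : α → β)
    (Sb Sg Si : α → ℕ → Prop) (Sf : σ → ℕ → Prop) (Sa : ℕ → σ → ℕ → Prop)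
    (Sp : ℕ → σ × β → ℕ → Prop), CC base Sb → CC g Sg → CC init Si → CC fin Sf →
    (∀ i < n, CC (arg i) (Sa i)) → (∀ i < n, CC (post i) (Sp i)) →
    ∀ (S : α → ℕ → Prop) (μ : α → ℕ),
    (∀ a T, S a T → Sb a T ∧ (base a = true → Sg a T ∧ F a = g a) ∧
      (base a = false → F a = fin (rst init arg post F a n) ∧ ∃ (T0 : ℕ) (τ : ℕ → ℕ),
        Sb a T0 ∧ Si a T0 ∧ Sf (rst init arg post F a n) T0 ∧
        (∀ i ≤ n, sz (rst init arg post F a i) ≤ T0) ∧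
        (∀ i < n, Sa i (rst init arg post F a i) T0 ∧
          Sp i (rst init arg post F a i, F (arg i (rst init arg post F a i))) T0 ∧
          sz (F (arg i (rst init arg post F a i))) ≤ T0 ∧
          S (arg i (rst init arg post F a i)) (τ i) ∧
          μ (arg i (rst init arg post F a i)) < μ a) ∧
        T0 + ∑ i ∈ Finset.range n, (τ i + sz (arg i (rst init arg post F a i)) + 1) ≤ T)) →
    CC F S

def TMStmt : Prop :=
  ∀ (f : List Bool × List Bool → List Bool) (S : List Bool × List Bool → ℕ → Prop) (g : ℕ → ℕ),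
    CC f S → (∀ x : Crest.LogicCS.IntMul.EqLenPair, S x.1 (g x.1.1.length) ∧
      f x.1 = Crest.LogicCS.IntMul.mulOutput x) →
    ∃ c : ℕ, ∀ t : ℕ → ℕ, (∀ n : ℕ, c * (g n + n + 1) ≤ t (2 * n)) →
      Crest.DTime.TimeBoundComputable Crest.LogicCS.IntMul.EqLenPair.enc
        (Computability.encodingList Bool).encode Crest.LogicCS.IntMul.mulOutput t

def SortStmt : Prop :=
  ∃ (srt : List (ℕ × List ℕ) → List (ℕ × List ℕ)) (k : ℕ),
    (∀ l, (srt l).Perm l ∧ (srt l).Pairwise (fun a b => a.1 ≤ b.1)) ∧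
    CC srt (fun l T => ∃ Λ w : ℕ, (∀ x ∈ l, sz x.1 ≤ Λ ∧ sz x ≤ w) ∧
      (Nat.log 2 l.length + 1) * l.length * (w + (Λ + 2) ^ k) ≤ T)

/-- quasi-linear time -/
def QL {α β : Type} [Enc α] [Enc β] (f : α → β) : Prop :=
  ∀ γ : ℝ, 0 < γ → CC f (fun a T => (sz a : ℝ) ^ (1 + γ) ≤ T)

def MM (u : ℕ) : ℕ := 2 ^ (2 * u) + 1

structure NumStmt : Prop where
  add : Lin (fun x : ℕ × ℕ => x.1 + x.2)
  sub : Lin (fun x : ℕ × ℕ => x.1 - x.2)
  lt : Lin (fun x : ℕ × ℕ => decide (x.1 < x.2))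
  xor : Lin (fun x : ℕ × ℕ => x.1 ^^^ x.2)
  bodd : Lin (fun x : ℕ => x.bodd)
  shl : Lin (fun x : ℕ × List Unit => x.1 * 2 ^ x.2.length)
  shr : Lin (fun x : ℕ × List Unit => x.1 / 2 ^ x.2.length)
  low : Lin (fun x : ℕ × List Unit => x.1 % 2 ^ x.2.length)
  modM : CC (fun x : ℕ × List Unit => x.1 % MM x.2.length)
    (fun x _ => x.1 < 2 ^ (6 * x.2.length))
  /-- bit strings (least significant first) to numbers and back -/
  ofBits : Lin (fun l : List Bool => Nat.ofDigits 2 (l.map (fun b => b.toNat)))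
  toBits : Lin (fun x : ℕ × List Unit => (List.range x.2.length).map (fun i => x.1.testBit i))
  mul : QL (fun x : ℕ × ℕ => x.1 * x.2)
  iadd : Lin (fun x : ℤ × ℤ => x.1 + x.2)
  isub : Lin (fun x : ℤ × ℤ => x.1 - x.2)
  ilt : Lin (fun x : ℤ × ℤ => decide (x.1 < x.2))
  cast : Lin (fun x : ℕ => (x : ℤ))
  toNat : Lin (fun x : ℤ => x.toNat)
  ishr : Lin (fun x : ℤ × List Unit => x.1 / 2 ^ x.2.length)
  imul : QL (fun x : ℤ × ℤ => x.1 * x.2)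

/-- product of integer polynomials given by coefficient lists -/
def pmul (a b : List ℤ) : List ℤ :=
  (List.range (a.length + b.length)).map
    (fun e => ∑ x ∈ Finset.range (e + 1), a.getD x 0 * b.getD (e - x) 0)

def CellStmt : Prop :=
  ∀ γ : ℝ, 0 < γ → CC (fun x : List ℤ × List ℤ => pmul x.1 x.2) (fun x T => ∃ V W : ℕ,
    x.1.length ≤ V ∧ x.2.length ≤ V ∧ (∀ z ∈ x.1 ++ x.2, z.natAbs < 2 ^ W) ∧ V < 2 ^ W ∧
    ((V + 1 : ℝ) * (W + 1)) ^ (1 + γ) ≤ T)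

/-! ### arrays of cells -/

abbrev Arr := List (List ℕ)

def Bd (V w : ℕ) (A : Arr) : Prop := ∀ c ∈ A, c.length = V ∧ ∀ x ∈ c, x < 2 ^ w

noncomputable def gam : ℝ := 1 / 2 ^ 190
noncomputable def th : ℝ := 1 - 1 / 2 ^ 40

/-- array operations costing `X + 1` passes -/
def AC {Q : Type} [Enc Q] (f : Q → Arr → Arr) (P : Q → ℕ → Arr → Prop) (X : Q → ℝ) : Prop :=
  ∃ k : ℕ, CC (fun x : Q × Arr => f x.1 x.2) (fun x T => ∃ V w Λ : ℕ, P x.1 w x.2 ∧ Bd V w x.2 ∧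
      sz x.1 ≤ Λ ∧ w ≤ Λ ∧ x.2.length ≤ 2 ^ Λ ∧ 2 ≤ Λ ∧ 0 ≤ X x.1 ∧
      (x.2.length + 1 : ℝ) * (V * (w + 1 : ℝ) ^ (1 + gam) * (X x.1 + 1) + (Λ : ℝ) ^ k) ≤ T) ∧
    ∀ q V w A, P q w A → Bd V w A → Bd V w (f q A) ∧ (f q A).length ≤ k * A.length

def zc (A : Arr) : List ℕ := (A.headD []).map (fun _ => 0)

def pullN (n : ℕ) (π : ℕ → ℕ) (A : Arr) : Arr := (List.range n).map (fun i => A.getD (π i) (zc A))

/-- index maps costing `X + 1` passes -/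
def PC {Q : Type} [Enc Q] (π : Q → ℕ → ℕ) (P : Q → ℕ → Prop) (X : Q → ℝ) : Prop :=
  AC (fun q A => pullN A.length (π q) A) (fun q _ A => P q A.length) X ∧
    ∀ q N, P q N → ∀ i < N, π q i < N

def fld (lo L i : ℕ) : ℕ := i / lo % L
def setf (lo L i v : ℕ) : ℕ := i - fld lo L i * lo + v * lo

structure ArrStmt : Prop where
  mono : ∀ {Q Q' : Type} [Enc Q] [Enc Q'] {f : Q → Arr → Arr} {P : Q → ℕ → Arr → Prop}
    {X : Q → ℝ}, AC f P X → ∀ (h : Q' → Q) (g : Q' → Arr → Arr) (P' : Q' → ℕ → Arr → Prop)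
    (X' : Q' → ℝ) (c : ℝ), PT h → (∀ q w A, P' q w A → P (h q) w A ∧ f (h q) A = g q A ∧
      0 ≤ X (h q) ∧ X (h q) ≤ c * (X' q + 1)) → AC g P' X'
  comp : ∀ {Q : Type} [Enc Q] {f g : Q → Arr → Arr} {P P' : Q → ℕ → Arr → Prop} {X : Q → ℝ},
    AC g P' X → AC f P X → AC (fun q A => g q (f q A)) (fun q w A => P q w A ∧ P' q w (f q A)) X
  cond : ∀ {Q : Type} [Enc Q] {c : Q → Bool} {f g : Q → Arr → Arr} {P P' : Q → ℕ → Arr → Prop}
    {X : Q → ℝ}, PT c → AC f P X → AC g P' X → AC (fun q A => bif c q then f q A else g q A)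
      (fun q w A => (c q = true → P q w A) ∧ (c q = false → P' q w A)) X
  loop : ∀ {Q : Type} [Enc Q] {f : Q × ℕ → Arr → Arr} {P : Q × ℕ → ℕ → Arr → Prop}
    {X : Q × ℕ → ℝ}, AC f P X → ∀ (m : Q → ℕ) (X' : Q → ℝ), PT m → PB m →
    AC (fun q A => (List.range (m q)).foldl (fun A j => f (q, j) A) A)
      (fun q w A => (∀ j < m q, 0 ≤ X (q, j) ∧
          P (q, j) w ((List.range j).foldl (fun A j => f (q, j) A) A) ∧
          ((List.range (j + 1)).foldl (fun A j => f (q, j) A) A).length = A.length) ∧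
        ∑ j ∈ Finset.range (m q), (X (q, j) + 1) ≤ X' q + 1) X'
  pull : ∀ {Q : Type} [Enc Q] (n π κ : Q → ℕ → ℕ) (c : ℕ), PT (fun x : Q × ℕ => n x.1 x.2) →
    PT (fun x : Q × ℕ => π x.1 x.2) → PT (fun x : Q × ℕ => κ x.1 x.2) →
    AC (fun q A => pullN (n q A.length) (π q) A) (fun q _ A => A ≠ [] ∧
      n q A.length ≤ c * A.length ∧ (∀ i < n q A.length, κ q i < c) ∧
      ∀ i j, i ≤ j → j < n q A.length → κ q i = κ q j → π q i ≤ π q j) (fun _ => 0)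
  rev : PC (fun (L : ℕ) i => i / L * L + (L - 1 - i % L)) (fun L N => 0 < L ∧ L ∣ N) (fun _ => 0)
  pmono : ∀ {Q Q' : Type} [Enc Q] [Enc Q'] {π : Q → ℕ → ℕ} {P : Q → ℕ → Prop} {X : Q → ℝ},
    PC π P X → ∀ (h : Q' → Q) (ρ : Q' → ℕ → ℕ) (P' : Q' → ℕ → Prop) (X' : Q' → ℝ) (c : ℝ), PT h →
    (∀ q N, P' q N → P (h q) N ∧ (∀ i < N, π (h q) i = ρ q i) ∧ 0 ≤ X (h q) ∧
      X (h q) ≤ c * (X' q + 1)) → PC ρ P' X'
  pcomp : ∀ {Q : Type} [Enc Q] {π ρ : Q → ℕ → ℕ} {P : Q → ℕ → Prop} {X : Q → ℝ},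
    PC π P X → PC ρ P X → PC (fun q i => π q (ρ q i)) P X
  pcond : ∀ {Q : Type} [Enc Q] {c : Q → Bool} {π ρ : Q → ℕ → ℕ} {P P' : Q → ℕ → Prop}
    {X : Q → ℝ}, PT c → PC π P X → PC ρ P' X → PC (fun q i => bif c q then π q i else ρ q i)
      (fun q N => (c q = true → P q N) ∧ (c q = false → P' q N)) X
  ploop : ∀ {Q : Type} [Enc Q] {π : Q × ℕ → ℕ → ℕ} {P : Q × ℕ → ℕ → Prop} {X : Q × ℕ → ℝ},
    PC π P X → ∀ (m : Q → ℕ) (X' : Q → ℝ), PT m → PB m →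
    PC (fun q i => (List.range (m q)).foldr (fun j i => π (q, j) i) i)
      (fun q N => (∀ j < m q, 0 ≤ X (q, j) ∧ P (q, j) N) ∧
        ∑ j ∈ Finset.range (m q), (X (q, j) + 1) ≤ X' q + 1) X'
  ppull : ∀ {Q : Type} [Enc Q] (π κ : Q → ℕ → ℕ) (c : ℕ), PT (fun x : Q × ℕ => π x.1 x.2) →
    PT (fun x : Q × ℕ => κ x.1 x.2) → PC π (fun q N => (∀ i < N, κ q i < c ∧ π q i < N) ∧
      ∀ i j, i ≤ j → j < N → κ q i = κ q j → π q i ≤ π q j) (fun _ => 0)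

/-! ### the token networks -/

inductive Ins (μ : Type)
  | zero
  | add (r s : ℕ)
  | neg (r : ℕ)
  | half (r : ℕ)
  | mv (m : μ) (r : ℕ)

def Ins.val {μ S V : Type} [CommRing S] [AddCommGroup V] [Module S V] (η : S) (op : μ → V → V)
    (R : List V) : Ins μ → V
  | .zero => 0
  | .add r s => R.getD r 0 + R.getD s 0
  | .neg r => -R.getD r 0
  | .half r => η • R.getD r 0
  | .mv m r => op m (R.getD r 0)

def slp {μ S V : Type} [CommRing S] [AddCommGroup V] [Module S V] (η : S) (op : μ → V → V)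
    (P : List (Ins μ)) (R : List V) : List V := P.foldl (fun R I => R ++ [I.val η op R]) R

def Ins.cost {μ : Type} (c : μ → Bool) : Ins μ → ℕ
  | .mv m _ => bif c m then 1 else 0
  | _ => 0

/-- registers read by an instruction are below `n` -/
def Ins.ok {μ : Type} (n : ℕ) : Ins μ → Prop
  | .zero => True
  | .add r s => r < n ∧ s < n
  | .neg r => r < n
  | .half r => r < n
  | .mv _ r => r < n

def NetA : Prop :=
  ∃ (T : ℕ) (Δ : ℤ) (P : List (Ins ((Fin 13824 → ℤ) × (Fin 13824 → ℤ)))) (out : ℕ → ℕ),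
    0 < T ∧ 0 < Δ ∧ (∀ i (h : i < P.length), P[i].ok (T + i)) ∧ (∀ a < T, out a < T + P.length) ∧
    ((P.map (Ins.cost (fun _ => true))).sum : ℝ) ≤ T * 13824 * (1 - 1 / 2 ^ 30) ∧
    ∀ (V : Type) [AddCommGroup V] [Module (ZMod 2) V]
      (ρ : Multiplicative (Matrix (Fin 13824) (Fin 13824) ℤ) →* Module.End (ZMod 2) V) (x : List V),
      x.length = T → ∀ a < T,
      (slp (1 : ZMod 2) (fun m v => ρ (Multiplicative.ofAdd (Matrix.vecMulVec m.1 m.2)) v) P x).getD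
        (out a) 0 = ρ (Multiplicative.ofAdd (Δ • (1 : Matrix (Fin 13824) (Fin 13824) ℤ))) (x.getD a 0)

noncomputable def gel {S : Type} [CommRing S] (η I : S) (w : Fin 256 → ZMod 2) :
    AddMonoidAlgebra S (Fin 256 → ZMod 2) :=
  AddMonoidAlgebra.single 0 ((1 + I) * η) + AddMonoidAlgebra.single w ((1 - I) * η)

def NetB : Prop :=
  ∃ (T : ℕ) (P : List (Ins (Bool × (Fin 256 → ZMod 2)))) (out : ℕ → ℕ),
    0 < T ∧ (∀ i (h : i < P.length), P[i].ok (T + i)) ∧ (∀ a < T, out a < T + P.length) ∧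
    ((P.map (Ins.cost (fun m => m.1))).sum : ℝ) ≤ T * 256 * (1 - 1 / 2 ^ 30) ∧
    ∀ (S : Type) [CommRing S] (η I : S), 2 * η = 1 → I * I = -1 →
    ∀ (V : Type) [AddCommGroup V] [Module S V]
      (ρ : AddMonoidAlgebra S (Fin 256 → ZMod 2) →* Module.End S V) (x : List V),
      x.length = T → ∀ a < T,
      (slp η (fun m v => ρ (bif m.1 then gel η I m.2 else AddMonoidAlgebra.single m.2 1) v) P x).getD
        (out a) 0 = ρ (∏ μ, gel η I (Pi.single μ 1)) (x.getD a 0)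

/-! ### fast index permutations and the fast Hadamard transform -/

/-- swap of the fields `(loX, L)` and `(loY, L)`, parameters `(loX, loY, L)` -/
def SwapStmt : Prop :=
  PC (fun (q : ℕ × ℕ × ℕ) i => setf q.2.1 q.2.2 (setf q.1 q.2.2 i (fld q.2.1 q.2.2 i)) (fld q.1 q.2.2 i))
    (fun q N => 0 < q.2.1 ∧ 0 < q.2.2 ∧ q.2.1 * q.2.2 ∣ q.1 ∧ q.1 * q.2.2 ∣ N ∧ 0 < N)
    (fun q => (Nat.log 2 q.2.2 + 1 : ℝ) ^ th)

/-- add `f` modulo `m ≤ L` to the field `(loX, L)`; `f` sees everything from `loZ` upwards -/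
def AddStmt : Prop :=
  ∀ {Q : Type} [Enc Q] (loX loZ L m : Q → ℕ) (f : Q → ℕ → ℕ), PT loX → PT loZ → PT L → PT m →
    PT (fun x : Q × ℕ => f x.1 x.2) →
    PC (fun q i => if fld (loX q) (L q) i < m q then setf (loX q) (L q) i
        ((fld (loX q) (L q) i + f q (setf (loX q) (L q) (i / loZ q * loZ q) 0)) % m q) else i)
      (fun q N => 0 < loZ q ∧ 0 < m q ∧ m q ≤ L q ∧ (loZ q = loX q ∨ loZ q * L q ∣ loX q) ∧
        loX q * L q ∣ N ∧ 0 < N)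
      (fun q => (Nat.log 2 (L q) + 1 : ℝ) ^ th)

/-- a bijection with few non-fixed points is cheap -/
def FixStmt : Prop :=
  ∀ {Q : Type} [Enc Q] (σ ς : Q → ℕ → ℕ), PT (fun x : Q × ℕ => σ x.1 x.2) →
    PT (fun x : Q × ℕ => ς x.1 x.2) →
    PC σ (fun q N => (∀ i < N, σ q i < N ∧ ς q (σ q i) = i) ∧
      ((Finset.range N).filter (fun i => σ q i ≠ i)).card * (Nat.log 2 N + 1) ≤ N) (fun _ => 0)

def Dis (a b L : ℕ) : Prop := a * L ∣ b ∨ b * L ∣ a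

/-- parameters `(loX, loY, loR, D, L, flag)`; the low bit of every `D`-digit of the field `X` is
xored with the corresponding bit of the field `Y` (or with `1` if `flag`) -/
def XorStmt : Prop :=
  PC (fun (q : ℕ × ℕ × ℕ × ℕ × ℕ × Bool) i => setf q.1 q.2.2.2.2.1 i (fld q.1 q.2.2.2.2.1 i ^^^
      ((bif q.2.2.2.2.2 then (q.2.2.2.2.1 - 1) else fld q.2.1 q.2.2.2.2.1 i) &&&
        ((q.2.2.2.2.1 - 1) / (q.2.2.2.1 - 1)))))
    (fun q N => ∃ B J : ℕ, 1 ≤ B ∧ q.2.2.2.1 = 2 ^ B ∧ q.2.2.2.2.1 = q.2.2.2.1 ^ J ∧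
      0 < q.1 ∧ 0 < q.2.1 ∧ 0 < q.2.2.1 ∧ Dis q.1 q.2.1 q.2.2.2.2.1 ∧ Dis q.1 q.2.2.1 q.2.2.2.2.1 ∧
      Dis q.2.1 q.2.2.1 q.2.2.2.2.1 ∧ q.1 * q.2.2.2.2.1 ∣ N ∧ q.2.1 * q.2.2.2.2.1 ∣ N ∧
      q.2.2.1 * q.2.2.2.2.1 ∣ N ∧ 0 < N ∧ J * (Nat.log 2 N + 1) * 8 ≤ 2 ^ ((B - 1) / 2))
    (fun q => (Nat.log 2 q.2.2.2.2.1 + 1 : ℝ) ^ th)

def had {S : Type} [CommRing S] (m : ℕ) (a : ℕ → S) : ℕ → S :=
  fun i => if i / m % 2 = 0 then a i + a (i + m) else a (i - m) - a i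

def hadAll {S : Type} [CommRing S] (lo D K : ℕ) (a : ℕ → S) : ℕ → S :=
  (List.range K).foldr (fun j a => had (lo * D ^ j) a) a

/-- validity of `(lo, D, K)` for an array of length `N` -/
def HP (lo D K N : ℕ) : Prop :=
  ∃ b B : ℕ, lo = 2 ^ b ∧ 1 ≤ B ∧ D = 2 ^ B ∧ 1 ≤ K ∧ lo * D ^ (K - 1) * 2 ∣ N ∧ 0 < N ∧
    K * (Nat.log 2 N + 1) * 8 ≤ 2 ^ ((B - 1) / 2)

/-- parameters `(u, lo, D, K)` with `u`, `K` in unary -/
def HadStmt : Prop :=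
  ∃ f : List Unit × ℕ × ℕ × List Unit → Arr → Arr,
    AC f (fun q w A => w = 2 * q.1.length + 1 ∧ 1 ≤ q.1.length ∧
        (∀ c ∈ A, ∀ x ∈ c, x < MM q.1.length) ∧ HP q.2.1 q.2.2.1 q.2.2.2.length A.length)
      (fun q => (q.2.2.2.length + 1 : ℝ) ^ th * (Nat.log 2 q.2.2.1 + 1)) ∧
    ∀ q A V, 1 ≤ q.1.length → (∀ c ∈ A, c.length = V ∧ ∀ x ∈ c, x < MM q.1.length) →
      HP q.2.1 q.2.2.1 q.2.2.2.length A.length →
      (f q A).length = A.length ∧ (∀ c ∈ f q A, c.length = V ∧ ∀ x ∈ c, x < MM q.1.length) ∧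
      ∀ i < A.length, ∀ e, ((((f q A).getD i []).getD e 0 : ℕ) : ZMod (MM q.1.length)) =
        hadAll q.2.1 q.2.2.1 q.2.2.2.length
          (fun j => (((A.getD j []).getD e 0 : ℕ) : ZMod (MM q.1.length))) i

/-! ### approximate complex linear algebra -/

noncomputable def ee (x : ℝ) : ℂ := Complex.exp (2 * Real.pi * x * Complex.I)

noncomputable def toC (p : ℕ) (z : ℤ × ℤ) : ℂ := ((z.1 : ℂ) + z.2 * Complex.I) / 2 ^ p

/-- `rt (a, b, p)` approximates `e(a / b)` -/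
def RootStmt : Prop :=
  ∃ rt : ℤ × ℕ × List Unit → ℤ × ℤ, PT rt ∧
    ∀ a b p, 0 < b → ‖toC p.length (rt (a, b, p)) - ee (a / b)‖ ≤ 2 / 2 ^ p.length

def sgn (u x : ℕ) : ℤ := if 2 * x < MM u then x else (x : ℤ) - MM u

noncomputable def cval (p u : ℕ) (c : List ℕ) (e : ℕ) : ℂ :=
  toC p (sgn u (c.getD (2 * e) 0), sgn u (c.getD (2 * e + 1) 0))

def Res (u V : ℕ) (A : Arr) : Prop := ∀ c ∈ A, c.length = 2 * V ∧ ∀ x ∈ c, x < MM u

def Close (p u V : ℕ) (A : Arr) (a : ℕ → ℕ → ℂ) (η : ℝ) : Prop :=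
  ∀ i < A.length, ∀ e < V, ‖cval p u (A.getD i []) e - a e i‖ ≤ η

/-- the exact operator `E` has an approximate implementation with `X + 1` passes, growth `2 ^ Γ`
and tables of length at most `Y`; extra parameters `p`, `u` in unary -/
def XC {Q : Type} [Enc Q] (E : Q → (ℕ → ℂ) → ℕ → ℂ) (P : Q → ℕ → Prop) (Γ : Q → ℕ) (X : Q → ℝ)
    (Y : Q → ℕ) : Prop :=
  ∃ (f : Q × List Unit × List Unit → Arr → Arr) (k : ℕ),
    CC (fun x : (Q × List Unit × List Unit) × Arr => f x.1 x.2) (fun x T => ∃ V Λ : ℕ,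
      P x.1.1 x.2.length ∧ Res x.1.2.2.length V x.2 ∧ x.1.2.1.length + Γ x.1.1 + 1 ≤ x.1.2.2.length ∧
      sz x.1 ≤ Λ ∧ x.2.length ≤ 2 ^ Λ ∧ 2 ≤ Λ ∧ 0 ≤ X x.1.1 ∧
      (x.2.length + 1 : ℝ) * (V * (x.1.2.2.length + 1 : ℝ) ^ (1 + gam) * (X x.1.1 + 1) +
        (Λ : ℝ) ^ k) + ((Y x.1.1 + 1 : ℝ) * Λ) ^ k ≤ T) ∧
    ∀ q p u A V, P q A.length → Res u.length V A → p.length + Γ q + 1 ≤ u.length →
      (f (q, p, u) A).length = A.length ∧ Res u.length V (f (q, p, u) A) ∧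
      ∀ (R κ : ℝ) (a : ℕ → ℕ → ℂ), 1 ≤ R → 0 ≤ κ → κ + Γ q ≤ 2 ^ p.length →
        R * 2 ^ (Γ q + p.length + 3) ≤ 2 ^ (2 * u.length) →
        (∀ e < V, ∀ i < A.length, ‖a e i‖ ≤ R) →
        Close p.length u.length V A a (κ * R / 2 ^ p.length) →
        Close p.length u.length V (f (q, p, u) A) (fun e => E q (a e))
          ((κ + Γ q) * (R * 2 ^ Γ q) / 2 ^ p.length) ∧
        ∀ e < V, ∀ i < A.length, ‖E q (a e) i‖ ≤ R * 2 ^ Γ q

structure ExecStmt : Prop where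
  mono : ∀ {Q Q' : Type} [Enc Q] [Enc Q'] {E : Q → (ℕ → ℂ) → ℕ → ℂ} {P : Q → ℕ → Prop}
    {Γ Y : Q → ℕ} {X : Q → ℝ}, XC E P Γ X Y → ∀ (h : Q' → Q) (E' : Q' → (ℕ → ℂ) → ℕ → ℂ)
    (P' : Q' → ℕ → Prop) (Γ' Y' : Q' → ℕ) (X' : Q' → ℝ) (c : ℝ), PT h →
    (∀ q N, P' q N → P (h q) N ∧ (∀ a, ∀ i < N, E (h q) a i = E' q a i) ∧ Γ (h q) ≤ Γ' q ∧
      Y (h q) ≤ Y' q ∧ 0 ≤ X (h q) ∧ X (h q) ≤ c * (X' q + 1)) → XC E' P' Γ' X' Y'
  comp : ∀ {Q : Type} [Enc Q] {E E' : Q → (ℕ → ℂ) → ℕ → ℂ} {P : Q → ℕ → Prop}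
    {Γ Γ' Y : Q → ℕ} {X : Q → ℝ}, XC E' P Γ' X Y → XC E P Γ X Y →
    XC (fun q a => E' q (E q a)) P (fun q => Γ q + Γ' q) X Y
  loop : ∀ {Q : Type} [Enc Q] {E : Q × ℕ → (ℕ → ℂ) → ℕ → ℂ} {P : Q → ℕ → Prop} {Γ Y : Q → ℕ}
    {X : Q → ℝ} (m : Q → ℕ), PT m → PB m →
    XC E (fun x N => P x.1 N ∧ x.2 < m x.1) (fun x => Γ x.1) (fun x => X x.1) (fun x => Y x.1) →
    XC (fun q a => (List.range (m q)).foldl (fun a j => E (q, j) a) a) (fun q N => P q N ∧ 0 ≤ X q)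
      (fun q => m q * Γ q) (fun q => m q * (X q + 1)) Y
  lin2 : ∀ {Q : Type} [Enc Q] (m lo L g : Q → ℕ) (te : Q × List Unit × List Unit × ℕ → ℤ × ℤ)
    (cf : Q × List Unit × ℕ × (ℤ × ℤ) → (ℤ × ℤ) × (ℤ × ℤ)) (α β : Q → ℕ → ℂ),
    PT m → PT lo → PT L → PT te → PT cf →
    XC (fun q a i => α q i * a i + β q i * a (i ^^^ m q))
      (fun q N => (∃ b, m q = 2 ^ b) ∧ 2 * m q ∣ N ∧ 0 < lo q ∧ 0 < L q ∧ lo q * L q ∣ N ∧ 0 < N ∧
        (∀ (p : List Unit), ∀ y < L q, ‖toC p.length (te (q, p, List.replicate (L q) (), y))‖ ≤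
          2 ^ (g q + 1)) ∧
        ∀ i < N, ‖α q i‖ ≤ 2 ^ g q ∧ ‖β q i‖ ≤ 2 ^ g q ∧ ∀ p : List Unit,
          ‖toC p.length (cf (q, p, i, te (q, p, List.replicate (L q) (), fld (lo q) (L q) i))).1 -
            α q i‖ ≤ 2 ^ g q / 2 ^ p.length ∧
          ‖toC p.length (cf (q, p, i, te (q, p, List.replicate (L q) (), fld (lo q) (L q) i))).2 -
            β q i‖ ≤ 2 ^ g q / 2 ^ p.length)
      (fun q => g q + 2) (fun _ => 0) L
  had' : XC (fun (q : ℕ × ℕ × List Unit) a => hadAll q.1 q.2.1 q.2.2.length a)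
    (fun q N => HP q.1 q.2.1 q.2.2.length N) (fun q => q.2.2.length + 2)
    (fun q => (q.2.2.length + 1 : ℝ) ^ th * (Nat.log 2 q.2.1 + 1)) (fun _ => 0)

/-! ### the transform -/

/-- `(D, S, Qs, cs)`: `D = 2 ^ B`, `S = 2 ^ s` -/
abbrev TQ := ℕ × ℕ × List ℕ × List ℕ

def tK (q : TQ) : ℕ := q.2.2.1.length
def tN (q : TQ) : ℕ := q.2.1 * q.1 ^ tK q
def tM (q : TQ) : ℕ := q.2.1 * q.2.2.1.prod

def TP (q : TQ) : Prop :=
  ∃ B s : ℕ, q.1 = 2 ^ B ∧ q.2.1 = 2 ^ s ∧ 1 ≤ B ∧ B ≤ tK q ∧ tK q ≤ s ∧ s ≤ tK q + B ∧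
    q.2.2.2.length = tK q ∧ (∀ Q ∈ q.2.2.1, 0 < Q ∧ Q ≤ q.1) ∧ (∀ c ∈ q.2.2.2, c < q.1) ∧
    (∀ j < tK q, q.2.2.2.getD j 0 * (q.2.1 * (q.2.2.1.take j).prod) ≡ 1 [MOD q.2.2.1.getD j 1]) ∧
    tK q * (Nat.log 2 (tN q) + 1) * 8 ≤ 2 ^ ((B - 1) / 2)

/-- position of the residue `m` -/
def pos (q : TQ) (m : ℕ) : ℕ :=
  m % q.2.1 + q.2.1 * ∑ j ∈ Finset.range (tK q),
    (q.2.2.2.getD j 0 * m) % q.2.2.1.getD j 1 * q.1 ^ j

noncomputable def lay (q : TQ) (a : ℕ → ℂ) (i : ℕ) : ℂ :=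
  ∑ m ∈ Finset.range (tM q), if pos q m = i then a m else 0

def cconv {S : Type} [CommSemiring S] (n : ℕ) (a b : ℕ → S) (m : ℕ) : S :=
  ∑ x ∈ Finset.range n, ∑ y ∈ Finset.range n, if (x + y) % n = m then a x * b y else 0

noncomputable def tX (q : TQ) : ℝ :=
  (tK q + 1 : ℝ) ^ th * (Nat.log 2 q.1 + 1) ^ 2 + tK q * (Nat.log 2 q.1 + 1 : ℝ) ^ th

def TransStmt : Prop :=
  ∃ (FW IV : TQ → (ℕ → ℂ) → ℕ → ℂ) (c : ℕ),
    XC FW (fun q N => TP q ∧ N = tN q) (fun q => c * (Nat.log 2 (tN q) + 1) ^ 2) tX (fun q => q.1) ∧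
    XC IV (fun q N => TP q ∧ N = tN q) (fun q => c * (Nat.log 2 (tN q) + 1) ^ 2) tX (fun q => q.1) ∧
    (∀ q, TP q → (∀ a b : ℕ → ℂ, ∀ i < tN q, IV q (a + b) i = IV q a i + IV q b i) ∧
      ∀ a b : ℕ → ℂ, ∀ i < tN q,
      IV q (fun j => FW q (lay q a) j * FW q (lay q b) j) i = lay q (cconv (tM q) a b) i)

/-- the layout permutation and its inverse -/
def LayStmt : Prop :=
  (∀ q, TP q → ∀ m < tM q, pos q m < tN q ∧ ∀ m' < tM q, pos q m = pos q m' → m = m') ∧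
  (∃ f : TQ → Arr → Arr, AC f (fun q _ A => TP q ∧ A.length = tM q ∧ tN q ≤ 4 * tM q) tX ∧
    ∀ q A, TP q → A.length = tM q → (f q A).length = tN q ∧
      (∀ m < tM q, (f q A).getD (pos q m) [] = A.getD m []) ∧
      ∀ i < tN q, (∀ m < tM q, pos q m ≠ i) → (f q A).getD i [] = zc A) ∧
  AC (fun q A => pullN (tM q) (pos q) A) (fun q _ A => TP q ∧ A.length = tN q) tX

/-- greedy search of the moduli; input `(D in unary, K, S)` -/
def CopStmt : Prop :=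
  ∃ f : List Unit × ℕ × ℕ → List ℕ × List ℕ, PT f ∧ ∀ E : ℕ, ∃ B0 : ℕ, ∀ B ≥ B0, ∀ K s : ℕ,
    2 ≤ K → K ≤ (2 * B) ^ E →
    let r := f (List.replicate (2 ^ B) (), K, 2 ^ s)
    r.1.length = K ∧ r.2.length = K ∧ (∀ Q ∈ r.1, 0 < Q ∧ Q ≤ 2 ^ B) ∧ (∀ c ∈ r.2, c < 2 ^ B) ∧
    (∀ j < K, r.2.getD j 0 * (2 ^ s * (r.1.take j).prod) ≡ 1 [MOD r.1.getD j 1]) ∧
    (2 ^ B) ^ K ≤ 4 * r.1.prod

/-- cyclic convolution of arrays of polynomials -/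
def convA (A B : Arr) : Arr :=
  (List.range A.length).map (fun m => (List.range (2 * (A.headD []).length)).map (fun e =>
    ∑ x ∈ Finset.range (e + 1), cconv A.length (fun i => (A.getD i []).getD x 0)
      (fun i => (B.getD i []).getD (e - x) 0) m))

def ConvStmt : Prop :=
  ∃ c k : ℕ, ∀ γ : ℝ, 0 < γ →
    CC (fun x : (TQ × List Unit) × Arr × Arr => convA x.2.1 x.2.2) (fun x T => ∃ V Λ : ℕ,
      TP x.1.1 ∧ tN x.1.1 ≤ 4 * tM x.1.1 ∧ x.2.1.length = tM x.1.1 ∧ x.2.2.length = tM x.1.1 ∧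
      Bd V x.1.2.length x.2.1 ∧ Bd V x.1.2.length x.2.2 ∧
      c * (Nat.log 2 (tN x.1.1) + 1) ^ 2 + V.size ≤ x.1.2.length ∧
      sz x.1 ≤ Λ ∧ tN x.1.1 ≤ 2 ^ Λ ∧ 2 ≤ Λ ∧
      (tN x.1.1 : ℝ) * (V * (x.1.2.length + 1 : ℝ) ^ (1 + gam) * (tX x.1.1 + 1) + (Λ : ℝ) ^ k +
        ((V + 1 : ℝ) * (x.1.2.length + 1)) ^ (1 + γ)) + ((x.1.1.1 + 1 : ℝ) * Λ) ^ k ≤ T)

end Crest.Agent.H9.IM
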