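import Mathlib

/-!
Linear-algebra core for the average-sensitivity bound of polynomial threshold functions.
-/

set_option autoImplicit false
set_option linter.unusedSectionVars false

namespace Crest.Agent.H9.GL

open Finset Matrix

variable {X ι : Type} [Fintype X] [Fintype ι] [DecidableEq X] [DecidableEq ι]

/-- the level operator in the point basis -/
def Lam (O : Matrix X ι ℝ) (lam : ι → ℝ) : Matrix X X ℝ := O * diagonal lam * Oᵀ

/-- a multiplication operator in the graded basis -/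
def conj (O : Matrix X ι ℝ) (g : X → ℝ) : Matrix ι ι ℝ := Oᵀ * diagonal g * O

lemma conj_apply (O : Matrix X ι ℝ) (g : X → ℝ) (j k : ι) :
    conj O g j k = ∑ x, O x j * g x * O x k := by
  simp [conj, mul_apply, diagonal, transpose_apply]

lemma conj_transpose (O : Matrix X ι ℝ) (g : X → ℝ) : (conj O g)ᵀ = conj O g := by
  simp [conj, transpose_mul, Matrix.mul_assoc]

lemma Lam_transpose (O : Matrix X ι ℝ) (lam : ι → ℝ) : (Lam O lam)ᵀ = Lam O lam := by
  simp [Lam, transpose_mul, Matrix.mul_assoc]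

lemma conj_sq {O : Matrix X ι ℝ} (h1 : Oᵀ * O = 1) (h2 : O * Oᵀ = 1) {g : X → ℝ}
    (hg : ∀ x, g x * g x = 1) : conj O g * conj O g = 1 := by
  have : diagonal g * diagonal g = (1 : Matrix X X ℝ) := by
    rw [diagonal_mul_diagonal]; simp [hg]
  calc conj O g * conj O g = Oᵀ * (diagonal g * ((O * Oᵀ) * diagonal g)) * O := by
        simp only [conj, Matrix.mul_assoc]
    _ = 1 := by rw [h2, Matrix.one_mul, this, Matrix.mul_one, h1]

lemma sq_sum_mulVec {α β : Type} [Fintype α] [Fintype β] [DecidableEq β] {G : Matrix α β ℝ}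
    (h : Gᵀ * G = 1) (v : β → ℝ) : ∑ a, (G *ᵥ v) a ^ 2 = ∑ b, v b ^ 2 := by
  have e1 : ∑ a, (G *ᵥ v) a ^ 2 = (G *ᵥ v) ⬝ᵥ (G *ᵥ v) := by simp [dotProduct, sq]
  have e2 : ∑ b, v b ^ 2 = v ⬝ᵥ v := by simp [dotProduct, sq]
  rw [e1, e2, dotProduct_mulVec, vecMul_mulVec, h, vecMul_one]

lemma conj_row_sum {O : Matrix X ι ℝ} (h1 : Oᵀ * O = 1) (h2 : O * Oᵀ = 1) {g : X → ℝ}
    (hg : ∀ x, g x * g x = 1) (j : ι) : ∑ k, conj O g j k ^ 2 = 1 := by
  have := congrFun (congrFun (conj_sq h1 h2 hg) j) j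
  rw [mul_apply, one_apply_eq] at this
  rw [← this]
  refine sum_congr rfl fun k _ => ?_
  have : conj O g k j = conj O g j k := by
    conv_lhs => rw [← conj_transpose]
    rfl
  rw [this, sq]

lemma trace_formula {O : Matrix X ι ℝ} (lam : ι → ℝ) (g : X → ℝ) :
    ∑ x, ∑ y, Lam O lam x y ^ 2 * (g x * g y) =
      ∑ j, ∑ k, lam j * lam k * conj O g j k ^ 2 := by
  have e1 : ∑ x, ∑ y, Lam O lam x y ^ 2 * (g x * g y) =
      trace (Lam O lam * diagonal g * (Lam O lam * diagonal g)) := by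
    simp only [trace, diag_apply, mul_apply (M := Lam O lam * diagonal g), mul_diagonal]
    refine sum_congr rfl fun x _ => sum_congr rfl fun y _ => ?_
    have : Lam O lam y x = Lam O lam x y := by
      conv_lhs => rw [← Lam_transpose]
      rfl
    rw [this]; ring
  have e2 : ∑ j, ∑ k, lam j * lam k * conj O g j k ^ 2 =
      trace (diagonal lam * conj O g * (diagonal lam * conj O g)) := by
    simp only [trace, diag_apply, mul_apply (M := diagonal lam * conj O g), diagonal_mul]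
    refine sum_congr rfl fun j _ => sum_congr rfl fun k _ => ?_
    have : conj O g k j = conj O g j k := by
      conv_lhs => rw [← conj_transpose]
      rfl
    rw [this]; ring
  rw [e1, e2]
  have : Lam O lam * diagonal g * (Lam O lam * diagonal g) =
      O * (diagonal lam * conj O g * diagonal lam * Oᵀ * diagonal g) := by
    simp only [Lam, conj, Matrix.mul_assoc]
  rw [this, trace_mul_comm]
  simp only [conj, Matrix.mul_assoc]

/-- `cos (k π / 2)` -/
def ca (k : ℕ) : ℝ := if k % 4 = 0 then 1 else if k % 4 = 2 then -1 else 0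
/-- `sin (k π / 2)` -/
def sa (k : ℕ) : ℝ := if k % 4 = 1 then 1 else if k % 4 = 3 then -1 else 0

lemma ca_sa_mul (k : ℕ) : ca k * sa k = 0 := by
  have : k % 4 = 0 ∨ k % 4 = 1 ∨ k % 4 = 2 ∨ k % 4 = 3 := by omega
  rcases this with h | h | h | h <;> simp [ca, sa, h]

lemma ca_sa_sq (k : ℕ) : ca k ^ 2 + sa k ^ 2 = 1 := by
  have : k % 4 = 0 ∨ k % 4 = 1 ∨ k % 4 = 2 ∨ k % 4 = 3 := by omega
  rcases this with h | h | h | h <;> simp [ca, sa, h]

lemma sa_ca_succ (k : ℕ) : sa (k + 1) * ca k - ca (k + 1) * sa k = 1 := by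
  have : k % 4 = 0 ∨ k % 4 = 1 ∨ k % 4 = 2 ∨ k % 4 = 3 := by omega
  rcases this with h | h | h | h
  · have h' : (k + 1) % 4 = 1 := by omega
    simp [ca, sa, h, h']
  · have h' : (k + 1) % 4 = 2 := by omega
    simp [ca, sa, h, h']
  · have h' : (k + 1) % 4 = 3 := by omega
    simp [ca, sa, h, h']
  · have h' : (k + 1) % 4 = 0 := by omega
    simp [ca, sa, h, h']

lemma sa_ca_diff {j k : ℕ} (h1 : j ≤ k + 1) (h2 : k ≤ j + 1) :
    sa j * ca k - ca j * sa k = (j : ℝ) - k := by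
  have : j = k ∨ j = k + 1 ∨ k = j + 1 := by omega
  rcases this with rfl | rfl | rfl
  · ring
  · rw [sa_ca_succ]; push_cast; ring
  · have := sa_ca_succ j
    push_cast; linarith

lemma row_bound {O : Matrix X ι ℝ} (h1 : Oᵀ * O = 1) (h2 : O * Oᵀ = 1) (lvl : ι → ℕ) (c : ℝ)
    {z : X → ℝ} (hz : ∀ x, z x * z x = 1)
    (htri : ∀ j k, lvl k + 1 < lvl j → conj O z j k = 0) (x : X) :
    ∑ y, Lam O (fun j => c - 2 * lvl j) x y ^ 2 * (z y - z x) ^ 2 ≤ 4 := by
  set lam : ι → ℝ := fun j => c - 2 * lvl j with hlam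
  set Z := conj O z with hZ
  have hZs : ∀ j k, Z k j = Z j k := by
    intro j k
    rw [hZ]
    conv_lhs => rw [← conj_transpose]
    rfl
  have hZZ : Zᵀ * Z = 1 := by rw [hZ, conj_transpose]; exact conj_sq h1 h2 hz
  set v : ι → ℝ := fun j => O x j with hv
  have hv1 : ∑ j, v j ^ 2 = 1 := by
    have := congrFun (congrFun h2 x) x
    rw [mul_apply, one_apply_eq] at this
    rw [← this]
    exact sum_congr rfl fun j _ => by simp [hv, sq]
  set M : Matrix ι ι ℝ := Z * diagonal lam - diagonal lam * Z with hM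
  -- the commutator in the point basis
  have hC : diagonal z * Lam O lam - Lam O lam * diagonal z = O * M * Oᵀ := by
    have a1 : O * Z = diagonal z * O := by
      rw [hZ, conj, ← Matrix.mul_assoc, ← Matrix.mul_assoc, h2, Matrix.one_mul]
    have a2 : Z * Oᵀ = Oᵀ * diagonal z := by
      rw [hZ, conj, Matrix.mul_assoc, h2, Matrix.mul_one]
    rw [hM, Matrix.mul_sub, Matrix.sub_mul, ← Matrix.mul_assoc O Z, a1]
    congr 1
    · simp only [Lam, Matrix.mul_assoc]
    · simp only [Lam, Matrix.mul_assoc, a2]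
  have hy : ∀ y, Lam O lam x y * (z y - z x) = (O *ᵥ (M *ᵥ v)) y := by
    intro y
    have e1 := congrFun (congrFun hC y) x
    rw [Matrix.sub_apply, diagonal_mul, mul_diagonal] at e1
    have e2 : Lam O lam y x = Lam O lam x y := by
      conv_lhs => rw [← Lam_transpose]
      rfl
    rw [e2] at e1
    have e3 : (O * M * Oᵀ) y x = (O *ᵥ (M *ᵥ v)) y := by
      rw [mulVec_mulVec, mul_apply]
      simp [mulVec, dotProduct, hv]
    rw [← e3, ← e1]; ring
  have e4 : ∑ y, Lam O lam x y ^ 2 * (z y - z x) ^ 2 = ∑ j, (M *ᵥ v) j ^ 2 := by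
    rw [← sq_sum_mulVec h1]
    exact sum_congr rfl fun y _ => by rw [← hy, mul_pow]
  rw [e4]
  set a : ι → ℝ := fun j => ca (lvl j) * v j
  set b : ι → ℝ := fun j => sa (lvl j) * v j
  have hMv : ∀ j, (M *ᵥ v) j = 2 * (sa (lvl j) * (Z *ᵥ a) j - ca (lvl j) * (Z *ᵥ b) j) := by
    intro j
    simp only [mulVec, dotProduct, mul_sum, ← sum_sub_distrib]
    refine sum_congr rfl fun k _ => ?_
    rw [hM, Matrix.sub_apply, mul_diagonal, diagonal_mul]
    by_cases t1 : lvl k + 1 < lvl j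
    · rw [htri j k t1]; ring
    by_cases t2 : lvl j + 1 < lvl k
    · rw [← hZs, htri k j t2]; ring
    have := sa_ca_diff (j := lvl j) (k := lvl k) (by omega) (by omega)
    simp only [hlam, a, b]
    linear_combination (-2 * Z j k * v k) * this
  have hb : ∀ j, (M *ᵥ v) j ^ 2 ≤ 4 * ((Z *ᵥ a) j ^ 2 + (Z *ᵥ b) j ^ 2) := by
    intro j
    rw [hMv]
    have p1 := ca_sa_mul (lvl j)
    have p2 := ca_sa_sq (lvl j)
    set s := sa (lvl j)
    set t := ca (lvl j)
    set A := (Z *ᵥ a) j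
    set B := (Z *ᵥ b) j
    have : (s * A - t * B) ^ 2 = s ^ 2 * A ^ 2 + t ^ 2 * B ^ 2 := by
      linear_combination (-2 * A * B) * p1
    have q1 : s ^ 2 ≤ 1 := by nlinarith [sq_nonneg t]
    have q2 : t ^ 2 ≤ 1 := by nlinarith [sq_nonneg s]
    nlinarith [sq_nonneg A, sq_nonneg B]
  refine (sum_le_sum fun j _ => hb j).trans ?_
  rw [← mul_sum, sum_add_distrib, sq_sum_mulVec hZZ, sq_sum_mulVec hZZ, ← sum_add_distrib]
  have : ∑ j, (a j ^ 2 + b j ^ 2) = 1 := by
    rw [← hv1]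
    refine sum_congr rfl fun j _ => ?_
    simp only [a, b]
    linear_combination (v j ^ 2) * ca_sa_sq (lvl j)
  rw [this]; norm_num

/-- the odd increasing function `u |u|` -/
def phi (u : ℝ) : ℝ := u * |u|

lemma phi_ineq (u v d : ℝ) (hd : 0 ≤ d) (h : v - u ≤ d) :
    (v - u) ^ 2 ≤ 2 * (phi u - phi v) + 4 * d * |u| + 3 * d ^ 2 := by
  unfold phi
  rcases le_total 0 u with hu | hu <;> rcases le_total 0 v with hv | hv
  · rw [abs_of_nonneg hu, abs_of_nonneg hv]
    rcases le_total u v with h' | h'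
    · nlinarith [mul_nonneg hd hu, mul_nonneg (sub_nonneg.2 h') hu]
    · nlinarith [mul_nonneg hd hu, mul_nonneg (sub_nonneg.2 h') hv]
  · rw [abs_of_nonneg hu, abs_of_nonpos hv]
    nlinarith [mul_nonneg hd hu, sq_nonneg (u + v)]
  · rw [abs_of_nonpos hu, abs_of_nonneg hv]
    nlinarith [mul_nonneg hd (neg_nonneg.2 hu), mul_nonneg hv (neg_nonneg.2 hu)]
  · rw [abs_of_nonpos hu, abs_of_nonpos hv]
    rcases le_total u v with h' | h'
    · nlinarith [mul_nonneg hd (neg_nonneg.2 hu), mul_nonneg (sub_nonneg.2 h') (neg_nonneg.2 hu),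
        mul_nonneg (sub_nonneg.2 h') (neg_nonneg.2 hv)]
    · nlinarith [mul_nonneg hd (neg_nonneg.2 hu), mul_nonneg (sub_nonneg.2 h') (neg_nonneg.2 hu),
        mul_nonneg (sub_nonneg.2 h') (neg_nonneg.2 hv)]

/-- the coupling bound -/
lemma coupling_bound (K : ι → ι → ℝ) (hK0 : ∀ j k, 0 ≤ K j k) (hKs : ∀ j k, K j k = K k j)
    (hK1 : ∀ j, ∑ k, K j k = 1) (u : ι → ℝ) (d : ℝ) (hd : 0 ≤ d)
    (hsupp : ∀ j k, K j k ≠ 0 → - u k - u j ≤ d) (hphi : ∑ j, phi (u j) = 0) :
    ∑ j, ∑ k, K j k * (u j + u k) ^ 2 ≤ 4 * d * ∑ j, |u j| + 3 * d ^ 2 * Fintype.card ι := by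
  have h1 : ∀ j k, K j k * (u j + u k) ^ 2 ≤
      K j k * (2 * (phi (u j) + phi (u k)) + 4 * d * |u j| + 3 * d ^ 2) := by
    intro j k
    by_cases h : K j k = 0
    · simp [h]
    refine mul_le_mul_of_nonneg_left ?_ (hK0 j k)
    have := phi_ineq (u j) (-u k) d hd (hsupp j k h)
    have e : phi (-u k) = - phi (u k) := by simp [phi]
    rw [e] at this
    nlinarith
  refine (sum_le_sum fun j _ => sum_le_sum fun k _ => h1 j k).trans (le_of_eq ?_)
  have a1 : ∑ j, ∑ k, K j k * phi (u j) = 0 := by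
    simp only [← sum_mul, hK1, one_mul, hphi]
  have a2 : ∑ j, ∑ k, K j k * phi (u k) = 0 := by
    rw [sum_comm]
    have : ∀ k, ∑ j, K j k = 1 := fun k => by
      rw [← hK1 k]; exact sum_congr rfl fun j _ => hKs j k
    simp only [← sum_mul, this, one_mul, hphi]
  have a3 : ∑ j, ∑ k, K j k * |u j| = ∑ j, |u j| := by
    simp only [← sum_mul, hK1, one_mul]
  have a4 : ∑ j, ∑ k, K j k = Fintype.card ι := by
    simp [hK1]
  have : ∀ j k, K j k * (2 * (phi (u j) + phi (u k)) + 4 * d * |u j| + 3 * d ^ 2) =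
      2 * (K j k * phi (u j)) + 2 * (K j k * phi (u k)) + 4 * d * (K j k * |u j|)
        + 3 * d ^ 2 * K j k := by intro j k; ring
  simp only [this, sum_add_distrib, ← mul_sum]
  rw [a1, a2, a3, a4]; ring

end Crest.Agent.H9.GL
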