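import Mathlib
import Crest.Agent.H9.GLCore

/-!
The abstract average-sensitivity inequality, and the graded orthonormal basis on the cube.
-/

set_option autoImplicit false
set_option linter.unusedSectionVars false

namespace Crest.Agent.H9.GL

open Finset Matrix

section abs
variable {X ι I : Type} [Fintype X] [Fintype ι] [DecidableEq X] [DecidableEq ι] [Fintype I]

theorem main_abs {O : Matrix X ι ℝ} (h1 : Oᵀ * O = 1) (h2 : O * Oᵀ = 1) (lvl : ι → ℕ) (n d : ℕ)
    (z : I → X → ℝ) (hz : ∀ i x, z i x * z i x = 1)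
    (htri : ∀ i j k, lvl k + 1 < lvl j → conj O (z i) j k = 0)
    (g : X → ℝ) (hg : ∀ x, g x * g x = 1)
    (hanti : ∀ j k, lvl j + lvl k + d < n → conj O g j k = 0)
    (hsq : ∑ j, ((lvl j : ℝ) - n / 2) ^ 2 = (n : ℝ) * (Fintype.card ι : ℝ) / 4)
    (hphi : ∑ j, phi ((lvl j : ℝ) - n / 2) = 0)
    (c : X → I → ℝ) (hc : ∀ x i, 0 ≤ c x i)
    (hsep : ∀ x y, (1 - g x * g y) / 2 ≤ ∑ i, c x i * ((z i y - z i x) ^ 2 / 4)) :
    (n : ℝ) * Fintype.card ι - (2 * d * Real.sqrt n + 3 * d ^ 2) * Fintype.card ι
      ≤ ∑ x, ∑ i, c x i := by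
  set u : ι → ℝ := fun j => (lvl j : ℝ) - n / 2 with hu
  set lam : ι → ℝ := fun j => (n : ℝ) - 2 * lvl j with hlam
  have hlu : ∀ j, lam j = -2 * u j := fun j => by simp only [hlam, hu]; ring
  set L := Lam O lam with hL
  set K : ι → ι → ℝ := fun j k => conj O g j k ^ 2 with hK
  set N : ℝ := (Fintype.card ι : ℝ) with hN
  have hKs : ∀ j k, K j k = K k j := by
    intro j k
    have : conj O g k j = conj O g j k := by
      conv_lhs => rw [← conj_transpose]
      rfl
    simp only [hK, this]
  have hK1 : ∀ j, ∑ k, K j k = 1 := conj_row_sum h1 h2 hg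
  -- the cross mass is at most the weight
  have up : ∑ x, ∑ y, L x y ^ 2 * ((1 - g x * g y) / 2) ≤ ∑ x, ∑ i, c x i := by
    refine sum_le_sum fun x _ => ?_
    calc ∑ y, L x y ^ 2 * ((1 - g x * g y) / 2)
        ≤ ∑ y, L x y ^ 2 * ∑ i, c x i * ((z i y - z i x) ^ 2 / 4) :=
          sum_le_sum fun y _ => mul_le_mul_of_nonneg_left (hsep x y) (sq_nonneg _)
      _ = ∑ i, c x i * ((∑ y, L x y ^ 2 * (z i y - z i x) ^ 2) / 4) := by
          simp only [mul_sum, sum_div]
          rw [sum_comm]
          exact sum_congr rfl fun i _ => sum_congr rfl fun y _ => by ring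
      _ ≤ ∑ i, c x i := by
          refine sum_le_sum fun i _ => ?_
          have := row_bound h1 h2 lvl n (hz i) (htri i) x
          have h4 : (∑ y, L x y ^ 2 * (z i y - z i x) ^ 2) / 4 ≤ 1 := by
            rw [div_le_one (by norm_num)]; exact this
          nlinarith [hc x i]
  refine le_trans ?_ up
  have t1 : ∑ x, ∑ y, L x y ^ 2 = 4 * ∑ j, u j ^ 2 := by
    have := trace_formula (O := O) lam (fun _ => 1)
    have e : conj O (fun _ => (1 : ℝ)) = 1 := by
      rw [conj]; simp [h1]
    rw [e] at this
    simp only [mul_one] at this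
    rw [this, mul_sum]
    refine sum_congr rfl fun j _ => ?_
    rw [sum_eq_single j]
    · rw [one_apply_eq, hlu]; ring
    · intro k _ hk
      rw [one_apply_ne' hk]; ring
    · simp
  have t2 : ∑ x, ∑ y, L x y ^ 2 * (g x * g y) = 4 * ∑ j, ∑ k, K j k * (u j * u k) := by
    rw [trace_formula (O := O) lam g]
    simp only [mul_sum]
    exact sum_congr rfl fun j _ => sum_congr rfl fun k _ => by rw [hlu, hlu]; ring
  have t3 : ∑ j, ∑ k, K j k * (u j + u k) ^ 2 =
      2 * ∑ j, u j ^ 2 + 2 * ∑ j, ∑ k, K j k * (u j * u k) := by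
    have a1 : ∑ j, ∑ k, K j k * u j ^ 2 = ∑ j, u j ^ 2 := by
      simp only [← sum_mul, hK1, one_mul]
    have a2 : ∑ j, ∑ k, K j k * u k ^ 2 = ∑ j, u j ^ 2 := by
      rw [sum_comm]
      have : ∀ k, ∑ j, K j k = 1 := fun k => by
        rw [← hK1 k]; exact sum_congr rfl fun j _ => hKs j k
      simp only [← sum_mul, this, one_mul]
    have : ∀ j k, K j k * (u j + u k) ^ 2 =
      K j k * u j ^ 2 + K j k * u k ^ 2 + 2 * (K j k * (u j * u k)) := by intro j k; ring
    simp only [this, sum_add_distrib, ← mul_sum]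
    rw [a1, a2]; ring
  have t4 := coupling_bound K (fun j k => sq_nonneg _) hKs hK1 u d (Nat.cast_nonneg d)
    (by
      intro j k hne
      have : ¬ (lvl j + lvl k + d < n) := fun h => hne (by simp only [hK, hanti j k h]; ring)
      have h' : (n : ℝ) ≤ lvl j + lvl k + d := by exact_mod_cast not_lt.1 this
      simp only [hu]; linarith) hphi
  have t5 : ∑ j, |u j| ≤ Real.sqrt n / 2 * N := by
    have hcs := sum_mul_sq_le_sq_mul_sq univ (fun j => |u j|) (fun _ => (1 : ℝ))
    simp only [mul_one, sq_abs, one_pow, sum_const, card_univ, nsmul_eq_mul] at hcs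
    have hsq' : ∑ j, u j ^ 2 = n * N / 4 := hsq
    rw [hsq'] at hcs
    have hN0 : 0 ≤ N := Nat.cast_nonneg _
    apply le_of_sq_le_sq _ (by positivity) |>.trans_eq rfl
    rw [mul_pow, div_pow, Real.sq_sqrt (Nat.cast_nonneg n)]
    refine hcs.trans (le_of_eq ?_)
    ring
  have e : ∑ x, ∑ y, L x y ^ 2 * ((1 - g x * g y) / 2) =
      (∑ x, ∑ y, L x y ^ 2 - ∑ x, ∑ y, L x y ^ 2 * (g x * g y)) / 2 := by
    simp only [← sum_sub_distrib, sum_div]
    exact sum_congr rfl fun x _ => sum_congr rfl fun y _ => by ring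
  rw [e, t1, t2]
  have hsq' : ∑ j, u j ^ 2 = n * N / 4 := hsq
  have hd0 : (0 : ℝ) ≤ d := Nat.cast_nonneg d
  nlinarith [mul_le_mul_of_nonneg_left t5 hd0]

end abs

section cube
variable {n : ℕ}

/-- sign of a bit -/
def sp (b : Bool) : ℝ := if b then 1 else -1

lemma sp_mul_self (b : Bool) : sp b * sp b = 1 := by cases b <;> simp [sp]

lemma sp_not (b : Bool) : sp (!b) = - sp b := by cases b <;> simp [sp]

/-- character -/
def chi (S : Finset (Fin n)) (x : Fin n → Bool) : ℝ := ∏ j ∈ S, sp (x j)

lemma chi_mul_self (S : Finset (Fin n)) (x : Fin n → Bool) : chi S x * chi S x = 1 := by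
  simp [chi, ← prod_mul_distrib, sp_mul_self]

lemma chi_mul (S T : Finset (Fin n)) (x : Fin n → Bool) :
    chi S x * chi T x = chi (symmDiff S T) x := by
  have e1 : chi S x = chi (S \ T) x * chi (S ∩ T) x := by
    unfold chi
    rw [← prod_union (disjoint_sdiff_inter S T), sdiff_union_inter]
  have e2 : chi T x = chi (T \ S) x * chi (S ∩ T) x := by
    unfold chi
    rw [inter_comm, ← prod_union (disjoint_sdiff_inter T S), sdiff_union_inter]
  have e3 : chi (symmDiff S T) x = chi (S \ T) x * chi (T \ S) x := by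
    unfold chi
    rw [symmDiff_def, sup_eq_union, prod_union disjoint_sdiff_sdiff]
  rw [e1, e2, e3]
  linear_combination (chi (S \ T) x * chi (T \ S) x) * chi_mul_self (S ∩ T) x

lemma chi_flip (S : Finset (Fin n)) (x : Fin n → Bool) {i : Fin n} (hi : i ∈ S) :
    chi S (Function.update x i (!x i)) = - chi S x := by
  unfold chi
  rw [← mul_prod_erase S _ hi, ← mul_prod_erase S _ hi, Function.update_self, sp_not]
  have : ∏ j ∈ S.erase i, sp (Function.update x i (!x i) j) = ∏ j ∈ S.erase i, sp (x j) :=
    prod_congr rfl fun j hj => by rw [Function.update_of_ne (ne_of_mem_erase hj)]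
  rw [this]; ring

lemma sum_chi {S : Finset (Fin n)} (hS : S.Nonempty) : ∑ x, chi S x = 0 := by
  obtain ⟨i, hi⟩ := hS
  have hinv : Function.Involutive fun x : Fin n → Bool => Function.update x i (!x i) := by
    intro x
    funext j
    by_cases h : j = i
    · subst h; simp
    · simp [Function.update_of_ne h]
  have := Equiv.sum_comp hinv.toPerm (chi S)
  simp only [Function.Involutive.coe_toPerm, chi_flip S _ hi, sum_neg_distrib] at this
  linarith

lemma card_symmDiff_le (S T : Finset (Fin n)) : (symmDiff S T).card ≤ S.card + T.card :=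
  (card_le_card (symmDiff_le_sup (a := S) (b := T))).trans (card_union_le S T)

/-- functions of degree `< k + 1` -/
def deg (n k : ℕ) : Submodule ℝ ((Fin n → Bool) → ℝ) :=
  Submodule.span ℝ {h | ∃ S : Finset (Fin n), S.card ≤ k ∧ h = chi S}

lemma chi_mem_deg {S : Finset (Fin n)} {k : ℕ} (h : S.card ≤ k) : chi S ∈ deg n k :=
  Submodule.subset_span ⟨S, h, rfl⟩

lemma deg_mul {a b : ℕ} {f g : (Fin n → Bool) → ℝ} (hf : f ∈ deg n a) (hg : g ∈ deg n b) :
    f * g ∈ deg n (a + b) := by
  induction hf using Submodule.span_induction with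
  | mem f hf =>
    obtain ⟨S, hS, rfl⟩ := hf
    induction hg using Submodule.span_induction with
    | mem g hg =>
      obtain ⟨T, hT, rfl⟩ := hg
      have : chi S * chi T = chi (symmDiff S T) := funext fun x => chi_mul S T x
      rw [this]
      exact chi_mem_deg ((card_symmDiff_le S T).trans (add_le_add hS hT))
    | zero => simp
    | add g g' _ _ h h' => rw [mul_add]; exact Submodule.add_mem _ h h'
    | smul r g _ h => rw [mul_smul_comm]; exact Submodule.smul_mem _ _ h
  | zero => simp
  | add f f' _ _ h h' => rw [add_mul]; exact Submodule.add_mem _ h h'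
  | smul r f _ h => rw [smul_mul_assoc]; exact Submodule.smul_mem _ _ h

lemma deg_orth_parity {k : ℕ} (hk : k < n) {f : (Fin n → Bool) → ℝ} (hf : f ∈ deg n k) :
    ∑ x, f x * chi univ x = 0 := by
  induction hf using Submodule.span_induction with
  | mem f hf =>
    obtain ⟨S, hS, rfl⟩ := hf
    simp only [chi_mul]
    apply sum_chi
    rw [nonempty_iff_ne_empty]
    intro h
    have : S = univ := symmDiff_eq_bot.1 h
    rw [this, card_univ, Fintype.card_fin] at hS
    omega
  | zero => simp
  | add f f' _ _ h h' => simp only [Pi.add_apply, add_mul, sum_add_distrib, h, h', add_zero]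
  | smul r f _ h => simp only [Pi.smul_apply, smul_eq_mul, mul_assoc, ← mul_sum, h, mul_zero]

/-- The graded orthonormal basis for the weight `r ^ 2`. -/
theorem exists_graded_basis (r : (Fin n → Bool) → ℝ) (hr : ∀ x, r x ≠ 0) :
    ∃ O : Matrix (Fin n → Bool) (Finset (Fin n)) ℝ, Oᵀ * O = 1 ∧ O * Oᵀ = 1 ∧
      (∀ S, ∃ h ∈ deg n S.card, ∀ x, O x S = r x * h x) ∧
      ∀ S k, k < S.card → ∀ h ∈ deg n k, ∑ x, O x S * (r x * h x) = 0 := by
  classical
  set N := Fintype.card (Finset (Fin n)) with hN
  set e0 : Fin N ≃ Finset (Fin n) := (Fintype.equivFin _).symm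
  set e : Fin N ≃ Finset (Fin n) := (Tuple.sort fun j => (e0 j).card).trans e0 with he
  have hmono : Monotone fun j => (e j).card := Tuple.monotone_sort fun j => (e0 j).card
  set f : Fin N → EuclideanSpace ℝ (Fin n → Bool) :=
    fun j => WithLp.toLp 2 fun x => r x * chi (e j) x with hf
  have hli : LinearIndependent ℝ f := by
    rw [Fintype.linearIndependent_iff]
    intro a ha j
    have h0 : ∀ x, ∑ k, a k * chi (e k) x = 0 := by
      intro x
      have := congrArg (fun v : EuclideanSpace ℝ (Fin n → Bool) => v x) ha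
      simp only [hf, WithLp.ofLp_sum, Finset.sum_apply, PiLp.smul_apply, smul_eq_mul,
        PiLp.zero_apply] at this
      have h2 : r x * ∑ k, a k * chi (e k) x = 0 := by
        rw [← this, mul_sum]
        exact sum_congr rfl fun k _ => by ring
      exact (mul_eq_zero.1 h2).resolve_left (hr x)
    have h3 : ∑ x, (∑ k, a k * chi (e k) x) * chi (e j) x = 0 := by simp [h0]
    simp only [sum_mul, mul_assoc] at h3
    rw [sum_comm, sum_eq_single j] at h3
    · simp only [chi_mul_self, mul_one, sum_const, card_univ, nsmul_eq_mul, mul_eq_zero,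
        Nat.cast_eq_zero, Fintype.card_ne_zero, false_or] at h3
      exact h3
    · intro k _ hk
      simp only [chi_mul, ← mul_sum]
      rw [sum_chi, mul_zero]
      rw [nonempty_iff_ne_empty]
      intro h
      exact hk (e.injective (symmDiff_eq_bot.1 h))
    · simp
  set b := InnerProductSpace.gramSchmidtNormed ℝ f with hb
  have hon : Orthonormal ℝ b := InnerProductSpace.gramSchmidtNormed_orthonormal hli
  have hinner : ∀ v w : EuclideanSpace ℝ (Fin n → Bool), inner ℝ v w = ∑ x, v x * w x := by
    intro v w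
    simp [PiLp.inner_apply, mul_comm]
  set O : Matrix (Fin n → Bool) (Finset (Fin n)) ℝ := fun x S => b (e.symm S) x with hO
  have h1 : Oᵀ * O = 1 := by
    ext S T
    rw [mul_apply]
    have := (orthonormal_iff_ite.1 hon) (e.symm S) (e.symm T)
    rw [hinner] at this
    simp only [transpose_apply, hO, this, one_apply, e.symm.injective.eq_iff]
  have hcard : Fintype.card (Finset (Fin n)) = Fintype.card (Fin n → Bool) := by simp
  refine ⟨O, h1, (mul_eq_one_comm_of_equiv (Fintype.equivOfCardEq hcard)).1 h1, ?_, ?_⟩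
  · intro S
    have hm : InnerProductSpace.gramSchmidt ℝ f (e.symm S) ∈
        Submodule.span ℝ (f '' Set.Iic (e.symm S)) :=
      InnerProductSpace.gramSchmidt_mem_span ℝ f le_rfl
    have key : ∀ v ∈ Submodule.span ℝ (f '' Set.Iic (e.symm S)),
        ∃ h ∈ deg n S.card, ∀ x, v x = r x * h x := by
      intro v hv
      induction hv using Submodule.span_induction with
      | mem v hv =>
        obtain ⟨j, hj, rfl⟩ := hv
        refine ⟨chi (e j), chi_mem_deg ?_, fun x => by simp [hf]⟩
        have := hmono (show j ≤ e.symm S from hj)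
        simpa using this
      | zero => exact ⟨0, Submodule.zero_mem _, fun x => by simp⟩
      | add v v' _ _ h h' =>
        obtain ⟨h, hh, e1⟩ := h
        obtain ⟨h', hh', e2⟩ := h'
        exact ⟨h + h', Submodule.add_mem _ hh hh', fun x => by simp [e1, e2, mul_add]⟩
      | smul t v _ h =>
        obtain ⟨h, hh, e1⟩ := h
        exact ⟨t • h, Submodule.smul_mem _ _ hh, fun x => by simp [e1]; ring⟩
    exact key _ (Submodule.smul_mem _ _ hm)
  · intro S k hk h hh
    induction hh using Submodule.span_induction with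
    | mem h hh =>
      obtain ⟨T, hT, rfl⟩ := hh
      have hlt : e.symm T < e.symm S := by
        by_contra hcon
        have := hmono (not_lt.1 hcon)
        simp only [Equiv.apply_symm_apply] at this
        omega
      have h0 := InnerProductSpace.gramSchmidt_inv_triangular ℝ f hlt
      have h4 : inner ℝ (b (e.symm S)) (f (e.symm T)) = 0 := by
        rw [hb, InnerProductSpace.gramSchmidtNormed, inner_smul_left, h0, mul_zero]
      rw [hinner] at h4
      simpa [hf, hO] using h4
    | zero => simp
    | add h h' _ _ a a' =>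
      simp only [Pi.add_apply, mul_add, sum_add_distrib, a, a', add_zero]
    | smul t h _ a =>
      have : ∀ x, O x S * (r x * (t • h) x) = t * (O x S * (r x * h x)) := fun x => by
        simp only [Pi.smul_apply, smul_eq_mul]; ring
      simp only [this, ← mul_sum, a, mul_zero]

lemma sum_level_sq : ∑ S : Finset (Fin n), ((S.card : ℝ) - n / 2) ^ 2 =
    (n : ℝ) * (Fintype.card (Finset (Fin n)) : ℝ) / 4 := by
  set ε : Fin n → Finset (Fin n) → ℝ := fun i S => if i ∈ S then 1 else -1 with hε
  have h1 : ∀ S : Finset (Fin n), (S.card : ℝ) - n / 2 = (∑ i, ε i S) / 2 := by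
    intro S
    have : ∀ i, ε i S = 2 * (if i ∈ S then 1 else 0) - 1 := fun i => by
      simp only [hε]; split_ifs <;> norm_num
    simp only [this, sum_sub_distrib, ← mul_sum, sum_boole, sum_const, card_univ, Fintype.card_fin]
    simp; ring
  have h2 : ∀ i j, ∑ S, ε i S * ε j S = if i = j then (Fintype.card (Finset (Fin n)) : ℝ) else 0 := by
    intro i j
    split_ifs with h
    · subst h
      have : ∀ S, ε i S * ε i S = 1 := fun S => by simp only [hε]; split_ifs <;> norm_num
      simp [this]
    · have hinv : Function.Involutive fun S : Finset (Fin n) => symmDiff S {i} := by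
        intro S; simp
      have := Equiv.sum_comp hinv.toPerm (fun S => ε i S * ε j S)
      have e1 : ∀ S, ε i (symmDiff S {i}) = - ε i S := fun S => by
        simp only [hε, mem_symmDiff, mem_singleton]
        by_cases hi : i ∈ S <;> simp [hi]
      have e2 : ∀ S, ε j (symmDiff S {i}) = ε j S := fun S => by
        simp only [hε, mem_symmDiff, mem_singleton]
        by_cases hj : j ∈ S <;> simp [hj, Ne.symm h]
      simp only [Function.Involutive.coe_toPerm, e1, e2, neg_mul, sum_neg_distrib] at this
      linarith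
  have h3 : ∀ S : Finset (Fin n), ((S.card : ℝ) - n / 2) ^ 2 = (∑ i, ∑ j, ε i S * ε j S) / 4 := by
    intro S
    rw [h1, div_pow, sq, sum_mul_sum]; norm_num
  simp only [h3, ← sum_div]
  rw [sum_comm]
  have : ∀ i, ∑ S, ∑ j, ε i S * ε j S = (Fintype.card (Finset (Fin n)) : ℝ) := by
    intro i
    rw [sum_comm]
    simp [h2]
  simp only [this, sum_const, card_univ, Fintype.card_fin, nsmul_eq_mul]

lemma sum_level_phi : ∑ S : Finset (Fin n), phi ((S.card : ℝ) - n / 2) = 0 := by
  have hinv : Function.Involutive fun S : Finset (Fin n) => Sᶜ := fun S => compl_compl S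
  have := Equiv.sum_comp hinv.toPerm (fun S => phi ((S.card : ℝ) - n / 2))
  have e1 : ∀ S : Finset (Fin n), phi (((Sᶜ).card : ℝ) - n / 2) = - phi ((S.card : ℝ) - n / 2) := by
    intro S
    have : ((Sᶜ).card : ℝ) - n / 2 = -((S.card : ℝ) - n / 2) := by
      rw [card_compl, Fintype.card_fin, Nat.cast_sub (by simpa using card_le_univ S)]; ring
    rw [this]; simp only [phi, abs_neg]; ring
  simp only [Function.Involutive.coe_toPerm, e1, sum_neg_distrib] at this
  linarith

end cube

end Crest.Agent.H9.GL
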