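import Crest.Agent.H2.GmDefs

/-! Row 40: some colour support contains a long continuum (Sperner argument). -/

set_option autoImplicit false

namespace Crest.Agent.H9.Gm
open Metric Set Filter Topology Crest.Agent.H2.Gm

/-- discrete winding form -/
def dd (a b : Fin 3) : ℤ := if b = a + 1 then 1 else if a = b + 1 then -1 else 0

lemma dd_tri : ∀ a b c : Fin 3, (a = b ∨ b = c ∨ a = c) → dd a b + dd b c = dd a c := by decide

lemma dd_path (k : Fin 3) (f : ℕ → Fin 3) (n : ℕ) (h : ∀ i ≤ n, f i ≠ k) :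
    ∑ i ∈ Finset.range n, dd (f i) (f (i + 1)) = dd (f 0) (f n) := by
  induction n with
  | zero => simp only [Finset.range_zero, Finset.sum_empty]; generalize f 0 = a; revert a; decide
  | succ n ih =>
    rw [Finset.sum_range_succ, ih fun i hi => h i (by omega)]
    have key : ∀ k a b c : Fin 3, a ≠ k → b ≠ k → c ≠ k → dd a b + dd b c = dd a c := by decide
    exact key k _ _ _ (h 0 (by omega)) (h n (by omega)) (h _ le_rfl)

lemma sperner (n : ℕ) (lam : ℕ → ℕ → Fin 3)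
    (h1 : ∀ i < n, ∀ j < n, lam i j = lam (i + 1) j ∨ lam (i + 1) j = lam (i + 1) (j + 1) ∨
      lam i j = lam (i + 1) (j + 1))
    (h2 : ∀ i < n, ∀ j < n, lam i j = lam i (j + 1) ∨ lam i (j + 1) = lam (i + 1) (j + 1) ∨
      lam i j = lam (i + 1) (j + 1))
    (b0 : ∀ i ≤ n, lam i 0 ≠ 0) (b1 : ∀ j ≤ n, lam n j ≠ 1) (b2 : ∀ j ≤ n, lam 0 j ≠ 2)
    (b3 : ∀ i ≤ n, lam i n ≠ 2) : False := by
  have sq : ∀ i < n, ∀ j < n, dd (lam i j) (lam (i + 1) j) - dd (lam i (j + 1)) (lam (i + 1) (j + 1))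
      = dd (lam i j) (lam i (j + 1)) - dd (lam (i + 1) j) (lam (i + 1) (j + 1)) := by
    intro i hi j hj
    have e1 := dd_tri _ _ _ (h1 i hi j hj)
    have e2 := dd_tri _ _ _ (h2 i hi j hj)
    omega
  have e1 : ∑ i ∈ Finset.range n, ∑ j ∈ Finset.range n,
      (dd (lam i j) (lam (i + 1) j) - dd (lam i (j + 1)) (lam (i + 1) (j + 1)))
      = ∑ i ∈ Finset.range n, (dd (lam i 0) (lam (i + 1) 0) - dd (lam i n) (lam (i + 1) n)) :=
    Finset.sum_congr rfl fun i _ => Finset.sum_range_sub' (fun j => dd (lam i j) (lam (i + 1) j)) n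
  have e2 : ∑ j ∈ Finset.range n, ∑ i ∈ Finset.range n,
      (dd (lam i j) (lam i (j + 1)) - dd (lam (i + 1) j) (lam (i + 1) (j + 1)))
      = ∑ j ∈ Finset.range n, (dd (lam 0 j) (lam 0 (j + 1)) - dd (lam n j) (lam n (j + 1))) :=
    Finset.sum_congr rfl fun j _ => Finset.sum_range_sub' (fun i => dd (lam i j) (lam i (j + 1))) n
  rw [Finset.sum_comm, ← Finset.sum_congr rfl fun i hi => Finset.sum_congr rfl fun j hj =>
    sq i (Finset.mem_range.1 hi) j (Finset.mem_range.1 hj), e1, Finset.sum_sub_distrib,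
    Finset.sum_sub_distrib, dd_path 0 (fun i => lam i 0) n b0, dd_path 2 (fun i => lam i n) n b3,
    dd_path 2 (lam 0) n b2, dd_path 1 (lam n) n b1] at e2
  have key : ∀ a b c d : Fin 3, a ≠ 0 → a ≠ 2 → b ≠ 0 → b ≠ 1 → c ≠ 2 → d ≠ 1 → d ≠ 2 →
      dd a b - dd c d ≠ dd a c - dd b d := by decide
  exact key _ _ _ _ (b0 0 (by omega)) (b2 0 (by omega)) (b0 n le_rfl) (b1 0 (by omega))
    (b2 n le_rfl) (b1 n le_rfl) (b3 n le_rfl) e2

/-- monochromatic adjacency in the grid -/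
def Adj {α : Type} (n : ℕ) (c : ℕ × ℕ → α) (p q : ℕ × ℕ) : Prop :=
  p.1 ≤ n ∧ p.2 ≤ n ∧ q.1 ≤ n ∧ q.2 ≤ n ∧ c p = c q ∧ p.1 ≤ q.1 + 1 ∧ q.1 ≤ p.1 + 1 ∧
    p.2 ≤ q.2 + 1 ∧ q.2 ≤ p.2 + 1

lemma Adj.symm {α : Type} {n : ℕ} {c : ℕ × ℕ → α} {p q : ℕ × ℕ} (h : Adj n c p q) : Adj n c q p := by
  obtain ⟨h1, h2, h3, h4, h5, h6, h7, h8, h9⟩ := h
  exact ⟨h3, h4, h1, h2, h5.symm, h7, h6, h9, h8⟩

lemma rtg_symm {α : Type} {n : ℕ} {c : ℕ × ℕ → α} {p q : ℕ × ℕ}
    (h : Relation.ReflTransGen (Adj n c) p q) : Relation.ReflTransGen (Adj n c) q p := by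
  induction h with
  | refl => exact .refl
  | tail _ h2 ih => exact .head h2.symm ih

lemma grid {α : Type} (n : ℕ) (c : ℕ × ℕ → α)
    (h : ∀ i < n, ∀ j < n, ∀ p q r : ℕ × ℕ, (∀ s ∈ [p, q, r], i ≤ s.1 ∧ s.1 ≤ i + 1 ∧ j ≤ s.2 ∧
      s.2 ≤ j + 1) → c p = c q ∨ c q = c r ∨ c p = c r) :
    ∃ p q, p.1 ≤ n ∧ p.2 ≤ n ∧ Relation.ReflTransGen (Adj n c) p q ∧
      ((p.1 = 0 ∧ q.1 = n) ∨ (p.2 = 0 ∧ q.2 = n)) := by
  classical
  by_contra hne
  set R := Relation.ReflTransGen (Adj n c) with hR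
  have hin : ∀ p q, p.1 ≤ n → p.2 ≤ n → R p q → q.1 ≤ n ∧ q.2 ≤ n := by
    intro p q h1 h2 h3
    induction h3 with
    | refl => exact ⟨h1, h2⟩
    | tail _ h4 _ => exact ⟨h4.2.2.1, h4.2.2.2.1⟩
  let lab : ℕ × ℕ → Fin 3 := fun p => if ∃ q, R p q ∧ q.2 = 0 then
    (if ∃ q, R p q ∧ q.1 = n then 2 else 1) else 0
  have hlab : ∀ p q, Adj n c p q → lab p = lab q := by
    intro p q hpq
    have : ∀ s, R p s ↔ R q s := fun s => ⟨fun h => .head hpq.symm h, fun h => .head hpq h⟩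
    simp only [lab, this]
  have h2 : ∀ p, p.1 ≤ n → p.2 ≤ n → (p.1 = 0 ∨ p.2 = n) → lab p ≠ 2 := by
    intro p p1 p2 hp
    simp only [lab]
    split_ifs with a b
    · obtain ⟨q, hq, hq0⟩ := a
      obtain ⟨q', hq', hq1⟩ := b
      rcases hp with hp | hp
      · exact (hne ⟨p, q', p1, p2, hq', Or.inl ⟨hp, hq1⟩⟩).elim
      · exact (hne ⟨q, p, (hin _ _ p1 p2 hq).1, (hin _ _ p1 p2 hq).2, rtg_symm hq,
          Or.inr ⟨hq0, hp⟩⟩).elim
    · decide
    · decide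
  refine sperner n (fun i j => lab (i, j)) (fun i hi j hj => ?_) (fun i hi j hj => ?_)
    (fun i _ => ?_) (fun j _ => ?_) (fun j hj => h2 _ (by simp) hj (Or.inl rfl))
    fun i hi => h2 _ hi le_rfl (Or.inr rfl)
  · refine (h i hi j hj (i, j) (i + 1, j) (i + 1, j + 1) (by simp)).imp (fun e => hlab _ _ ?_)
      (Or.imp (fun e => hlab _ _ ?_) fun e => hlab _ _ ?_) <;>
    refine ⟨?_, ?_, ?_, ?_, e, ?_, ?_, ?_, ?_⟩ <;> dsimp only <;> omega
  · refine (h i hi j hj (i, j) (i, j + 1) (i + 1, j + 1) (by simp)).imp (fun e => hlab _ _ ?_)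
      (Or.imp (fun e => hlab _ _ ?_) fun e => hlab _ _ ?_) <;>
    refine ⟨?_, ?_, ?_, ?_, e, ?_, ?_, ?_, ?_⟩ <;> dsimp only <;> omega
  · simp only [lab]
    rw [if_pos ⟨(i, 0), .refl, rfl⟩]
    split_ifs <;> decide
  · simp only [lab]
    split_ifs with a b
    · decide
    · exact (b ⟨(n, j), .refl, rfl⟩).elim
    · decide

/-- chain connectedness -/
def Ch (ε : ℝ) (S : Set ℂ) : Prop :=
  ∀ P : Set ℂ, (∀ x ∈ S, ∀ y ∈ S, dist x y ≤ ε → x ∈ P → y ∈ P) → ∀ x ∈ S, ∀ y ∈ S, x ∈ P → y ∈ P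

/-- position of a grid point -/
noncomputable def pos (n : ℕ) (p : ℕ × ℕ) : ℂ := ⟨10 / n * p.1, 10 / n * p.2⟩

lemma dist_pos {n : ℕ} {p q : ℕ × ℕ} (h1 : p.1 ≤ q.1 + 1) (h2 : q.1 ≤ p.1 + 1) (h3 : p.2 ≤ q.2 + 1)
    (h4 : q.2 ≤ p.2 + 1) : dist (pos n p) (pos n q) ≤ 20 / n := by
  have key : ∀ a b : ℕ, a ≤ b + 1 → b ≤ a + 1 → |10 / (n : ℝ) * a - 10 / n * b| ≤ 10 / n := by
    intro a b ha hb
    have ha' : (a : ℝ) ≤ b + 1 := by exact_mod_cast ha
    have hb' : (b : ℝ) ≤ a + 1 := by exact_mod_cast hb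
    rw [← mul_sub, abs_mul, abs_of_nonneg (by positivity)]
    exact mul_le_of_le_one_right (by positivity) (abs_le.2 ⟨by linarith, by linarith⟩)
  rw [dist_eq_norm]
  refine (Complex.norm_le_abs_re_add_abs_im _).trans ?_
  have := add_le_add (key _ _ h1 h2) (key _ _ h3 h4)
  simp only [pos, Complex.sub_re, Complex.sub_im]
  refine this.trans (le_of_eq (by ring))

lemma pos_mem {n : ℕ} {p : ℕ × ℕ} (h1 : p.1 ≤ n) (h2 : p.2 ≤ n) : pos n p ∈ closedBall (0 : ℂ) 20 := by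
  have key : ∀ a : ℕ, a ≤ n → |10 / (n : ℝ) * a| ≤ 10 := by
    intro a ha
    have ha' : (a : ℝ) ≤ n := by exact_mod_cast ha
    rw [abs_of_nonneg (by positivity), div_mul_eq_mul_div, mul_div_assoc]
    exact mul_le_of_le_one_right (by norm_num) (div_le_one_of_le₀ ha' (by positivity))
  rw [mem_closedBall_zero_iff]
  refine (Complex.norm_le_abs_re_add_abs_im _).trans ?_
  have := add_le_add (key _ h1) (key _ h2)
  simp only [pos]
  linarith

lemma chain_of_col (col : ℂ → Fin 5)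
    (h : ∀ x ∈ closedBall (0 : ℂ) 20, ∃ i j, ∀ᶠ v in 𝓝 x, col v = i ∨ col v = j) {ε : ℝ}
    (hε : 0 < ε) : ∃ (g : Fin 5) (S : Set ℂ), S ⊆ closedBall (0 : ℂ) 20 ∧ Ch ε S ∧
      (∀ s ∈ S, col s = g) ∧ ∃ a ∈ S, ∃ b ∈ S, 10 ≤ dist a b := by
  obtain ⟨δ, hδ, hL⟩ := lebesgue_number_lemma_of_metric (isCompact_closedBall (0 : ℂ) 20)
    (c := fun q : Fin 5 × Fin 5 => interior {v | col v = q.1 ∨ col v = q.2})
    (fun _ => isOpen_interior) fun x hx => by
      obtain ⟨i, j, hij⟩ := h x hx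
      exact mem_iUnion.2 ⟨(i, j), mem_interior_iff_mem_nhds.2 hij⟩
  obtain ⟨n, hn⟩ := exists_nat_gt (20 / min δ ε)
  have hm : 0 < min δ ε := lt_min hδ hε
  have hn0 : (0 : ℝ) < n := lt_trans (by positivity) hn
  have hn1 : 20 / (n : ℝ) < min δ ε := by
    rw [div_lt_iff₀ hn0]; rw [div_lt_iff₀ hm] at hn; linarith
  obtain ⟨p, q, p1, p2, hpq, hfar⟩ := grid n (fun p => col (pos n p)) fun i hi j hj p q r hs => by
    obtain ⟨⟨a, b⟩, hab⟩ := hL (pos n (i, j)) (pos_mem hi.le hj.le)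
    have key : ∀ s ∈ [p, q, r], col (pos n s) = a ∨ col (pos n s) = b := fun s hs' => by
      obtain ⟨h1, h2, h3, h4⟩ := hs s hs'
      refine interior_subset (s := {v | col v = a ∨ col v = b}) (hab (mem_ball.2 ?_))
      exact (dist_pos (q := (i, j)) h2 (by dsimp only; omega) h4 (by dsimp only; omega)).trans_lt
        (hn1.trans_le (min_le_left _ _))
    rcases key p (by simp) with e1 | e1 <;> rcases key q (by simp) with e2 | e2 <;>
      rcases key r (by simp) with e3 | e3 <;> simp [e1, e2, e3]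
  set R := Relation.ReflTransGen (Adj n fun p => col (pos n p)) with hR
  have hin : ∀ s, R p s → s.1 ≤ n ∧ s.2 ≤ n ∧ col (pos n s) = col (pos n p) := by
    intro s h3
    induction h3 with
    | refl => exact ⟨p1, p2, rfl⟩
    | tail _ h4 ih => exact ⟨h4.2.2.1, h4.2.2.2.1, h4.2.2.2.2.1.symm.trans ih.2.2⟩
  refine ⟨col (pos n p), pos n '' {s | R p s}, ?_, ?_, ?_, _, ⟨p, .refl, rfl⟩, _, ⟨q, hpq, rfl⟩, ?_⟩
  · rintro _ ⟨s, hs, rfl⟩
    exact pos_mem (hin s hs).1 (hin s hs).2.1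
  · rintro P hP _ ⟨s, hs, rfl⟩ _ ⟨t, ht, rfl⟩ hsP
    have key : ∀ t, R s t → pos n t ∈ P := by
      intro t h3
      induction h3 with
      | refl => exact hsP
      | tail h4 h5 ih =>
        refine hP _ ⟨_, hs.trans h4, rfl⟩ _ ⟨_, (hs.trans h4).tail h5, rfl⟩ ?_ ih
        obtain ⟨-, -, -, -, -, h6, h7, h8, h9⟩ := h5
        exact (dist_pos h6 h7 h8 h9).trans (hn1.le.trans (min_le_right _ _))
    exact key t ((rtg_symm hs).trans ht)
  · rintro _ ⟨s, hs, rfl⟩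
    exact (hin s hs).2.2
  · rw [dist_comm, dist_eq_norm]
    rcases hfar with ⟨h1, h2⟩ | ⟨h1, h2⟩
    · refine le_trans ?_ (Complex.re_le_norm _)
      simp only [pos, Complex.sub_re, h1, h2]
      field_simp; simp
    · refine le_trans ?_ ((le_abs_self _).trans (Complex.abs_im_le_norm _))
      simp only [pos, Complex.sub_im, h1, h2]
      field_simp; simp

lemma exists_recol (T : Top) : ∃ d0 > 0, ∀ d, 0 < d → d ≤ d0 → ∃ col : ℂ → Fin 5,
    (∀ v, ∃ z ∈ closure (T.A (col v)), dist v z < d) ∧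
    ∀ x ∈ closedBall (0 : ℂ) 20, ∃ i j, ∀ᶠ v in 𝓝 x, col v = i ∨ col v = j := by
  classical
  set Y : Set ℂ := closedBall (0 : ℂ) 20 ∩ ⋃ q : {q : Fin 5 × Fin 5 × Fin 5 //
    q.1 ≠ q.2.1 ∧ q.1 ≠ q.2.2 ∧ q.2.1 ≠ q.2.2},
      (closure (T.A q.1.1) ∩ closure (T.A q.1.2.1) ∩ closure (T.A q.1.2.2)) with hY
  have hYc : IsCompact Y := (isCompact_closedBall _ _).inter_right
    (isClosed_iUnion_of_finite fun q => (isClosed_closure.inter isClosed_closure).inter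
      isClosed_closure)
  have hYm : ∀ x, x ∈ Y ↔ x ∈ closedBall (0 : ℂ) 20 ∧ ∃ i j k, i ≠ j ∧ i ≠ k ∧ j ≠ k ∧
      x ∈ closure (T.A i) ∧ x ∈ closure (T.A j) ∧ x ∈ closure (T.A k) := fun x => by
    refine and_congr_right fun _ => ⟨fun h => ?_, fun ⟨i, j, k, h1, h2, h3, h4, h5, h6⟩ => ?_⟩
    · obtain ⟨⟨⟨i, j, k⟩, h1, h2, h3⟩, ⟨h4, h5⟩, h6⟩ := mem_iUnion.1 h
      exact ⟨i, j, k, h1, h2, h3, h4, h5, h6⟩
    · exact mem_iUnion.2 ⟨⟨(i, j, k), h1, h2, h3⟩, ⟨h4, h5⟩, h6⟩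
  have hu : ∀ x ∈ Y, ∀ h h', T.Hb h x → T.Hb h' x → h = h' := fun x hx h h' a b => by
    obtain ⟨-, i, j, k, h1, h2, h3, h4, h5, h6⟩ := (hYm x).1 hx
    exact T.uniq h h' x i j k a b h1 h2 h3 h4 h5 h6
  have hop : ∀ h, IsOpen {x | T.Hb h x} := fun h => isOpen_iff_mem_nhds.2 fun x hx => T.opn h x hx
  obtain ⟨δ, hδ, hL⟩ := lebesgue_number_lemma_of_metric hYc hop fun x _ => mem_iUnion.2 (T.ex x)
  have hb : ∀ y ∈ Y, ∀ h, T.Hb h y → ∀ x, dist x y < δ → T.Hb h x := fun y hy h hh x hx => by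
    obtain ⟨h', hh'⟩ := hL y hy
    rw [hu y hy h h' hh (hh' (mem_ball_self hδ))]
    exact hh' hx
  have hcl : ∀ y ∈ Y, ∀ h, T.Hb h y → y ∈ closure (T.A h) := fun y hy h hh => by
    obtain ⟨-, i, j, k, h1, h2, h3, h4, h5, h6⟩ := (hYm y).1 hy
    by_cases a : i = h
    · exact a ▸ h4
    by_cases b : j = h
    · exact b ▸ h5
    exact (T.cons h y i j hh h1 a b h4 h5).1
  choose hub hhub using T.ex
  choose f hf _ using T.fal
  refine ⟨δ / 4, by positivity, fun d hd hd0 => ⟨fun v => if h : ∃ y ∈ Y, dist v y < d then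
    hub h.choose else f v, fun v => ?_, fun x hx => ?_⟩⟩
  · beta_reduce
    split_ifs with h
    · exact ⟨_, hcl _ h.choose_spec.1 _ (hhub _), h.choose_spec.2⟩
    · exact ⟨v, hf v, by simpa using hd⟩
  · have hev : ∀ᶠ v in 𝓝 x, dist v x < d ∧ ∀ i, v ∈ closure (T.A i) → x ∈ closure (T.A i) := by
      refine Eventually.and (ball_mem_nhds x hd) (eventually_all.2 fun i => ?_)
      by_cases hi : x ∈ closure (T.A i)
      · exact Eventually.of_forall fun _ _ => hi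
      · exact Eventually.mono (p := fun v => v ∉ closure (T.A i))
          (isClosed_closure.isOpen_compl.mem_nhds hi) fun v hv hv' => (hv hv').elim
    by_cases hx1 : x ∈ Y
    · refine ⟨hub x, hub x, hev.mono fun v hv => Or.inl ?_⟩
      have h : ∃ y ∈ Y, dist v y < d := ⟨x, hx1, hv.1⟩
      beta_reduce
      rw [dif_pos h]
      refine hu x hx1 _ _ (hb _ h.choose_spec.1 _ (hhub _) x ?_) (hhub _)
      have := dist_triangle_left x h.choose v
      linarith [h.choose_spec.2, hv.1]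
    · have h3 : ∀ i j k, x ∈ closure (T.A i) → x ∈ closure (T.A j) → x ∈ closure (T.A k) →
          i = j ∨ i = k ∨ j = k := fun i j k a b c => by
        by_contra hn
        push Not at hn
        exact hx1 ((hYm x).2 ⟨hx, i, j, k, hn.1, hn.2.1, hn.2.2, a, b, c⟩)
      by_cases hx2 : ∃ y ∈ Y, dist x y < 2 * d
      · obtain ⟨y, hy, hxy⟩ := hx2
        have hH : T.Hb (hub y) x := hb y hy _ (hhub y) x (by linarith)
        obtain ⟨i, hi⟩ : ∃ i, ∀ k, x ∈ closure (T.A k) → k = hub y ∨ k = i := by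
          by_cases e : ∃ i, i ≠ hub y ∧ x ∈ closure (T.A i)
          · obtain ⟨i, hi, hi'⟩ := e
            refine ⟨i, fun k hk => ?_⟩
            by_contra hn
            push Not at hn
            have := (T.cons _ x i k hH (Ne.symm hn.2) hi hn.1 hi' hk).1
            rcases h3 i k _ hi' hk this with e | e | e
            exacts [hn.2 e.symm, hi e, hn.1 e]
          · push Not at e
            exact ⟨hub y, fun k hk => Or.inl (by_contra fun hn => e k hn hk)⟩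
        refine ⟨hub y, i, hev.mono fun v hv => ?_⟩
        beta_reduce
        split_ifs with h
        · refine Or.inl (hu y hy _ _ (hb _ h.choose_spec.1 _ (hhub _) y ?_) (hhub _))
          have a1 := dist_triangle_left y h.choose x
          have a2 := dist_triangle x v h.choose
          rw [dist_comm x v] at a2
          linarith [h.choose_spec.2, hv.1]
        · exact hi _ (hv.2 _ (hf v))
      · obtain ⟨j, hj⟩ : ∃ j, ∀ k, x ∈ closure (T.A k) → k = f x ∨ k = j := by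
          by_cases e : ∃ j, j ≠ f x ∧ x ∈ closure (T.A j)
          · obtain ⟨j, hj, hj'⟩ := e
            refine ⟨j, fun k hk => ?_⟩
            rcases h3 k _ j hk (hf x) hj' with e | e | e
            exacts [Or.inl e, Or.inr e, (hj e.symm).elim]
          · push Not at e
            exact ⟨f x, fun k hk => Or.inl (by_contra fun hn => e k hn hk)⟩
        refine ⟨f x, j, hev.mono fun v hv => ?_⟩
        beta_reduce
        split_ifs with h
        · refine (hx2 ⟨_, h.choose_spec.1, ?_⟩).elim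
          have a2 := dist_triangle x v h.choose
          rw [dist_comm x v] at a2
          linarith [h.choose_spec.2, hv.1]
        · exact hj _ (hv.2 _ (hf v))

theorem longStmt : LongStmt := by
  intro T
  obtain ⟨d0, hd0, H⟩ := exists_recol T
  have hex : ∀ n : ℕ, ∃ (g : Fin 5) (S : Set ℂ), S ⊆ closedBall (0 : ℂ) 20 ∧ Ch (1 / (n + 1)) S ∧
      (∀ s ∈ S, ∃ z ∈ closure (T.A g), dist s z < 1 / (n + 1)) ∧
      ∃ a ∈ S, ∃ b ∈ S, 10 ≤ dist a b := fun n => by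
    obtain ⟨col, h1, h2⟩ := H (min d0 (1 / (n + 1))) (by positivity) (min_le_left _ _)
    obtain ⟨g, S, h3, h4, h5, h6⟩ := chain_of_col col h2 (ε := 1 / (n + 1)) (by positivity)
    refine ⟨g, S, h3, h4, fun s hs => ?_, h6⟩
    obtain ⟨z, hz, hd⟩ := h1 s
    exact ⟨z, h5 s hs ▸ hz, hd.trans_le (min_le_right _ _)⟩
  choose g S hS hch hcl a ha b hb hab using hex
  set U := hyperfilter ℕ with hU
  obtain ⟨g0, hg0⟩ : ∃ g0, ∀ᶠ n in (U : Filter ℕ), g n = g0 :=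
    Ultrafilter.eventually_exists_iff.1 (Eventually.of_forall fun n => ⟨g n, rfl⟩)
  have hsm : ∀ η : ℝ, 0 < η → ∀ᶠ n : ℕ in U, 1 / ((n : ℝ) + 1) < η := fun η hη =>
    Nat.hyperfilter_le_atTop (tendsto_one_div_add_atTop_nhds_zero_nat.eventually (gt_mem_nhds hη))
  set Z : Set ℂ := {x | ∀ η > 0, ∀ᶠ n in (U : Filter ℕ), ∃ s ∈ S n, dist s x < η} with hZ
  have hlim : ∀ s : ℕ → ℂ, (∀ n, s n ∈ S n) → ∃ x ∈ Z, Tendsto s U (𝓝 x) := fun s hs => by
    obtain ⟨x, -, hx⟩ := (isCompact_closedBall (0 : ℂ) 20).ultrafilter_le_nhds (U.map s) (by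
      rw [le_principal_iff, Ultrafilter.coe_map, Filter.mem_map]
      exact univ_mem' fun n => hS n (hs n))
    have hx' : Tendsto s U (𝓝 x) := hx
    exact ⟨x, fun η hη => (hx'.eventually (ball_mem_nhds x hη)).mono fun n hn => ⟨_, hs n, hn⟩, hx'⟩
  have hZc : IsClosed Z := by
    refine isClosed_of_closure_subset fun x hx η hη => ?_
    obtain ⟨y, hy, hd⟩ := Metric.mem_closure_iff.1 hx (η / 2) (by positivity)
    refine (hy (η / 2) (by positivity)).mono fun n ⟨s, hs, h1⟩ => ⟨s, hs, ?_⟩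
    have := dist_triangle_right s x y
    linarith
  have hZB : Z ⊆ closedBall (0 : ℂ) 20 := fun x hx => by
    rw [← isClosed_closedBall.closure_eq]
    refine Metric.mem_closure_iff.2 fun η hη => ?_
    obtain ⟨n, s, hs, h1⟩ := (hx η hη).exists
    exact ⟨s, hS n hs, by rwa [dist_comm]⟩
  have hZK : IsCompact Z := (isCompact_closedBall _ _).of_isClosed_subset hZc hZB
  obtain ⟨a0, ha0, hta⟩ := hlim a ha
  obtain ⟨b0, hb0, htb⟩ := hlim b hb
  refine ⟨g0, Z, hZK, ?_, fun x hx => ?_, a0, ha0, b0, hb0, ge_of_tendsto' (hta.dist htb) hab⟩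
  · rw [isPreconnected_closed_iff]
    rintro t t' ht ht' hsub ⟨x, hx, hxt⟩ ⟨y, hy, hyt⟩
    by_contra hne
    have hdis : Disjoint (Z ∩ t) (Z ∩ t') := by
      rw [disjoint_iff_inter_eq_empty, ← not_nonempty_iff_eq_empty]
      rintro ⟨z, ⟨h1, h2⟩, -, h3⟩
      exact hne ⟨z, h1, h2, h3⟩
    obtain ⟨η, hη, hd⟩ := hdis.exists_thickenings (hZK.inter_right ht) (hZc.inter ht')
    have h1 : ∀ᶠ n in (U : Filter ℕ), S n ⊆ thickening (η / 2) Z := by
      by_contra hn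
      rw [← Ultrafilter.eventually_not] at hn
      have : ∀ n, ∃ s ∈ S n, ¬ S n ⊆ thickening (η / 2) Z → s ∉ thickening (η / 2) Z := fun n => by
        by_cases h : S n ⊆ thickening (η / 2) Z
        · exact ⟨a n, ha n, fun h' => (h' h).elim⟩
        · obtain ⟨s, hs, hs'⟩ := not_subset.1 h
          exact ⟨s, hs, fun _ => hs'⟩
      choose s hs hs' using this
      obtain ⟨z, hz, hsz⟩ := hlim s hs
      obtain ⟨n, h2, h3⟩ := (hn.and (hsz.eventually (ball_mem_nhds z (half_pos hη)))).exists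
      exact hs' n h2 (mem_thickening_iff.2 ⟨z, hz, h3⟩)
    obtain ⟨n, ⟨h2, h3⟩, ⟨s, hs, h4⟩, s', hs', h5⟩ := ((h1.and (hsm _ (half_pos hη))).and
      ((hx _ (half_pos hη)).and (hy _ (half_pos hη)))).exists
    have h6 := hch n (thickening (η / 2) (Z ∩ t)) (fun p hp q hq hpq hpP => by
      obtain ⟨z, hz, hqz⟩ := mem_thickening_iff.1 (h2 hq)
      rcases hsub hz with hzt | hzt
      · exact mem_thickening_iff.2 ⟨z, ⟨hz, hzt⟩, hqz⟩
      · refine (Set.disjoint_left.1 hd (thickening_mono (half_le_self hη.le) _ hpP)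
          (mem_thickening_iff.2 ⟨z, ⟨hz, hzt⟩, ?_⟩)).elim
        linarith [dist_triangle p q z]) s hs s' hs' (mem_thickening_iff.2 ⟨x, ⟨hx, hxt⟩, h4⟩)
    exact Set.disjoint_left.1 hd (thickening_mono (half_le_self hη.le) _ h6)
      (mem_thickening_iff.2 ⟨y, ⟨hy, hyt⟩, by linarith⟩)
  · rw [← isClosed_closure.closure_eq]
    refine Metric.mem_closure_iff.2 fun η hη => ?_
    obtain ⟨n, ⟨h1, h2⟩, s, hs, h3⟩ := ((hg0.and (hsm _ (half_pos hη))).and
      (hx _ (half_pos hη))).exists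
    obtain ⟨z, hz, h4⟩ := hcl n s hs
    refine ⟨z, h1 ▸ hz, ?_⟩
    linarith [dist_triangle_left x z s]

end Crest.Agent.H9.Gm
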