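import Crest.Agent.H9.LCNet

/-!
Decompositions into squares, the family of triples and the two gadgets.
-/

set_option autoImplicit false
set_option linter.unusedSectionVars false
set_option linter.unusedSimpArgs false

namespace Crest.Agent.H9.FC

open Finset Matrix Kronecker

section dec
variable {M M' : Type} [Fintype M] [DecidableEq M] [Fintype M'] [DecidableEq M']

/-- the square of a vector -/
def vv (w : M → ZMod 2) : Matrix M M (ZMod 2) := vecMulVec w w

lemma Dec.zero (r : ℕ) : Dec (0 : Matrix M M (ZMod 2)) r := ⟨[], by simp, by simp⟩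

lemma Dec.self (Q : Matrix M M (ZMod 2)) : Dec (Q - Q) 0 := by rw [sub_self]; exact Dec.zero 0

lemma Dec.single (w : M → ZMod 2) : Dec (vv w) 1 := ⟨[w], by simp, by simp [vv]⟩

lemma Dec.mono {Q : Matrix M M (ZMod 2)} {r r' : ℕ} (h : Dec Q r) (hr : r ≤ r') : Dec Q r' := by
  obtain ⟨l, hl, hQ⟩ := h
  exact ⟨l, hl.trans hr, hQ⟩

lemma Dec.add {Q Q' : Matrix M M (ZMod 2)} {r r' : ℕ} (h : Dec Q r) (h' : Dec Q' r') :
    Dec (Q + Q') (r + r') := by
  obtain ⟨l, hl, hQ⟩ := h
  obtain ⟨l', hl', hQ'⟩ := h'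
  exact ⟨l ++ l', by simp; omega, by simp [hQ, hQ']⟩

lemma Dec.sum {ι : Type} (S : Finset ι) (w : ι → M → ZMod 2) :
    Dec (∑ i ∈ S, vv (w i)) S.card := by
  classical
  induction S using Finset.induction_on with
  | empty => simpa using Dec.zero 0
  | insert a S ha ih =>
    rw [Finset.sum_insert ha, Finset.card_insert_of_notMem ha, add_comm S.card]
    exact (Dec.single _).add ih

lemma Dec.map {Q : Matrix M M (ZMod 2)} {r k : ℕ} (h : Dec Q r)
    (f : Matrix M M (ZMod 2) →+ Matrix M' M' (ZMod 2)) (hf : ∀ w, Dec (f (vv w)) k) :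
    Dec (f Q) (r * k) := by
  obtain ⟨l, hl, rfl⟩ := h
  refine Dec.mono (r := l.length * k) ?_ (Nat.mul_le_mul_right _ hl)
  clear hl
  induction l with
  | nil => simpa using Dec.zero 0
  | cons w l ih =>
    simp only [List.map_cons, List.sum_cons, map_add, List.length_cons]
    exact ((hf w).add ih).mono (by nlinarith)

lemma Dec.kron {Q : Matrix M M (ZMod 2)} {Q' : Matrix M' M' (ZMod 2)} {r r' : ℕ} (h : Dec Q r)
    (h' : Dec Q' r') : Dec (Q ⊗ₖ Q') (r * r') := by
  have h1 : ∀ w : M → ZMod 2, Dec (vv w ⊗ₖ Q') r' := by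
    intro w
    have := h'.map (M' := M × M') (k := 1)
      (AddMonoidHom.mk' (fun X => vv w ⊗ₖ X) (fun X Y => kronecker_add _ _ _)) (fun w' => by
        have : vv w ⊗ₖ vv w' = vv (fun p : M × M' => w p.1 * w' p.2) := by
          ext ⟨i, j⟩ ⟨k, l⟩
          simp [vv, vecMulVec_apply]; ring
        simp only [AddMonoidHom.mk'_apply, this]
        exact Dec.single _)
    simpa using this
  exact h.map (M' := M × M')
    (AddMonoidHom.mk' (fun X => X ⊗ₖ Q') (fun X Y => add_kronecker _ _ _)) h1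

lemma conj_vv (O : Matrix M M (ZMod 2)) (w : M → ZMod 2) : O * vv w * Oᵀ = vv (O *ᵥ w) := by
  simp only [vv, Matrix.mul_vecMulVec, Matrix.vecMulVec_mul, Matrix.vecMul_transpose]

lemma Dec.conj {Q : Matrix M M (ZMod 2)} {r : ℕ} (h : Dec Q r) (O : Matrix M M (ZMod 2)) :
    Dec (O * Q * Oᵀ) r := by
  have := h.map (M' := M) (k := 1)
    (AddMonoidHom.mk' (fun X => O * X * Oᵀ) (fun X Y => by
      simp only [Matrix.mul_add, Matrix.add_mul])) (fun w => by
      simp only [AddMonoidHom.mk'_apply, conj_vv]; exact Dec.single _)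
  simpa using this

lemma one_eq_sum_vv : (1 : Matrix M M (ZMod 2)) = ∑ k, vv (Pi.single k 1) := by
  ext i j
  simp only [vv, Matrix.sum_apply, vecMulVec_apply, Pi.single_apply, Matrix.one_apply]
  rw [Finset.sum_eq_single i]
  · simp [eq_comm]
  · intro b _ hb; simp [Ne.symm hb]
  · simp

lemma Dec.one : Dec (1 : Matrix M M (ZMod 2)) (Fintype.card M) := by
  rw [one_eq_sum_vv]; exact Dec.sum _ _

lemma mat_add_self (Q : Matrix M M (ZMod 2)) : Q + Q = 0 := by
  ext i j; exact zmod2_add_self _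

lemma mat_neg (Q : Matrix M M (ZMod 2)) : -Q = Q := by
  rw [neg_eq_iff_add_eq_zero, mat_add_self]

lemma refl_orth (r : M → ZMod 2) (hr : r ⬝ᵥ r = 0) : (1 + vv r) * (1 + vv r)ᵀ = 1 := by
  have h1 : (vv r)ᵀ = vv r := by simp [vv]
  have h2 : vv r * vv r = 0 := by simp [vv, vecMulVec_mul_vecMulVec, hr]
  simp only [transpose_add, transpose_one, h1, Matrix.mul_add, Matrix.add_mul, Matrix.one_mul,
    Matrix.mul_one, h2, add_zero]
  rw [add_assoc, mat_add_self, add_zero]

lemma refl_apply (r x : M → ZMod 2) : (1 + vv r) *ᵥ x = x + (r ⬝ᵥ x) • r := by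
  rw [Matrix.add_mulVec, Matrix.one_mulVec, vv, vecMulVec_mulVec]
  simp

lemma dec_two (a b : M → ZMod 2) (i j : M) (haa : a ⬝ᵥ a = 1) (hbb : b ⬝ᵥ b = 1)
    (hab : a ⬝ᵥ b = 0) (hij : i ≠ j) (hai : a i = 0) (hbi : b i = 0) (hbj : b j = 0) :
    Dec (1 - vv a - vv b) (Fintype.card M - 2) := by
  have h0 : Dec (1 - vv (Pi.single i (1 : ZMod 2) : M → ZMod 2) - vv (Pi.single j 1))
      (Fintype.card M - 2) := by
    have h1 := Dec.sum ((Finset.univ.erase i).erase j)
      (fun k => (Pi.single k (1 : ZMod 2) : M → ZMod 2))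
    rw [Finset.card_erase_of_mem (by simp [hij.symm]), Finset.card_erase_of_mem (by simp),
      Finset.card_univ] at h1
    rw [Finset.sum_erase_eq_sub (by simp [hij.symm]), Finset.sum_erase_eq_sub (by simp),
      ← one_eq_sum_vv] at h1
    exact h1
  have one_one : (1 : ZMod 2) + 1 = 0 := by decide
  have hr2 : (b + Pi.single j 1) ⬝ᵥ (b + Pi.single j 1) = 0 := by
    simp [add_dotProduct, dotProduct_add, hbb, hbj, one_one]
  have hr1 : (a + Pi.single i 1) ⬝ᵥ (a + Pi.single i 1) = 0 := by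
    simp [add_dotProduct, dotProduct_add, haa, hai, one_one]
  have h2 := h0.conj (1 + vv (b + Pi.single j 1))
  simp only [Matrix.mul_sub, Matrix.sub_mul, Matrix.mul_one, refl_orth _ hr2, conj_vv,
    refl_apply] at h2
  have e1 : (b + Pi.single j 1) ⬝ᵥ (Pi.single i (1 : ZMod 2) : M → ZMod 2) = 0 := by
    simp [hbi, hij]
  have e2 : (b + Pi.single j 1) ⬝ᵥ (Pi.single j (1 : ZMod 2) : M → ZMod 2) = 1 := by
    simp [hbj]
  rw [e1, e2, zero_smul, add_zero, one_smul, add_comm b, ← add_assoc, vec_add_self,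
    zero_add] at h2
  have h3 := h2.conj (1 + vv (a + Pi.single i 1))
  simp only [Matrix.mul_sub, Matrix.sub_mul, Matrix.mul_one, refl_orth _ hr1, conj_vv,
    refl_apply] at h3
  have e3 : (a + Pi.single i 1) ⬝ᵥ (Pi.single i (1 : ZMod 2) : M → ZMod 2) = 1 := by
    simp [hai]
  have e4 : (a + Pi.single i 1) ⬝ᵥ b = 0 := by
    simp [add_dotProduct, hab, hbi]
  rw [e3, e4, zero_smul, add_zero, one_smul, add_comm a, ← add_assoc, vec_add_self,
    zero_add] at h3
  exact h3

lemma dec_one' (a : M → ZMod 2) (i : M) (haa : a ⬝ᵥ a = 1) (hai : a i = 0) :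
    Dec (1 - vv a) (Fintype.card M - 1) := by
  have h0 : Dec (1 - vv (Pi.single i (1 : ZMod 2) : M → ZMod 2)) (Fintype.card M - 1) := by
    have h1 := Dec.sum (Finset.univ.erase i) (fun k => (Pi.single k (1 : ZMod 2) : M → ZMod 2))
    rw [Finset.card_erase_of_mem (by simp), Finset.card_univ] at h1
    rw [Finset.sum_erase_eq_sub (by simp), ← one_eq_sum_vv] at h1
    exact h1
  have one_one : (1 : ZMod 2) + 1 = 0 := by decide
  have hr1 : (a + Pi.single i 1) ⬝ᵥ (a + Pi.single i 1) = 0 := by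
    simp [add_dotProduct, dotProduct_add, haa, hai, one_one]
  have h3 := h0.conj (1 + vv (a + Pi.single i 1))
  simp only [Matrix.mul_sub, Matrix.sub_mul, Matrix.mul_one, refl_orth _ hr1, conj_vv,
    refl_apply] at h3
  have e3 : (a + Pi.single i 1) ⬝ᵥ (Pi.single i (1 : ZMod 2) : M → ZMod 2) = 1 := by
    simp [hai]
  rw [e3, one_smul, add_comm a, ← add_assoc, vec_add_self, zero_add] at h3
  exact h3

end dec

/-- the ground set -/
abbrev HH := Fin 16
/-- the triples -/
def TT : Type := {A : Finset HH // A.card = 3}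

instance : Finite TT := inferInstanceAs (Finite {A : Finset HH // A.card = 3})
noncomputable instance : Fintype TT := Fintype.ofFinite _
noncomputable instance : DecidableEq TT := Classical.decEq _

lemma card_TT : Fintype.card TT = 560 := by
  rw [← Nat.card_eq_fintype_card]
  change Nat.card {A : Finset HH // A.card = 3} = 560
  rw [Nat.card_eq_fintype_card, Fintype.card_finset_len]; simp; decide

/-- indicator vector of a triple -/
def ind (A : TT) : HH → ZMod 2 := fun i => if i ∈ A.1 then 1 else 0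

lemma ind_dot (A B : TT) : ind A ⬝ᵥ ind B = ((A.1 ∩ B.1).card : ZMod 2) := by
  simp only [ind, dotProduct, ite_mul, one_mul, zero_mul]
  rw [Finset.card_eq_sum_ones, Nat.cast_sum, ← Finset.sum_filter, Finset.sum_ite]
  simp only [Finset.sum_const_zero, add_zero, Nat.cast_one]
  refine Finset.sum_congr ?_ (fun _ _ => rfl)
  ext i; simp

lemma ind_self (A : TT) : ind A ⬝ᵥ ind A = 1 := by
  rw [ind_dot, Finset.inter_self, A.2]; decide

/-- orthogonal pairs of triples -/
def PP : Type := {p : TT × TT // ind p.1 ⬝ᵥ ind p.2 = 0}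

instance : Finite PP := inferInstanceAs (Finite {p : TT × TT // ind p.1 ⬝ᵥ ind p.2 = 0})
noncomputable instance : Fintype PP := Fintype.ofFinite _
noncomputable instance : DecidableEq PP := Classical.decEq _

lemma card_PP : Fintype.card PP ≤ 560 * 560 := by
  have := Fintype.card_le_of_injective (fun p : PP => p.1) Subtype.val_injective
  rwa [Fintype.card_prod, card_TT] at this

lemma exists_notMem (S : Finset HH) (hS : S.card < 16) : ∃ i, i ∉ S := by
  by_contra hc
  push Not at hc
  have : S = Finset.univ := Finset.eq_univ_of_forall hc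
  rw [this] at hS; simp at hS

lemma dec_ind (A : TT) : Dec (1 - vv (ind A)) 15 := by
  obtain ⟨i, hi⟩ := exists_notMem A.1 (by rw [A.2]; norm_num)
  simpa using dec_one' (ind A) i (ind_self A) (by simp [ind, hi])

lemma dec_pair (p : PP) : Dec (1 - vv (ind p.1.1) - vv (ind p.1.2)) 14 := by
  obtain ⟨⟨A, B⟩, hp⟩ := p
  obtain ⟨i, hi⟩ := exists_notMem (A.1 ∪ B.1) (by
    have := Finset.card_union_le A.1 B.1
    rw [A.2, B.2] at this; omega)
  obtain ⟨j, hj⟩ := exists_notMem (insert i B.1) (by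
    have := Finset.card_insert_le i B.1
    rw [B.2] at this; omega)
  simp only [Finset.mem_union, Finset.mem_insert, not_or] at hi hj
  simpa using dec_two (ind A) (ind B) i j (ind_self A) (ind_self B) hp (Ne.symm hj.1)
    (by simp [ind, hi.1]) (by simp [ind, hi.2]) (by simp [ind, hj.2])

/-- left weights of the low rank part -/
noncomputable def wa (A : TT) (i : HH) : ℂ := (if i ∈ A.1 then 1 / 2 else 0) - 1 / 6
/-- right weights of the low rank part -/
noncomputable def wb (i : HH) (B : TT) : ℂ := if i ∈ B.1 then 1 else 0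
/-- the part supported on orthogonal pairs -/
noncomputable def pw (A B : TT) : ℂ := (if A = B then 1 else 0) - ∑ i, wa A i * wb i B

lemma sum_wa_wb (A B : TT) : ∑ i, wa A i * wb i B = (((A.1 ∩ B.1).card : ℂ) - 1) / 2 := by
  have h1 : ∀ i, wa A i * wb i B =
      (1 / 2 : ℂ) * (if i ∈ A.1 ∩ B.1 then 1 else 0) - (1 / 6) * (if i ∈ B.1 then 1 else 0) := by
    intro i
    simp only [wa, wb, Finset.mem_inter]
    by_cases h1 : i ∈ A.1 <;> by_cases h2 : i ∈ B.1 <;> simp [h1, h2]
  simp only [h1, Finset.sum_sub_distrib, ← Finset.mul_sum, Finset.sum_boole]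
  simp only [Finset.filter_mem_eq_inter, Finset.univ_inter, B.2]
  push_cast; ring

lemma pw_eq_zero (A B : TT) (h : ind A ⬝ᵥ ind B ≠ 0) : pw A B = 0 := by
  rw [pw, sum_wa_wb]
  rw [ind_dot] at h
  have h3 : (A.1 ∩ B.1).card ≤ 3 :=
    (Finset.card_le_card Finset.inter_subset_left).trans (le_of_eq A.2)
  by_cases hAB : A = B
  · subst hAB; simp [A.2]; norm_num
  · have h4 : (A.1 ∩ B.1).card ≠ 3 := by
      intro h4
      apply hAB
      have e1 := Finset.eq_of_subset_of_card_le (Finset.inter_subset_left (s₁ := A.1) (s₂ := B.1))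
        (by rw [h4, A.2])
      have e2 := Finset.eq_of_subset_of_card_le (Finset.inter_subset_right (s₁ := A.1) (s₂ := B.1))
        (by rw [h4, B.2])
      exact Subtype.ext (e1.symm.trans e2)
    have h5 : (A.1 ∩ B.1).card = 1 := by
      generalize (A.1 ∩ B.1).card = k at *
      interval_cases k
      · simp at h
      · rfl
      · exact absurd (by decide) h
      · simp at h4
    simp [hAB, h5]

lemma sum_PP {W : Type} [AddCommGroup W] (f : TT × TT → W)
    (hf : ∀ q, ind q.1 ⬝ᵥ ind q.2 ≠ 0 → f q = 0) : ∑ p : PP, f p.1 = ∑ q, f q := by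
  have := Finset.sum_subtype (F := (inferInstance : Fintype PP))
    (Finset.univ.filter fun q : TT × TT => ind q.1 ⬝ᵥ ind q.2 = 0) (by simp) f
  refine this.symm.trans ?_
  refine Finset.sum_subset (Finset.filter_subset _ _) (fun q _ hq => hf q (by simpa using hq))

lemma key_fwd {W : Type} [AddCommGroup W] [Module ℂ W] (X : TT → W) (A : TT) :
    ∑ p : PP, (if p.1.1 = A then pw p.1.1 p.1.2 else 0) • X p.1.2 +
      ∑ i, wa A i • ∑ B, wb i B • X B = X A := by
  rw [sum_PP (fun q => (if q.1 = A then pw q.1 q.2 else 0) • X q.2)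
    (fun q hq => by simp [pw_eq_zero _ _ hq]), Fintype.sum_prod_type]
  rw [Finset.sum_eq_single A (by intro b _ hb; simp [hb]) (by simp)]
  simp only [if_true, Finset.smul_sum, smul_smul]
  rw [Finset.sum_comm (s := Finset.univ (α := HH)), ← Finset.sum_add_distrib]
  simp only [← Finset.sum_smul, ← add_smul, pw, sub_add_cancel]
  simp

lemma key_bwd {W : Type} [AddCommGroup W] [Module ℂ W] (X : TT → W) (B : TT) :
    ∑ p : PP, (if p.1.2 = B then pw p.1.1 p.1.2 else 0) • X p.1.1 +
      ∑ i, wb i B • ∑ A, wa A i • X A = X B := by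
  rw [sum_PP (fun q => (if q.2 = B then pw q.1 q.2 else 0) • X q.1)
    (fun q hq => by simp [pw_eq_zero _ _ hq]), Fintype.sum_prod_type_right]
  rw [Finset.sum_eq_single B (by intro b _ hb; simp [hb]) (by simp)]
  simp only [if_true, Finset.smul_sum, smul_smul]
  rw [Finset.sum_comm (s := Finset.univ (α := HH)), ← Finset.sum_add_distrib]
  simp only [← Finset.sum_smul, ← add_smul, pw, mul_comm (wb _ _), sub_add_cancel]
  simp

end Crest.Agent.H9.FC
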