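import Crest.Agent.H9.IMNet2
import Crest.Agent.H9.LCGadget

/-! Row 326: the network with frames of characteristic two. -/

set_option autoImplicit false
set_option linter.unusedSectionVars false
set_option linter.unusedVariables false
set_option linter.unusedSimpArgs false

namespace Crest.Agent.H9.IM.NT
open Finset Crest.Agent.H9.IM Matrix Kronecker Crest.Agent.H9.FC

section four
variable {S : Type} [CommRing S] {η I : S} {M : Type} [Fintype M] [DecidableEq M]

def f4 (I : S) (a : ZMod 4) : S := I ^ a.val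

lemma f4_add (hI : I * I = -1) (a b : ZMod 4) : f4 I (a + b) = f4 I a * f4 I b := by
  have h4 : I ^ 4 = 1 := by linear_combination (I * I - 1) * hI
  unfold f4
  rw [ZMod.val_add, ← pow_eq_pow_mod _ h4, pow_add]

lemma f4_zero : f4 I 0 = 1 := by simp [f4]

lemma f4_dbl_one (hI : I * I = -1) : f4 I (dbl 1) = -1 := by
  have : (dbl 1).val = 2 := by decide
  simp [f4, this, pow_two, hI]

lemma f4_lift (hη : 2 * η = 1) (hI : I * I = -1) (t : ZMod 2) :
    f4 I (lift t) = (1 + I) * η + (1 - I) * η * f4 I (dbl t) := by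
  rcases zmod2_cases t with rfl | rfl
  · simp only [lift_zero, dbl_zero, f4_zero]; linear_combination -hη
  · have : (lift 1).val = 1 := by decide
    rw [f4_dbl_one hI]
    simp only [f4, this, pow_one]; linear_combination (-I) * hη

lemma sum_f4 (hη : 2 * η = 1) (hI : I * I = -1) (z : M → ZMod 2) :
    η ^ Fintype.card M * ∑ y : M → ZMod 2, f4 I (dbl (y ⬝ᵥ z)) = if z = 0 then 1 else 0 := by
  split_ifs with h
  · subst h
    simp only [dotProduct_zero, dbl_zero, f4_zero, Finset.sum_const, Finset.card_univ,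
      Fintype.card_fun, ZMod.card, nsmul_eq_mul, mul_one, Nat.cast_pow, Nat.cast_ofNat]
    rw [← mul_pow, mul_comm η, hη, one_pow]
  · obtain ⟨μ, hμ⟩ : ∃ μ, z μ = 1 := by
      by_contra hc
      push Not at hc
      exact h (funext fun μ => (zmod2_cases (z μ)).resolve_right (hc μ))
    have h1 : ∑ y : M → ZMod 2, f4 I (dbl (y ⬝ᵥ z)) =
        ∑ y : M → ZMod 2, f4 I (dbl ((y + Pi.single μ 1) ⬝ᵥ z)) :=
      (Equiv.sum_comp (Equiv.addRight (Pi.single μ (1 : ZMod 2) : M → ZMod 2))
        (fun y => f4 I (dbl (y ⬝ᵥ z)))).symm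
    have h2 : ∀ y : M → ZMod 2, f4 I (dbl ((y + Pi.single μ 1) ⬝ᵥ z)) = -f4 I (dbl (y ⬝ᵥ z)) := by
      intro y
      rw [add_dotProduct, dbl_add, f4_add hI, single_dotProduct, hμ, one_mul, f4_dbl_one hI]; ring
    simp only [h2, Finset.sum_neg_distrib] at h1
    have h3 : ∑ y : M → ZMod 2, f4 I (dbl (y ⬝ᵥ z)) = 0 := by
      linear_combination η * h1 - (∑ y : M → ZMod 2, f4 I (dbl (y ⬝ᵥ z))) * hη
    rw [h3, mul_zero]

/-- the idempotent of the character `ξ` -/
noncomputable def idm (η I : S) (ξ : M → ZMod 2) : AddMonoidAlgebra S (M → ZMod 2) :=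
  ∑ x, (η ^ Fintype.card M * f4 I (dbl (x ⬝ᵥ ξ))) • AddMonoidAlgebra.single x 1

lemma single_idm (hI : I * I = -1) (u ξ : M → ZMod 2) :
    AddMonoidAlgebra.single u (1 : S) * idm η I ξ = f4 I (dbl (u ⬝ᵥ ξ)) • idm η I ξ := by
  simp only [idm, Finset.mul_sum, Finset.smul_sum, mul_smul_comm, AddMonoidAlgebra.single_mul_single,
    mul_one, smul_smul]
  refine Fintype.sum_equiv (Equiv.addLeft u) _ _ (fun x => ?_)
  simp only [Equiv.coe_addLeft, add_dotProduct, dbl_add, f4_add hI]
  have : f4 I (dbl (u ⬝ᵥ ξ)) * f4 I (dbl (u ⬝ᵥ ξ)) = 1 := by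
    rw [← f4_add hI, dbl_add_self, f4_zero]
  congr 1
  linear_combination (-(η ^ Fintype.card M * f4 I (dbl (x ⬝ᵥ ξ)))) * this

lemma idm_mul (hη : 2 * η = 1) (hI : I * I = -1) (ξ ξ' : M → ZMod 2) :
    idm η I ξ * idm η I ξ' = if ξ = ξ' then idm η I ξ' else 0 := by
  nth_rewrite 1 [idm]
  simp only [Finset.sum_mul, smul_mul_assoc, single_idm hI, smul_smul, ← Finset.sum_smul]
  have : ∀ x : M → ZMod 2, η ^ Fintype.card M * f4 I (dbl (x ⬝ᵥ ξ)) * f4 I (dbl (x ⬝ᵥ ξ')) =
      η ^ Fintype.card M * f4 I (dbl (x ⬝ᵥ (ξ + ξ'))) := fun x => by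
    rw [dotProduct_add, dbl_add, f4_add hI, mul_assoc]
  simp only [this, ← Finset.mul_sum, sum_f4 hη hI, vec_add_eq_zero]
  by_cases h : ξ = ξ'
  · simp [h]
  · simp [h, Ne.symm h]

lemma sum_idm (hη : 2 * η = 1) (hI : I * I = -1) :
    ∑ ξ : M → ZMod 2, idm η I ξ = 1 := by
  simp only [idm]
  rw [Finset.sum_comm]
  simp only [← Finset.sum_smul, ← Finset.mul_sum, dotProduct_comm _ (_ : M → ZMod 2)]
  have : ∀ x : M → ZMod 2, η ^ Fintype.card M * ∑ ξ : M → ZMod 2, f4 I (dbl (x ⬝ᵥ ξ)) =
      if x = 0 then 1 else 0 := fun x => by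
    rw [← sum_f4 hη hI x]; simp only [dotProduct_comm x]
  simp only [this]
  simp [AddMonoidAlgebra.one_def]

noncomputable def Fh (hη : 2 * η = 1) (hI : I * I = -1) :
    Multiplicative ((M → ZMod 2) → ZMod 4) →* AddMonoidAlgebra S (M → ZMod 2) where
  toFun φ := ∑ ξ, f4 I (φ.toAdd ξ) • idm η I ξ
  map_one' := by simp [f4_zero, sum_idm hη hI]
  map_mul' φ ψ := by
    simp only [Finset.sum_mul, Finset.mul_sum, smul_mul_assoc, mul_smul_comm, idm_mul hη hI,
      toAdd_mul, Pi.add_apply, f4_add hI]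
    refine Finset.sum_congr rfl (fun ξ _ => ?_)
    simp [smul_smul, mul_comm]

lemma Fh_dbl (hη : 2 * η = 1) (hI : I * I = -1) (u : M → ZMod 2) :
    Fh hη hI (Multiplicative.ofAdd fun ξ => dbl (ξ ⬝ᵥ u)) = AddMonoidAlgebra.single u 1 := by
  rw [← mul_one (AddMonoidAlgebra.single u 1), ← sum_idm hη hI, Finset.mul_sum]
  simp only [single_idm hI, dotProduct_comm u]
  rfl

lemma Fh_lift (hη : 2 * η = 1) (hI : I * I = -1) (w : M → ZMod 2) :
    Fh hη hI (Multiplicative.ofAdd fun ξ => lift (ξ ⬝ᵥ w)) =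
      AddMonoidAlgebra.single 0 ((1 + I) * η) + AddMonoidAlgebra.single w ((1 - I) * η) := by
  have h1 := Fh_dbl hη hI w
  have h2 := sum_idm (M := M) hη hI
  change ∑ ξ, f4 I (dbl (ξ ⬝ᵥ w)) • idm η I ξ = _ at h1
  change ∑ ξ, f4 I (lift (ξ ⬝ᵥ w)) • idm η I ξ = _
  simp only [f4_lift hη hI, add_smul, Finset.sum_add_distrib, mul_smul ((1 - I) * η),
    ← Finset.smul_sum, h1, h2]
  simp [AddMonoidAlgebra.one_def]
end four

abbrev KB := Localization.Away (2 : ℤ)
noncomputable def ηB : KB := IsLocalization.Away.invSelf (2 : ℤ)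

lemma ηB_spec : 2 * ηB = 1 := by
  have := IsLocalization.Away.mul_invSelf (S := KB) (2 : ℤ)
  simpa [ηB] using this

lemma KB_gen (c : KB) : ∃ (a : ℤ) (k : ℕ), c = a * ηB ^ k := by
  obtain ⟨k, a, h⟩ := IsLocalization.Away.surj (2 : ℤ) c
  refine ⟨a, k, ?_⟩
  have h1 : (2 : KB) ^ k * ηB ^ k = 1 := by rw [← mul_pow, ηB_spec, one_pow]
  simp only [eq_intCast, Int.cast_ofNat] at h
  rw [← h, mul_assoc, h1, mul_one]

noncomputable def waB (A : TT) : Option HH → KB
  | none => -ηB
  | some i => if i ∈ A.1 then ηB else 0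
noncomputable def wbB (i : Option HH) (B : TT) : KB :=
  match i with
  | none => 1
  | some i => if i ∈ B.1 then 1 else 0

lemma sum_wB (A B : TT) : ∑ i, waB A i * wbB i B = ηB * (((A.1 ∩ B.1).card : KB) - 1) := by
  rw [Fintype.sum_option]
  have : ∀ i, waB A (some i) * wbB (some i) B = ηB * if i ∈ A.1 ∩ B.1 then 1 else 0 := by
    intro i; simp only [waB, wbB, Finset.mem_inter]
    by_cases h1 : i ∈ A.1 <;> by_cases h2 : i ∈ B.1 <;> simp [h1, h2]
  simp only [this, ← Finset.mul_sum, Finset.sum_boole, Finset.filter_mem_eq_inter,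
    Finset.univ_inter]
  simp only [waB, wbB]
  ring

noncomputable def desB : Des KB (ZMod 2) HH TT PP (Option HH) where
  e := 1
  Pm := fun A => vv (ind A)
  f1 := fun p => p.1.1
  f2 := fun p => p.1.2
  wa := waB
  wb := wbB
  pw := fun p => (if p.1.1 = p.1.2 then 1 else 0) - ∑ i, waB p.1.1 i * wbB i p.1.2
  h := 14
  D1 := Dec
  D2 := Dec
  key := by
    intro A B
    by_cases h : ind A ⬝ᵥ ind B = 0
    · rw [(Finset.sum_eq_single (show PP from ⟨(A, B), h⟩) ?_ (by simp))]
      · simp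
      · intro p _ hp
        rw [if_neg]
        rintro ⟨rfl, rfl⟩
        exact hp rfl
    · rw [Finset.sum_eq_zero (fun p _ => if_neg (by rintro ⟨rfl, rfl⟩; exact h p.2)), zero_add,
        sum_wB]
      rw [ind_dot] at h
      have h3 : (A.1 ∩ B.1).card ≤ 3 :=
        (Finset.card_le_card Finset.inter_subset_left).trans (le_of_eq A.2)
      by_cases hAB : A = B
      · subst hAB
        simp only [Finset.inter_self, A.2, if_true]
        push_cast; linear_combination ηB_spec
      · have h4 : (A.1 ∩ B.1).card ≠ 3 := by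
          intro h4
          apply hAB
          have e1 := Finset.eq_of_subset_of_card_le
            (Finset.inter_subset_left (s₁ := A.1) (s₂ := B.1)) (by rw [h4, A.2])
          have e2 := Finset.eq_of_subset_of_card_le
            (Finset.inter_subset_right (s₁ := A.1) (s₂ := B.1)) (by rw [h4, B.2])
          exact Subtype.ext (e1.symm.trans e2)
        have h5 : (A.1 ∩ B.1).card = 1 := by
          generalize (A.1 ∩ B.1).card = k at *
          interval_cases k
          · simp at h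
          · rfl
          · exact absurd (by decide) h
          · simp at h4
        simp [hAB, h5]
  kron := fun _ _ _ _ a b => a.kron b
  neg1 := fun _ _ a => by rwa [mat_neg]
  d0 := Dec.zero 0
  dP := fun A => Dec.single _
  d1 := dec_ind
  d2 := dec_pair
  de := by simpa using Dec.one (M := HH)

def eq2 : HH × HH ≃ Fin 256 := finProdFinEquiv

noncomputable def UB (ψ : Matrix (HH × HH) (HH × HH) (ZMod 2)) :
    Multiplicative ((Fin 256 → ZMod 2) → ZMod 4) :=
  Multiplicative.ofAdd (ph (Matrix.reindex eq2 eq2 ψ))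

noncomputable def ctxB : Ctx KB (Multiplicative ((Fin 256 → ZMod 2) → ZMod 4))
    (Bool × (Fin 256 → ZMod 2)) (Wr TT PP) where
  η := ηB
  op := fun m => Multiplicative.ofAdd
    (bif m.1 then fun ξ => lift (ξ ⬝ᵥ m.2) else fun ξ => dbl (ξ ⬝ᵥ m.2))
  cst := fun m => m.1
  g0 := fun a => UB (fr0 desB a)
  T := Fintype.card (Wr TT PP)
  ι := Fintype.equivFin _

lemma mvB0 {B B' : Matrix (Fin 256) (Fin 256) (ZMod 2)} {r : ℕ} (hd : Dec (B' - B) r) :
    Mv ctxB (Multiplicative.ofAdd (ph B)) (Multiplicative.ofAdd (ph B')) r := by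
  obtain ⟨l, hl, hQ⟩ := hd
  refine Mv.mono (k := l.length) ?_ hl
  clear hl
  induction l generalizing B with
  | nil =>
    have : B' = B := by simpa [sub_eq_zero] using hQ
    subst this
    exact Mv.refl _
  | cons w l ih =>
    have h1 := ih (B := B + vecMulVec w w) (by
      simp only [List.map_cons, List.sum_cons] at hQ
      rw [← sub_sub, hQ]; abel)
    have h2 := (Mv.one (C := ctxB) (Multiplicative.ofAdd (ph B)) (true, w)).trans
      (Mv.one _ (false, fun μ => B μ μ * vecMulVec w w μ μ))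
    have e : Multiplicative.ofAdd (ph B) * ctxB.op (true, w) *
        ctxB.op (false, fun μ => B μ μ * vecMulVec w w μ μ) =
        Multiplicative.ofAdd (ph (B + vecMulVec w w)) := by
      simp only [ctxB, cond_true, cond_false, ← ofAdd_add]
      refine congrArg Multiplicative.ofAdd ?_
      funext ξ
      simp only [Pi.add_apply, ph_add, ph_vecMulVec]
    rw [e] at h2
    exact (h2.trans h1).mono (by simp [ctxB]; omega)

lemma mvB (ψ ψ' : Matrix (HH × HH) (HH × HH) (ZMod 2)) (k : ℕ) (h : Dec (ψ' - ψ) k) :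
    Mv ctxB (UB ψ) (UB ψ') k := by
  have h1 := h.map (k := 1) (Matrix.reindexAddEquiv (ZMod 2) eq2 eq2).toAddMonoidHom (fun w => by
    have : Matrix.reindex eq2 eq2 (vv w) = vv (w ∘ eq2.symm) := by
      ext i j; simp [vv, vecMulVec_apply]
    exact this ▸ Dec.single _)
  rw [mul_one, map_sub] at h1
  exact mvB0 h1

theorem netB : NetB := by
  obtain ⟨S, r, hN, hr, hS⟩ := network2 desB (C := ctxB) KB_gen UB (fun _ => rfl) mvB mat_neg
  obtain ⟨S', -, ⟨P, h1, h2, h3⟩, hS'⟩ := hN.step KB_gen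
    (fun a => (ctxB.g0 a * Multiplicative.ofAdd (ph 1), Pi.single a 1)) 0 (fun a => by
      refine Der.move (hS a) ?_
      have h2 := Mv.one (C := ctxB) (UB (fr0 desB a + desB.e ⊗ₖ desB.e))
        (false, fun μ => (Matrix.reindex eq2 eq2 (fr0 desB a)) μ μ *
          (1 : Matrix (Fin 256) (Fin 256) (ZMod 2)) μ μ)
      convert h2 using 1
      swap
      · rfl
      have e : Matrix.reindex eq2 eq2 (fr0 desB a + desB.e ⊗ₖ desB.e) =
          Matrix.reindex eq2 eq2 (fr0 desB a) + 1 := by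
        simp only [desB, Matrix.one_kronecker_one]
        ext i j
        simp [Matrix.one_apply]
      simp only [ctxB, UB, e, cond_false, ← ofAdd_add]
      refine congrArg Multiplicative.ofAdd ?_
      funext ξ
      simp only [Pi.add_apply, ph_add, add_assoc, dbl_add_self, add_zero])
  choose n hn using fun a => h3 _ (hS' a)
  have hc : Fintype.card (Wr TT PP) = 2 * 560 ^ 2 + 2 * 560 * Fintype.card PP := by
    simp only [Fintype.card_prod, Fintype.card_sum, Fintype.card_bool, card_TT]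
    ring
  refine ⟨ctxB.T, P, fun a => if h : a < ctxB.T then n (ctxB.ι.symm ⟨a, h⟩) else 0,
    by simp only [ctxB, hc]; omega, h1, fun a ha => by
      simp only [ha, dif_pos]; exact (hn _).1, ?_, ?_⟩
  · have h4 := card_PP
    have h5 : ((P.map (Ins.cost (fun m => m.1))).sum : ℝ) ≤ r := by
      simp only [mul_zero, add_zero] at h2
      exact_mod_cast h2
    refine h5.trans ?_
    simp only [card_TT, Fintype.card_fin, Fintype.card_option, show desB.h = 14 from rfl] at hr
    have h6 : (r : ℝ) + 560 ^ 2 ≤ (14 + 2) ^ 2 * (Fintype.card (Wr TT PP) : ℝ) +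
      2 * 560 * (16 + 1) * (14 + 2) := by exact_mod_cast hr
    have h7 : (Fintype.card (Wr TT PP) : ℝ) ≤ 2 * 560 ^ 2 + 2 * 560 * (560 * 560) := by
      rw [hc]; exact_mod_cast Nat.add_le_add_left (Nat.mul_le_mul_left _ h4) _
    simp only [ctxB]
    norm_num at h6 h7 ⊢
    linarith
  · intro S _ η I hη hI V _ _ ρ x hx a ha
    simp only [ha, dif_pos]
    have hu : IsUnit (Int.castRingHom S 2) := by
      simpa using IsUnit.of_mul_eq_one _ hη
    let φ : KB →+* S := IsLocalization.Away.lift (2 : ℤ) hu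
    have hφ : φ ctxB.η = η := by
      have h2 := congrArg φ ηB_spec
      simp only [map_mul, map_one, map_ofNat] at h2
      change φ ηB = η
      linear_combination η * h2 - φ ηB * hη
    have := (hn (ctxB.ι.symm ⟨a, ha⟩)).2 S φ V (ρ.comp (Fh hη hI)) x hx
    rw [hφ] at this
    have e : (fun (m : Bool × (Fin 256 → ZMod 2)) (v : V) => (ρ.comp (Fh hη hI)) (ctxB.op m) v) =
        fun m v => ρ (bif m.1 then gel η I m.2 else AddMonoidAlgebra.single m.2 1) v := by
      funext m v
      obtain ⟨_ | _, w⟩ := m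
      · simp only [ctxB, cond_false, MonoidHom.comp_apply, Fh_dbl]
      · simp only [ctxB, cond_true, MonoidHom.comp_apply, Fh_lift, gel]
    rw [e] at this
    refine this.trans ?_
    rw [Finset.sum_eq_single (ctxB.ι.symm ⟨a, ha⟩)]
    · simp only [Pi.single_eq_same, map_one, one_smul, Equiv.apply_symm_apply, mul_div_cancel_left,
        MonoidHom.comp_apply]
      refine congrArg (fun z => ρ z (x.getD a 0)) ?_
      have : (ph 1 : (Fin 256 → ZMod 2) → ZMod 4) =
          ∑ μ, fun ξ => lift (ξ ⬝ᵥ Pi.single μ 1) := by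
        funext ξ; simp [ph_one]
      rw [this, ofAdd_sum, map_prod]
      simp only [Fh_lift, gel]
    · intro b _ hb; simp [hb]
    · simp

end Crest.Agent.H9.IM.NT
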