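import Crest.Agent.H9.IMHadS
import Crest.Agent.H9.IMNetB
import Crest.Agent.H7.HadR
import Crest.Agent.H8.IMXor
import Crest.Agent.H8.IMAdd
import Crest.Agent.H8.IMFix
import Crest.Agent.H6.IMRec
import Crest.Agent.H6.IMSort
import Crest.Agent.H4.IMNum2

/-! Row 326: assembly of the Hadamard transform from the swap. -/

set_option autoImplicit false

namespace Crest.Agent.H9.IM

theorem numStmt' : NumStmt := Crest.Agent.H4.IM.numStmt coreStmt recStmt
theorem arrStmt' : ArrStmt := arrStmt coreStmt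
theorem addStmt' (hS : SwapStmt) : AddStmt := Crest.Agent.H8.IM.addStmt arrStmt' hS
theorem xorStmt' (hS : SwapStmt) : XorStmt :=
  Crest.Agent.H8.IM.xorStmt arrStmt' numStmt' (addStmt' hS)
    (Crest.Agent.H8.IM.fixStmt coreStmt sortStmt)
theorem hadStmt' (hS : SwapStmt) : HadStmt :=
  HL.hadStmt_of numStmt' (Crest.Agent.H7.Had.gStmt recStmt arrStmt' NT.netB (xorStmt' hS)
    (HL.linStmt numStmt') (HL.slowStmt arrStmt' (HL.linStmt numStmt')))

end Crest.Agent.H9.IM
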