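import Crest.Agent.H7.HadI
import Crest.Agent.H3.IMArr2
import Crest.Agent.H3.IMArith

/-! Row 326: entrywise linear combinations, the slow transform, and the reduction of `HadStmt`. -/

set_option autoImplicit false
set_option linter.unusedVariables false
set_option linter.unusedSimpArgs false

namespace Crest.Agent.H9.IM.HL
open Crest.Agent.H9.IM Crest.Agent.H3.Ptime Crest.Agent.H7.Had Finset

lemma gam_le : gam ≤ 1 := by
  unfold gam; rw [div_le_one (by positivity)]; exact one_le_pow₀ (by norm_num)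

lemma lt_MM {u x : ℕ} (h : x < MM u) : x ≤ 2 ^ (2 * u) := by unfold MM at h; omega

lemma sz_res {u x : ℕ} (h : x < MM u) : sz x ≤ 8 * u + 8 := by
  have := sz_le_pow (lt_MM h); omega

lemma sz_unit_list (u : List Unit) : sz u = 2 * u.length + 1 := by
  induction u with
  | nil => rfl
  | cons a u ih => rw [sz_cons, ih, sz_unit]; simp; ring

def ent (x : (List Unit × ℕ × ℕ) × ℕ × ℕ) : ℕ :=
  (x.1.2.1 * x.2.1 + x.1.2.2 * x.2.2) % MM x.1.1.length

def EntS (x : (List Unit × ℕ × ℕ) × ℕ × ℕ) (T : ℕ) : Prop :=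
  1 ≤ x.1.1.length ∧ x.1.2.1 < MM x.1.1.length ∧ x.1.2.2 < MM x.1.1.length ∧
    x.2.1 < MM x.1.1.length ∧ x.2.2 < MM x.1.1.length ∧
    (2 * x.1.1.length + 2 : ℝ) ^ (1 + gam) ≤ T

lemma mul_cost {u a b T : ℕ} (ha : a < MM u) (hb : b < MM u)
    (hT : (2 * u + 2 : ℝ) ^ (1 + gam) ≤ T) : (sz (a, b) : ℝ) ^ (1 + gam) ≤ ((81 * T : ℕ) : ℝ) := by
  have h1 : (sz (a, b) : ℝ) ≤ 9 * (2 * u + 2) := by
    have := sz_res ha; have := sz_res hb
    have : sz (a, b) ≤ 9 * (2 * u + 2) := by rw [sz_pair]; omega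
    exact_mod_cast this
  have h2 : (9 : ℝ) ^ (1 + gam) ≤ 81 := by
    calc (9 : ℝ) ^ (1 + gam) ≤ 9 ^ (2 : ℝ) :=
          Real.rpow_le_rpow_of_exponent_le (by norm_num) (by linarith [gam_le])
      _ = 81 := by norm_num
  calc (sz (a, b) : ℝ) ^ (1 + gam) ≤ (9 * (2 * u + 2)) ^ (1 + gam) :=
        Real.rpow_le_rpow (by positivity) h1 (by linarith [gam_pos])
    _ = 9 ^ (1 + gam) * (2 * u + 2) ^ (1 + gam) := Real.mul_rpow (by norm_num) (by positivity)
    _ ≤ 81 * T := by gcongr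
    _ = _ := by push_cast; ring

lemma cc_ent (hN : NumStmt) : CC ent EntS := by
  have hm := hN.mul gam gam_pos
  have h1 : CC (fun x : (List Unit × ℕ × ℕ) × ℕ × ℕ => x.1.2.1 * x.2.1) EntS :=
    hm.comp3 (f := fun x : (List Unit × ℕ × ℕ) × ℕ × ℕ => (x.1.2.1, x.2.1)) (by fun_prop) 81
      (fun x T h => ⟨81 * T, mul_cost h.2.1 h.2.2.2.1 h.2.2.2.2.2, by omega⟩)
  have h2 : CC (fun x : (List Unit × ℕ × ℕ) × ℕ × ℕ => x.1.2.2 * x.2.2) EntS :=
    hm.comp3 (f := fun x : (List Unit × ℕ × ℕ) × ℕ × ℕ => (x.1.2.2, x.2.2)) (by fun_prop) 81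
      (fun x T h => ⟨81 * T, mul_cost h.2.2.1 h.2.2.2.2.1 h.2.2.2.2.2, by omega⟩)
  refine hN.modM.comp2 (f := fun x : (List Unit × ℕ × ℕ) × ℕ × ℕ =>
    (x.1.2.1 * x.2.1 + x.1.2.2 * x.2.2, x.1.1)) ((h1.add h2).pair (by fun_prop)) ?_
  rintro ⟨⟨u, c1, c2⟩, x, y⟩ T ⟨hu, a1, a2, a3, a4, -⟩
  simp only at *
  have b1 := Nat.mul_le_mul (lt_MM a1) (lt_MM a3)
  have b2 := Nat.mul_le_mul (lt_MM a2) (lt_MM a4)
  have : 2 ^ (2 * u.length) * 2 ^ (2 * u.length) * 4 ≤ 2 ^ (6 * u.length) := by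
    rw [← pow_add, show 4 = 2 ^ 2 from rfl, ← pow_add]
    exact Nat.pow_le_pow_right (by norm_num) (by omega)
  have : 0 < 2 ^ (2 * u.length) * 2 ^ (2 * u.length) := by positivity
  omega

def clin (x : (List Unit × ℕ × ℕ) × List ℕ × List ℕ) : List ℕ :=
  (x.2.1.zip x.2.2).map (fun p => ent (x.1, p))

def ClS (x : (List Unit × ℕ × ℕ) × List ℕ × List ℕ) (T : ℕ) : Prop :=
  1 ≤ x.1.1.length ∧ x.1.2.1 < MM x.1.1.length ∧ x.1.2.2 < MM x.1.1.length ∧
    (∀ a ∈ x.2.1, a < MM x.1.1.length) ∧ (∀ a ∈ x.2.2, a < MM x.1.1.length) ∧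
    x.2.1.length * (2 * x.1.1.length + 2 : ℝ) ^ (1 + gam) ≤ T

lemma base_le (u : ℕ) : (2 * u + 2 : ℝ) ≤ (2 * u + 2 : ℝ) ^ (1 + gam) := by
  have := le_rpow_gam (2 * u + 1)
  push_cast at this
  rwa [show (2 * (u : ℝ) + 1 + 1) = 2 * u + 2 by ring] at this

lemma cc_clin (hN : NumStmt) : CC clin ClS := by
  have h := CC.mapCU (f := fun (e : List Unit × ℕ × ℕ) (p : ℕ × ℕ) => ent (e, p)) (cc_ent hN)
  refine h.comp3 (f := fun x : (List Unit × ℕ × ℕ) × List ℕ × List ℕ => (x.1, x.2.1.zip x.2.2))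
    (by fun_prop) 12 ?_
  rintro ⟨⟨u, c1, c2⟩, a, b⟩ T ⟨hu, a1, a2, a3, a4, a5⟩
  simp only at *
  set t := ⌈(2 * u.length + 2 : ℝ) ^ (1 + gam)⌉₊ with ht
  refine ⟨_, ⟨t, fun p hp => ⟨hu, a1, a2, a3 _ (List.of_mem_zip hp).1, a4 _ (List.of_mem_zip hp).2,
    Nat.le_ceil _⟩, le_rfl⟩, ?_⟩
  have h1 := base_le u.length
  have h2 : (t : ℝ) ≤ (2 * u.length + 2 : ℝ) ^ (1 + gam) + 1 := (Nat.ceil_lt_add_one (by positivity)).le
  have h3 : sz (u, c1, c2) ≤ 18 * u.length + 19 := by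
    have := sz_res a1; have := sz_res a2
    rw [sz_pair, sz_pair, sz_unit_list]; omega
  have h4 : ((a.zip b).length : ℝ) ≤ a.length := by exact_mod_cast (by simp : (a.zip b).length ≤ a.length)
  have h5 : (sz (u, c1, c2) : ℝ) ≤ 18 * u.length + 19 := by exact_mod_cast h3
  have : (((a.zip b).length * (t + sz (u, c1, c2)) : ℕ) : ℝ) ≤ ((12 * T : ℕ) : ℝ) := by
    push_cast
    calc ((a.zip b).length : ℝ) * (t + sz (u, c1, c2))
        ≤ a.length * (12 * (2 * u.length + 2 : ℝ) ^ (1 + gam)) := by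
          refine mul_le_mul h4 ?_ (by positivity) (by positivity)
          have : (0 : ℝ) ≤ u.length := by positivity
          linarith
      _ ≤ 12 * T := by linarith
  have : (a.zip b).length * (t + sz (u, c1, c2)) ≤ 12 * T := by exact_mod_cast this
  omega

lemma clin_eq {u : List Unit} {c1 c2 V : ℕ} {a b : List ℕ} (ha : a.length = V) (hb : b.length = V) :
    clin ((u, c1, c2), a, b) = (List.range V).map fun e =>
      ((c1 : ZMod (MM u.length)) * ((a.getD e 0 : ℕ) : ZMod (MM u.length)) +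
        (c2 : ZMod (MM u.length)) * ((b.getD e 0 : ℕ) : ZMod (MM u.length))).val := by
  refine List.ext_getElem (by simp [clin, ha, hb]) fun e h1 h2 => ?_
  have he : e < V := by simpa using h2
  simp only [clin, ent, List.getElem_map, List.getElem_zip, List.getElem_range]
  rw [List.getD_eq_getElem _ _ (ha ▸ he), List.getD_eq_getElem _ _ (hb ▸ he), ← ZMod.val_natCast]
  push_cast; rfl

theorem linStmt (hN : NumStmt) : LinStmt := by
  have h := CC.mapCU (f := fun (e : List Unit × ℕ × ℕ) (p : List ℕ × List ℕ) => clin (e, p))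
    (cc_clin hN)
  refine (h.comp3 (f := fun x : (List Unit × ℕ × ℕ) × Arr × Arr => (x.1, x.2.1.zip x.2.2))
    (by fun_prop) 12 ?_).congr ?_
  · rintro ⟨⟨u, c1, c2⟩, A, B⟩ T ⟨N, V, hu, a1, a2, hA, hB, hT⟩
    simp only at *
    set t := ⌈V * (2 * u.length + 2 : ℝ) ^ (1 + gam)⌉₊ with ht
    refine ⟨_, ⟨t, fun p hp => ⟨hu, a1, a2, (hA.2 _ (List.of_mem_zip hp).1).2,
      (hB.2 _ (List.of_mem_zip hp).2).2, ?_⟩, le_rfl⟩, ?_⟩
    · simp only [(hA.2 _ (List.of_mem_zip hp).1).1]; exact Nat.le_ceil _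
    have h1 := base_le u.length
    have h2 : (t : ℝ) ≤ V * (2 * u.length + 2 : ℝ) ^ (1 + gam) + 1 :=
      (Nat.ceil_lt_add_one (by positivity)).le
    have h3 : sz (u, c1, c2) ≤ 18 * u.length + 19 := by
      have := sz_res a1; have := sz_res a2
      rw [sz_pair, sz_pair, sz_unit_list]; omega
    have h4 : ((A.zip B).length : ℝ) ≤ N + 1 := by
      have : (A.zip B).length ≤ N + 1 := by simp [hA.1]
      exact_mod_cast this
    have h5 : (sz (u, c1, c2) : ℝ) ≤ 18 * u.length + 19 := by exact_mod_cast h3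
    have : (((A.zip B).length * (t + sz (u, c1, c2)) : ℕ) : ℝ) ≤ ((12 * T : ℕ) : ℝ) := by
      push_cast
      calc ((A.zip B).length : ℝ) * (t + sz (u, c1, c2))
          ≤ (N + 1) * (12 * ((V + 1) * (2 * u.length + 2 : ℝ) ^ (1 + gam))) := by
            refine mul_le_mul h4 ?_ (by positivity) (by positivity)
            have : (0 : ℝ) ≤ u.length := by positivity
            have : (0 : ℝ) ≤ V * (2 * u.length + 2 : ℝ) ^ (1 + gam) := by positivity
            linarith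
        _ ≤ 12 * T := by linarith
    have : (A.zip B).length * (t + sz (u, c1, c2)) ≤ 12 * T := by exact_mod_cast this
    omega
  · rintro ⟨⟨u, c1, c2⟩, A, B⟩ T ⟨N, V, hu, a1, a2, hA, hB, hT⟩
    simp only at *
    refine List.ext_getElem (by simp [lin, toArr, hA.1, hB.1]) fun i h1 h2 => ?_
    have hi : i < A.length := by simpa [lin, toArr] using h2
    have hi' : i < B.length := by rw [hB.1, ← hA.1]; exact hi
    simp only [lin, toArr, List.getElem_map, List.getElem_zip, List.getElem_range, ofArr]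
    rw [clin_eq (hA.2 _ (List.getElem_mem hi)).1 (hB.2 _ (List.getElem_mem hi')).1,
      hA.head (by rw [← hA.1]; omega), List.getD_eq_getElem _ _ hi, List.getD_eq_getElem _ _ hi']

end Crest.Agent.H9.IM.HL
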