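import Crest.Agent.H9.IMHadL

/-! Row 326: the slow transform and the reduction of `HadStmt` to `GStmt`. -/

set_option autoImplicit false
set_option linter.unusedVariables false
set_option linter.unusedSimpArgs false

namespace Crest.Agent.H9.IM.HL
open Crest.Agent.H9.IM Crest.Agent.H3.Ptime Crest.Agent.H7.Had Finset

variable {Q : Type} [Enc Q]

lemma ac_id (P : Q → ℕ → Arr → Prop) (X : Q → ℝ) : AC (fun _ A => A) P X :=
  AC_iff.2 ⟨1, by fun_prop, fun q V w A _ h => ⟨h, by simp⟩⟩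

lemma ac_lin (hL : LinStmt) {f g : Q → Arr → Arr} {P : Q → ℕ → Arr → Prop} {X : Q → ℝ}
    (hf : AC f P X) (hg : AC g P X) (u : Q → List Unit) (c1 c2 : Q → ℕ) (hu : PT u) (h1 : PT c1)
    (h2 : PT c2) (H : ∀ q w A, P q w A → w = 2 * (u q).length + 1 ∧ 1 ≤ (u q).length ∧
      c1 q < MM (u q).length ∧ c2 q < MM (u q).length ∧ 0 < A.length ∧ (f q A).length = A.length ∧
      (g q A).length = A.length ∧ (∀ c ∈ f q A, ∀ x ∈ c, x < MM (u q).length) ∧
      (∀ c ∈ g q A, ∀ x ∈ c, x < MM (u q).length)) :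
    AC (fun q A => lin (u q).length (c1 q) (c2 q) (f q A) (g q A)) P X := by
  obtain ⟨k1, a1, b1⟩ := AC_iff.1 hf
  obtain ⟨k2, a2, b2⟩ := AC_iff.1 hg
  obtain ⟨k3, a3⟩ := CC_pt (h := fun q => (u q, c1 q, c2 q)) (hu.pair (h1.pair h2))
  refine AC_iff.2 ⟨k1 + k2 + k3 + 2, ?_, ?_⟩
  · refine CC.comp3 hL (f := fun x : Q × Arr => ((u x.1, c1 x.1, c2 x.1), f x.1 x.2, g x.1 x.2))
      ((a3 P X _ (by omega)).pair ((a1.mono fun x T h => h.mono_k (by omega)).pair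
        (a2.mono fun x T h => h.mono_k (by omega)))) 20 ?_
    rintro ⟨q, A⟩ T ⟨V, w, Λ, p1, p2, p3, p4, p5, p6, p7, p8⟩
    obtain ⟨rfl, e2, e3, e4, e5, e6, e7, e8, e9⟩ := H q _ A p1
    simp only at *
    refine ⟨⌈(A.length + 1 : ℝ) * ((V + 1) * (2 * (u q).length + 2 : ℝ) ^ (1 + gam))⌉₊,
      ⟨A.length, V, e2, e3, e4, ⟨e6, fun c hc => ⟨((b1 q V _ A p1 p2).1 c hc).1, e8 c hc⟩⟩,
        ⟨e7, fun c hc => ⟨((b2 q V _ A p1 p2).1 c hc).1, e9 c hc⟩⟩, Nat.le_ceil _⟩, ?_⟩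
    refine (Nat.ceil_le.2 ?_).trans (show 16 * T ≤ _ by omega)
    unfold cst at p8
    push_cast at p8 ⊢
    have hΛ : (2 : ℝ) ≤ Λ := by exact_mod_cast p6
    have hw : (2 * (u q).length + 2 : ℝ) ≤ 2 * Λ := by
      have : 2 * (u q).length + 2 ≤ 2 * Λ := by omega
      exact_mod_cast this
    have h5 : (2 * (u q).length + 2 : ℝ) ^ (1 + gam) ≤ 4 * (Λ : ℝ) ^ 2 := by
      calc (2 * (u q).length + 2 : ℝ) ^ (1 + gam) ≤ (2 * Λ : ℝ) ^ (1 + gam) :=
            Real.rpow_le_rpow (by positivity) hw (by linarith [gam_pos])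
        _ ≤ (2 * Λ : ℝ) ^ (2 : ℝ) :=
            Real.rpow_le_rpow_of_exponent_le (by linarith) (by linarith [gam_le])
        _ = 4 * (Λ : ℝ) ^ 2 := by rw [Real.rpow_two]; ring
    have h6 : (Λ : ℝ) ^ 2 ≤ (Λ : ℝ) ^ (k1 + k2 + k3 + 2) := pow_le_pow_right₀ (by linarith) (by omega)
    rw [show (2 * ((u q).length : ℝ) + 1 + 1) = 2 * (u q).length + 2 by ring] at p8
    set Y := (2 * (u q).length + 2 : ℝ) ^ (1 + gam) with hY
    have hY0 : 0 ≤ Y := by positivity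
    have h7 : (V + 1 : ℝ) * Y ≤ 4 * (V * Y * (X q + 1) + (Λ : ℝ) ^ (k1 + k2 + k3 + 2)) := by
      have : 0 ≤ V * Y * X q := by positivity
      have : 0 ≤ V * Y := by positivity
      nlinarith
    have h8 := mul_le_mul_of_nonneg_left h7 (show (0 : ℝ) ≤ A.length + 1 by positivity)
    have : (0 : ℝ) ≤ T := by positivity
    nlinarith
  · intro q V w A p1 p2
    obtain ⟨rfl, e2, e3, e4, e5, e6, e7, e8, e9⟩ := H q _ A p1
    have hs : Sh (u q).length A.length V (f q A) :=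
      ⟨e6, fun c hc => ⟨((b1 q V _ A p1 p2).1 c hc).1, e8 c hc⟩⟩
    unfold lin
    rw [hs.head e5]
    exact ⟨(sh_toArr _ _ _ _).bd, by rw [(sh_toArr _ _ _ _).1, e6]; nlinarith⟩

def cM (u : List Unit) : ℕ := 2 ^ (2 * u.length) + 1
def cA (u : List Unit) : ℕ := ((1 + 2 ^ u.length) * ((cM u + 1) / 2)) % cM u
def cB (u : List Unit) : ℕ := ((1 + (cM u - 2 ^ u.length)) * ((cM u + 1) / 2)) % cM u

lemma pt_p1 : PT (fun u : List Unit => 2 ^ u.length) :=
  PT.pow (PT.const 2) (by fun_prop) (PB.length PT.id')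
lemma pt_cM : PT cM := by
  have := pt_p1
  exact (show PT (fun u : List Unit => 2 ^ u.length * 2 ^ u.length + 1) by fun_prop).of_eq
    (fun u => by unfold cM; ring)
lemma pt_cA : PT cA := by have := pt_p1; have := pt_cM; unfold cA; fun_prop
lemma pt_cB : PT cB := by have := pt_p1; have := pt_cM; unfold cB; fun_prop

lemma cM_pos (u : List Unit) : 0 < cM u := by unfold cM; positivity
lemma pow_le_cM (u : List Unit) : 2 ^ u.length ≤ cM u :=
  (Nat.pow_le_pow_right (by norm_num) (by omega)).trans (Nat.le_succ _)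

lemma cast_negI (u : List Unit) :
    ((cM u - 2 ^ u.length : ℕ) : ZMod (MM u.length)) = -II u.length := by
  rw [Nat.cast_sub (pow_le_cM u), show cM u = MM u.length from rfl, ZMod.natCast_self, zero_sub]
  rfl

lemma cast_cA (u : List Unit) : (cA u : ZMod (MM u.length)) = (1 + II u.length) * eta u.length := by
  unfold cA
  rw [show cM u = MM u.length from rfl, ZMod.natCast_mod, Nat.cast_mul, Nat.cast_add, Nat.cast_one]
  rfl
lemma cast_cB (u : List Unit) : (cB u : ZMod (MM u.length)) = (1 - II u.length) * eta u.length := by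
  unfold cB
  have := cast_negI u
  rw [show cM u = MM u.length from rfl] at this ⊢
  rw [ZMod.natCast_mod, Nat.cast_mul, Nat.cast_add, Nat.cast_one, this, sub_eq_add_neg]
  rfl

lemma pc_xor (hA : ArrStmt) : PC (fun (m : ℕ) i => if i / m % 2 = 0 then i + m else i - m)
    (fun m N => ∃ b, m = 2 ^ b ∧ m * 2 ∣ N) (fun _ => 0) := by
  refine hA.pmono (hA.ppull (fun (m : ℕ) i => if i / m % 2 = 0 then i + m else i - m)
    (fun m i => i / m % 2) 2 (by fun_prop) (by fun_prop)) id _ _ _ 0 PT.id' ?_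
  rintro m N ⟨b, rfl, h⟩
  refine ⟨⟨fun i hi => ⟨Nat.mod_lt _ (by norm_num), ?_⟩, fun i j hij _ e => ?_⟩, fun _ _ => rfl,
    le_rfl, by simp⟩
  · simp only [id]; rw [← xor_two_pow]; exact xor_two_pow_lt h hi
  · simp only [id] at e ⊢
    rw [e]; split_ifs <;> omega

lemma ofArr_pull {M N : ℕ} (π : ℕ → ℕ) (A : Arr) (e i : ℕ) (hi : i < N) (h : π i < A.length) :
    ofArr M (pullN N π A) e i = ofArr M A e (π i) := by
  have : (pullN N π A).getD i [] = A.getD (π i) [] := by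
    rw [List.getD_eq_getElem _ _ (by simpa using hi), List.getD_eq_getElem A _ h]
    simp [pullN, h]
  unfold ofArr
  rw [this]

lemma mem_pull {N : ℕ} {π : ℕ → ℕ} {A : Arr} (h : ∀ i < N, π i < A.length) {c : List ℕ}
    (hc : c ∈ pullN N π A) : c ∈ A := by
  obtain ⟨i, hi, rfl⟩ := List.mem_map.1 hc
  rw [List.getD_eq_getElem _ _ (h i (by simpa using hi))]
  exact List.getElem_mem _

def lay1 (x : HQ × ℕ) (A : Arr) : Arr :=
  lin x.1.1.length (cA x.1.1) (cB x.1.1) A (pullN A.length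
    (fun i => if i / (x.1.2.1 * x.1.2.2.1 ^ min x.2 x.1.2.2.2.length) % 2 = 0 then
      i + x.1.2.1 * x.1.2.2.1 ^ min x.2 x.1.2.2.2.length
      else i - x.1.2.1 * x.1.2.2.1 ^ min x.2 x.1.2.2.2.length) A)

lemma ac_lay1 (hA : ArrStmt) (hL : LinStmt) : AC lay1 (fun x w A => w = 2 * x.1.1.length + 1 ∧
    1 ≤ x.1.1.length ∧ (∀ c ∈ A, ∀ y ∈ c, y < MM x.1.1.length) ∧ 0 < A.length ∧
    ∃ b, x.1.2.1 * x.1.2.2.1 ^ min x.2 x.1.2.2.2.length = 2 ^ b ∧ 2 ^ b * 2 ∣ A.length)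
    (fun _ => 0) := by
  have hm : PT (fun x : HQ × ℕ => x.1.2.1 * x.1.2.2.1 ^ min x.2 x.1.2.2.2.length) :=
    PT.mul (by fun_prop) (PT.pow (by fun_prop) (by fun_prop)
      (PB.min (PB.length (by fun_prop))))
  refine ac_lin hL (ac_id _ _) (AC.mono (pc_xor hA).1 _ _ _ _ 0 hm ?_) (fun x => x.1.1) _ _
    (by fun_prop) (pt_cA.comp (by fun_prop)) (pt_cB.comp (by fun_prop)) ?_
  · rintro x w A ⟨-, -, -, -, b, h1, h2⟩
    exact ⟨⟨b, h1, h1 ▸ h2⟩, rfl, le_rfl, by simp⟩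
  · rintro x w A ⟨h1, h2, h3, h4, b, h5, h6⟩
    refine ⟨h1, h2, Nat.mod_lt _ (cM_pos _), Nat.mod_lt _ (cM_pos _), h4, rfl, by simp, h3,
      fun c hc => h3 c (mem_pull (fun i hi => ?_) hc)⟩
    rw [h5, ← xor_two_pow]; exact xor_two_pow_lt h6 hi

lemma dvd_layer {b B K j N : ℕ} (h : 2 ^ b * (2 ^ B) ^ (K - 1) * 2 ∣ N) (hj : j < K) :
    2 ^ (b + B * j) * 2 ∣ N := by
  refine Dvd.dvd.trans (Nat.mul_dvd_mul_right ?_ 2) h
  rw [← pow_mul, ← pow_add]
  exact pow_dvd_pow _ (by have := Nat.mul_le_mul_left B (show j ≤ K - 1 by omega); omega)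

lemma fold_lay1 (u : List Unit) (b B : ℕ) (K : List Unit) (N V : ℕ) (hN : 0 < N)
    (h : 2 ^ b * (2 ^ B) ^ (K.length - 1) * 2 ∣ N) (v : ℕ → ℕ → ZMod (MM u.length)) :
    ∀ j ≤ K.length, (List.range j).foldl (fun A j => lay1 ((u, 2 ^ b, 2 ^ B, K), j) A) (toArr N V v) =
      toArr N V (fun e => act (GG (eta _) (II _) (2 ^ b) (2 ^ B) j) (v e)) := by
  intro j
  induction j with
  | zero => intro _; simp [GG]
  | succ j ih =>
    intro hj
    rw [List.range_succ, List.foldl_append, ih (by omega)]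
    simp only [List.foldl_cons, List.foldl_nil, lay1, lin, (sh_toArr _ N V _).1,
      (sh_toArr _ N V _).head hN, min_eq_left (show j ≤ K.length by omega)]
    refine toArr_congr fun e he i hi => ?_
    have hp : 2 ^ b * (2 ^ B) ^ j = 2 ^ (b + B * j) := by rw [← pow_mul, ← pow_add]
    have hx := xor_two_pow_lt (dvd_layer h (show j < K.length by omega)) hi
    rw [ofArr_pull _ _ _ _ hi (by rw [(sh_toArr _ N V _).1, hp, ← xor_two_pow]; exact hx), hp,
      ← xor_two_pow, ofArr_toArr _ he hi, ofArr_toArr _ he hx, cast_cA, cast_cB, GG, GG,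
      prod_range_succ, mul_comm (∏ _ ∈ _, _), map_mul, Module.End.mul_apply, act_gX, hp]

theorem slowStmt (hA : ArrStmt) (hL : LinStmt) : SlowStmt := by
  have h := hA.loop (ac_lay1 hA hL) (fun q => q.2.2.2.length) (fun q => q.2.2.2.length)
    (by fun_prop) (PB.length (by fun_prop))
  obtain ⟨k, h1, h2⟩ := AC_iff.1 h
  have key : ∀ (q : HQ) (w V : ℕ) (A : Arr), (w = 2 * q.1.length + 1 ∧ 1 ≤ q.1.length ∧
      (∀ c ∈ A, ∀ x ∈ c, x < MM q.1.length) ∧ ∃ b B : ℕ, q.2.1 = 2 ^ b ∧ q.2.2.1 = 2 ^ B ∧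
      0 < A.length ∧ q.2.1 * q.2.2.1 ^ (q.2.2.2.length - 1) * 2 ∣ A.length) → Bd V w A →
      ((∀ j < q.2.2.2.length, (0 : ℝ) ≤ 0 ∧ (w = 2 * q.1.length + 1 ∧ 1 ≤ q.1.length ∧
        (∀ c ∈ (List.range j).foldl (fun A j => lay1 (q, j) A) A, ∀ y ∈ c, y < MM q.1.length) ∧
        0 < ((List.range j).foldl (fun A j => lay1 (q, j) A) A).length ∧
        ∃ b, q.2.1 * q.2.2.1 ^ min j q.2.2.2.length = 2 ^ b ∧
          2 ^ b * 2 ∣ ((List.range j).foldl (fun A j => lay1 (q, j) A) A).length) ∧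
        ((List.range (j + 1)).foldl (fun A j => lay1 (q, j) A) A).length = A.length) ∧
        ∑ j ∈ range q.2.2.2.length, ((0 : ℝ) + 1) ≤ q.2.2.2.length + 1) ∧
      (List.range q.2.2.2.length).foldl (fun A j => lay1 (q, j) A) A = FF q A := by
    rintro ⟨u, lo, D, K⟩ w V A ⟨p1, p2, p3, b, B, rfl, rfl, p4, p5⟩ hb
    simp only at *
    have hs : Sh u.length A.length V A := ⟨rfl, fun c hc => ⟨(hb c hc).1, p3 c hc⟩⟩
    have e := fold_lay1 u b B K A.length V p4 p5 (ofArr _ A)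
    rw [toArr_ofArr hs] at e
    refine ⟨⟨fun j hj => ⟨le_rfl, ⟨p1, p2, ?_, ?_, b + B * j, ?_, ?_⟩, ?_⟩, by simp⟩, ?_⟩
    · rw [e j hj.le]; exact fun c hc => ((sh_toArr _ _ _ _).2 c hc).2
    · rw [e j hj.le, (sh_toArr _ _ _ _).1]; exact p4
    · rw [min_eq_left hj.le, ← pow_mul, ← pow_add]
    · rw [e j hj.le, (sh_toArr _ _ _ _).1]; exact dvd_layer p5 hj
    · rw [e (j + 1) hj, (sh_toArr _ _ _ _).1]
    · rw [e _ le_rfl, FF, app, hs.head p4]
  refine AC_iff.2 ⟨k, (h1.mono ?_).congr ?_, fun q V w A hp hb => ?_⟩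
  · rintro ⟨q, A⟩ T ⟨V, w, Λ, p1, p2, p3⟩
    exact ⟨V, w, Λ, (key q w V A p1 p2).1, p2, p3⟩
  · rintro ⟨q, A⟩ T ⟨V, w, Λ, p1, p2, p3⟩
    exact (key q w V A p1 p2).2
  · have := h2 q V w A (key q w V A hp hb).1 hb
    rwa [(key q w V A hp hb).2] at this

def dgA (cf : HQ × ℕ → ℕ) (q : HQ) (A : Arr) : Arr :=
  toArr A.length (A.headD []).length
    (fun e i => (cf (q, i) : ZMod (MM q.1.length)) * ofArr (MM q.1.length) A e i)

def dstep (cf : HQ × ℕ → ℕ) (s : HQ × ℕ) (c : List ℕ) : (HQ × ℕ) × List (List ℕ) :=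
  ((s.1, s.2 + 1), [clin ((s.1.1, cf s % cM s.1.1, 0), c, c)])

lemma mapAcc_dstep (cf : HQ × ℕ → ℕ) (q : HQ) (A : Arr) : ∀ i, (mapAcc (dstep cf) (q, i) A).2 =
    (A.zipIdx i).map (fun p => clin ((q.1, cf (q, p.2) % cM q.1, 0), p.1, p.1)) := by
  induction A with
  | nil => intro i; rfl
  | cons c A ih => intro i; simp [mapAcc, dstep, List.zipIdx_cons, ← ih]

lemma ac_dgA (hN : NumStmt) {cf : HQ × ℕ → ℕ} (hc : PT cf) (X : HQ → ℝ) :
    AC (dgA cf) (fun q w A => w = 2 * q.1.length + 1 ∧ 1 ≤ q.1.length ∧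
      (∀ c ∈ A, ∀ x ∈ c, x < MM q.1.length) ∧ 0 < A.length) X := by
  obtain ⟨k, hk⟩ := CC.ofPT (show PT (fun s : HQ × ℕ => cf s % cM s.1.1) from
    PT.mod hc (pt_cM.comp (by fun_prop)))
  let S : (HQ × ℕ) × List ℕ → ℕ → Prop := fun p T => sz p.1 ^ k ≤ T ∧ 1 ≤ p.1.1.1.length ∧
    (∀ x ∈ p.2, x < MM p.1.1.1.length) ∧
    p.2.length * (2 * p.1.1.1.length + 2 : ℝ) ^ (1 + gam) ≤ T
  have h1 : CC (fun p : (HQ × ℕ) × List ℕ => cf p.1 % cM p.1.1.1) S :=
    hk.comp2 (f := fun p : (HQ × ℕ) × List ℕ => p.1) (by fun_prop) (fun a T h => h.1)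
  have h2 : CC (fun p : (HQ × ℕ) × List ℕ =>
      clin ((p.1.1.1, cf p.1 % cM p.1.1.1, 0), p.2, p.2)) S :=
    (cc_clin hN).comp2 (by fun_prop) (fun a T h => ⟨h.2.1, Nat.mod_lt _ (cM_pos _), cM_pos _,
      h.2.2.1, h.2.2.1, h.2.2.2⟩)
  have h3 : CC (fun p : (HQ × ℕ) × List ℕ => dstep cf p.1 p.2) S := by unfold dstep; fun_prop
  refine AC_iff.2 ⟨5 * k + 5, ?_, ?_⟩
  · refine ((CC.mapAcc h3).comp3 (f := fun x : HQ × Arr => ((x.1, 0), x.2)) (by fun_prop) 4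
      ?_).snd.congr ?_
    · rintro ⟨q, A⟩ T ⟨V, w, Λ, ⟨rfl, p2, p3, p4⟩, b, p5, p6, p7, p8, p9, p10⟩
      simp only at *
      set t := ⌈V * (2 * q.1.length + 2 : ℝ) ^ (1 + gam)⌉₊ + Λ ^ (5 * k + 5) with ht
      have hΛ : Λ ^ 5 ≤ Λ ^ (5 * k + 5) := Nat.pow_le_pow_right (by omega) (by omega)
      refine ⟨_, AccRun.of_inv (fun s l => s.1 = q ∧ s.2 + l.length = A.length ∧ ∀ c ∈ l, c ∈ A)
        (fun _ => t + Λ ^ (5 * k + 5)) ?_ A (q, 0) ⟨rfl, by simp, fun _ h => h⟩, ?_⟩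
      · rintro ⟨q', i⟩ c l ⟨rfl, i2, i3⟩
        simp only [List.length_cons] at *
        have hs : sz (q', i) ≤ Λ ^ 5 := by
          have := sz_le_pow (show i ≤ 2 ^ Λ by omega)
          have := ten_le p8
          rw [sz_pair]; omega
        refine ⟨⟨rfl, by simp only [dstep]; omega, fun c hc => i3 c (by simp [hc])⟩, t,
          ⟨?_, p2, p3 c (i3 c (by simp)), ?_⟩, by omega⟩
        · calc sz (q', i) ^ k ≤ (Λ ^ 5) ^ k := Nat.pow_le_pow_left hs k
            _ ≤ Λ ^ (5 * k + 5) := by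
              rw [← pow_mul]; exact Nat.pow_le_pow_right (by omega) (by omega)
            _ ≤ t := by omega
        · simp only [(b c (i3 c (by simp))).1, ht]
          push_cast
          have := Nat.le_ceil (V * (2 * q'.1.length + 2 : ℝ) ^ (1 + gam))
          have : (0 : ℝ) ≤ (Λ : ℝ) ^ (5 * k + 5) := by positivity
          linarith
      · simp only [List.map_const', List.sum_replicate, smul_eq_mul]
        refine le_trans ?_ (show 3 * T ≤ _ by omega)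
        have : ((A.length * (t + Λ ^ (5 * k + 5)) : ℕ) : ℝ) ≤ ((3 * T : ℕ) : ℝ) := by
          unfold cst at p10
          rw [ht]
          push_cast at p10 ⊢
          rw [show (2 * (q.1.length : ℝ) + 1 + 1) = 2 * q.1.length + 2 by ring] at p10
          have h2 := (Nat.ceil_lt_add_one
            (show 0 ≤ V * (2 * q.1.length + 2 : ℝ) ^ (1 + gam) by positivity)).le
          set Y := (2 * q.1.length + 2 : ℝ) ^ (1 + gam) with hY
          have hY0 : 0 ≤ Y := by positivity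
          have h1 : (1 : ℝ) ≤ (Λ : ℝ) ^ (5 * k + 5) :=
            one_le_pow₀ (by exact_mod_cast (by omega : 1 ≤ Λ))
          have : 0 ≤ V * Y * X q := by positivity
          have : 0 ≤ V * Y := by positivity
          calc (A.length : ℝ) * (⌈V * Y⌉₊ + (Λ : ℝ) ^ (5 * k + 5) + (Λ : ℝ) ^ (5 * k + 5))
              ≤ (A.length + 1) * (3 * (V * Y * (X q + 1) + (Λ : ℝ) ^ (5 * k + 5))) :=
                mul_le_mul (by linarith) (by nlinarith) (by positivity) (by positivity)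
            _ ≤ 3 * T := by linarith
        exact_mod_cast this
    · rintro ⟨q, A⟩ T ⟨V, w, Λ, ⟨rfl, p2, p3, p4⟩, b, -⟩
      simp only at *
      have hs : Sh q.1.length A.length V A := ⟨rfl, fun c hc => ⟨(b c hc).1, p3 c hc⟩⟩
      rw [mapAcc_dstep, dgA, hs.head p4]
      refine List.ext_getElem (by simp [toArr]) fun i h1 h2 => ?_
      have hi : i < A.length := by simpa using h1
      simp only [toArr, List.getElem_map, List.getElem_zipIdx, List.getElem_range, ofArr, zero_add]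
      rw [clin_eq (b _ (List.getElem_mem hi)).1 (b _ (List.getElem_mem hi)).1,
        List.getD_eq_getElem _ _ hi, show cM q.1 = MM q.1.length from rfl, ZMod.natCast_mod]
      simp
  · rintro q V w A ⟨rfl, p2, p3, p4⟩ b
    have hs : Sh q.1.length A.length V A := ⟨rfl, fun c hc => ⟨(b c hc).1, p3 c hc⟩⟩
    unfold dgA
    rw [hs.head p4]
    exact ⟨(sh_toArr _ _ _ _).bd, by rw [(sh_toArr _ _ _ _).1]; nlinarith⟩

def cnt (x : HQ × ℕ) : ℕ :=
  ((List.range x.1.2.2.2.length).filter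
    (fun j => decide (x.2 / (x.1.2.1 * x.1.2.2.1 ^ min j x.1.2.2.2.length) % 2 = 1))).length

def cf1 (x : HQ × ℕ) : ℕ := (2 ^ x.1.1.length) ^ min (cnt x) x.1.2.2.2.length
def cf2 (x : HQ × ℕ) : ℕ := (1 + (cM x.1.1 - 2 ^ x.1.1.length)) ^ x.1.2.2.2.length * cf1 x

lemma pt_cnt : PT cnt := by
  unfold cnt
  refine PT.length (PT.filter (PT.range (by fun_prop) (PB.length (by fun_prop))) ?_)
  have : PT (fun y : (HQ × ℕ) × ℕ => y.1.1.2.2.1 ^ min y.2 y.1.1.2.2.2.length) :=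
    PT.pow (by fun_prop) (by fun_prop) (PB.min (PB.length (by fun_prop)))
  fun_prop

lemma pt_cf1 : PT cf1 := by
  have := pt_cnt
  exact PT.pow (pt_p1.comp (by fun_prop)) (by fun_prop) (PB.min (PB.length (by fun_prop)))

lemma pt_cf2 : PT cf2 := by
  have h1 : PT (fun x : HQ × ℕ => cM x.1.1) := pt_cM.comp (by fun_prop)
  have h2 : PT (fun x : HQ × ℕ => 2 ^ x.1.1.length) := pt_p1.comp (by fun_prop)
  exact PT.mul (PT.pow (by fun_prop) (by fun_prop) (PB.length (by fun_prop))) pt_cf1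

lemma dg_eq {S : Type} [CommRing S] (I : S) (lo D i : ℕ) (K : ℕ) : dg I lo D K i =
    I ^ ((List.range K).filter (fun j => decide (i / (lo * D ^ j) % 2 = 1))).length := by
  induction K with
  | zero => simp [dg]
  | succ K ih =>
    unfold dg at ih ⊢
    rw [prod_range_succ, ih, List.range_succ, List.filter_append, List.length_append, pow_add, dg1]
    rcases Nat.mod_two_eq_zero_or_one (i / (lo * D ^ K)) with h | h <;> simp [h]

lemma cast_cf1 (q : HQ) (i : ℕ) : (cf1 (q, i) : ZMod (MM q.1.length)) =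
    dg (II q.1.length) q.2.1 q.2.2.1 q.2.2.2.length i := by
  have h1 : cnt (q, i) ≤ q.2.2.2.length := (List.length_filter_le _ _).trans (by simp)
  rw [dg_eq, cf1, min_eq_left h1, Nat.cast_pow, cnt]
  congr 2
  exact List.filter_congr fun j hj => by rw [min_eq_left (List.mem_range.1 hj).le]

lemma cast_cf2 (q : HQ) (i : ℕ) : (cf2 (q, i) : ZMod (MM q.1.length)) =
    (1 - II q.1.length) ^ q.2.2.2.length * dg (II q.1.length) q.2.1 q.2.2.1 q.2.2.2.length i := by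
  rw [cf2, Nat.cast_mul, cast_cf1, Nat.cast_pow, Nat.cast_add, cast_negI, Nat.cast_one,
    sub_eq_add_neg]

theorem hadStmt_of (hN : NumStmt) (hG : GStmt) : HadStmt := by
  have key : ∀ (q : HQ) (A : Arr) (V : ℕ), Sh q.1.length A.length V A →
      HP q.2.1 q.2.2.1 q.2.2.2.length A.length →
      dgA cf1 q A = toArr A.length V (fun e i => dg (II _) q.2.1 q.2.2.1 q.2.2.2.length i *
        ofArr (MM q.1.length) A e i) ∧
      FF q (dgA cf1 q A) = toArr A.length V (fun e =>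
        act (GG (eta _) (II _) q.2.1 q.2.2.1 q.2.2.2.length)
          (fun i => dg (II _) q.2.1 q.2.2.1 q.2.2.2.length i * ofArr (MM q.1.length) A e i)) := by
    rintro ⟨u, lo, D, K⟩ A V hs ⟨b, B, rfl, hB, rfl, hK, h1, h2, h3⟩
    have e : dgA cf1 (u, 2 ^ b, 2 ^ B, K) A = toArr A.length V
        (fun e i => dg (II _) (2 ^ b) (2 ^ B) K.length i * ofArr (MM u.length) A e i) := by
      unfold dgA
      rw [hs.head h2]
      exact toArr_congr fun e _ i _ => by rw [cast_cf1]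
    exact ⟨e, by rw [e, FF, app_toArr h2 (loc_GG _ _ (Or.inr h1))]⟩
  refine ⟨fun q A => dgA cf2 q (FF q (dgA cf1 q A)), ?_, ?_⟩
  · obtain ⟨k, h1, h2⟩ := AC_iff.1 ((ac_dgA hN pt_cf2 _).comp (AC.comp hG (ac_dgA hN pt_cf1 _)))
    have imp : ∀ (q : HQ) (V w : ℕ) (A : Arr), (w = 2 * q.1.length + 1 ∧ 1 ≤ q.1.length ∧
        (∀ c ∈ A, ∀ x ∈ c, x < MM q.1.length) ∧ HP q.2.1 q.2.2.1 q.2.2.2.length A.length) →
        Bd V w A → ((w = 2 * q.1.length + 1 ∧ 1 ≤ q.1.length ∧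
        (∀ c ∈ A, ∀ x ∈ c, x < MM q.1.length) ∧ 0 < A.length) ∧ w = 2 * q.1.length + 1 ∧
        1 ≤ q.1.length ∧ (∀ c ∈ dgA cf1 q A, ∀ x ∈ c, x < MM q.1.length) ∧
        HP q.2.1 q.2.2.1 q.2.2.2.length (dgA cf1 q A).length) ∧ w = 2 * q.1.length + 1 ∧
        1 ≤ q.1.length ∧ (∀ c ∈ FF q (dgA cf1 q A), ∀ x ∈ c, x < MM q.1.length) ∧
        0 < (FF q (dgA cf1 q A)).length := by
      rintro q V w A ⟨p1, p2, p3, p4⟩ b
      obtain ⟨e1, e2⟩ := key q A V ⟨rfl, fun c hc => ⟨(b c hc).1, p3 c hc⟩⟩ p4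
      have hN : 0 < A.length := by obtain ⟨_, _, _, _, _, _, _, h, _⟩ := p4; exact h
      rw [e2, e1, (sh_toArr _ _ _ _).1, (sh_toArr _ _ _ _).1]
      exact ⟨⟨⟨p1, p2, p3, hN⟩, p1, p2, fun c hc => ((sh_toArr _ _ _ _).2 c hc).2, p4⟩, p1, p2,
        fun c hc => ((sh_toArr _ _ _ _).2 c hc).2, hN⟩
    refine AC_iff.2 ⟨k, h1.mono ?_, fun q V w A hp hb => h2 q V w A (imp q V w A hp hb) hb⟩
    rintro ⟨q, A⟩ T ⟨V, w, Λ, p1, p2, p3⟩
    exact ⟨V, w, Λ, imp q V w A p1 p2, p2, p3⟩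
  · intro q A V hu hA hp
    have hs : Sh q.1.length A.length V A := ⟨rfl, hA⟩
    obtain ⟨-, e2⟩ := key q A V hs hp
    obtain ⟨u, lo, D, K⟩ := q
    obtain ⟨b, B, rfl, hB, rfl, hK, h1, h2, h3⟩ := hp
    simp only at *
    rw [e2, dgA, (sh_toArr _ _ _ _).1, (sh_toArr _ _ _ _).head h2]
    refine ⟨(sh_toArr _ _ _ _).1, (sh_toArr _ _ _ _).2, fun i hi e => ?_⟩
    rw [hadAll_eq (two_eta hu) (II_sq _) hB]
    change ofArr _ _ e i = _ * act _ (fun i => dg (II u.length) (2 ^ b) (2 ^ B) K.length i *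
      ofArr (MM u.length) A e i) i
    by_cases he : e < V
    · rw [(sh_toArr _ _ _ _).1, ofArr_toArr _ he hi, ofArr_toArr _ he hi, cast_cf2]
    · rw [ofArr_ge (sh_toArr _ _ _ _) (by omega)]
      have : (fun i => dg (II u.length) (2 ^ b) (2 ^ B) K.length i * ofArr (MM u.length) A e i) =
          0 := by funext i; rw [ofArr_ge hs (by omega)]; simp
      rw [this]; simp

end Crest.Agent.H9.IM.HL
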