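import Crest.Agent.H9.IMI

/-! Row 326: a calculus of tokens producing straight-line programs. -/

set_option autoImplicit false
set_option linter.unusedSectionVars false
set_option linter.unusedVariables false

namespace Crest.Agent.H9.IM.NT
open Finset Crest.Agent.H9.IM

section slp
variable {μ S V : Type} [CommRing S] [AddCommGroup V] [Module S V] (η : S) (op : μ → V → V)

lemma slp_append (P Q : List (Ins μ)) (R : List V) :
    slp η op (P ++ Q) R = slp η op Q (slp η op P R) := by simp [slp]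

lemma slp_length (P : List (Ins μ)) (R : List V) :
    (slp η op P R).length = R.length + P.length := by
  induction P generalizing R with
  | nil => simp [slp]
  | cons I P ih =>
    have := ih (R ++ [I.val η op R])
    simp only [slp, List.foldl_cons, List.length_append, List.length_cons, List.length_nil] at this ⊢
    omega

lemma slp_snoc (P : List (Ins μ)) (I : Ins μ) (R : List V) :
    slp η op (P ++ [I]) R = slp η op P R ++ [I.val η op (slp η op P R)] := by simp [slp]
end slp

variable {κ G μ α : Type} [CommRing κ] [CommGroup G] [Fintype α] [DecidableEq α]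

structure Ctx (κ G μ α : Type) where
  η : κ
  op : μ → G
  cst : μ → Bool
  g0 : α → G
  T : ℕ
  ι : α ≃ Fin T

variable (C : Ctx κ G μ α)

def Ok (P : List (Ins μ)) : Prop := ∀ i (h : i < P.length), P[i].ok (C.T + i)

def cost (P : List (Ins μ)) : ℕ := (P.map (Ins.cost C.cst)).sum

def Has (P : List (Ins μ)) (t : G × (α → κ)) (n : ℕ) : Prop :=
  n < C.T + P.length ∧ ∀ (S : Type) [CommRing S] (φ : κ →+* S) (V : Type) [AddCommGroup V]
    [Module S V] (ρ : G →* Module.End S V) (x : List V), x.length = C.T →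
    (slp (φ C.η) (fun m v => ρ (C.op m) v) P x).getD n 0 =
      ∑ a, φ (t.2 a) • ρ (t.1 / C.g0 a) (x.getD (C.ι a) 0)

def Net (S : Set (G × (α → κ))) (r : ℕ) : Prop :=
  ∃ P, Ok C P ∧ cost C P ≤ r ∧ ∀ t ∈ S, ∃ n, Has C P t n

variable {C}

lemma Has.snoc {P : List (Ins μ)} {t : G × (α → κ)} {n : ℕ} (h : Has C P t n) (I : Ins μ) :
    Has C (P ++ [I]) t n := by
  refine ⟨by have := h.1; simp; omega, fun S _ φ V _ _ ρ x hx => ?_⟩
  rw [slp_snoc, List.getD_append _ _ _ _ (by rw [slp_length, hx]; exact h.1)]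
  exact h.2 S φ V ρ x hx

lemma Net.sub {S S' : Set (G × (α → κ))} {r r' : ℕ} (h : Net C S r) (hS : S' ⊆ S) (hr : r ≤ r') :
    Net C S' r' := by
  obtain ⟨P, h1, h2, h3⟩ := h
  exact ⟨P, h1, h2.trans hr, fun t ht => h3 t (hS ht)⟩

lemma Net.init : Net C (Set.range fun a => (C.g0 a, Pi.single a 1)) 0 := by
  refine ⟨[], fun i h => by simp at h, by simp [cost], ?_⟩
  rintro t ⟨a, rfl⟩
  refine ⟨C.ι a, by simp, fun S _ φ V _ _ ρ x hx => ?_⟩
  rw [Finset.sum_eq_single a]
  · simp [slp]
  · intro b _ hb; simp [hb]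
  · simp

lemma Net.ins {P : List (Ins μ)} {S : Set (G × (α → κ))} {r : ℕ} (h1 : Ok C P) (h2 : cost C P ≤ r)
    (h3 : ∀ t ∈ S, ∃ n, Has C P t n) (I : Ins μ) (hI : I.ok (C.T + P.length)) (t : G × (α → κ))
    (ht : ∀ (S : Type) [CommRing S] (φ : κ →+* S) (V : Type) [AddCommGroup V]
      [Module S V] (ρ : G →* Module.End S V) (x : List V), x.length = C.T →
      I.val (φ C.η) (fun m v => ρ (C.op m) v) (slp (φ C.η) (fun m v => ρ (C.op m) v) P x) =
      ∑ a, φ (t.2 a) • ρ (t.1 / C.g0 a) (x.getD (C.ι a) 0)) :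
    Net C (insert t S) (r + I.cost C.cst) := by
  refine ⟨P ++ [I], fun i hi => ?_, by simp [cost] at h2 ⊢; omega, ?_⟩
  · by_cases h : i < P.length
    · rw [List.getElem_append_left h]; exact h1 i h
    · have : i = P.length := by simp at hi; omega
      subst this
      simpa using hI
  · rintro s (rfl | hs)
    · refine ⟨C.T + P.length, by simp, fun S _ φ V _ _ ρ x hx => ?_⟩
      rw [slp_snoc, List.getD_append_right _ _ _ _ (by rw [slp_length, hx])]
      simp only [slp_length, hx, Nat.sub_self, List.getD_cons_zero]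
      exact ht S φ V ρ x hx
    · obtain ⟨n, hn⟩ := h3 s hs
      exact ⟨n, hn.snoc I⟩

lemma Net.zero {S : Set (G × (α → κ))} {r : ℕ} (h : Net C S r) (g : G) :
    Net C (insert (g, 0) S) r := by
  obtain ⟨P, h1, h2, h3⟩ := h
  simpa [Ins.cost] using Net.ins h1 h2 h3 .zero trivial (g, 0) (fun S _ φ V _ _ ρ x hx => by
    simp [Ins.val])

lemma Net.add {S : Set (G × (α → κ))} {r : ℕ} (h : Net C S r) {g : G} {l l' : α → κ}
    (hl : (g, l) ∈ S) (hl' : (g, l') ∈ S) : Net C (insert (g, l + l') S) r := by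
  obtain ⟨P, h1, h2, h3⟩ := h
  obtain ⟨n, hn⟩ := h3 _ hl
  obtain ⟨n', hn'⟩ := h3 _ hl'
  simpa [Ins.cost] using Net.ins h1 h2 h3 (.add n n') ⟨hn.1, hn'.1⟩ (g, l + l')
    (fun S _ φ V _ _ ρ x hx => by
      simp only [Ins.val, hn.2 S φ V ρ x hx, hn'.2 S φ V ρ x hx, Pi.add_apply, map_add, add_smul,
        Finset.sum_add_distrib])

lemma Net.neg {S : Set (G × (α → κ))} {r : ℕ} (h : Net C S r) {g : G} {l : α → κ}
    (hl : (g, l) ∈ S) : Net C (insert (g, -l) S) r := by
  obtain ⟨P, h1, h2, h3⟩ := h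
  obtain ⟨n, hn⟩ := h3 _ hl
  simpa [Ins.cost] using Net.ins h1 h2 h3 (.neg n) hn.1 (g, -l)
    (fun S _ φ V _ _ ρ x hx => by
      simp only [Ins.val, hn.2 S φ V ρ x hx, Pi.neg_apply, map_neg, neg_smul,
        Finset.sum_neg_distrib])

lemma Net.half {S : Set (G × (α → κ))} {r : ℕ} (h : Net C S r) {g : G} {l : α → κ}
    (hl : (g, l) ∈ S) : Net C (insert (g, C.η • l) S) r := by
  obtain ⟨P, h1, h2, h3⟩ := h
  obtain ⟨n, hn⟩ := h3 _ hl
  simpa [Ins.cost] using Net.ins h1 h2 h3 (.half n) hn.1 (g, C.η • l)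
    (fun S _ φ V _ _ ρ x hx => by
      simp only [Ins.val, hn.2 S φ V ρ x hx, Pi.smul_apply, smul_eq_mul, map_mul, mul_smul,
        Finset.smul_sum])

lemma Net.mv {S : Set (G × (α → κ))} {r : ℕ} (h : Net C S r) {g : G} {l : α → κ}
    (hl : (g, l) ∈ S) (m : μ) :
    Net C (insert (g * C.op m, l) S) (r + bif C.cst m then 1 else 0) := by
  obtain ⟨P, h1, h2, h3⟩ := h
  obtain ⟨n, hn⟩ := h3 _ hl
  simpa [Ins.cost] using Net.ins h1 h2 h3 (.mv m n) hn.1 (g * C.op m, l)
    (fun S _ φ V _ _ ρ x hx => by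
      simp only [Ins.val, hn.2 S φ V ρ x hx, map_sum, map_smul]
      refine Finset.sum_congr rfl (fun a _ => ?_)
      rw [← Module.End.mul_apply, ← map_mul]
      congr 3
      rw [mul_comm g, mul_div_assoc])

lemma Net.smul (hκ : ∀ c : κ, ∃ (a : ℤ) (k : ℕ), c = a * C.η ^ k) {S : Set (G × (α → κ))} {r : ℕ}
    (h : Net C S r) {g : G} {l : α → κ} (hl : (g, l) ∈ S) (c : κ) :
    Net C (insert (g, c • l) S) r := by
  obtain ⟨a, k, rfl⟩ := hκ c
  have h1 : ∀ k : ℕ, Net C (insert (g, C.η ^ k • l) S) r := by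
    intro k
    induction k with
    | zero => exact h.sub (by simp [Set.insert_subset_iff, hl]) le_rfl
    | succ k ih =>
      refine (ih.half (Set.mem_insert _ _)).sub ?_ le_rfl
      rw [smul_smul, ← pow_succ']
      exact Set.insert_subset_insert (Set.subset_insert _ _)
  have h2 : ∀ n : ℕ, Net C (insert (g, (n : κ) • C.η ^ k • l) (insert (g, C.η ^ k • l) S)) r := by
    intro n
    induction n with
    | zero => simpa using (h1 k).zero g
    | succ n ih =>
      refine (ih.add (Set.mem_insert _ _) (Set.mem_insert_of_mem _ (Set.mem_insert _ _))).sub ?_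
        le_rfl
      rw [Nat.cast_succ, add_smul, one_smul]
      exact Set.insert_subset_insert (Set.subset_insert _ _)
  obtain ⟨n, rfl | rfl⟩ := a.eq_nat_or_neg
  · refine (h2 n).sub ?_ le_rfl
    rw [mul_smul, Int.cast_natCast]
    exact Set.insert_subset_insert (Set.subset_insert _ _)
  · refine ((h2 n).neg (Set.mem_insert _ _)).sub ?_ le_rfl
    rw [mul_smul, Int.cast_neg, Int.cast_natCast, neg_smul]
    exact Set.insert_subset_insert ((Set.subset_insert _ _).trans (Set.subset_insert _ _))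

lemma Net.span (hκ : ∀ c : κ, ∃ (a : ℤ) (k : ℕ), c = a * C.η ^ k) {S : Set (G × (α → κ))}
    {g : G} {l : α → κ} (hl : l ∈ Submodule.span κ {l | (g, l) ∈ S}) :
    ∀ S' r, S ⊆ S' → Net C S' r → Net C (insert (g, l) S') r := by
  induction hl using Submodule.span_induction with
  | mem l hl => exact fun S' r hS h => h.sub (by simp [Set.insert_subset_iff, hS hl]) le_rfl
  | zero => exact fun S' r _ h => h.zero g
  | add l l' _ _ a b =>
    intro S' r hS h
    refine ((b _ r (hS.trans (Set.subset_insert _ _)) (a S' r hS h)).add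
      (Set.mem_insert_of_mem _ (Set.mem_insert _ _)) (Set.mem_insert _ _)).sub ?_ le_rfl
    exact Set.insert_subset_insert ((Set.subset_insert _ _).trans (Set.subset_insert _ _))
  | smul c l _ a =>
    intro S' r hS h
    exact ((a S' r hS h).smul hκ (Set.mem_insert _ _) c).sub
      (Set.insert_subset_insert (Set.subset_insert _ _)) le_rfl

variable (C) in
/-- `g'` is reached from `g` with at most `k` costly moves -/
def Mv (g g' : G) (k : ℕ) : Prop :=
  ∃ ms : List μ, (ms.map fun m => bif C.cst m then 1 else 0).sum ≤ k ∧ g' = g * (ms.map C.op).prod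

lemma Mv.refl (g : G) : Mv C g g 0 := ⟨[], by simp, by simp⟩

lemma Mv.trans {g g' g'' : G} {k k' : ℕ} (h : Mv C g g' k) (h' : Mv C g' g'' k') :
    Mv C g g'' (k + k') := by
  obtain ⟨a, a1, rfl⟩ := h
  obtain ⟨b, b1, rfl⟩ := h'
  exact ⟨a ++ b, by simp; omega, by simp [mul_assoc]⟩

lemma Mv.one (g : G) (m : μ) : Mv C g (g * C.op m) (bif C.cst m then 1 else 0) :=
  ⟨[m], by simp, by simp⟩

lemma Mv.mono {g g' : G} {k k' : ℕ} (h : Mv C g g' k) (hk : k ≤ k') : Mv C g g' k' := by
  obtain ⟨a, a1, a2⟩ := h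
  exact ⟨a, a1.trans hk, a2⟩

lemma Net.move {g g' : G} {k : ℕ} (hm : Mv C g g' k) {S : Set (G × (α → κ))} {r : ℕ}
    (h : Net C S r) {l : α → κ} (hl : (g, l) ∈ S) : Net C (insert (g', l) S) (r + k) := by
  obtain ⟨ms, h1, rfl⟩ := hm
  refine Net.sub (r := r + (ms.map fun m => bif C.cst m then 1 else 0).sum) ?_ subset_rfl
    (by omega)
  clear h1
  induction ms generalizing g S r with
  | nil => exact h.sub (by simp [Set.insert_subset_iff, hl]) (by simp)
  | cons m ms ih =>
    refine (ih (h.mv hl m) (Set.mem_insert _ _)).sub ?_ (by simp; omega)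
    simp only [List.map_cons, List.prod_cons, mul_assoc]
    exact Set.insert_subset_insert (Set.subset_insert _ _)

variable (C) in
def Der (S : Set (G × (α → κ))) (t : G × (α → κ)) (k : ℕ) : Prop :=
  ∃ g, t.2 ∈ Submodule.span κ {l | (g, l) ∈ S} ∧ Mv C g t.1 k

lemma Net.step (hκ : ∀ c : κ, ∃ (a : ℤ) (k : ℕ), c = a * C.η ^ k) {S : Set (G × (α → κ))} {r : ℕ}
    (h : Net C S r) {β : Type} [Fintype β] (t : β → G × (α → κ)) (k : ℕ)
    (hd : ∀ b, Der C S (t b) k) :
    ∃ S', S ⊆ S' ∧ Net C S' (r + Fintype.card β * k) ∧ ∀ b, t b ∈ S' := by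
  classical
  have key : ∀ s : Finset β, Net C (S ∪ t '' s) (r + s.card * k) := by
    intro s
    induction s using Finset.induction_on with
    | empty => simpa using h
    | insert b s hb ih =>
      obtain ⟨g, h1, h2⟩ := hd b
      refine (Net.move h2 (Net.span hκ h1 _ _ Set.subset_union_left ih)
        (Set.mem_insert _ _)).sub ?_ (by rw [Finset.card_insert_of_notMem hb]; nlinarith)
      rw [Finset.coe_insert, Set.image_insert_eq, Set.union_insert]
      exact Set.insert_subset_insert (Set.subset_insert _ _)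
  exact ⟨_, Set.subset_union_left, key Finset.univ, fun b => Or.inr ⟨b, by simp, rfl⟩⟩

lemma mem_sp {S : Set (G × (α → κ))} {g : G} {l : α → κ} (h : (g, l) ∈ S) :
    l ∈ Submodule.span κ {l | (g, l) ∈ S} := Submodule.subset_span h

lemma Der.move {S : Set (G × (α → κ))} {g g' : G} {l : α → κ} {k : ℕ}
    (h : (g, l) ∈ S) (hd : Mv C g g' k) : Der C S (g', l) k := ⟨g, mem_sp h, hd⟩

end Crest.Agent.H9.IM.NT
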