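import Crest.Agent.H9.IMNet1

/-! Row 326: the two gadgets and the whole network, for an abstract design. -/

set_option autoImplicit false
set_option linter.unusedSectionVars false
set_option linter.unusedVariables false
set_option linter.unusedSimpArgs false

namespace Crest.Agent.H9.IM.NT
open Finset Crest.Agent.H9.IM Matrix Kronecker

structure Des (κ Rf H TT PP HD : Type) [CommRing κ] [CommRing Rf] [Fintype H] [DecidableEq H]
    [Fintype TT] [DecidableEq TT] [Fintype PP] [Fintype HD] where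
  e : Matrix H H Rf
  Pm : TT → Matrix H H Rf
  f1 : PP → TT
  f2 : PP → TT
  wa : TT → HD → κ
  wb : HD → TT → κ
  pw : PP → κ
  h : ℕ
  D1 : Matrix H H Rf → ℕ → Prop
  D2 : Matrix (H × H) (H × H) Rf → ℕ → Prop
  key : ∀ A B, (∑ p, if f1 p = A ∧ f2 p = B then pw p else 0) + ∑ i, wa A i * wb i B =
    if A = B then 1 else 0
  kron : ∀ Q Q' k k', D1 Q k → D1 Q' k' → D2 (Q ⊗ₖ Q') (k * k')
  neg1 : ∀ Q k, D1 Q k → D1 (-Q) k
  d0 : D1 0 0
  dP : ∀ A, D1 (Pm A) 1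
  d1 : ∀ A, D1 (e - Pm A) (h + 1)
  d2 : ∀ p, D1 (e - Pm (f1 p) - Pm (f2 p)) h
  de : D1 e (h + 2)

variable {κ Rf H TT PP HD : Type} [CommRing κ] [CommRing Rf] [Fintype H] [DecidableEq H]
  [Fintype TT] [DecidableEq TT] [Fintype PP] [Fintype HD] (E : Des κ Rf H TT PP HD)

lemma key_fwd {W : Type} [AddCommGroup W] [Module κ W] (X : TT → W) (A : TT) :
    ∑ p : PP, (if E.f1 p = A then E.pw p else 0) • X (E.f2 p) +
      ∑ i, E.wa A i • ∑ B, E.wb i B • X B = X A := by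
  have h1 : X A = ∑ B, (if A = B then (1 : κ) else 0) • X B := by simp
  rw [h1]
  simp only [← E.key, add_smul, Finset.sum_add_distrib, Finset.sum_smul, Finset.smul_sum,
    smul_smul]
  congr 1
  · rw [Finset.sum_comm]
    refine Finset.sum_congr rfl (fun p _ => ?_)
    rw [Finset.sum_eq_single (E.f2 p)]
    · simp
    · intro b _ hb; simp [Ne.symm hb]
    · simp
  · rw [Finset.sum_comm]

lemma key_bwd {W : Type} [AddCommGroup W] [Module κ W] (X : TT → W) (B : TT) :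
    ∑ p : PP, (if E.f2 p = B then E.pw p else 0) • X (E.f1 p) +
      ∑ i, E.wb i B • ∑ A, E.wa A i • X A = X B := by
  have h1 : X B = ∑ A, (if A = B then (1 : κ) else 0) • X A := by simp
  rw [h1]
  simp only [← E.key, add_smul, Finset.sum_add_distrib, Finset.sum_smul, Finset.smul_sum,
    smul_smul]
  congr 1
  · rw [Finset.sum_comm]
    refine Finset.sum_congr rfl (fun p _ => ?_)
    rw [Finset.sum_eq_single (E.f1 p)]
    · simp
    · intro b _ hb; simp [Ne.symm hb]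
    · simp
  · rw [Finset.sum_comm]
    simp only [mul_comm]

variable {G μ α : Type} [CommGroup G] [Fintype α] [DecidableEq α] {C : Ctx κ G μ α}
  {K : Type} [Fintype K]

lemma stage_fwd (hκ : ∀ c : κ, ∃ (a : ℤ) (k : ℕ), c = a * C.η ^ k)
    {S : Set (G × (α → κ))} {r : ℕ} (h : Net C S r) (F : K → Matrix H H Rf → G)
    (hF : ∀ c Q Q' k, E.D1 (Q' - Q) k → Mv C (F c Q) (F c Q') k)
    (X Y : K → TT → α → κ) (Z : K → PP → α → κ)
    (hX : ∀ c B, (F c (E.Pm B), X c B) ∈ S) (hY : ∀ c A, (F c 0, Y c A) ∈ S)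
    (hZ : ∀ c p, (F c 0, Z c p) ∈ S) :
    ∃ S', S ⊆ S' ∧ Net C S' (r + Fintype.card K * (2 * Fintype.card TT * (E.h + 1) +
        (E.h + 2) * Fintype.card PP + Fintype.card HD * (E.h + 2))) ∧
      (∀ c B, (F c E.e, X c B) ∈ S') ∧ (∀ c A, (F c (E.e - E.Pm A), Y c A + X c A) ∈ S') ∧
      ∀ c p, (F c E.e, Z c p) ∈ S' := by
  obtain ⟨S1, s1, n1, m1⟩ := h.step hκ (fun q : K × TT => (F q.1 E.e, X q.1 q.2)) (E.h + 1)
    (fun q => Der.move (hX _ _) (hF _ _ _ _ (E.d1 _)))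
  obtain ⟨S2, s2, n2, m2⟩ := n1.step hκ
    (fun q : K × PP => (F q.1 (E.Pm (E.f2 q.2)), Z q.1 q.2)) 1
    (fun q => Der.move (s1 (hZ _ _)) (hF _ _ _ _ (by rw [sub_zero]; exact E.dP _)))
  obtain ⟨S3, s3, n3, m3⟩ := n2.step hκ
    (fun q : K × PP => (F q.1 (E.e - E.Pm (E.f1 q.2)), Z q.1 q.2 + X q.1 (E.f2 q.2))) E.h
    (fun q => ⟨F q.1 (E.Pm (E.f2 q.2)),
      Submodule.add_mem _ (mem_sp (m2 q)) (mem_sp (s2 (s1 (hX _ _)))),
      hF _ _ _ _ (E.d2 _)⟩)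
  obtain ⟨S4, s4, n4, m4⟩ := n3.step hκ
    (fun q : K × HD => (F q.1 0, ∑ B, E.wb q.2 B • X q.1 B)) (E.h + 2)
    (fun q => ⟨F q.1 E.e, by
      simp only
      exact Submodule.sum_mem _
        (fun B _ => Submodule.smul_mem _ _ (mem_sp (s3 (s2 (m1 (q.1, B)))))),
      hF _ _ _ _ (by rw [zero_sub]; exact E.neg1 _ _ E.de)⟩)
  obtain ⟨S5, s5, n5, m5⟩ := n4.step hκ
    (fun q : K × TT => (F q.1 (E.e - E.Pm q.2),
      Y q.1 q.2 - ∑ p : PP, (if E.f1 p = q.2 then E.pw p else 0) • Z q.1 p +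
        ∑ i, E.wa q.2 i • ∑ B, E.wb i B • X q.1 B)) (E.h + 1)
    (fun q => ⟨F q.1 0,
      Submodule.add_mem _ (Submodule.sub_mem _ (mem_sp (s4 (s3 (s2 (s1 (hY _ _))))))
        (Submodule.sum_mem _ (fun p _ => Submodule.smul_mem _ _
          (mem_sp (s4 (s3 (s2 (s1 (hZ _ _)))))))))
        (Submodule.sum_mem _ (fun i _ => Submodule.smul_mem _ _ (mem_sp (m4 (q.1, i))))),
      hF _ _ _ _ (by rw [sub_zero]; exact E.d1 _)⟩)
  obtain ⟨S6, s6, n6, m6⟩ := n5.step hκ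
    (fun q : K × TT => (F q.1 (E.e - E.Pm q.2), Y q.1 q.2 + X q.1 q.2)) 0
    (fun q => ⟨F q.1 (E.e - E.Pm q.2), by
      have e : Y q.1 q.2 + X q.1 q.2 =
          (Y q.1 q.2 - ∑ p : PP, (if E.f1 p = q.2 then E.pw p else 0) • Z q.1 p +
            ∑ i, E.wa q.2 i • ∑ B, E.wb i B • X q.1 B) +
          ∑ p : PP, (if E.f1 p = q.2 then E.pw p else 0) • (Z q.1 p + X q.1 (E.f2 p)) := by
        rw [← key_fwd E (X q.1) q.2]
        simp only [smul_add, Finset.sum_add_distrib]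
        abel
      simp only
      rw [e]
      refine Submodule.add_mem _ (mem_sp (m5 q)) (Submodule.sum_mem _ (fun p _ => ?_))
      split_ifs with hp
      · refine Submodule.smul_mem _ _ (mem_sp ?_)
        have := s5 (s4 (m3 (q.1, p)))
        simp only at this
        rw [← hp]; exact this
      · simp,
      Mv.refl _⟩)
  obtain ⟨S7, s7, n7, m7⟩ := n6.step hκ
    (fun q : K × PP => (F q.1 E.e, Z q.1 q.2 + X q.1 (E.f2 q.2))) 1
    (fun q => Der.move (s6 (s5 (s4 (m3 q))))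
      (hF _ _ _ _ (by rw [sub_sub_cancel]; exact E.dP _)))
  obtain ⟨S8, s8, n8, m8⟩ := n7.step hκ
    (fun q : K × PP => (F q.1 E.e, Z q.1 q.2)) 0
    (fun q => ⟨F q.1 E.e, by
      have e : Z q.1 q.2 = (Z q.1 q.2 + X q.1 (E.f2 q.2)) - X q.1 (E.f2 q.2) := by abel
      simp only
      rw [e]
      exact Submodule.sub_mem _ (mem_sp (m7 q))
        (mem_sp (s7 (s6 (s5 (s4 (s3 (s2 (m1 (q.1, E.f2 q.2))))))))), Mv.refl _⟩)
  refine ⟨S8, fun x hx => s8 (s7 (s6 (s5 (s4 (s3 (s2 (s1 hx))))))), n8.sub subset_rfl (le_of_eq ?_),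
    fun c B => s8 (s7 (s6 (s5 (s4 (s3 (s2 (m1 (c, B)))))))),
    fun c A => s8 (s7 (m6 (c, A))), fun c p => m8 (c, p)⟩
  simp only [Fintype.card_prod]
  ring

lemma stage_bwd (hκ : ∀ c : κ, ∃ (a : ℤ) (k : ℕ), c = a * C.η ^ k)
    {S : Set (G × (α → κ))} {r : ℕ} (h : Net C S r) (F : K → Matrix H H Rf → G)
    (hF : ∀ c Q Q' k, E.D1 (Q' - Q) k → Mv C (F c Q) (F c Q') k)
    (X Y : K → TT → α → κ) (Z : K → PP → α → κ)
    (hX : ∀ c B, (F c (E.Pm B), X c B) ∈ S) (hY : ∀ c A, (F c 0, Y c A) ∈ S)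
    (hZ : ∀ c p, (F c 0, Z c p) ∈ S) :
    ∃ S', S ⊆ S' ∧ Net C S' (r + Fintype.card K * (2 * Fintype.card TT * (E.h + 1) +
        (E.h + 2) * Fintype.card PP + Fintype.card HD * (E.h + 2))) ∧
      (∀ c B, (F c E.e, X c B - Y c B) ∈ S') ∧ (∀ c A, (F c (E.e - E.Pm A), Y c A) ∈ S') ∧
      ∀ c p, (F c E.e, Z c p) ∈ S' := by
  obtain ⟨S1, s1, n1, m1⟩ := h.step hκ (fun q : K × TT => (F q.1 (E.e - E.Pm q.2), Y q.1 q.2))
    (E.h + 1) (fun q => Der.move (hY _ _) (hF _ _ _ _ (by rw [sub_zero]; exact E.d1 _)))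
  obtain ⟨S2, s2, n2, m2⟩ := n1.step hκ
    (fun q : K × PP => (F q.1 (E.Pm (E.f2 q.2)),
      Z q.1 q.2 + E.pw q.2 • Y q.1 (E.f1 q.2))) 1
    (fun q => ⟨F q.1 0,
      Submodule.add_mem _ (mem_sp (s1 (hZ _ _)))
        (Submodule.smul_mem _ _ (mem_sp (s1 (hY _ _)))),
      hF _ _ _ _ (by rw [sub_zero]; exact E.dP _)⟩)
  obtain ⟨S3, s3, n3, m3⟩ := n2.step hκ
    (fun q : K × HD => (F q.1 E.e, ∑ A, E.wa A q.2 • Y q.1 A)) (E.h + 2)
    (fun q => ⟨F q.1 0, by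
      simp only
      exact Submodule.sum_mem _ (fun A _ => Submodule.smul_mem _ _ (mem_sp (s2 (s1 (hY _ _))))),
      hF _ _ _ _ (by rw [sub_zero]; exact E.de)⟩)
  obtain ⟨S4, s4, n4, m4⟩ := n3.step hκ
    (fun q : K × TT => (F q.1 E.e, X q.1 q.2 - ∑ p : PP, (if E.f2 p = q.2 then (1 : κ) else 0) •
      (Z q.1 p + E.pw p • Y q.1 (E.f1 p)))) (E.h + 1)
    (fun q => ⟨F q.1 (E.Pm q.2), by
      refine Submodule.sub_mem _ (mem_sp (s3 (s2 (s1 (hX _ _)))))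
        (Submodule.sum_mem _ (fun p _ => ?_))
      split_ifs with hp
      · refine Submodule.smul_mem _ _ (mem_sp ?_)
        have := s3 (m2 (q.1, p))
        simp only at this
        rw [← hp]; exact this
      · simp,
      hF _ _ _ _ (E.d1 _)⟩)
  obtain ⟨S5, s5, n5, m5⟩ := n4.step hκ
    (fun q : K × PP => (F q.1 (E.e - E.Pm (E.f1 q.2)),
      Z q.1 q.2 + E.pw q.2 • Y q.1 (E.f1 q.2))) E.h
    (fun q => Der.move (s4 (s3 (m2 q))) (hF _ _ _ _ (E.d2 _)))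
  obtain ⟨S6, s6, n6, m6⟩ := n5.step hκ
    (fun q : K × PP => (F q.1 E.e, Z q.1 q.2)) 1
    (fun q => ⟨F q.1 (E.e - E.Pm (E.f1 q.2)), by
      have e : Z q.1 q.2 = (Z q.1 q.2 + E.pw q.2 • Y q.1 (E.f1 q.2)) -
        E.pw q.2 • Y q.1 (E.f1 q.2) := by abel
      simp only
      rw [e]
      exact Submodule.sub_mem _ (mem_sp (m5 q))
        (Submodule.smul_mem _ _ (mem_sp (s5 (s4 (s3 (s2 (m1 (q.1, E.f1 q.2)))))))),
      hF _ _ _ _ (by rw [sub_sub_cancel]; exact E.dP _)⟩)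
  obtain ⟨S7, s7, n7, m7⟩ := n6.step hκ
    (fun q : K × TT => (F q.1 E.e, X q.1 q.2 - Y q.1 q.2)) 0
    (fun q => ⟨F q.1 E.e, by
      have e : X q.1 q.2 - Y q.1 q.2 =
          (X q.1 q.2 - ∑ p : PP, (if E.f2 p = q.2 then (1 : κ) else 0) •
            (Z q.1 p + E.pw p • Y q.1 (E.f1 p))) +
          ∑ p : PP, (if E.f2 p = q.2 then (1 : κ) else 0) • Z q.1 p -
          ∑ i, E.wb i q.2 • ∑ A, E.wa A i • Y q.1 A := by
        rw [← key_bwd E (Y q.1) q.2]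
        simp only [smul_add, Finset.sum_add_distrib, smul_smul, ite_mul, one_mul, zero_mul]
        abel
      simp only
      rw [e]
      exact Submodule.sub_mem _ (Submodule.add_mem _ (mem_sp (s6 (s5 (m4 q))))
        (Submodule.sum_mem _ (fun p _ => Submodule.smul_mem _ _ (mem_sp (m6 (q.1, p))))))
        (Submodule.sum_mem _ (fun i _ => Submodule.smul_mem _ _
          (mem_sp (s6 (s5 (s4 (m3 (q.1, i)))))))),
      Mv.refl _⟩)
  refine ⟨S7, fun x hx => s7 (s6 (s5 (s4 (s3 (s2 (s1 hx)))))), n7.sub subset_rfl (le_of_eq ?_),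
    fun c B => m7 (c, B),
    fun c A => s7 (s6 (s5 (s4 (s3 (s2 (m1 (c, A))))))), fun c p => s7 (m6 (c, p))⟩
  simp only [Fintype.card_prod]
  ring

/-- the wires of the two-stage network -/
abbrev Wr (TT PP : Type) := (Bool × TT × TT) ⊕ (Bool × TT × PP)

noncomputable instance (TT PP : Type) : DecidableEq (Wr TT PP) := Classical.decEq _

def fr0 : Wr TT PP → Matrix (H × H) (H × H) Rf
  | Sum.inl (false, A, B) => E.Pm A ⊗ₖ E.Pm B
  | _ => 0

def F1 (B : TT) (Q : Matrix H H Rf) : Matrix (H × H) (H × H) Rf := Q ⊗ₖ E.Pm B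

def F2 (A : TT) (Q : Matrix H H Rf) : Matrix (H × H) (H × H) Rf :=
  (E.e - E.Pm A) ⊗ₖ E.e + E.Pm A ⊗ₖ Q

macro "kron_ext2" : tactic => `(tactic| (
  simp only [F1, F2, fr0]
  ext ⟨i, j⟩ ⟨k, l⟩
  simp only [Matrix.sub_apply, Matrix.add_apply, Matrix.kroneckerMap_apply, Matrix.zero_apply,
    Matrix.neg_apply]
  ring))

theorem network2 {C : Ctx κ G μ (Wr TT PP)} (hκ : ∀ c : κ, ∃ (a : ℤ) (k : ℕ), c = a * C.η ^ k)
    (U : Matrix (H × H) (H × H) Rf → G) (hg : ∀ a, C.g0 a = U (fr0 E a))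
    (hU : ∀ ψ ψ' k, E.D2 (ψ' - ψ) k → Mv C (U ψ) (U ψ') k)
    (h2 : ∀ M : Matrix (H × H) (H × H) Rf, -M = M) :
    ∃ S r, Net C S r ∧ r + Fintype.card TT ^ 2 ≤ (E.h + 2) ^ 2 * Fintype.card (Wr TT PP) +
      2 * Fintype.card TT * Fintype.card HD * (E.h + 2) ∧
      ∀ a, (U (fr0 E a + E.e ⊗ₖ E.e), Pi.single a 1) ∈ S := by
  have hK : ∀ {Q Q' : Matrix H H Rf} {k k' : ℕ} (ψ ψ' : Matrix (H × H) (H × H) Rf) (n : ℕ),
      E.D1 Q k → E.D1 Q' k' → ψ' - ψ = Q ⊗ₖ Q' → k * k' = n → Mv C (U ψ) (U ψ') n := by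
    intro Q Q' k k' ψ ψ' n a b c d
    exact hU _ _ _ (c ▸ d ▸ E.kron _ _ _ _ a b)
  let e : Wr TT PP → Wr TT PP → κ := fun a => Pi.single a 1
  have h0 := Net.init (C := C)
  have m0 : ∀ a, (U (fr0 E a), e a) ∈
      Set.range fun a => (C.g0 a, (Pi.single a 1 : Wr TT PP → κ)) := fun a => ⟨a, by simp [hg, e]⟩
  obtain ⟨S1, s1, n1, x1, y1, z1⟩ := stage_fwd E hκ h0 (fun c Q => U (F1 E c Q))
    (fun c Q Q' k hk => hK _ _ _ hk (E.dP c) (by kron_ext2) (by simp))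
    (fun B A => e (Sum.inl (false, A, B))) (fun B A => e (Sum.inl (true, A, B)))
    (fun B p => e (Sum.inr (false, B, p)))
    (fun B A => m0 (Sum.inl (false, A, B)))
    (fun B A => by simpa [F1, fr0] using m0 (Sum.inl (true, A, B)))
    (fun B p => by simpa [F1, fr0] using m0 (Sum.inr (false, B, p)))
  obtain ⟨S2, s2, n2, m2⟩ := n1.step hκ
    (fun q : TT × TT => (U (F2 E q.1 (E.Pm q.2)), e (Sum.inl (false, q.1, q.2))))
    ((E.h + 1) * (E.h + 1))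
    (fun q => Der.move (x1 q.2 q.1) (hK _ _ _ (E.d1 q.1) (E.d1 q.2) (by kron_ext2) rfl))
  obtain ⟨S3, s3, n3, m3⟩ := n2.step hκ
    (fun q : TT × TT => (U (F2 E q.1 0), e (Sum.inl (true, q.1, q.2)) + e (Sum.inl (false, q.1, q.2))))
    ((E.h + 1) * (E.h + 1))
    (fun q => Der.move (s2 (y1 q.2 q.1)) (hK _ _ _ (E.d1 q.1) (E.d1 q.2) (by kron_ext2) rfl))
  obtain ⟨S4, s4, n4, m4⟩ := n3.step hκ
    (fun q : TT × PP => (U (E.e ⊗ₖ E.e), e (Sum.inr (false, q.1, q.2)))) ((E.h + 2) * (E.h + 1))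
    (fun q => Der.move (s3 (s2 (z1 q.1 q.2))) (hK _ _ _ E.de (E.d1 q.1) (by kron_ext2) rfl))
  obtain ⟨S5, s5, n5, m5⟩ := n4.step hκ
    (fun q : TT × PP => (U (F2 E q.1 0), e (Sum.inr (true, q.1, q.2)))) ((E.h + 1) * (E.h + 2))
    (fun q => Der.move (s4 (s3 (s2 (s1 (m0 (Sum.inr (true, q.1, q.2)))))))
      (hK _ _ _ (E.d1 q.1) E.de (by kron_ext2) rfl))
  obtain ⟨S6, s6, n6, x6, y6, z6⟩ := stage_bwd E hκ n5 (fun c Q => U (F2 E c Q))
    (fun c Q Q' k hk => hK _ _ _ (E.dP c) hk (by kron_ext2) (by simp))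
    (fun A B => e (Sum.inl (false, A, B)))
    (fun A B => e (Sum.inl (true, A, B)) + e (Sum.inl (false, A, B)))
    (fun A p => e (Sum.inr (true, A, p)))
    (fun A B => s5 (s4 (s3 (m2 (A, B)))))
    (fun A B => s5 (s4 (m3 (A, B))))
    (fun A p => m5 (A, p))
  have hF21 : ∀ A, F2 E A E.e = E.e ⊗ₖ E.e := fun A => by kron_ext2
  obtain ⟨S7, s7, n7, m7⟩ := n6.step hκ
    (fun q : TT × TT => (U (F2 E q.1 (E.e - E.Pm q.2)), e (Sum.inl (false, q.1, q.2)) -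
      (e (Sum.inl (true, q.1, q.2)) + e (Sum.inl (false, q.1, q.2))))) 1
    (fun q => Der.move (x6 q.1 q.2)
      (hK _ _ _ (E.neg1 _ _ (E.dP q.1)) (E.dP q.2) (by kron_ext2) rfl))
  obtain ⟨S8, s8, n8, m8⟩ := n7.step hκ
    (fun q : TT × TT => (U (F2 E q.1 (E.e - E.Pm q.2)), e (Sum.inl (false, q.1, q.2)))) 0
    (fun q => ⟨U (F2 E q.1 (E.e - E.Pm q.2)), by
      have e1 : e (Sum.inl (false, q.1, q.2)) = (e (Sum.inl (false, q.1, q.2)) -
        (e (Sum.inl (true, q.1, q.2)) + e (Sum.inl (false, q.1, q.2)))) +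
        (e (Sum.inl (true, q.1, q.2)) + e (Sum.inl (false, q.1, q.2))) := by abel
      simp only
      rw [e1]
      exact Submodule.add_mem _ (mem_sp (m7 q)) (mem_sp (s7 (y6 q.1 q.2))), Mv.refl _⟩)
  obtain ⟨S9, s9, n9, m9⟩ := n8.step hκ
    (fun q : TT × TT => (U (E.e ⊗ₖ E.e), e (Sum.inl (true, q.1, q.2)))) 0
    (fun q => ⟨U (E.e ⊗ₖ E.e), by
      have e1 : e (Sum.inl (true, q.1, q.2)) = -(e (Sum.inl (false, q.1, q.2)) -
        (e (Sum.inl (true, q.1, q.2)) + e (Sum.inl (false, q.1, q.2)))) := by abel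
      simp only
      rw [e1]
      have := s8 (s7 (x6 q.1 q.2))
      simp only [hF21] at this
      exact Submodule.neg_mem _ (mem_sp this), Mv.refl _⟩)
  refine ⟨S9, _, n9, le_of_eq ?_, ?_⟩
  · simp only [Fintype.card_prod, Fintype.card_sum, Fintype.card_bool]
    ring
  · rintro (⟨_ | _, A, B⟩ | ⟨_ | _, A, p⟩)
    · have := s9 (m8 (A, B))
      simp only at this
      convert this using 3
      rw [show fr0 E (Sum.inl (false, A, B)) = -(E.Pm A ⊗ₖ E.Pm B) from (h2 _).symm]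
      kron_ext2
    · simpa [fr0] using m9 (A, B)
    · simpa [fr0] using s9 (s8 (s7 (s6 (s5 (m4 (A, p))))))
    · have := s9 (s8 (s7 (z6 A p)))
      simp only [hF21] at this
      simpa [fr0] using this

end Crest.Agent.H9.IM.NT
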