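import Crest.Agent.H9.IMNet2

/-! Row 326: the three-stage network (frames of characteristic zero). -/

set_option autoImplicit false
set_option linter.unusedSectionVars false
set_option linter.unusedVariables false
set_option linter.unusedSimpArgs false

namespace Crest.Agent.H9.IM.NT
open Finset Crest.Agent.H9.IM Matrix Kronecker

variable {κ Rf H TT PP HD : Type} [CommRing κ] [CommRing Rf] [Fintype H] [DecidableEq H]
  [Fintype TT] [DecidableEq TT] [Fintype PP] [Fintype HD] (E : Des κ Rf H TT PP HD)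
  {G μ : Type} [CommGroup G]

abbrev Wr3 (TT PP : Type) := (Bool × TT × TT × TT) ⊕ (Option Bool × (TT × TT) × PP)

noncomputable instance (TT PP : Type) : DecidableEq (Wr3 TT PP) := Classical.decEq _

abbrev M3 (H Rf : Type) := Matrix ((H × H) × H) ((H × H) × H) Rf

def gr0 : Wr3 TT PP → M3 H Rf
  | Sum.inl (false, A, B, D) => (E.Pm A ⊗ₖ E.Pm B) ⊗ₖ E.Pm D
  | _ => 0

def G1 (c : TT × TT) (Q : Matrix H H Rf) : M3 H Rf := (Q ⊗ₖ E.Pm c.1) ⊗ₖ E.Pm c.2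
def G2 (c : TT × TT) (Q : Matrix H H Rf) : M3 H Rf :=
  ((E.e - E.Pm c.1) ⊗ₖ E.e + E.Pm c.1 ⊗ₖ Q) ⊗ₖ E.Pm c.2
def G3 (c : TT × TT) (Q : Matrix H H Rf) : M3 H Rf :=
  (E.e ⊗ₖ E.e - E.Pm c.1 ⊗ₖ E.Pm c.2) ⊗ₖ E.e + (E.Pm c.1 ⊗ₖ E.Pm c.2) ⊗ₖ Q

macro "kron_ext3" : tactic => `(tactic| (
  try simp only [G1, G2, G3, gr0]
  ext ⟨⟨i, j⟩, i'⟩ ⟨⟨k, l⟩, k'⟩
  simp only [Matrix.sub_apply, Matrix.add_apply, Matrix.kroneckerMap_apply, Matrix.zero_apply,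
    Matrix.neg_apply]
  ring))

theorem network3 {C : Ctx κ G μ (Wr3 TT PP)} (hκ : ∀ c : κ, ∃ (a : ℤ) (k : ℕ), c = a * C.η ^ k)
    (U : M3 H Rf → G) (hg : ∀ a, C.g0 a = U (gr0 E a))
    (hU : ∀ ψ ψ' Q Q' k k', E.D2 Q k → E.D1 Q' k' → ψ' - ψ = Q ⊗ₖ Q' →
      Mv C (U ψ) (U ψ') (k * k'))
    (add2 : ∀ Q Q' k k', E.D2 Q k → E.D2 Q' k' → E.D2 (Q + Q') (k + k'))
    (hdbl : ∀ A, E.D1 (E.Pm A + E.Pm A) 1) :
    ∃ S r, Net C S r ∧ r + Fintype.card TT ^ 3 ≤ (E.h + 2) ^ 3 * Fintype.card (Wr3 TT PP) +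
      3 * Fintype.card TT ^ 2 * Fintype.card HD * (E.h + 2) ∧
      ∀ a, (U (gr0 E a + (E.e ⊗ₖ E.e) ⊗ₖ E.e), Pi.single a 1) ∈ S := by
  have hK : ∀ {Q Q' Q'' : Matrix H H Rf} {k k' k'' : ℕ} (ψ ψ' : M3 H Rf) (n : ℕ),
      E.D1 Q k → E.D1 Q' k' → E.D1 Q'' k'' → ψ' - ψ = (Q ⊗ₖ Q') ⊗ₖ Q'' → k * k' * k'' = n →
      Mv C (U ψ) (U ψ') n := by
    intro Q Q' Q'' k k' k'' ψ ψ' n a b b' c d
    exact d ▸ hU _ _ _ _ _ _ (E.kron _ _ _ _ a b) b' c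
  have dd : ∀ A B, E.D2 (E.e ⊗ₖ E.e - E.Pm A ⊗ₖ E.Pm B) ((E.h + 1) * (E.h + 2) + 1 * (E.h + 1)) := by
    intro A B
    have := add2 _ _ _ _ (E.kron _ _ _ _ (E.d1 A) E.de) (E.kron _ _ _ _ (E.dP A) (E.d1 B))
    convert this using 1
    ext ⟨i, j⟩ ⟨k, l⟩
    simp only [Matrix.sub_apply, Matrix.add_apply, Matrix.kroneckerMap_apply]
    ring
  let e : Wr3 TT PP → Wr3 TT PP → κ := fun a => Pi.single a 1
  let u : TT → TT → TT → Wr3 TT PP → κ := fun A B D => e (Sum.inl (false, A, B, D))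
  let w : TT → TT → TT → Wr3 TT PP → κ := fun A B D => e (Sum.inl (true, A, B, D))
  let z : Option Bool → TT × TT → PP → Wr3 TT PP → κ := fun o c p => e (Sum.inr (o, c, p))
  have h0 := Net.init (C := C)
  have m0 : ∀ a, (U (gr0 E a), e a) ∈
      Set.range fun a => (C.g0 a, (Pi.single a 1 : Wr3 TT PP → κ)) := fun a => ⟨a, by simp [hg, e]⟩
  have mz : ∀ o c p, (U 0, z o c p) ∈
      Set.range fun a => (C.g0 a, (Pi.single a 1 : Wr3 TT PP → κ)) :=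
    fun o c p => m0 (Sum.inr (o, c, p))
  obtain ⟨S1, s1, n1, x1, y1, z1⟩ := stage_fwd E hκ h0 (fun c Q => U (G1 E c Q))
    (fun c Q Q' k hk => hK _ _ _ hk (E.dP c.1) (E.dP c.2) (by kron_ext3) (by simp))
    (fun c A => u A c.1 c.2) (fun c A => w A c.1 c.2) (z none)
    (fun c A => m0 (Sum.inl (false, A, c.1, c.2)))
    (fun c A => by simpa [G1, gr0] using m0 (Sum.inl (true, A, c.1, c.2)))
    (fun c p => by simpa [G1] using mz none c p)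
  obtain ⟨S2, s2, n2, m2⟩ := n1.step hκ
    (fun q : TT × TT × TT => (U (G2 E (q.1, q.2.2) (E.Pm q.2.1)), u q.1 q.2.1 q.2.2))
    ((E.h + 1) * (E.h + 1) * 1)
    (fun q => Der.move (x1 q.2 q.1)
      (hK _ _ _ (E.d1 q.1) (E.d1 q.2.1) (E.dP q.2.2) (by kron_ext3) rfl))
  obtain ⟨S3, s3, n3, m3⟩ := n2.step hκ
    (fun q : TT × TT × TT => (U (G2 E (q.1, q.2.2) 0), w q.1 q.2.1 q.2.2 + u q.1 q.2.1 q.2.2))
    ((E.h + 1) * (E.h + 1) * 1)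
    (fun q => Der.move (s2 (y1 q.2 q.1))
      (hK _ _ _ (E.d1 q.1) (E.d1 q.2.1) (E.dP q.2.2) (by kron_ext3) rfl))
  obtain ⟨S4, s4, n4, m4⟩ := n3.step hκ
    (fun q : (TT × TT) × PP => (U ((E.e ⊗ₖ E.e) ⊗ₖ E.e), z none q.1 q.2))
    ((E.h + 2) * 1 * (E.h + 1) + (E.h + 2) * (E.h + 1) * (E.h + 2))
    (fun q => Der.move (s3 (s2 (z1 q.1 q.2)))
      ((hK _ ((E.e ⊗ₖ E.Pm q.1.1) ⊗ₖ E.e) _ E.de (E.dP q.1.1) (E.d1 q.1.2) (by kron_ext3) rfl).trans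
        (hK _ _ _ E.de (E.d1 q.1.1) E.de (by kron_ext3) rfl)))
  obtain ⟨S5, s5, n5, m5⟩ := n4.step hκ
    (fun q : (TT × TT) × PP => (U (G2 E q.1 0), z (some false) q.1 q.2)) ((E.h + 1) * (E.h + 2) * 1)
    (fun q => Der.move (s4 (s3 (s2 (s1 (mz _ q.1 q.2)))))
      (hK _ _ _ (E.d1 q.1.1) E.de (E.dP q.1.2) (by kron_ext3) rfl))
  obtain ⟨S6, s6, n6, x6, y6, z6⟩ := stage_bwd E hκ n5 (fun c Q => U (G2 E c Q))
    (fun c Q Q' k hk => hK _ _ _ (E.dP c.1) hk (E.dP c.2) (by kron_ext3) (by simp))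
    (fun c B => u c.1 B c.2) (fun c B => w c.1 B c.2 + u c.1 B c.2) (z (some false))
    (fun c B => s5 (s4 (s3 (m2 (c.1, B, c.2)))))
    (fun c B => s5 (s4 (m3 (c.1, B, c.2))))
    (fun c p => m5 (c, p))
  obtain ⟨S7, s7, n7, m7⟩ := n6.step hκ
    (fun q : TT × TT × TT => (U (G3 E (q.1, q.2.1) (E.Pm q.2.2)),
      u q.1 q.2.1 q.2.2 - (w q.1 q.2.1 q.2.2 + u q.1 q.2.1 q.2.2)))
    (((E.h + 1) * (E.h + 2) + 1 * (E.h + 1)) * (E.h + 1))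
    (fun q => Der.move (x6 (q.1, q.2.2) q.2.1)
      (hU _ _ _ _ _ _ (dd q.1 q.2.1) (E.d1 q.2.2) (by kron_ext3)))
  obtain ⟨S8, s8, n8, m8⟩ := n7.step hκ
    (fun q : TT × TT × TT => (U (G3 E (q.1, q.2.1) 0), w q.1 q.2.1 q.2.2 + u q.1 q.2.1 q.2.2))
    (((E.h + 1) * (E.h + 2) + 1 * (E.h + 1)) * (E.h + 1))
    (fun q => Der.move (s7 (y6 (q.1, q.2.2) q.2.1))
      (hU _ _ _ _ _ _ (dd q.1 q.2.1) (E.d1 q.2.2) (by kron_ext3)))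
  obtain ⟨S9, s9, n9, m9⟩ := n8.step hκ
    (fun q : (TT × TT) × PP => (U ((E.e ⊗ₖ E.e) ⊗ₖ E.e), z (some false) q.1 q.2))
    ((E.h + 2) * (E.h + 2) * (E.h + 1))
    (fun q => Der.move (s8 (s7 (z6 q.1 q.2)))
      (hK _ _ _ E.de E.de (E.d1 q.1.2) (by kron_ext3) rfl))
  obtain ⟨S10, s10, n10, m10⟩ := n9.step hκ
    (fun q : (TT × TT) × PP => (U (G3 E q.1 0), z (some true) q.1 q.2))
    (((E.h + 1) * (E.h + 2) + 1 * (E.h + 1)) * (E.h + 2))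
    (fun q => Der.move (s9 (s8 (s7 (s6 (s5 (s4 (s3 (s2 (s1 (mz _ q.1 q.2))))))))))
      (hU _ _ _ _ _ _ (dd q.1.1 q.1.2) E.de (by kron_ext3)))
  obtain ⟨S11, s11, n11, x11, y11, z11⟩ := stage_fwd E hκ n10 (fun c Q => U (G3 E c Q))
    (fun c Q Q' k hk => hK _ _ _ (E.dP c.1) (E.dP c.2) hk (by kron_ext3) (by simp))
    (fun c D => u c.1 c.2 D - (w c.1 c.2 D + u c.1 c.2 D)) (fun c D => w c.1 c.2 D + u c.1 c.2 D)
    (z (some true))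
    (fun c D => s10 (s9 (s8 (m7 (c.1, c.2, D)))))
    (fun c D => s10 (s9 (m8 (c.1, c.2, D))))
    (fun c p => m10 (c, p))
  have hG3 : ∀ c, G3 E c E.e = (E.e ⊗ₖ E.e) ⊗ₖ E.e := fun c => by kron_ext3
  obtain ⟨S12, s12, n12, m12⟩ := n11.step hκ
    (fun q : TT × TT × TT => (U (gr0 E (Sum.inl (false, q)) + (E.e ⊗ₖ E.e) ⊗ₖ E.e),
      u q.1 q.2.1 q.2.2)) 1
    (fun q => by
      have := y11 (q.1, q.2.1) q.2.2
      simp only [add_sub_cancel] at this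
      exact Der.move this (hK _ _ _ (E.dP q.1) (E.dP q.2.1) (hdbl q.2.2) (by kron_ext3) rfl))
  obtain ⟨S13, s13, n13, m13⟩ := n12.step hκ
    (fun q : TT × TT × TT => (U ((E.e ⊗ₖ E.e) ⊗ₖ E.e), w q.1 q.2.1 q.2.2)) 0
    (fun q => ⟨U ((E.e ⊗ₖ E.e) ⊗ₖ E.e), by
      have e1 : w q.1 q.2.1 q.2.2 =
        -(u q.1 q.2.1 q.2.2 - (w q.1 q.2.1 q.2.2 + u q.1 q.2.1 q.2.2)) := by abel
      simp only
      rw [e1]
      have := s12 (x11 (q.1, q.2.1) q.2.2)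
      simp only [hG3] at this
      exact Submodule.neg_mem _ (mem_sp this), Mv.refl _⟩)
  refine ⟨S13, _, n13, le_of_eq ?_, ?_⟩
  · simp only [Fintype.card_prod, Fintype.card_sum, Fintype.card_bool, Fintype.card_option]
    ring
  · rintro (⟨_ | _, A, B, D⟩ | ⟨_ | _ | _, c, p⟩)
    · exact s13 (m12 (A, B, D))
    · simpa [gr0] using m13 (A, B, D)
    · simpa [gr0] using s13 (s12 (s11 (s10 (s9 (s8 (s7 (s6 (s5 (m4 (c, p))))))))))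
    · simpa [gr0] using s13 (s12 (s11 (s10 (m9 (c, p)))))
    · have := s13 (s12 (z11 c p))
      simp only [hG3] at this
      simpa [gr0] using this

end Crest.Agent.H9.IM.NT
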