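import Crest.Agent.H9.IMNet3

/-! Row 326: the network with integer frames and data of characteristic two. -/

set_option autoImplicit false
set_option linter.unusedSectionVars false
set_option linter.unusedVariables false
set_option linter.unusedSimpArgs false

namespace Crest.Agent.H9.IM.NT
open Finset Crest.Agent.H9.IM Matrix Kronecker

section dec
variable {M M' : Type} [Fintype M] [DecidableEq M] [Fintype M'] [DecidableEq M']

def DZ (Q : Matrix M M ℤ) (r : ℕ) : Prop :=
  ∃ l : List ((M → ℤ) × (M → ℤ)), l.length ≤ r ∧ Q = (l.map fun w => vecMulVec w.1 w.2).sum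

lemma DZ.zero (r : ℕ) : DZ (0 : Matrix M M ℤ) r := ⟨[], by simp, by simp⟩
lemma DZ.single (u w : M → ℤ) : DZ (vecMulVec u w) 1 := ⟨[(u, w)], by simp, by simp⟩
lemma DZ.mono {Q : Matrix M M ℤ} {r r' : ℕ} (h : DZ Q r) (hr : r ≤ r') : DZ Q r' := by
  obtain ⟨l, hl, hQ⟩ := h
  exact ⟨l, hl.trans hr, hQ⟩
lemma DZ.add {Q Q' : Matrix M M ℤ} {r r' : ℕ} (h : DZ Q r) (h' : DZ Q' r') :
    DZ (Q + Q') (r + r') := by
  obtain ⟨l, hl, hQ⟩ := h
  obtain ⟨l', hl', hQ'⟩ := h'
  exact ⟨l ++ l', by simp; omega, by simp [hQ, hQ']⟩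
lemma DZ.sum {ι : Type} (S : Finset ι) (u w : ι → M → ℤ) :
    DZ (∑ i ∈ S, vecMulVec (u i) (w i)) S.card := by
  classical
  induction S using Finset.induction_on with
  | empty => simpa using DZ.zero 0
  | insert a S ha ih =>
    rw [Finset.sum_insert ha, Finset.card_insert_of_notMem ha, add_comm S.card]
    exact (DZ.single _ _).add ih
lemma DZ.map {Q : Matrix M M ℤ} {r k : ℕ} (h : DZ Q r)
    (f : Matrix M M ℤ →+ Matrix M' M' ℤ) (hf : ∀ u w, DZ (f (vecMulVec u w)) k) :
    DZ (f Q) (r * k) := by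
  obtain ⟨l, hl, rfl⟩ := h
  refine DZ.mono (r := l.length * k) ?_ (Nat.mul_le_mul_right _ hl)
  clear hl
  induction l with
  | nil => simpa using DZ.zero 0
  | cons w l ih =>
    simp only [List.map_cons, List.sum_cons, map_add, List.length_cons]
    exact ((hf w.1 w.2).add ih).mono (by nlinarith)
lemma DZ.kron {Q : Matrix M M ℤ} {Q' : Matrix M' M' ℤ} {r r' : ℕ} (h : DZ Q r)
    (h' : DZ Q' r') : DZ (Q ⊗ₖ Q') (r * r') := by
  have h1 : ∀ u w : M → ℤ, DZ (vecMulVec u w ⊗ₖ Q') r' := by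
    intro u w
    have := h'.map (M' := M × M') (k := 1)
      (AddMonoidHom.mk' (fun X => vecMulVec u w ⊗ₖ X) (fun X Y => kronecker_add _ _ _))
      (fun u' w' => by
        have : vecMulVec u w ⊗ₖ vecMulVec u' w' = vecMulVec (fun p : M × M' => u p.1 * u' p.2)
            (fun p : M × M' => w p.1 * w' p.2) := by
          ext ⟨i, j⟩ ⟨k, l⟩
          simp [vecMulVec_apply]; ring
        simp only [AddMonoidHom.mk'_apply, this]
        exact DZ.single _ _)
    simpa using this
  exact h.map (M' := M × M')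
    (AddMonoidHom.mk' (fun X => X ⊗ₖ Q') (fun X Y => add_kronecker _ _ _)) h1
lemma DZ.neg {Q : Matrix M M ℤ} {r : ℕ} (h : DZ Q r) : DZ (-Q) r := by
  have := h.map (k := 1) (negAddMonoidHom) (fun u w => by
    have : -vecMulVec u w = vecMulVec (-u) w := by ext i j; simp [vecMulVec_apply]
    simp only [negAddMonoidHom_apply, this]; exact DZ.single _ _)
  simpa using this

/-- a matrix killing two vectors with a unit pattern -/
lemma dz_ker (Q : Matrix M M ℤ) (S : Finset M) (x : M → M → ℤ)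
    (hx : ∀ i ∈ S, Q *ᵥ x i = 0) (hp : ∀ i ∈ S, ∀ j ∈ S, x i j = if i = j then 1 else 0) :
    DZ Q (Fintype.card M - S.card) := by
  have h := DZ.sum Sᶜ (fun k => fun a => Q a k)
    (fun k => fun b => (if k = b then 1 else 0) - ∑ i ∈ S, if i = b then x i k else 0)
  rw [Finset.card_compl] at h
  convert h using 1
  ext a b
  simp only [Matrix.sum_apply, vecMulVec_apply, mul_sub, Finset.sum_sub_distrib, mul_ite, mul_one,
    mul_zero, Finset.sum_ite_eq', Finset.sum_ite_eq, Finset.mem_compl]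
  by_cases hb : b ∈ S
  · have h1 := congrFun (hx b hb) a
    simp only [Matrix.mulVec, dotProduct, Pi.zero_apply] at h1
    rw [← Finset.sum_add_sum_compl S, Finset.sum_eq_single b
      (fun j hj hjb => by rw [hp b hb j hj]; simp [Ne.symm hjb]) (fun h => absurd hb h),
      hp b hb b hb] at h1
    simp only [hb, not_true, if_false, if_true] at h1 ⊢
    linarith
  · simp [hb]
end dec

abbrev HA := Fin 24
def TA : Type := {A : Finset HA // A.card = 3}
instance : Finite TA := inferInstanceAs (Finite {A : Finset HA // A.card = 3})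
noncomputable instance : Fintype TA := Fintype.ofFinite _
noncomputable instance : DecidableEq TA := Classical.decEq _

lemma card_TA : Fintype.card TA = 2024 := by
  rw [← Nat.card_eq_fintype_card]
  change Nat.card {A : Finset HA // A.card = 3} = 2024
  rw [Nat.card_eq_fintype_card, Fintype.card_finset_len]; simp; decide

def PA : Type := {p : TA × TA // (p.1.1 ∩ p.2.1).card = 1}
instance : Finite PA := inferInstanceAs (Finite {p : TA × TA // (p.1.1 ∩ p.2.1).card = 1})
noncomputable instance : Fintype PA := Fintype.ofFinite _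

lemma card_PA : Fintype.card PA ≤ 2024 * 2024 := by
  have := Fintype.card_le_of_injective (fun p : PA => p.1) Subtype.val_injective
  rwa [Fintype.card_prod, card_TA] at this

def ia (R : Type) [CommRing R] (A : TA) : HA → R := fun i => if i ∈ A.1 then 1 else 0

lemma ia_dot (R : Type) [CommRing R] (A B : TA) :
    ∑ i, ia R A i * ia R B i = ((A.1 ∩ B.1).card : R) := by
  have : ∀ i, ia R A i * ia R B i = if i ∈ A.1 ∩ B.1 then 1 else 0 := by
    intro i; simp only [ia, Finset.mem_inter]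
    by_cases h1 : i ∈ A.1 <;> by_cases h2 : i ∈ B.1 <;> simp [h1, h2]
  simp only [this, Finset.sum_boole, Finset.filter_mem_eq_inter, Finset.univ_inter]

lemma ia_sum (B : TA) : ∑ i, ia ℤ B i = 3 := by
  simp only [ia, Finset.sum_boole, Finset.filter_mem_eq_inter, Finset.univ_inter, B.2]; rfl

def PmA (A : TA) : Matrix HA HA ℤ := vecMulVec (ia ℤ A) (fun i => 3 * ia ℤ A i - 1)

lemma PmA_mul (A B : TA) : PmA A *ᵥ ia ℤ B = (3 * ((A.1 ∩ B.1).card : ℤ) - 3) • ia ℤ A := by
  funext a
  simp only [PmA, Matrix.mulVec, dotProduct, vecMulVec_apply, Pi.smul_apply, smul_eq_mul]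
  have : ∀ x, ia ℤ A a * (3 * ia ℤ A x - 1) * ia ℤ B x =
      ia ℤ A a * 3 * (ia ℤ A x * ia ℤ B x) - ia ℤ A a * ia ℤ B x := fun x => by ring
  simp only [this, Finset.sum_sub_distrib, ← Finset.mul_sum, ia_dot, ia_sum]
  ring

lemma card_inter_cases (A B : TA) : (A.1 ∩ B.1).card ≤ 3 ∧ ((A.1 ∩ B.1).card = 3 ↔ A = B) := by
  refine ⟨(Finset.card_le_card Finset.inter_subset_left).trans (le_of_eq A.2), fun h4 => ?_,
    fun h => by subst h; simp [A.2]⟩
  have e1 := Finset.eq_of_subset_of_card_le (Finset.inter_subset_left (s₁ := A.1) (s₂ := B.1))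
    (by rw [h4, A.2])
  have e2 := Finset.eq_of_subset_of_card_le (Finset.inter_subset_right (s₁ := A.1) (s₂ := B.1))
    (by rw [h4, B.2])
  exact Subtype.ext (e1.symm.trans e2)

lemma exists_diff (A B : TA) (h : (A.1 ∩ B.1).card = 1) : ∃ i, i ∈ A.1 ∧ i ∉ B.1 := by
  by_contra hc
  push Not at hc
  have : A.1 ∩ B.1 = A.1 := Finset.inter_eq_left.2 hc
  rw [this, A.2] at h; omega

noncomputable def desA : Des (ZMod 2) ℤ HA TA PA HA where
  e := (6 : ℤ) • 1
  Pm := PmA
  f1 := fun p => p.1.1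
  f2 := fun p => p.1.2
  wa := fun A i => ia _ A i
  wb := fun i B => ia _ B i
  pw := fun _ => 1
  h := 22
  D1 := DZ
  D2 := DZ
  key := by
    intro A B
    rw [ia_dot]
    have h1 : (∑ p : PA, if p.1.1 = A ∧ p.1.2 = B then (1 : ZMod 2) else 0) =
        if (A.1 ∩ B.1).card = 1 then 1 else 0 := by
      split_ifs with h
      · refine (Finset.sum_eq_single (show PA from ⟨(A, B), h⟩) ?_ (by simp)).trans (by simp)
        intro p _ hp
        rw [if_neg]
        rintro ⟨rfl, rfl⟩
        exact hp rfl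
      · refine Finset.sum_eq_zero (fun p _ => if_neg ?_)
        rintro ⟨rfl, rfl⟩
        exact h p.2
    rw [h1]
    obtain ⟨h2, h3⟩ := card_inter_cases A B
    simp only [← h3]
    generalize (A.1 ∩ B.1).card = k at *
    interval_cases k <;> decide
  kron := fun _ _ _ _ a b => a.kron b
  neg1 := fun _ _ a => a.neg
  d0 := DZ.zero 0
  dP := fun A => DZ.single _ _
  d1 := by
    intro A
    obtain ⟨i, hi⟩ : A.1.Nonempty := Finset.card_pos.1 (by rw [A.2]; norm_num)
    have := dz_ker ((6 : ℤ) • 1 - PmA A) {i} (fun _ => ia ℤ A)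
      (fun _ _ => by
        rw [Matrix.sub_mulVec, PmA_mul, Matrix.smul_mulVec, Matrix.one_mulVec]
        simp [A.2])
      (fun a ha b hb => by
        rw [Finset.mem_singleton] at ha hb
        simp [ha, hb, ia, hi])
    simpa using this
  d2 := by
    rintro ⟨⟨A, B⟩, h⟩
    obtain ⟨i, hi, hi'⟩ := exists_diff A B h
    obtain ⟨j, hj, hj'⟩ := exists_diff B A (by rw [Finset.inter_comm]; exact h)
    have hij : i ≠ j := by rintro rfl; exact hi' hj
    have h' : (B.1 ∩ A.1).card = 1 := by rw [Finset.inter_comm]; exact h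
    simp only at h
    have := dz_ker ((6 : ℤ) • 1 - PmA A - PmA B) {i, j} (fun a => if a = i then ia ℤ A else ia ℤ B)
      (fun a _ => by
        split_ifs <;>
        · rw [Matrix.sub_mulVec, Matrix.sub_mulVec, PmA_mul, PmA_mul, Matrix.smul_mulVec,
            Matrix.one_mulVec]
          simp [A.2, B.2, h, h'])
      (fun a ha b hb => by
        simp only [Finset.mem_insert, Finset.mem_singleton] at ha hb
        rcases ha with rfl | rfl <;> rcases hb with rfl | rfl <;>
          simp [ia, hi, hi', hj, hj', hij, hij.symm])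
    rw [Finset.card_pair hij] at this
    simpa using this
  de := by simpa using dz_ker ((6 : ℤ) • (1 : Matrix HA HA ℤ)) ∅ (fun _ => 0) (by simp) (by simp)

def eq3 : (HA × HA) × HA ≃ Fin 13824 :=
  (Equiv.prodCongr finProdFinEquiv (Equiv.refl _)).trans finProdFinEquiv

noncomputable def UA (ψ : M3 HA ℤ) : Multiplicative (Matrix (Fin 13824) (Fin 13824) ℤ) :=
  Multiplicative.ofAdd (Matrix.reindex eq3 eq3 ψ)

noncomputable def ctxA : Ctx (ZMod 2) (Multiplicative (Matrix (Fin 13824) (Fin 13824) ℤ))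
    ((Fin 13824 → ℤ) × (Fin 13824 → ℤ)) (Wr3 TA PA) where
  η := 1
  op := fun m => Multiplicative.ofAdd (vecMulVec m.1 m.2)
  cst := fun _ => true
  g0 := fun a => UA (gr0 desA a)
  T := Fintype.card (Wr3 TA PA)
  ι := Fintype.equivFin _

lemma mvA (ψ ψ' : M3 HA ℤ) (k : ℕ) (h : DZ (ψ' - ψ) k) : Mv ctxA (UA ψ) (UA ψ') k := by
  have h1 := h.map (k := 1) (Matrix.reindexAddEquiv ℤ eq3 eq3).toAddMonoidHom (fun u w => by
    have : Matrix.reindex eq3 eq3 (vecMulVec u w) = vecMulVec (u ∘ eq3.symm) (w ∘ eq3.symm) := by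
      ext i j; simp [vecMulVec_apply]
    exact this ▸ DZ.single _ _)
  obtain ⟨l, hl, e⟩ := h1
  refine ⟨l, by simpa [ctxA] using hl, ?_⟩
  have e2 : (l.map ctxA.op).prod =
      Multiplicative.ofAdd (l.map fun w => vecMulVec w.1 w.2).sum := by
    rw [ofAdd_list_prod, List.map_map]; rfl
  rw [e2, ← e, UA, UA, ← ofAdd_add]
  congr 1
  ext i j
  simp

theorem netA : NetA := by
  obtain ⟨S, r, ⟨P, h1, h2, h3⟩, hr, hS⟩ := network3 desA (C := ctxA)
    (fun c => ⟨(c.val : ℤ), 0, by simp⟩) UA (fun _ => rfl)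
    (fun ψ ψ' Q Q' k k' a b e => mvA _ _ _ (e ▸ DZ.kron a b))
    (fun _ _ _ _ a b => DZ.add a b)
    (fun A => by
      have : desA.Pm A + desA.Pm A = vecMulVec (2 • ia ℤ A) (fun i => 3 * ia ℤ A i - 1) := by
        ext i j; simp [desA, PmA, vecMulVec_apply]; ring
      exact this ▸ DZ.single _ _)
  choose n hn using fun a => h3 _ (hS a)
  have hc : Fintype.card (Wr3 TA PA) = 2 * 2024 ^ 3 + 3 * 2024 ^ 2 * Fintype.card PA := by
    simp only [Fintype.card_prod, Fintype.card_sum, Fintype.card_bool, Fintype.card_option, card_TA]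
    ring
  refine ⟨ctxA.T, 216, P, fun a => if h : a < ctxA.T then n (ctxA.ι.symm ⟨a, h⟩) else 0,
    by simp only [ctxA, hc]; omega, by norm_num, h1, fun a ha => by
      simp only [ha, dif_pos]; exact (hn _).1, ?_, ?_⟩
  · have h4 := card_PA
    have h5 : ((P.map (Ins.cost (fun _ => true))).sum : ℝ) ≤ r := by exact_mod_cast h2
    refine h5.trans ?_
    simp only [card_TA, Fintype.card_fin, show desA.h = 22 from rfl] at hr
    have h6 : (r : ℝ) + 2024 ^ 3 ≤ (22 + 2) ^ 3 * (Fintype.card (Wr3 TA PA) : ℝ) +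
      3 * 2024 ^ 2 * 24 * (22 + 2) := by exact_mod_cast hr
    have h7 : (Fintype.card (Wr3 TA PA) : ℝ) ≤ 2 * 2024 ^ 3 + 3 * 2024 ^ 2 * (2024 * 2024) := by
      rw [hc]; exact_mod_cast Nat.add_le_add_left (Nat.mul_le_mul_left _ h4) _
    simp only [ctxA]
    norm_num at h6 h7 ⊢
    linarith
  · intro V _ _ ρ x hx a ha
    simp only [ha, dif_pos]
    have := (hn (ctxA.ι.symm ⟨a, ha⟩)).2 (ZMod 2) (RingHom.id _) V ρ x hx
    refine this.trans ?_
    rw [Finset.sum_eq_single (ctxA.ι.symm ⟨a, ha⟩)]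
    · simp only [Pi.single_eq_same, map_one, one_smul, Equiv.apply_symm_apply]
      congr 2
      simp only [ctxA, UA]
      rw [← ofAdd_sub]
      congr 1
      ext i j
      obtain ⟨⟨⟨i1, i2⟩, i3⟩, rfl⟩ := eq3.surjective i
      obtain ⟨⟨⟨j1, j2⟩, j3⟩, rfl⟩ := eq3.surjective j
      simp only [desA, Matrix.sub_apply, Matrix.reindex_apply, Matrix.submatrix_apply,
        Equiv.symm_apply_apply, Matrix.add_apply, add_sub_cancel_left, Matrix.kroneckerMap_apply,
        Matrix.smul_apply, Matrix.one_apply, EmbeddingLike.apply_eq_iff_eq, Prod.mk.injEq]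
      by_cases a1 : i1 = j1 <;> by_cases a2 : i2 = j2 <;> by_cases a3 : i3 = j3 <;> simp [a1, a2, a3]
    · intro b _ hb; simp [hb]
    · simp

end Crest.Agent.H9.IM.NT
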