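import Crest.Agent.H9.IMSwI

/-! Row 326: reading and writing a family of disjoint fields. -/

set_option autoImplicit false
set_option linter.unusedSectionVars false

namespace Crest.Agent.H9.IM.SW
open Crest.Agent.H3.Ptime Finset Function

lemma setf_int (lo L i v : ℕ) : (setf lo L i v : ℤ) = i + ((v : ℤ) - fld lo L i) * lo := by
  have h := congrArg (Nat.cast : ℕ → ℤ) (setf_add lo L i v)
  push_cast at h
  linear_combination h

lemma swp_int {x z L : ℕ} (h : z * L ∣ x) (i : ℕ) :
    (swp x z L i : ℤ) = i + ((fld z L i : ℤ) - fld x L i) * x + ((fld x L i : ℤ) - fld z L i) * z := by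
  unfold swp
  rw [setf_int, setf_int, fld_setf_low h]

lemma swp_lt {x z L N i : ℕ} (hz : 0 < z) (hx : 0 < x) (hL : 0 < L) (h : z * L ∣ x) (h' : x * L ∣ N)
    (hi : i < N) : swp x z L i < N :=
  setf_lt hz (fld_lt hL) ((h.mul_right L).trans h') (setf_lt hx (fld_lt hL) h' hi)

lemma fld_split (lo L L' i : ℕ) : fld lo (L * L') i = fld lo L i + L * fld (lo * L) L' i := by
  unfold fld
  rw [Nat.mod_mul, Nat.div_div_eq_div_mul]

lemma fld_pow (lo b h i : ℕ) :
    fld lo (b ^ h) i = ∑ k : Fin h, fld (lo * b ^ (k : ℕ)) b i * b ^ (k : ℕ) := by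
  rw [Fin.sum_univ_eq_sum_range (fun k => fld (lo * b ^ k) b i * b ^ k)]
  induction h with
  | zero => simp [fld, Nat.mod_one]
  | succ h ih => rw [pow_succ, fld_split, ih, sum_range_succ, mul_comm]

lemma swp_split {x z L L' : ℕ} (hz : 0 < z) (hx : 0 < x) (hL : 0 < L) (h : z * (L * L') ∣ x) (i : ℕ) :
    swp x z (L * L') i = swp (x * L) (z * L) L' (swp x z L i) := by
  have h1 : z * L ∣ x := (mul_dvd_mul_left z (dvd_mul_right L L')).trans h
  have h2 : z * L * L' ∣ x := by rwa [mul_assoc]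
  have e1 : fld (x * L) L' (swp x z L i) = fld (x * L) L' i := by
    unfold swp
    rw [fld_setf_high hz (fld_lt hL) (h1.mul_right L), fld_setf_high hx (fld_lt hL) dvd_rfl]
  have e2 : fld (z * L) L' (swp x z L i) = fld (z * L) L' i := by
    unfold swp
    rw [fld_setf_high hz (fld_lt hL) dvd_rfl, fld_setf_low h2]
  zify
  rw [swp_int h, swp_int (h2.mul_right L), e1, e2, swp_int h1, fld_split, fld_split]
  push_cast
  ring

section
variable {ι : Type} [Fintype ι] [DecidableEq ι]

structure FO (lo : ι → ℕ) (b : ℕ) : Prop where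
  hb : 0 < b
  pos : ∀ a, 0 < lo a
  dis : ∀ a c, a ≠ c → Dis (lo a) (lo c) b

def rd (lo : ι → ℕ) (b i : ℕ) : ι → ZMod b := fun a => (fld (lo a) b i : ℕ)

def wrl (lo : ι → ℕ) (b : ℕ) (z : ι → ZMod b) (l : List ι) (i : ℕ) : ℕ :=
  l.foldr (fun a i => setf (lo a) b i (z a).val) i

noncomputable def wr (lo : ι → ℕ) (b i : ℕ) (z : ι → ZMod b) : ℕ := wrl lo b z univ.toList i

variable {lo : ι → ℕ} {b : ℕ}

lemma FO.val_lt (h : FO lo b) (v : ZMod b) : v.val < b := by
  have : NeZero b := ⟨h.hb.ne'⟩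
  exact ZMod.val_lt v

lemma FO.val_rd (h : FO lo b) (i : ℕ) (a : ι) : (rd lo b i a).val = fld (lo a) b i :=
  ZMod.val_cast_of_lt (fld_lt h.hb)

lemma fld_wrl (h : FO lo b) (z : ι → ZMod b) (l : List ι) (i : ℕ) (a : ι) :
    fld (lo a) b (wrl lo b z l i) = if a ∈ l then (z a).val else fld (lo a) b i := by
  induction l with
  | nil => simp [wrl]
  | cons c l ih =>
    show fld _ _ (setf (lo c) b (wrl lo b z l i) (z c).val) = _
    by_cases e : a = c
    · subst e
      rw [fld_setf_same (h.pos a) (h.val_lt _), if_pos (by simp)]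
    · rw [fld_setf_other (h.pos c) (h.val_lt _) (h.dis c a (Ne.symm e)), ih]
      simp [e]

lemma wrl_int (h : FO lo b) (z : ι → ZMod b) {l : List ι} (hl : l.Nodup) (i : ℕ) :
    (wrl lo b z l i : ℤ) = i + (l.map fun a => (((z a).val : ℤ) - fld (lo a) b i) * lo a).sum := by
  induction l with
  | nil => simp [wrl]
  | cons c l ih =>
    show ((setf (lo c) b (wrl lo b z l i) (z c).val : ℕ) : ℤ) = _
    rw [List.nodup_cons] at hl
    rw [setf_int, ih hl.2, fld_wrl h, if_neg hl.1, List.map_cons, List.sum_cons]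
    ring

lemma wr_int (h : FO lo b) (i : ℕ) (z : ι → ZMod b) :
    (wr lo b i z : ℤ) = i + ∑ a, (((z a).val : ℤ) - fld (lo a) b i) * lo a := by
  unfold wr
  rw [wrl_int h z (nodup_toList _), sum_map_toList]

lemma fld_wr (h : FO lo b) (i : ℕ) (z : ι → ZMod b) (a : ι) :
    fld (lo a) b (wr lo b i z) = (z a).val := by
  unfold wr
  rw [fld_wrl h, if_pos (by simp)]

lemma rd_wr (h : FO lo b) (i : ℕ) (z : ι → ZMod b) : rd lo b (wr lo b i z) = z := by
  have : NeZero b := ⟨h.hb.ne'⟩
  funext a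
  unfold rd
  rw [fld_wr h, ZMod.natCast_zmod_val]

lemma wr_wr (h : FO lo b) (i : ℕ) (z z' : ι → ZMod b) : wr lo b (wr lo b i z) z' = wr lo b i z' := by
  zify
  rw [wr_int h, wr_int h, wr_int h, add_assoc, ← sum_add_distrib]
  simp only [fld_wr h]
  congr 1
  exact sum_congr rfl fun a _ => by ring

lemma wr_update (h : FO lo b) (i : ℕ) (a : ι) (v : ZMod b) :
    wr lo b i (update (rd lo b i) a v) = setf (lo a) b i v.val := by
  zify
  rw [wr_int h, setf_int, sum_eq_single a]
  · simp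
  · intro c _ hc
    rw [update_of_ne hc, h.val_rd]; simp
  · simp

lemma wr_rd (h : FO lo b) (i : ℕ) : wr lo b i (rd lo b i) = i := by
  zify
  rw [wr_int h]
  simp [h.val_rd]

lemma wr_lt (h : FO lo b) {N i : ℕ} (hN : ∀ a, lo a * b ∣ N) (hi : i < N) (z : ι → ZMod b) :
    wr lo b i z < N := by
  unfold wr
  generalize (univ : Finset ι).toList = l
  induction l with
  | nil => exact hi
  | cons c l ih => exact setf_lt (h.pos c) (h.val_lt _) (hN c) ih

noncomputable def lift (lo : ι → ℕ) (b : ℕ) (F : (ι → ZMod b) → ι → ZMod b) (i : ℕ) : ℕ :=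
  wr lo b i (F (rd lo b i))

lemma lift_lift (h : FO lo b) (F G : (ι → ZMod b) → ι → ZMod b) (i : ℕ) :
    lift lo b G (lift lo b F i) = lift lo b (fun z => G (F z)) i := by
  unfold lift
  rw [rd_wr h, wr_wr h]

lemma lift_id (h : FO lo b) (i : ℕ) : lift lo b (fun z => z) i = i := wr_rd h i

lemma lift_update (h : FO lo b) (a : ι) (φ : (ι → ZMod b) → ZMod b) (i : ℕ) :
    lift lo b (fun z => update z a (φ z)) i = setf (lo a) b i (φ (rd lo b i)).val :=
  wr_update h i a _

lemma lift_swap (h : FO lo b) (a c : ι) (i : ℕ) :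
    lift lo b (fun z => update (update z a (z c)) c (z a)) i = swp (lo a) (lo c) b i := by
  unfold swp
  rw [← h.val_rd i c, ← h.val_rd i a, ← wr_update h i a, ← wr_update h _ c, rd_wr h, wr_wr h]
  rfl

end

end Crest.Agent.H9.IM.SW
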