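import Crest.Agent.H9.IMSwA

/-! Row 326: cheap operations on the blocks. -/

set_option autoImplicit false
set_option linter.unusedSectionVars false
set_option linter.unusedVariables false

namespace Crest.Agent.H9.IM.SW
open Crest.Agent.H3.Ptime Finset Function

lemma setf_mono {lo L i j v v' : ℕ} (hlo : 0 < lo) (hv : v < L) (hv' : v' < L) (hij : i ≤ j)
    (h : i / (lo * L) = j / (lo * L) → (fld lo L i = fld lo L j → v = v') ∧
      (fld lo L i < fld lo L j → v < v')) : setf lo L i v ≤ setf lo L j v' := by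
  rcases (Nat.div_le_div_right (c := lo * L) hij).lt_or_eq with h1 | h1
  · rw [← setf_div (i := i) hlo hv, ← setf_div (i := j) hlo hv'] at h1
    exact (Nat.lt_of_div_lt_div h1).le
  · obtain ⟨h2, h3⟩ := h h1
    have e1 := fld_decomp lo L i
    have e2 := fld_decomp lo L j
    have e3 := Nat.mod_lt i hlo
    have e4 := Nat.mod_lt j hlo
    rw [setf_eq, setf_eq, ← h1]
    rw [← h1] at e2
    rcases lt_trichotomy (fld lo L i) (fld lo L j) with h4 | h4 | h4
    · have := Nat.mul_le_mul_left lo (Nat.succ_le_of_lt (h3 h4))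
      rw [Nat.mul_succ] at this
      omega
    · rw [h2 h4]
      rw [h4] at e1
      omega
    · have := Nat.mul_le_mul_left lo (Nat.succ_le_of_lt h4)
      rw [Nat.mul_succ] at this
      omega

theorem pc_fld (hA : ArrStmt) {Q : Type} [Enc Q] (lo L : Q → ℕ) (G K : Q → ℕ → ℕ → ℕ) (c : ℕ)
    (h1 : PT lo) (h2 : PT L) (h3 : PT (fun x : Q × ℕ × ℕ => G x.1 x.2.1 x.2.2))
    (h4 : PT (fun x : Q × ℕ × ℕ => K x.1 x.2.1 x.2.2)) :
    PC (fun q i => setf (lo q) (L q) i (G q (fld (lo q) (L q) i) (i / (lo q * L q))))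
      (fun q N => 0 < lo q ∧ 0 < L q ∧ lo q * L q ∣ N ∧ ∀ y < L q, ∀ H, G q y H < L q ∧ K q y H < c ∧
        ∀ y' < L q, y < y' → K q y H = K q y' H → G q y H < G q y' H) (fun _ => 0) := by
  have hp : PT (fun x : Q × ℕ => (x.1, fld (lo x.1) (L x.1) x.2, x.2 / (lo x.1 * L x.1))) := by
    fun_prop
  have g1 := h3.comp hp
  have g2 := h4.comp hp
  dsimp only at g1 g2
  refine hA.pmono (hA.ppull
    (fun q i => setf (lo q) (L q) i (G q (fld (lo q) (L q) i) (i / (lo q * L q))))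
    (fun q i => K q (fld (lo q) (L q) i) (i / (lo q * L q))) c (by fun_prop) g2) id _ _ _ 0 PT.id' ?_
  rintro q N ⟨a1, a2, a3, a4⟩
  refine ⟨⟨fun i hi => ⟨(a4 _ (fld_lt a2) _).2.1, setf_lt a1 (a4 _ (fld_lt a2) _).1 a3 hi⟩,
    fun i j hij _ hc => ?_⟩, fun _ _ => rfl, le_rfl, by simp⟩
  refine setf_mono a1 (a4 _ (fld_lt a2) _).1 (a4 _ (fld_lt a2) _).1 hij fun e => ?_
  dsimp only [id] at hc e ⊢
  rw [← e] at hc ⊢
  exact ⟨fun h => by rw [h], fun h => (a4 _ (fld_lt a2) _).2.2 _ (fld_lt a2) h hc⟩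

theorem pc_small (hA : ArrStmt) {Q : Type} [Enc Q] (x z L : Q → ℕ) (c : ℕ) (h1 : PT x) (h2 : PT z)
    (h3 : PT L) : PC (fun q => swp (x q) (z q) (L q))
      (fun q N => 0 < z q ∧ 0 < x q ∧ 0 < L q ∧ z q * L q ∣ x q ∧ x q * L q ∣ N ∧ L q ≤ c)
      (fun _ => 0) := by
  refine hA.pmono (hA.ppull (fun q => swp (x q) (z q) (L q))
    (fun q i => fld (x q) (L q) i * c + fld (z q) (L q) i) (c * c) (by unfold swp; fun_prop)
    (by fun_prop)) id _ _ _ 0 PT.id' ?_
  rintro q N ⟨a1, a2, a3, a4, a5, a6⟩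
  have b : ∀ lo i, fld lo (L q) i < c := fun lo i => (fld_lt a3).trans_le a6
  refine ⟨⟨fun i hi => ⟨?_, swp_lt a1 a2 a3 a4 a5 hi⟩, fun i j hij _ hc => ?_⟩, fun _ _ => rfl,
    le_rfl, by simp⟩
  · have := b (x q) i
    have := b (z q) i
    dsimp only [id]
    nlinarith
  · dsimp only [id] at hc ⊢
    have e1 : fld (z q) (L q) i = fld (z q) (L q) j := by
      have := congrArg (· % c) hc
      simpa [Nat.mod_eq_of_lt (b _ _)] using this
    have e2 : fld (x q) (L q) i = fld (x q) (L q) j :=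
      Nat.eq_of_mul_eq_mul_right (Nat.zero_lt_of_lt (b 0 0)) (by omega)
    zify
    rw [swp_int a4, swp_int a4, e1, e2]
    have : (i : ℤ) ≤ j := by exact_mod_cast hij
    linarith

theorem pc_flip (hA : ArrStmt) {Q : Type} [Enc Q] (lo L : Q → ℕ) (h1 : PT lo) (h2 : PT L) :
    PC (fun q i => setf (lo q) (L q) i (L q - 1 - fld (lo q) (L q) i))
      (fun q N => 0 < lo q ∧ 0 < L q ∧ lo q * L q ∣ N) (fun _ => 0) := by
  have r1 := hA.pmono hA.rev lo (fun q i => i / lo q * lo q + (lo q - 1 - i % lo q))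
    (fun q N => 0 < lo q ∧ 0 < L q ∧ lo q * L q ∣ N) (fun _ => 0) 0 h1
    (fun q N h => ⟨⟨h.1, (dvd_mul_right _ _).trans h.2.2⟩, fun _ _ => rfl, le_rfl, by simp⟩)
  have r2 := hA.pmono hA.rev (fun q => lo q * L q)
    (fun q i => i / (lo q * L q) * (lo q * L q) + (lo q * L q - 1 - i % (lo q * L q)))
    (fun q N => 0 < lo q ∧ 0 < L q ∧ lo q * L q ∣ N) (fun _ => 0) 0 (h1.mul h2)
    (fun q N h => ⟨⟨Nat.mul_pos h.1 h.2.1, h.2.2⟩, fun _ _ => rfl, le_rfl, by simp⟩)
  refine hA.pmono (hA.pcomp r1 r2) id _ _ _ 0 PT.id' fun q N h => ⟨h, fun i _ => ?_, le_rfl, by simp⟩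
  obtain ⟨a1, a2, -⟩ := h
  dsimp only [id]
  generalize lo q = l at *
  generalize L q = m at *
  have e3 := Nat.mod_lt i a1
  have e4 : fld l m i < m := fld_lt a2
  have e5 : i % (l * m) = i % l + l * fld l m i := by rw [Nat.mod_mul]; rfl
  obtain ⟨t, ht⟩ : ∃ t, m = fld l m i + t + 1 := ⟨m - 1 - fld l m i, by omega⟩
  have e6 : m - 1 - fld l m i = t := by omega
  have e7 : l * m = l * fld l m i + l * t + l := by
    conv_lhs => rw [ht]
    ring
  have e8 : i / (l * m) * (l * m) + (l * m - 1 - i % (l * m)) =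
      (l - 1 - i % l) + l * (t + m * (i / (l * m))) := by
    rw [e5, mul_add l t, ← mul_assoc l m, mul_comm (i / (l * m))]
    omega
  rw [e8, setf_eq, e6, Nat.add_mul_div_left _ _ a1, Nat.add_mul_mod_self_left,
    Nat.div_eq_of_lt (by omega), Nat.mod_eq_of_lt (a := l - 1 - i % l) (by omega), zero_add, add_mul,
    mul_comm t, mul_comm (m * _), ← mul_assoc]
  omega

/-! ### the blocks -/

abbrev BI := Bool × Fin 13824

def lo (p : ℕ) (q : SQ) (a : BI) : ℕ := (bif a.1 then q.1 else q.2.1) * bb p q ^ (a.2 : ℕ)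

def Lt (a c : BI) : Prop := (a.1 = false ∧ c.1 = true) ∨ (a.1 = c.1 ∧ a.2 < c.2)

lemma Lt.ne {a c : BI} (h : Lt a c) : a ≠ c := by
  rintro rfl
  rcases h with ⟨h1, h2⟩ | ⟨-, h⟩
  · rw [h1] at h2; cases h2
  · exact lt_irrefl _ h

lemma lt_or_lt {a c : BI} (h : a ≠ c) : Lt a c ∨ Lt c a := by
  obtain ⟨s, k⟩ := a
  obtain ⟨s', k'⟩ := c
  cases s <;> cases s' <;> simp_all [Lt]

lemma pt_JJ : PT JJ := by unfold JJ; fun_prop
lemma pb_JJ : PB JJ := by unfold JJ; exact PB.div (PB.length (by fun_prop))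
lemma pt_bb (p : ℕ) : PT (bb p) := PT.pow (PT.const p) pt_JJ pb_JJ
lemma pt_lo (p : ℕ) (a : BI) : PT (fun q => lo p q a) := by
  obtain ⟨s, k⟩ := a
  have := PT.pow (pt_bb p) (PT.const (k : ℕ)) (PB.const _)
  cases s
  · exact PT.mul (by fun_prop : PT (fun q : SQ => q.2.1)) this
  · exact PT.mul (by fun_prop : PT (fun q : SQ => q.1)) this

variable {p : ℕ} {q : SQ} {N : ℕ}

lemma bb_dvd (p : ℕ) (q : SQ) (k : Fin 13824) : bb p q ^ (k : ℕ) * bb p q ∣ p ^ q.2.2.length := by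
  rw [← pow_succ, bb, ← pow_mul]
  refine pow_dvd_pow _ ((Nat.mul_le_mul_left _ k.2).trans (Nat.div_mul_le_self _ _))

lemma SP.x_pos (h : SP p q N) : 0 < q.1 :=
  Nat.pos_of_dvd_of_pos ((dvd_mul_right _ _).trans h.2.2.1) h.2.2.2

lemma SP.lt_dvd (h : SP p q N) {a c : BI} (hac : Lt a c) : lo p q a * bb p q ∣ lo p q c := by
  obtain ⟨s, k⟩ := a
  obtain ⟨s', k'⟩ := c
  rcases hac with ⟨h1, h2⟩ | ⟨h1, h2⟩
  · dsimp only at h1 h2
    subst h1 h2
    simp only [lo, cond_true, cond_false, mul_assoc]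
    exact ((mul_dvd_mul_left _ (bb_dvd p q k)).trans h.2.1).mul_right _
  · dsimp only at h1 h2
    subst h1
    simp only [lo, mul_assoc]
    refine mul_dvd_mul_left _ ?_
    rw [← pow_succ]
    exact pow_dvd_pow _ h2

lemma SP.lo_dvd (h : SP p q N) (a : BI) : lo p q a * bb p q ∣ N := by
  obtain ⟨s, k⟩ := a
  cases s
  · simp only [lo, cond_false, mul_assoc]
    exact (((mul_dvd_mul_left _ (bb_dvd p q k)).trans h.2.1).mul_right _).trans h.2.2.1
  · simp only [lo, cond_true, mul_assoc]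
    exact (mul_dvd_mul_left _ (bb_dvd p q k)).trans h.2.2.1

lemma SP.fo (h : SP p q N) : FO (lo p q) (bb p q) :=
  ⟨Nat.pos_of_dvd_of_pos ((dvd_mul_left _ _).trans (h.lo_dvd (true, 0))) h.2.2.2,
    fun a => Nat.pos_of_dvd_of_pos ((dvd_mul_right _ _).trans (h.lo_dvd a)) h.2.2.2,
    fun _ _ hac => (lt_or_lt hac).imp h.lt_dvd h.lt_dvd⟩

abbrev Op := (b : ℕ) → (BI → ZMod b) → BI → ZMod b

def Ch (p : ℕ) (F : Op) : Prop :=
  PC (fun q => lift (lo p q) (bb p q) (F (bb p q))) (SP p) (fun _ => 0)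

section
variable (hA : ArrStmt)
include hA

lemma Ch.congr {F G : Op} (h : Ch p F) (e : ∀ J z, F (p ^ J) z = G (p ^ J) z) : Ch p G :=
  hA.pmono h id _ _ _ 0 PT.id' fun q N hq => ⟨hq, fun i _ => by
    show wr _ _ _ (F (p ^ JJ q) _) = wr _ _ _ (G (p ^ JJ q) _)
    rw [e]; rfl, le_rfl, by simp⟩

lemma Ch.comp {F G : Op} (hF : Ch p F) (hG : Ch p G) : Ch p (fun b z => G b (F b z)) :=
  hA.pmono (hA.pcomp hG hF) id _ _ _ 0 PT.id' fun q N hq =>
    ⟨hq, fun i _ => lift_lift hq.fo _ _ i, le_rfl, by simp⟩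

lemma Ch.id : Ch p (fun _ z => z) :=
  hA.pmono (hA.ppull (fun (_ : SQ) i => i) (fun _ _ => 0) 1 (by fun_prop) (by fun_prop)) _root_.id
    _ _ _ 0 PT.id' (fun q N hq => ⟨⟨fun i hi => ⟨by norm_num, hi⟩, fun i j h _ _ => h⟩,
      fun i _ => (lift_id hq.fo i).symm, le_rfl, by simp⟩)

lemma Ch.of_setf (a : BI) (φ : (b : ℕ) → (BI → ZMod b) → ZMod b) {P : SQ → ℕ → Prop}
    {g : SQ → ℕ → ℕ} (h : PC (fun q i => setf (lo p q a) (bb p q) i (g q i)) P (fun _ => 0))
    (e : ∀ q N, SP p q N → P q N ∧ ∀ i, g q i < bb p q ∧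
      (g q i : ZMod (bb p q)) = φ (bb p q) (rd (lo p q) (bb p q) i)) :
    Ch p (fun b z => update z a (φ b z)) :=
  hA.pmono h _root_.id _ _ _ 0 PT.id' fun q N hq => ⟨(e q N hq).1, fun i _ => by
    rw [lift_update hq.fo, ← ((e q N hq).2 i).2, ZMod.val_cast_of_lt ((e q N hq).2 i).1]; rfl,
    le_rfl, by simp⟩

lemma ch_aff (a : BI) {n : ℕ} (hn : 0 < n) (ψ : (b : ℕ) → (BI → ZMod b) → ZMod b) (f : SQ → ℕ → ℕ)
    (hf : PT (fun x : SQ × ℕ => f x.1 x.2))
    (e : ∀ q N, SP p q N → ∀ i, (f q (i / (lo p q a * bb p q)) : ZMod (bb p q)) =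
      ψ (bb p q) (rd (lo p q) (bb p q) i)) :
    Ch p (fun b z => update z a (n * z a + ψ b z)) := by
  have hb := pt_bb p
  have hf' : PT (fun x : SQ × ℕ × ℕ => f x.1 x.2.2) :=
    hf.comp (f := fun x : SQ × ℕ × ℕ => (x.1, x.2.2)) (by fun_prop)
  refine Ch.of_setf hA a _ (pc_fld hA (fun q => lo p q a) (bb p)
    (fun q y H => (n * y + f q H % bb p q) % bb p q) (fun q y H => (n * y + f q H % bb p q) / bb p q)
    (n + 1) (pt_lo p a) hb (by fun_prop) (by fun_prop)) fun q N hq => ?_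
  have h0 := hq.fo.hb
  refine ⟨⟨hq.fo.pos a, h0, hq.lo_dvd a, fun y hy H => ⟨Nat.mod_lt _ h0, ?_, fun y' _ hyy hk => ?_⟩⟩,
    fun i => ⟨Nat.mod_lt _ h0, ?_⟩⟩
  · rw [Nat.div_lt_iff_lt_mul h0]
    have := Nat.mod_lt (f q H) h0
    nlinarith
  · have e1 := Nat.div_add_mod (n * y + f q H % bb p q) (bb p q)
    have e2 := Nat.div_add_mod (n * y' + f q H % bb p q) (bb p q)
    rw [hk] at e1
    have : n * y < n * y' := Nat.mul_lt_mul_of_pos_left hyy hn
    omega
  · rw [ZMod.natCast_mod]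
    push_cast
    rw [ZMod.natCast_mod, e q N hq]
    rfl

lemma ch_add {a c : BI} (h : Lt a c) (d : ℤ) : Ch p (fun b z => update z a (z a + d * z c)) := by
  have hb := pt_bb p
  have h1 := pt_lo p a
  have h2 := pt_lo p c
  refine (ch_aff hA a one_pos (fun b z => d * z c) (fun q H =>
    d.toNat * fld (lo p q c) (bb p q) (H * (lo p q a * bb p q)) +
    (-d).toNat * (bb p q - fld (lo p q c) (bb p q) (H * (lo p q a * bb p q)))) (by fun_prop)
    fun q N hq i => ?_).congr hA fun J z => by simp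
  have e : fld (lo p q c) (bb p q) (i / (lo p q a * bb p q) * (lo p q a * bb p q)) =
      fld (lo p q c) (bb p q) i := by
    obtain ⟨t, ht⟩ := hq.lt_dvd h
    have hp : 0 < lo p q a * bb p q := Nat.mul_pos (hq.fo.pos a) hq.fo.hb
    unfold fld
    rw [ht, ← Nat.div_div_eq_div_mul, ← Nat.div_div_eq_div_mul i _ t, Nat.mul_div_cancel _ hp]
  rw [e]
  have e2 : (d : ZMod (bb p q)) = (d.toNat : ZMod (bb p q)) - ((-d).toNat : ZMod (bb p q)) := by
    conv_lhs => rw [← Int.toNat_sub_toNat_neg d]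
    push_cast; rfl
  rw [Nat.cast_add, Nat.cast_mul, Nat.cast_mul, Nat.cast_sub (fld_lt hq.fo.hb).le, ZMod.natCast_self, e2]
  unfold rd
  ring

lemma ch_neg (a : BI) : Ch p (fun b z => update z a (-z a)) := by
  have h1 : Ch p (fun b z => update z a (-1 - z a)) := by
    refine Ch.of_setf hA a _ (pc_flip hA (fun q => lo p q a) (bb p) (pt_lo p a) (pt_bb p))
      fun q N hq => ⟨⟨hq.fo.pos a, hq.fo.hb, hq.lo_dvd a⟩, fun i => ?_⟩
    have h0 := hq.fo.hb
    have := fld_lt (lo := lo p q a) (i := i) h0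
    refine ⟨by omega, ?_⟩
    rw [Nat.cast_sub (by omega), Nat.cast_sub h0, ZMod.natCast_self]
    simp [rd]
  have h2 := ch_aff (p := p) hA a one_pos (fun b z => 1) (fun _ _ => 1) (by fun_prop)
    fun q N hq i => by simp
  exact (h1.comp hA h2).congr hA fun J z => by
    rw [update_idem, update_self]; congr 1; push_cast; ring

lemma ch_mul (a : BI) {c : ℤ} (hc : c ≠ 0) : Ch p (fun b z => update z a (c * z a)) := by
  have h1 := ch_aff (p := p) hA a (Int.natAbs_pos.2 hc) (fun b z => 0) (fun _ _ => 0) (by fun_prop)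
    fun q N hq i => by simp
  rcases Int.natAbs_eq c with e | e
  · exact h1.congr hA fun J z => by rw [e]; simp
  · exact (h1.comp hA (ch_neg hA a)).congr hA fun J z => by rw [e]; simp

lemma ch_invN (a : BI) {n : ℕ} (hn : 0 < n) (hc : Nat.Coprime p n) :
    Ch p (fun b z => update z a ((n : ZMod b)⁻¹ * z a)) := by
  have hb := pt_bb p
  have hb' : PT (fun q => bb p q ^ (n.totient - 1)) := PT.pow hb (PT.const _) (PB.const _)
  have key : ∀ q y, n ∣ y + y * (n - 1) * bb p q ^ (n.totient - 1) % n * bb p q := by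
    intro q y
    have h1 : (bb p q : ZMod n) ^ (n.totient - 1) * (bb p q : ZMod n) = 1 := by
      rw [← pow_succ, Nat.sub_add_cancel (Nat.totient_pos.2 hn)]
      have := (ZMod.natCast_eq_natCast_iff _ _ _).2
        (Nat.ModEq.pow_totient (x := bb p q) (n := n) (Nat.Coprime.pow_left _ hc))
      simpa using this
    rw [← ZMod.natCast_eq_zero_iff]
    push_cast
    rw [ZMod.natCast_mod]
    push_cast
    rw [Nat.cast_sub hn, ZMod.natCast_self, mul_assoc, h1]
    simp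
  refine Ch.of_setf hA a _ (pc_fld hA (fun q => lo p q a) (bb p)
    (fun q y _ => (y + y * (n - 1) * bb p q ^ (n.totient - 1) % n * bb p q) / n)
    (fun q y _ => y * (n - 1) * bb p q ^ (n.totient - 1) % n) n (pt_lo p a) hb (by fun_prop)
    (by fun_prop)) fun q N hq => ?_
  have h0 := hq.fo.hb
  have hlt : ∀ y < bb p q, (y + y * (n - 1) * bb p q ^ (n.totient - 1) % n * bb p q) / n < bb p q := by
    intro y hy
    rw [Nat.div_lt_iff_lt_mul hn]
    have := Nat.mod_lt (y * (n - 1) * bb p q ^ (n.totient - 1)) hn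
    nlinarith
  refine ⟨⟨hq.fo.pos a, h0, hq.lo_dvd a, fun y hy H => ⟨hlt y hy, Nat.mod_lt _ hn,
    fun y' _ hyy hk => ?_⟩⟩, fun i => ⟨hlt _ (fld_lt h0), ?_⟩⟩
  · refine Nat.div_lt_div_of_lt_of_dvd (key q y') ?_
    rw [hk]; omega
  · have h1 := congrArg (Nat.cast : ℕ → ZMod (bb p q))
      (Nat.mul_div_cancel' (key q (fld (lo p q a) (bb p q) i)))
    rw [Nat.cast_mul, Nat.cast_add, Nat.cast_mul _ (bb p q), ZMod.natCast_self, mul_zero, add_zero] at h1
    have h2 := ZMod.coe_mul_inv_eq_one n (Nat.Coprime.pow_right (JJ q) hc.symm)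
    unfold rd
    rw [← h1, ← mul_assoc, mul_comm _ (n : ZMod (bb p q))]
    erw [h2, one_mul]

lemma ch_inv (hp : p.Prime) {c : ℤ} (hc : c ≠ 0) (hc' : c.natAbs < p) :
    ∃ ι : (b : ℕ) → ZMod b, (∀ J, (c : ZMod (p ^ J)) * ι (p ^ J) = 1) ∧
      ∀ a, Ch p (fun b z => update z a (ι b * z a)) := by
  have hn := Int.natAbs_pos.2 hc
  have hco : Nat.Coprime p c.natAbs :=
    (Nat.Prime.coprime_iff_not_dvd hp).2 fun h => absurd (Nat.le_of_dvd hn h) (by omega)
  have h2 := fun J => ZMod.coe_mul_inv_eq_one c.natAbs (Nat.Coprime.pow_right J hco.symm)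
  rcases Int.natAbs_eq c with e | e
  · refine ⟨fun b => (c.natAbs : ZMod b)⁻¹, fun J => ?_, fun a => ch_invN hA a hn hco⟩
    conv_lhs => arg 1; rw [e]
    rw [Int.cast_natCast, h2]
  · refine ⟨fun b => -(c.natAbs : ZMod b)⁻¹, fun J => ?_, fun a =>
      ((ch_invN hA a hn hco).comp hA (ch_neg hA a)).congr hA fun J z => by simp⟩
    conv_lhs => arg 1; rw [e]
    rw [Int.cast_neg, Int.cast_natCast, neg_mul_neg, h2]

lemma ch_sum (a : BI) (d : BI → ℤ) (S : Finset BI) (hS : ∀ c ∈ S, Lt a c) :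
    Ch p (fun b z => update z a (z a + ∑ c ∈ S, d c * z c)) := by
  induction S using Finset.induction_on with
  | empty => exact (Ch.id hA).congr hA fun J z => by simp
  | insert c S hc ih =>
    have h1 := hS c (mem_insert_self _ _)
    refine ((ih fun c h => hS c (mem_insert_of_mem h)).comp hA (ch_add hA h1 (d c))).congr hA
      fun J z => ?_
    rw [sum_insert hc, update_idem, update_self, update_of_ne h1.ne.symm]
    congr 1
    ring

lemma ch_all (S : Finset BI) (φ : BI → (b : ℕ) → (BI → ZMod b) → ZMod b)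
    (h1 : ∀ a ∈ S, Ch p (fun b z => update z a (φ a b z)))
    (h2 : ∀ a ∈ S, ∀ b z z', z a = z' a → (∀ c ∉ S, z c = z' c) → φ a b z = φ a b z') :
    Ch p (fun b z a => if a ∈ S then φ a b z else z a) := by
  suffices ∀ T ⊆ S, Ch p (fun b z a => if a ∈ T then φ a b z else z a) from this S subset_rfl
  intro T hT
  induction T using Finset.induction_on with
  | empty => exact (Ch.id hA).congr hA fun J z => by simp
  | insert c T hc ih =>
    have hcS := hT (mem_insert_self _ _)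
    have hT' : T ⊆ S := (subset_insert _ _).trans hT
    refine ((ih hT').comp hA (h1 c hcS)).congr hA fun J z => funext fun a => ?_
    by_cases e : a = c
    · subst e
      rw [update_self, if_pos (mem_insert_self _ _)]
      exact h2 a hcS _ _ _ (if_neg hc) fun c' h => if_neg fun h' => h (hT' h')
    · rw [update_of_ne e]
      simp [e]

end

end Crest.Agent.H9.IM.SW
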