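import Crest.Agent.H9.IMI
import Crest.Agent.H3.IMFld

/-! Row 326: interface for the proof of `SwapStmt`. -/

set_option autoImplicit false

namespace Crest.Agent.H9.IM.SW
open Crest.Agent.H3.Ptime

/-- `(loX, loY, e)`, `e` in unary -/
abbrev SQ := ℕ × ℕ × List Unit

def swp (x z L i : ℕ) : ℕ := setf z L (setf x L i (fld z L i)) (fld x L i)

/-- validity: two fields of size `p ^ e` -/
def SP (p : ℕ) (q : SQ) (N : ℕ) : Prop :=
  0 < q.2.1 ∧ q.2.1 * p ^ q.2.2.length ∣ q.1 ∧ q.1 * p ^ q.2.2.length ∣ N ∧ 0 < N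

def PowSwap (p : ℕ) : Prop :=
  PC (fun (q : SQ) => swp q.1 q.2.1 (p ^ q.2.2.length)) (SP p)
    (fun q => (q.2.2.length + 1 : ℝ) ^ th)

/-- padding -/
def PadStmt : Prop := ∀ p : ℕ, 2 ≤ p → PowSwap p → SwapStmt

def JJ (q : SQ) : ℕ := q.2.2.length / 13824
def bb (p : ℕ) (q : SQ) : ℕ := p ^ JJ q

/-- the parameters of the recursive call on the blocks `X_i`, `Y_j` -/
def sub (p : ℕ) (q : SQ) (i j : Fin 13824) : SQ :=
  (q.1 * bb p q ^ (i : ℕ), q.2.1 * bb p q ^ (j : ℕ), List.replicate (JJ q) ())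

def MoveStmt (p : ℕ) : Prop :=
  ∃ sig : SQ → Matrix (Fin 13824) (Fin 13824) ℤ → ℕ → ℕ,
    (∀ q N, SP p q N → (∀ x, sig q 0 x = x) ∧ (∀ P Q x, sig q (P + Q) x = sig q Q (sig q P x)) ∧
      ∀ i j, SP p (sub p q i j) N) ∧
    (∀ u w : Fin 13824 → ℤ, (∀ k, (u k).natAbs < p ∧ (w k).natAbs < p) →
      Matrix.vecMulVec u w = 0 ∨ ∃ (pre post : SQ → ℕ → ℕ) (i j : Fin 13824),
        PC pre (SP p) (fun _ => 0) ∧ PC post (SP p) (fun _ => 0) ∧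
        ∀ q N, SP p q N → ∀ x, sig q (Matrix.vecMulVec u w) x =
          post q (swp (sub p q i j).1 (sub p q i j).2.1 (p ^ (sub p q i j).2.2.length) (pre q x))) ∧
    (∀ Δ : ℤ, 0 < Δ → Δ.natAbs < p → ∃ pre post : SQ → ℕ → ℕ,
      PC pre (SP p) (fun _ => 0) ∧ PC post (SP p) (fun _ => 0) ∧
      ∀ q N, SP p q N → (∀ x < N, sig q (Δ • 1) x < N) ∧
        ∀ x, swp q.1 q.2.1 (p ^ q.2.2.length) x = post q (sig q (Δ • 1) (pre q x))) ∧
    PC (fun (q : SQ) => swp q.1 q.2.1 (p ^ q.2.2.length))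
      (fun q N => SP p q N ∧ q.2.2.length < 13824) (fun _ => 0)

/-- the recursion -/
def RecSwap : Prop := (∀ p : ℕ, p.Prime → MoveStmt p) → ∃ p : ℕ, 2 ≤ p ∧ PowSwap p

theorem swapStmt_of (h1 : PadStmt) (h2 : RecSwap) (h3 : ∀ p : ℕ, p.Prime → MoveStmt p) :
    SwapStmt := by
  obtain ⟨p, hp, h⟩ := h2 h3
  exact h1 p hp h

end Crest.Agent.H9.IM.SW
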