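import Crest.Agent.H9.IMSwB

/-! Row 326: the moves of the network as index maps. -/

set_option autoImplicit false
set_option linter.unusedSectionVars false
set_option linter.unusedVariables false

namespace Crest.Agent.H9.IM.SW
open Crest.Agent.H3.Ptime Finset Function

abbrev FH := Fin 13824

def sigF (P : Matrix FH FH ℤ) : Op := fun b z a =>
  if a.1 = true then z a + ∑ k, (P a.2 k : ZMod b) * z (false, k) else z a

noncomputable def sig (p : ℕ) (q : SQ) (P : Matrix FH FH ℤ) : ℕ → ℕ :=
  lift (lo p q) (bb p q) (sigF P (bb p q))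

variable {p : ℕ} {q : SQ} {N : ℕ}

lemma sig_zero (h : SP p q N) (x : ℕ) : sig p q 0 x = x := by
  have : sigF 0 (bb p q) = fun z => z := by funext z a; simp [sigF]
  unfold sig
  rw [this, lift_id h.fo]

lemma sig_add (h : SP p q N) (P Q : Matrix FH FH ℤ) (x : ℕ) :
    sig p q (P + Q) x = sig p q Q (sig p q P x) := by
  unfold sig
  rw [lift_lift h.fo]
  congr 1
  funext z a
  obtain ⟨_ | _, k⟩ := a <;>
    simp only [sigF, Matrix.add_apply, Int.cast_add, add_mul, sum_add_distrib, Bool.false_eq_true,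
      if_false, if_true, add_assoc]

lemma sp_sub (h : SP p q N) (i j : FH) : SP p (sub p q i j) N := by
  refine ⟨h.fo.pos (false, j), ?_, ?_, h.2.2.2⟩
  · simp only [sub, List.length_replicate]
    exact h.lt_dvd (a := (false, j)) (c := (true, i)) (Or.inl ⟨rfl, rfl⟩)
  · simp only [sub, List.length_replicate]
    exact h.lo_dvd (true, i)

section
variable {R : Type} [CommRing R]

lemma sum_hi (w : FH → ℤ) (j : FH) (hj : ∀ k < j, w k = 0) (y : FH → R) :
    ∑ k, (w k : R) * y k = w j * y j + ∑ k ∈ Ioi j, (w k : R) * y k := by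
  rw [← sum_add_sum_compl (Ioi j), add_comm]
  congr 1
  refine sum_eq_single j (fun k hk hkj => ?_) (by simp)
  rw [hj k (lt_of_le_of_ne (by simpa using hk) hkj)]; simp
end

/-- the higher blocks used in the update of `Y_j` -/
def HS (i j : FH) : Finset BI := insert (true, i) ((Ioi j).map ⟨fun k => (false, k), fun _ _ h => by
  simpa using h⟩)

lemma HS_lt (i j : FH) : ∀ c ∈ HS i j, Lt (false, j) c := by
  intro c hc
  rcases mem_insert.1 hc with rfl | hc
  · exact Or.inl ⟨rfl, rfl⟩
  · obtain ⟨k, hk, rfl⟩ := mem_map.1 hc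
    exact Or.inr ⟨rfl, by simpa using hk⟩

lemma HS_sum {b : ℕ} (i j : FH) (f : BI → ZMod b) :
    ∑ c ∈ HS i j, f c = f (true, i) + ∑ k ∈ Ioi j, f (false, k) := by
  unfold HS
  rw [sum_insert (by simp), sum_map]
  rfl

section
variable (hA : ArrStmt)
include hA

lemma ch_Y (i j : FH) (w : FH → ℤ) : Ch p (fun b z => update z (false, j)
    (z (false, j) + (z (true, i) + ∑ k ∈ Ioi j, (w k : ZMod b) * z (false, k)))) :=
  (ch_sum hA (false, j) (fun c => bif c.1 then 1 else w c.2) _ (HS_lt i j)).congr hA fun J z => by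
    rw [HS_sum]; simp

lemma ch_X (i : FH) (u : FH → ℤ) : Ch p (fun b z a =>
    if a.1 = true ∧ a.2 < i then z a + (u a.2 : ZMod b) * z (true, i) else z a) :=
  (ch_all hA (univ.filter fun a : BI => a.1 = true ∧ a.2 < i)
    (fun a b z => z a + (u a.2 : ZMod b) * z (true, i))
    (fun a ha => ch_add hA (Or.inr (by simpa using ha)) _)
    (fun a ha b z z' h1 h2 => by rw [h1, h2 (true, i) (by simp)])).congr hA fun J z => by simp

lemma move (hp : p.Prime) (u w : FH → ℤ) (h : ∀ k, (u k).natAbs < p ∧ (w k).natAbs < p) :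
    Matrix.vecMulVec u w = 0 ∨ ∃ (pre post : SQ → ℕ → ℕ) (i j : Fin 13824),
      PC pre (SP p) (fun _ => 0) ∧ PC post (SP p) (fun _ => 0) ∧
      ∀ q N, SP p q N → ∀ x, sig p q (Matrix.vecMulVec u w) x =
        post q (swp (sub p q i j).1 (sub p q i j).2.1 (p ^ (sub p q i j).2.2.length) (pre q x)) := by
  by_cases hu : u = 0
  · left; simp [hu]
  by_cases hw : w = 0
  · left; simp [hw]
  right
  obtain ⟨i, hi, hi'⟩ := exists_max_image (univ.filter fun k => u k ≠ 0) id
    (by obtain ⟨k, hk⟩ := Function.ne_iff.1 hu; exact ⟨k, by simpa using hk⟩)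
  obtain ⟨j, hj, hj'⟩ := exists_min_image (univ.filter fun k => w k ≠ 0) id
    (by obtain ⟨k, hk⟩ := Function.ne_iff.1 hw; exact ⟨k, by simpa using hk⟩)
  have hi : u i ≠ 0 := by simpa using hi
  have hj : w j ≠ 0 := by simpa using hj
  have hi2 : ∀ k, i < k → u k = 0 := fun k hk => by
    by_contra hc; exact absurd (hi' k (by simpa using hc)) (by simpa using hk)
  have hj2 : ∀ k < j, w k = 0 := fun k hk => by
    by_contra hc; exact absurd (hj' k (by simpa using hc)) (by simpa using hk)
  obtain ⟨ia, ha, ca⟩ := ch_inv hA hp hi (h i).1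
  obtain ⟨ic, hc, cc⟩ := ch_inv hA hp hj (h j).2
  have pre := (((ca (true, i)).comp hA (ch_X hA i (-u))).comp hA (ch_mul hA (false, j) hj)).comp hA
    (ch_Y hA i j w)
  have post := ((((ch_neg (p := p) hA (false, j)).comp hA (ch_Y hA i j (-w))).comp hA
    (cc (false, j))).comp hA (ch_X hA i u)).comp hA (ch_mul hA (true, i) hi)
  refine ⟨_, _, i, j, pre, post, fun q N hq x => ?_⟩
  have e : swp (sub p q i j).1 (sub p q i j).2.1 (p ^ (sub p q i j).2.2.length) =
      swp (lo p q (true, i)) (lo p q (false, j)) (bb p q) := by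
    simp only [sub, List.length_replicate]; rfl
  rw [e, ← lift_swap hq.fo, lift_lift hq.fo, lift_lift hq.fo]
  unfold sig
  congr 1
  have ha := ha (JJ q)
  have hc := hc (JJ q)
  change (u i : ZMod (bb p q)) * ia (bb p q) = 1 at ha
  change (w j : ZMod (bb p q)) * ic (bb p q) = 1 at hc
  generalize bb p q = b at *
  funext z ⟨s, k⟩
  have es : ∀ (f : BI → ZMod b) (v : ZMod b) (c : FH → ZMod b),
      ∑ k ∈ Ioi j, c k * update f (false, j) v (false, k) = ∑ k ∈ Ioi j, c k * f (false, k) :=
    fun f v c => sum_congr rfl fun k hk => by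
      rw [update_of_ne (by simpa using (mem_Ioi.1 hk).ne')]
  have es' : ∀ (f : BI → ZMod b) (v : ZMod b) (k : FH),
      update f (true, i) v (false, k) = f (false, k) := fun f v k => update_of_ne (by simp) _ _
  have es'' : ∀ (f : BI → ZMod b) (v : ZMod b) (k : FH),
      update f (false, j) v (true, k) = f (true, k) := fun f v k => update_of_ne (by simp) _ _
  cases s
  · by_cases hk : k = j
    · subst hk
      simp only [sigF, es, es', es'', update_self, Bool.false_eq_true, if_false, false_and, lt_irrefl,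
        and_false, Pi.neg_apply, Int.cast_neg, neg_mul, sum_neg_distrib]
      linear_combination (-z (false, k)) * hc
    · have e3 : ∀ (f : BI → ZMod b) (v : ZMod b), update f (false, j) v (false, k) = f (false, k) :=
        fun f v => update_of_ne (by simpa using hk) _ _
      simp only [sigF, es', e3, Bool.false_eq_true, if_false, false_and]
  · simp only [sigF, if_true, Matrix.vecMulVec_apply, Int.cast_mul, mul_assoc, ← mul_sum]
    rw [sum_hi w j hj2]
    rcases lt_trichotomy k i with hk | rfl | hk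
    · have e3 : ∀ (f : BI → ZMod b) (v : ZMod b), update f (true, i) v (true, k) = f (true, k) :=
        fun f v => update_of_ne (by simpa using hk.ne) _ _
      simp only [es, es', es'', e3, hk, update_self, Bool.false_eq_true, if_false, false_and, lt_irrefl,
        and_false, and_self, if_true, Pi.neg_apply, Int.cast_neg]
      ring
    · simp only [es, es', es'', update_self, Bool.false_eq_true, if_false, false_and, lt_irrefl,
        and_false]
      linear_combination (-z (true, k)) * ha
    · have e3 : ∀ (f : BI → ZMod b) (v : ZMod b), update f (true, i) v (true, k) = f (true, k) :=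
        fun f v => update_of_ne (by simpa using hk.ne') _ _
      simp only [es'', e3, hk.not_gt, and_false, if_false, hi2 k hk]
      simp

lemma ch_Yall (φ : (b : ℕ) → ZMod b → ZMod b → ZMod b)
    (h : ∀ k : FH, Ch p (fun b z => update z (false, k) (φ b (z (false, k)) (z (true, k))))) :
    Ch p (fun b z a => if a.1 = false then φ b (z a) (z (true, a.2)) else z a) :=
  (ch_all hA (univ.filter fun a : BI => a.1 = false) (fun a b z => φ b (z a) (z (true, a.2)))
    (fun ⟨s, k⟩ ha => by
      obtain rfl : s = false := by simpa using ha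
      exact h k)
    (fun a ha b z z' h1 h2 => by rw [h1, h2 (true, a.2) (by simp)])).congr hA fun J z => by simp

omit hA in
lemma swp_all (hq : SP p q N) (x : ℕ) : swp q.1 q.2.1 (bb p q ^ 13824) x =
    lift (lo p q) (bb p q) (fun z a => z (!a.1, a.2)) x := by
  have hd : q.2.1 * bb p q ^ 13824 ∣ q.1 := by
    refine (mul_dvd_mul_left _ ?_).trans hq.2.1
    rw [bb, ← pow_mul]
    exact pow_dvd_pow _ (Nat.div_mul_le_self _ _)
  zify
  unfold lift
  rw [swp_int hd, wr_int hq.fo, Fintype.sum_prod_type, Fintype.sum_bool, fld_pow, fld_pow]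
  simp only [hq.fo.val_rd, lo, Bool.not_true, Bool.not_false, cond_true, cond_false]
  push_cast
  rw [add_assoc, ← sum_sub_distrib, ← sum_sub_distrib, sum_mul, sum_mul]
  refine congrArg _ (congrArg₂ _ ?_ ?_) <;> exact sum_congr rfl fun k _ => by ring

lemma pc_top (hp : p.Prime) : PC (fun q : SQ => swp (q.1 * bb p q ^ 13824) (q.2.1 * bb p q ^ 13824)
    (p ^ (q.2.2.length % 13824))) (SP p) (fun _ => 0) := by
  have h1 : PT (fun q => bb p q ^ 13824) := PT.pow (pt_bb p) (PT.const _) (PB.const _)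
  have h2 : PT (fun q : SQ => p ^ (q.2.2.length % 13824)) := PT.pow (PT.const _) (by fun_prop)
    ((PB.const 13824).of_le fun q => (Nat.mod_lt _ (by norm_num)).le)
  refine hA.pmono (pc_small hA _ _ _ (p ^ 13824) (PT.mul (by fun_prop : PT fun q : SQ => q.1) h1)
    (PT.mul (by fun_prop : PT fun q : SQ => q.2.1) h1) h2) id _ _ _ 0 PT.id'
    fun q N hq => ⟨?_, fun _ _ => rfl, le_rfl, by simp⟩
  have e : bb p q ^ 13824 * p ^ (q.2.2.length % 13824) = p ^ q.2.2.length := by
    rw [bb, ← pow_mul, ← pow_add, JJ, Nat.div_add_mod']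
  have hb := hq.fo.hb
  dsimp only [id]
  refine ⟨Nat.mul_pos hq.1 (Nat.pow_pos hb), Nat.mul_pos hq.x_pos (Nat.pow_pos hb), Nat.pow_pos hp.pos,
    ?_, ?_, Nat.pow_le_pow_right hp.pos (Nat.mod_lt _ (by norm_num)).le⟩
  · rw [mul_assoc, e]; exact hq.2.1.mul_right _
  · rw [mul_assoc, e]; exact hq.2.2.1

lemma whole (hp : p.Prime) (Δ : ℤ) (h0 : 0 < Δ) (h1 : Δ.natAbs < p) : ∃ pre post : SQ → ℕ → ℕ,
    PC pre (SP p) (fun _ => 0) ∧ PC post (SP p) (fun _ => 0) ∧
    ∀ q N, SP p q N → (∀ x < N, sig p q (Δ • 1) x < N) ∧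
      ∀ x, swp q.1 q.2.1 (p ^ q.2.2.length) x = post q (sig p q (Δ • 1) (pre q x)) := by
  obtain ⟨ι, hι, cι⟩ := ch_inv hA hp h0.ne' h1
  have lt : ∀ k : FH, Lt (false, k) (true, k) := fun k => Or.inl ⟨rfl, rfl⟩
  have pre := ch_Yall (p := p) hA (fun b y x => ι b * (y - x)) fun k =>
    ((ch_add hA (lt k) (-1)).comp hA (cι (false, k))).congr hA fun J z => by
      rw [update_idem, update_self]; congr 1; push_cast; ring
  have post := ch_Yall (p := p) hA (fun b y x => x - Δ * y) fun k =>
    ((ch_mul hA (false, k) (neg_ne_zero.2 h0.ne')).comp hA (ch_add hA (lt k) 1)).congr hA fun J z => by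
      rw [update_idem, update_self, update_of_ne (by simp)]; congr 1; push_cast; ring
  refine ⟨_, _, pre, hA.pcomp (pc_top hA hp) post, fun q N hq =>
    ⟨fun x hx => wr_lt hq.fo hq.lo_dvd hx _, fun x => ?_⟩⟩
  have e : bb p q ^ 13824 * p ^ (q.2.2.length % 13824) = p ^ q.2.2.length := by
    rw [bb, ← pow_mul, ← pow_add, JJ, Nat.div_add_mod']
  rw [← e, swp_split hq.1 hq.x_pos (Nat.pow_pos hq.fo.hb) (by rw [e]; exact hq.2.1), swp_all hq]
  unfold sig
  rw [lift_lift hq.fo, lift_lift hq.fo]
  congr 2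
  have hι := hι (JJ q)
  change (Δ : ZMod (bb p q)) * ι (bb p q) = 1 at hι
  generalize bb p q = b at *
  funext z ⟨s, k⟩
  have es : ∀ f : FH → ZMod b, ∑ k', (((Δ • (1 : Matrix FH FH ℤ)) k k' : ℤ) : ZMod b) * f k' =
      Δ * f k := fun f => by
    rw [sum_eq_single k]
    · simp
    · intro k' _ hk; simp [Matrix.one_apply_ne hk.symm]
    · simp
  cases s
  · simp only [sigF, es, Bool.not_false, if_true, Bool.false_eq_true, Bool.true_eq_false, if_false]
    ring
  · simp only [sigF, es, Bool.not_true, if_true, Bool.false_eq_true, Bool.true_eq_false, if_false]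
    linear_combination (z (true, k) - z (false, k)) * hι

theorem moveStmt (hp : p.Prime) : MoveStmt p := by
  refine ⟨sig p, fun q N h => ⟨sig_zero h, sig_add h, sp_sub h⟩, move hA hp, whole hA hp, ?_⟩
  refine hA.pmono (pc_small hA (fun q : SQ => q.1) (fun q => q.2.1) (fun q => p ^ q.2.2.length)
    (p ^ 13824) (by fun_prop) (by fun_prop) (PT.pow (PT.const _) (by fun_prop)
      (PB.length (by fun_prop)))) id _ _ _ 0 PT.id'
    fun q N hq => ⟨⟨hq.1.1, hq.1.x_pos, Nat.pow_pos hp.pos, hq.1.2.1, hq.1.2.2.1,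
      Nat.pow_le_pow_right hp.pos hq.2.le⟩, fun _ _ => rfl, le_rfl, by simp⟩

end

end Crest.Agent.H9.IM.SW
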