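import Mathlib
import Crest.Prelude.Def_LinCircuit

/-!
A compositional framework for exact linear circuits.
-/

set_option autoImplicit false
set_option linter.unusedSectionVars false

namespace Crest.Agent.H9.FC

open Finset Matrix Crest.FourierCircuit

/-- the values available after a list of gates -/
def vals (n : ℕ) (gs : List LGate) (x : Fin n → ℂ) : List ℂ :=
  gs.foldl (fun avail g => avail ++ [g.value avail]) (List.ofFn x ++ [0])

lemma foldl_prefix (gs : List LGate) (l : List ℂ) :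
    ∃ t : List ℂ, gs.foldl (fun avail g => avail ++ [g.value avail]) l = l ++ t ∧
      t.length = gs.length := by
  induction gs generalizing l with
  | nil => exact ⟨[], by simp, rfl⟩
  | cons g gs ih =>
    obtain ⟨t, ht, hl⟩ := ih (l ++ [g.value l])
    exact ⟨g.value l :: t, by simp [ht], by simp [hl]⟩

lemma vals_length (n : ℕ) (gs : List LGate) (x : Fin n → ℂ) :
    (vals n gs x).length = n + 1 + gs.length := by
  obtain ⟨t, ht, hl⟩ := foldl_prefix gs (List.ofFn x ++ [0])
  unfold vals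
  rw [ht]; simp [hl]; omega

lemma vals_append (n : ℕ) (gs gs' : List LGate) (x : Fin n → ℂ) :
    ∃ t, vals n (gs ++ gs') x = vals n gs x ++ t := by
  obtain ⟨t, ht, -⟩ := foldl_prefix gs' (vals n gs x)
  refine ⟨t, ?_⟩
  rw [← ht]
  unfold vals
  rw [List.foldl_append]

lemma vals_snoc (n : ℕ) (gs : List LGate) (g : LGate) (x : Fin n → ℂ) :
    vals n (gs ++ [g]) x = vals n gs x ++ [g.value (vals n gs x)] := by
  unfold vals
  rw [List.foldl_append]; rfl

/-- the function `f` of the input is available after the gates `gs` -/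
def Avail (n : ℕ) (gs : List LGate) (f : (Fin n → ℂ) → ℂ) : Prop :=
  ∃ p, p < n + 1 + gs.length ∧ ∀ x, (vals n gs x).getD p 0 = f x

lemma Avail.append {n : ℕ} {gs : List LGate} {f : (Fin n → ℂ) → ℂ} (h : Avail n gs f)
    (gs' : List LGate) : Avail n (gs ++ gs') f := by
  obtain ⟨p, hp, h⟩ := h
  refine ⟨p, by simp; omega, fun x => ?_⟩
  obtain ⟨t, ht⟩ := vals_append n gs gs' x
  rw [ht, List.getD_append _ _ _ _ (by rw [vals_length]; exact hp), h]

lemma avail_zero (n : ℕ) (gs : List LGate) : Avail n gs (fun _ => 0) := by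
  have : Avail n [] (fun _ => 0) := by
    refine ⟨n, by simp, fun x => ?_⟩
    simp [vals]
  simpa using this.append gs

lemma avail_input (n : ℕ) (i : Fin n) : Avail n [] (fun x => x i) := by
  refine ⟨i, by simp, fun x => ?_⟩
  simp [vals, List.getD_eq_getElem?_getD]

lemma avail_gate {n : ℕ} (gs : List LGate) (g : LGate) :
    Avail n (gs ++ [g]) (fun x => g.value (vals n gs x)) := by
  refine ⟨n + 1 + gs.length, by simp, fun x => ?_⟩
  rw [vals_snoc, List.getD_append_right _ _ _ _ (by rw [vals_length])]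
  simp [vals_length]

lemma Avail.add {n : ℕ} {gs : List LGate} {f g : (Fin n → ℂ) → ℂ} (hf : Avail n gs f)
    (hg : Avail n gs g) : ∃ G, Avail n (gs ++ [G]) (fun x => f x + g x) := by
  obtain ⟨p, -, hp⟩ := hf
  obtain ⟨q, -, hq⟩ := hg
  refine ⟨LGate.add p q, ?_⟩
  have := avail_gate (n := n) gs (LGate.add p q)
  simpa only [LGate.value, hp, hq] using this

lemma Avail.smul {n : ℕ} {gs : List LGate} {f : (Fin n → ℂ) → ℂ} (hf : Avail n gs f)
    (c : ℂ) : ∃ G, Avail n (gs ++ [G]) (fun x => c * f x) := by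
  obtain ⟨p, -, hp⟩ := hf
  refine ⟨LGate.smul c p, ?_⟩
  have := avail_gate (n := n) gs (LGate.smul c p)
  simpa only [LGate.value, hp] using this

/-- the map `T` can be computed from any available values with at most `s` further gates -/
def LCf {α β : Type} (T : (α → ℂ) → β → ℂ) (s : ℝ) : Prop :=
  ∀ (n : ℕ) (gs : List LGate) (v : α → (Fin n → ℂ) → ℂ), (∀ a, Avail n gs (v a)) →
    ∃ gs' : List LGate, (gs'.length : ℝ) ≤ s ∧
      ∀ b, Avail n (gs ++ gs') (fun x => T (fun a => v a x) b)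

variable {α β γ : Type}

lemma LCf.mono {T : (α → ℂ) → β → ℂ} {s t : ℝ} (h : LCf T s) (hst : s ≤ t) : LCf T t := by
  intro n gs v hv
  obtain ⟨gs', hl, h'⟩ := h n gs v hv
  exact ⟨gs', hl.trans hst, h'⟩

lemma LCf.congr {T U : (α → ℂ) → β → ℂ} {s : ℝ} (h : LCf T s) (hTU : ∀ v b, T v b = U v b) :
    LCf U s := by
  have : T = U := by funext v b; exact hTU v b
  exact this ▸ h

lemma LCf.nonneg {T : (α → ℂ) → β → ℂ} {s : ℝ} (h : LCf T s) : 0 ≤ s := by
  obtain ⟨gs', hl, -⟩ := h 0 [] (fun _ _ => 0) (fun _ => avail_zero _ _)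
  exact le_trans (by positivity) hl

lemma LCf.comp {T : (α → ℂ) → β → ℂ} {U : (β → ℂ) → γ → ℂ} {s t : ℝ} (hT : LCf T s)
    (hU : LCf U t) : LCf (fun v => U (T v)) (s + t) := by
  intro n gs v hv
  obtain ⟨g1, hl1, h1⟩ := hT n gs v hv
  obtain ⟨g2, hl2, h2⟩ := hU n (gs ++ g1) _ h1
  refine ⟨g1 ++ g2, by simp; linarith, fun b => ?_⟩
  rw [← List.append_assoc]; exact h2 b

/-- outputs that are inputs or zero are free -/
lemma LCf.sel (T : (α → ℂ) → β → ℂ) (h : ∀ b, (∃ a, ∀ v, T v b = v a) ∨ ∀ v, T v b = 0) :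
    LCf T 0 := by
  intro n gs v hv
  refine ⟨[], by simp, fun b => ?_⟩
  rcases h b with ⟨a, ha⟩ | h0
  · simpa [ha] using hv a
  · simpa [h0] using avail_zero n gs

/-- a finite family of maps on the same inputs -/
lemma LCf.finset {ι : Type} {δ : ι → Type} (S : Finset ι) (T : ∀ k, (α → ℂ) → δ k → ℂ)
    (s : ι → ℝ) (h : ∀ k ∈ S, LCf (T k) (s k)) :
    LCf (fun v (p : Σ k : S, δ k) => T p.1 v p.2) (∑ k ∈ S, s k) := by
  classical
  intro n gs v hv
  suffices H : ∃ gs' : List LGate, (gs'.length : ℝ) ≤ ∑ k ∈ S, s k ∧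
      ∀ k ∈ S, ∀ b, Avail n (gs ++ gs') (fun x => T k (fun a => v a x) b) by
    obtain ⟨gs', h1, h2⟩ := H
    exact ⟨gs', h1, fun p => h2 p.1 p.1.2 p.2⟩
  induction S using Finset.induction_on with
  | empty => exact ⟨[], by simp, by simp⟩
  | insert k S hk ih =>
    obtain ⟨g1, hl1, h1⟩ := ih (fun j hj => h j (by simp [hj]))
    obtain ⟨g2, hl2, h2⟩ := h k (by simp) n (gs ++ g1) v (fun a => (hv a).append g1)
    refine ⟨g1 ++ g2, by rw [Finset.sum_insert hk]; simp; linarith, fun j hj b => ?_⟩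
    rw [← List.append_assoc]
    rcases Finset.mem_insert.1 hj with rfl | hj
    · exact h2 b
    · exact (h1 j hj b).append g2

lemma LCf.sigma {ι : Type} [Fintype ι] {δ : ι → Type} (T : ∀ k, (α → ℂ) → δ k → ℂ)
    (s : ι → ℝ) (h : ∀ k, LCf (T k) (s k)) :
    LCf (fun v (p : Σ k, δ k) => T p.1 v p.2) (∑ k, s k) := by
  have h1 := LCf.finset Finset.univ T s (fun k _ => h k)
  have h2 := h1.comp (LCf.sel (fun w (p : Σ k, δ k) => w ⟨⟨p.1, Finset.mem_univ _⟩, p.2⟩)
    (fun p => Or.inl ⟨_, fun _ => rfl⟩))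
  simpa using h2

lemma LCf.prod {ι : Type} [Fintype ι] {δ : Type} (T : ι → (α → ℂ) → δ → ℂ)
    (s : ι → ℝ) (h : ∀ k, LCf (T k) (s k)) :
    LCf (fun v (p : ι × δ) => T p.1 v p.2) (∑ k, s k) := by
  have h1 := LCf.sigma (δ := fun _ => δ) T s h
  have h2 := h1.comp (LCf.sel (fun w (p : ι × δ) => w ⟨p.1, p.2⟩)
    (fun p => Or.inl ⟨_, fun _ => rfl⟩))
  simpa using h2

lemma LCf.sum {T : (α → ℂ) → β → ℂ} {U : (α → ℂ) → γ → ℂ} {s t : ℝ} (hT : LCf T s)
    (hU : LCf U t) : LCf (fun v => Sum.elim (T v) (U v)) (s + t) := by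
  intro n gs v hv
  obtain ⟨g1, hl1, h1⟩ := hT n gs v hv
  obtain ⟨g2, hl2, h2⟩ := hU n (gs ++ g1) v (fun a => (hv a).append g1)
  refine ⟨g1 ++ g2, by simp; linarith, fun b => ?_⟩
  rw [← List.append_assoc]
  rcases b with b | c
  · exact (h1 b).append g2
  · exact h2 c

/-- outputs one at a time -/
lemma LCf.each [Fintype β] (T : (α → ℂ) → β → ℂ) (s : β → ℝ)
    (h : ∀ b, LCf (fun v (_ : Unit) => T v b) (s b)) : LCf T (∑ b, s b) := by
  have h1 := LCf.prod (fun b v (_ : Unit) => T v b) s h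
  have h2 := h1.comp (LCf.sel (fun w (b : β) => w (b, ())) (fun p => Or.inl ⟨_, fun _ => rfl⟩))
  simpa using h2

lemma LCf.smul_one (c : ℂ) (a : α) : LCf (fun v (_ : Unit) => c * v a) 1 := by
  intro n gs v hv
  obtain ⟨G, hG⟩ := (hv a).smul c
  exact ⟨[G], by simp, fun _ => hG⟩

lemma LCf.lincomb {ι : Type} (S : Finset ι) (c : ι → ℂ) (f : ι → α) :
    LCf (fun v (_ : Unit) => ∑ i ∈ S, c i * v (f i)) (2 * S.card) := by
  classical
  intro n gs v hv
  induction S using Finset.induction_on with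
  | empty => exact ⟨[], by simp, fun _ => by simpa using avail_zero n gs⟩
  | insert k S hk ih =>
    obtain ⟨g1, hl1, h1⟩ := ih
    obtain ⟨G, hG⟩ := ((hv (f k)).append g1).smul (c k)
    obtain ⟨G', hG'⟩ := hG.add ((h1 ()).append [G])
    refine ⟨g1 ++ [G] ++ [G'], ?_, fun _ => ?_⟩
    · rw [Finset.card_insert_of_notMem hk]; simp; linarith
    · simp only [Finset.sum_insert hk]
      simpa only [List.append_assoc] using hG'

/-- matrix form -/
def LC [Fintype α] (A : Matrix β α ℂ) (s : ℝ) : Prop := LCf (fun v => A *ᵥ v) s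

section mat
variable [Fintype α] [Fintype β] [Fintype γ]

lemma LC.mono {A : Matrix β α ℂ} {s t : ℝ} (h : LC A s) (hst : s ≤ t) : LC A t :=
  LCf.mono h hst

lemma LC.mul {A : Matrix γ β ℂ} {B : Matrix β α ℂ} {s t : ℝ} (hA : LC A s) (hB : LC B t) :
    LC (A * B) (s + t) := by
  have := LCf.comp hB hA
  rw [add_comm]
  exact this.congr (fun v b => by simp [Matrix.mulVec_mulVec])

lemma LC.any (A : Matrix β α ℂ) : LC A (2 * Fintype.card α * Fintype.card β) := by
  have := LCf.each (fun v => A *ᵥ v) (fun _ => 2 * (Fintype.card α : ℝ)) (fun b => by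
    have := LCf.lincomb (α := α) Finset.univ (fun a => A b a) id
    simpa [Matrix.mulVec, dotProduct] using this)
  refine LCf.mono this (le_of_eq ?_)
  simp; ring

/-- at most one nonzero entry in each row -/
lemma LC.rowmon [DecidableEq α] (f : β → α) (d : β → ℂ) :
    LC (Matrix.of fun b a => if a = f b then d b else 0) (Fintype.card β) := by
  have := LCf.each (fun (v : α → ℂ) (b : β) => d b * v (f b)) (fun _ => 1)
    (fun b => LCf.smul_one _ _)
  refine (LCf.mono this (by simp)).congr (fun v b => ?_)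
  simp [Matrix.mulVec, dotProduct]

lemma LC.diag [DecidableEq α] (d : α → ℂ) : LC (Matrix.diagonal d) (Fintype.card α) := by
  have := LC.rowmon (α := α) id d
  convert this using 1
  ext a b
  simp [Matrix.diagonal, eq_comm]

/-- selections are free -/
lemma LC.sel [DecidableEq α] (f : β → α) :
    LC (Matrix.of fun b a => if a = f b then (1 : ℂ) else 0) 0 := by
  refine LCf.sel _ (fun b => Or.inl ⟨f b, fun v => ?_⟩)
  simp [Matrix.mulVec, dotProduct]

/-- a submatrix (rows arbitrary, columns injective) costs no more -/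
lemma LC.submatrix {α' β' : Type} [Fintype α'] {A : Matrix β α ℂ} {s : ℝ} (h : LC A s)
    (f : β' → β) (g : α' → α) (hg : Function.Injective g) : LC (A.submatrix f g) s := by
  classical
  have h1 : LCf (fun (v : α' → ℂ) (a : α) => Function.extend g v 0 a) 0 := by
    refine LCf.sel _ (fun a => ?_)
    by_cases ha : ∃ a', g a' = a
    · obtain ⟨a', rfl⟩ := ha
      exact Or.inl ⟨a', fun v => hg.extend_apply _ _ _⟩
    · exact Or.inr (fun v => Function.extend_apply' _ _ _ ha)
  have h2 := (h1.comp h).comp (LCf.sel (fun w (b : β') => w (f b))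
    (fun p => Or.inl ⟨_, fun _ => rfl⟩))
  refine (h2.mono (by simp)).congr (fun v b => ?_)
  simp only [Matrix.mulVec, dotProduct, Matrix.submatrix_apply]
  symm
  refine Finset.sum_of_injOn g (fun x _ y _ h => hg h) (by simp) ?_ ?_
  · intro a _ ha
    rw [Function.extend_apply' _ _ _ (by simpa using ha)]; simp
  · intro a _
    rw [hg.extend_apply]

/-- a batch of independent copies -/
lemma LC.batch {δ : Type} [Fintype δ] [DecidableEq δ] (A : δ → Matrix β α ℂ) (s : δ → ℝ)
    (h : ∀ k, LC (A k) (s k)) :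
    LC (Matrix.of fun (p : δ × β) (q : δ × α) => if p.1 = q.1 then A p.1 p.2 q.2 else 0)
      (∑ k, s k) := by
  have h1 : ∀ k, LCf (fun (v : δ × α → ℂ) => A k *ᵥ (fun a => v (k, a))) (s k) := fun k => by
    have := (LCf.sel (fun (v : δ × α → ℂ) (a : α) => v (k, a))
      (fun p => Or.inl ⟨_, fun _ => rfl⟩)).comp (h k)
    simpa using this
  refine (LCf.prod _ s h1).congr (fun v p => ?_)
  simp [Matrix.mulVec, dotProduct, Fintype.sum_prod_type]

end mat

theorem exists_circuit {n : ℕ} (A : Matrix (Fin n) (Fin n) ℂ) (s : ℝ) (h : LC A s) :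
    ∃ P : LinCircuit n, P.Computes A ∧ (P.size : ℝ) ≤ s := by
  obtain ⟨gs, hl, h'⟩ := h n [] (fun i x => x i) (avail_input n)
  choose p hp hp' using h'
  refine ⟨⟨gs, p⟩, fun x k => ?_, hl⟩
  have := hp' k x
  simpa [vals, LinCircuit.values] using this

end Crest.Agent.H9.FC
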