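import Crest.Agent.H9.LCRd

/-!
Cost of a tensor product of matrices given by rounds.
-/

set_option autoImplicit false
set_option linter.unusedSectionVars false
set_option linter.unusedSimpArgs false

namespace Crest.Agent.H9.FC

open Finset Matrix

/-- a two by two shear -/
def sh (t : ℂ) : Matrix (ZMod 2) (ZMod 2) ℂ :=
  Matrix.of fun x y => if x = y then 1 else if x = 1 then t else 0

lemma sum_zmod2 (f : ZMod 2 → ℂ) : ∑ t : ZMod 2, f t = f 0 + f 1 := Fin.sum_univ_two f

/-- a diagonal two by two matrix -/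
def dg (p q : ℂ) : ZMod 2 → ℂ := fun x => if x = 0 then p else q

lemma sh_decomp (t : ℂ) : ∃ d0 d1 d2 d3 : ZMod 2 → ℂ,
    sh t = diagonal d0 * cM * diagonal d1 * cM * diagonal d2 * cM * diagonal d3 := by
  have h01 : (0 : ZMod 2) ≠ 1 := by decide
  by_cases ht : t = 0
  · refine ⟨dg 1 (-Complex.I), dg 1 (-Complex.I), dg (-1) Complex.I, dg 1 1, ?_⟩
    subst ht
    ext x y
    simp only [Matrix.mul_diagonal, Matrix.mul_apply (M := _ * diagonal _), Matrix.diagonal_mul,
      sum_zmod2]
    rcases zmod2_cases x with rfl | rfl <;> rcases zmod2_cases y with rfl | rfl <;>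
      simp [Matrix.mul_apply, sum_zmod2, Matrix.diagonal, sh, cM, dg, h01, h01.symm, ca, cb,
        Complex.ext_iff] <;> norm_num
  · refine ⟨dg 1 (4 / 3 * (t * (3 * Complex.I / 5))), dg 1 (-1 / 3), dg (-3 * ca / 2) (3 * ca),
      dg 1 (t⁻¹ * (-5 * Complex.I / 3)), ?_⟩
    ext x y
    have hI := Complex.I_mul_I
    rcases zmod2_cases x with rfl | rfl <;> rcases zmod2_cases y with rfl | rfl <;>
      simp [Matrix.mul_apply, sum_zmod2, Matrix.diagonal, sh, cM, dg, h01, h01.symm, ca, cb] <;>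
      field_simp <;> simp [Complex.ext_iff, pow_two] <;> norm_num

variable {α : Type} [Fintype α] [DecidableEq α]

lemma IsShear.blk {S : Matrix α α ℂ} (hS : IsShear S) (hev : Even (Fintype.card α)) :
    ∃ (β : Type) (_ : Fintype β) (_ : DecidableEq β) (e : α ≃ ZMod 2 × β) (t : β → ℂ),
      S = blk e (fun b => sh (t b)) := by
  classical
  obtain ⟨f, s, h1, h2, rfl⟩ := hS
  set A : Finset α := Finset.univ.filter (fun a => s a ≠ 0) with hA
  set R : Finset α := Finset.univ \ (A ∪ A.image f) with hR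
  have mA : ∀ a, a ∈ A ↔ s a ≠ 0 := by simp [hA]
  have mR : ∀ a, a ∈ R ↔ s a = 0 ∧ ∀ b, s b ≠ 0 → f b ≠ a := by simp [hR, hA]
  have hcard : Fintype.card α = 2 * A.card + R.card := by
    have e1 : (A.image f).card = A.card :=
      Finset.card_image_of_injOn (fun x hx y hy h => h2 x y ((mA x).1 hx) ((mA y).1 hy) h)
    have e2 : Disjoint A (A.image f) := by
      rw [Finset.disjoint_left]
      intro a ha hb
      obtain ⟨b, hb', rfl⟩ := Finset.mem_image.1 hb
      exact (mA _).1 ha (h1 b ((mA b).1 hb'))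
    have e3 := Finset.card_sdiff_add_card_eq_card (Finset.subset_univ (A ∪ A.image f))
    rw [Finset.card_union_of_disjoint e2, e1, Finset.card_univ, ← hR] at e3
    omega
  obtain ⟨ρ, hρ⟩ : ∃ ρ, R.card = 2 * ρ := by
    obtain ⟨k, hk⟩ := hev
    exact ⟨k - A.card, by omega⟩
  have eR : ZMod 2 × Fin ρ ≃ R := Fintype.equivOfCardEq (by simp [hρ])
  let g : ZMod 2 × (A ⊕ Fin ρ) → α := fun p =>
    Sum.elim (fun a : A => if p.1 = 1 then a.1 else f a.1) (fun r => (eR (p.1, r)).1) p.2
  have h01 : (0 : ZMod 2) ≠ 1 := by decide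
  have hg : Function.Injective g := by
    rintro ⟨x, a | a⟩ ⟨y, b | b⟩ h
    · have ha := (mA _).1 a.2
      have hb := (mA _).1 b.2
      rcases zmod2_cases x with rfl | rfl <;> rcases zmod2_cases y with rfl | rfl <;>
        simp only [g, Sum.elim_inl, h01, if_false, if_true] at h
      · rw [Subtype.ext (h2 _ _ ha hb h)]
      · exact absurd (h ▸ h1 _ ha) hb
      · exact absurd (h ▸ h1 _ hb) ha
      · rw [Subtype.ext h]
    · exfalso
      have ha := (mA _).1 a.2
      have hb := (mR _).1 (eR (y, b)).2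
      simp only [g, Sum.elim_inl, Sum.elim_inr] at h
      split_ifs at h
      · exact ha (h ▸ hb.1)
      · exact hb.2 _ ha h
    · exfalso
      have hb := (mA _).1 b.2
      have ha := (mR _).1 (eR (x, a)).2
      simp only [g, Sum.elim_inl, Sum.elim_inr] at h
      split_ifs at h
      · exact hb (h ▸ ha.1)
      · exact ha.2 _ hb h.symm
    · simp only [g, Sum.elim_inr] at h
      have := eR.injective (Subtype.ext h)
      simp only [Prod.mk.injEq] at this
      rw [this.1, this.2]
  have hbij : Function.Bijective g :=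
    (Fintype.bijective_iff_injective_and_card g).2 ⟨hg, by simp [hcard, hρ]; ring⟩
  refine ⟨A ⊕ Fin ρ, inferInstance, inferInstance, (Equiv.ofBijective g hbij).symm,
    Sum.elim (fun a => s a.1) (fun _ => 0), ?_⟩
  ext x y
  obtain ⟨p, rfl⟩ := hbij.2 x
  obtain ⟨q, rfl⟩ := hbij.2 y
  have e1 : ∀ p, (Equiv.ofBijective g hbij).symm (g p) = p := fun p =>
    (Equiv.ofBijective g hbij).symm_apply_apply p
  simp only [FC.blk, Matrix.of_apply, e1, Matrix.add_apply, Matrix.one_apply, hg.eq_iff, rm_apply]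
  obtain ⟨x, a⟩ := p
  obtain ⟨y, b⟩ := q
  by_cases hx : ∃ a', a = Sum.inl a' ∧ x = 1
  · obtain ⟨a', rfl, rfl⟩ := hx
    have e2 : f (g (1, Sum.inl a')) = g (0, Sum.inl a') := by simp [g, h01]
    have e3 : s (g (1, Sum.inl a')) = s a'.1 := by simp [g]
    rw [e2, e3]
    simp only [hg.eq_iff]
    by_cases hb : Sum.inl a' = b
    · subst hb
      rcases zmod2_cases y with rfl | rfl <;> simp [sh, h01, h01.symm]
    · simp [hb, Ne.symm hb]
  · have e3 : s (g (x, a)) = 0 := by
      rcases a with a | a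
      · have : x ≠ 1 := fun h => hx ⟨a, rfl, h⟩
        simp only [g, Sum.elim_inl, this, if_false]
        exact h1 _ ((mA _).1 a.2)
      · exact ((mR _).1 (eR (x, a)).2).1
    rw [e3]
    by_cases hb : a = b
    · subst hb
      rcases a with a | a
      · have : x ≠ 1 := fun h => hx ⟨a, rfl, h⟩
        simp [sh, this]
      · simp [sh]
    · simp [hb]

lemma blk_diag {β : Type} [Fintype β] [DecidableEq β] (e : α ≃ ZMod 2 × β)
    (d : β → ZMod 2 → ℂ) :
    blk e (fun b => diagonal (d b)) = rm id (fun x => d (e x).2 (e x).1) := by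
  ext x y
  simp only [blk, rm, Matrix.of_apply, Matrix.diagonal, id]
  by_cases h : y = x
  · subst h; simp
  · rw [if_neg h]
    split_ifs with h1 h2
    · exact absurd (e.injective (Prod.ext h2 h1)).symm h
    · rfl
    · rfl

section
variable {J : Type} [Fintype J] [DecidableEq J] {γ : J → Type} [∀ j, Fintype (γ j)]
  [∀ j, DecidableEq (γ j)]

lemma LC_TP_rm (f : ∀ j, γ j → γ j) (d : ∀ j, γ j → ℂ) :
    LC (TP (fun j => rm (f j) (d j))) (Fintype.card (∀ j, γ j)) := by
  have := TP_rowmon (α := γ) (β := γ) f d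
  unfold rm
  rw [this]
  convert LC.rowmon (α := ∀ j, γ j) (fun (x : ∀ j, γ j) j => f j (x j)) (fun x => ∏ j, d j (x j))

lemma LC_TP_shear {s : ℝ} (h : Tc J s) (hev : ∀ j, Even (Fintype.card (γ j)))
    (S : ∀ j, Matrix (γ j) (γ j) ℂ) (hS : ∀ j, IsShear (S j)) :
    LC (TP S) ((3 * s + 4) * Fintype.card (∀ j, γ j)) := by
  choose β i1 i2 e t ht using fun j => (hS j).blk (hev j)
  choose d0 d1 d2 d3 hd using sh_decomp
  have hc := LC_TP_blk e h
  have hD := fun d : ℂ → ZMod 2 → ℂ => LC_TP_rm (γ := γ) (fun _ => id)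
    (fun j x => d (t j (e j x).2) (e j x).1)
  have := ((((((hD d0).mul hc).mul (hD d1)).mul hc).mul (hD d2)).mul hc).mul (hD d3)
  simp only [TP_mul] at this
  convert this using 2
  · funext j
    rw [ht j, ← blk_diag (e j) (fun b => d0 (t j b)), ← blk_diag (e j) (fun b => d1 (t j b)),
      ← blk_diag (e j) (fun b => d2 (t j b)), ← blk_diag (e j) (fun b => d3 (t j b))]
    simp only [blk_mul, ← hd]
  · ring

theorem LC_TP_Rd {s : ℝ} (h : Tc J s) (hev : ∀ j, Even (Fintype.card (γ j))) (r : ℕ)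
    (A : ∀ j, Matrix (γ j) (γ j) ℂ) (hA : ∀ j, Rd r (A j)) :
    LC (TP A) ((r * (3 * s + 5) + 1) * Fintype.card (∀ j, γ j)) := by
  have hM : ∀ M : ∀ j, Matrix (γ j) (γ j) ℂ, (∀ j, IsMon (M j)) →
      LC (TP M) (Fintype.card (∀ j, γ j)) := by
    intro M hM
    choose f d _ _ hfd using hM
    have : M = fun j => rm (f j) (d j) := funext hfd
    rw [this]; exact LC_TP_rm f d
  induction r generalizing A with
  | zero => simpa using hM A hA
  | succ r ih =>
    choose M S B h1 h2 h3 h4 using hA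
    have := ((hM M h1).mul (LC_TP_shear h hev S h2)).mul (ih B h3)
    simp only [TP_mul] at this
    convert this using 2
    · funext j; exact h4 j
    · push_cast; ring

end

end Crest.Agent.H9.FC
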