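import Crest.Agent.H9.LCSlot

/-!
Choice of the parameters.
-/

set_option autoImplicit false
set_option linter.unusedSectionVars false
set_option linter.unusedSimpArgs false

namespace Crest.Agent.H9.FC

open Finset Matrix Crest.FourierCircuit

theorem dft_cost' (n k l : ℕ) (hk : 1 ≤ k) (hl : (2 * k + 1) ^ 3 ≤ l) (hn : 2 ^ l ≤ n)
    (hn' : n < 2 ^ (l + 1)) {s : ℝ} (hs : Tc (Fin k) s) :
    LC (dftMatrix n) ((2 * 1458 * (4000 * ((l : ℝ) / k) * (3 * s + 5) + 1) + 8) * n) := by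
  set K := 2 * k with hK
  let idx : Fin k × Bool → ℕ := fun p => 2 * p.1.val + if p.2 then 2 else 1
  have h1 : ∀ p, 1 ≤ idx p := fun p => by simp only [idx]; split_ifs <;> omega
  have h2 : ∀ p, idx p ≤ K := fun p => by
    have := p.1.2
    simp only [idx]; split_ifs <;> omega
  have hinj : Function.Injective idx := by
    rintro ⟨x, b⟩ ⟨y, c⟩ h
    simp only [idx] at h
    cases b <;> cases c <;> simp at h ⊢ <;> omega
  have hK2 : K ≤ 2 ^ K := Nat.lt_two_pow_self.le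
  have hn0 : (K * (K.factorial * K) + 1) ^ K < 2 * n := by
    have e1 : K.factorial ≤ 2 ^ (K * K) := by
      rw [pow_mul]
      exact (Nat.factorial_le_pow K).trans (Nat.pow_le_pow_left hK2 K)
    have e2 : K * (K.factorial * K) ≤ 2 ^ K * (2 ^ (K * K) * 2 ^ K) := by gcongr
    have e3 : K * (K.factorial * K) + 1 ≤ 2 ^ ((K + 1) ^ 2) := by
      have : 2 ^ ((K + 1) ^ 2) = 2 * (2 ^ K * (2 ^ (K * K) * 2 ^ K)) := by ring
      have h0 : 0 < 2 ^ K * (2 ^ (K * K) * 2 ^ K) := by positivity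
      omega
    calc (K * (K.factorial * K) + 1) ^ K ≤ (2 ^ ((K + 1) ^ 2)) ^ K := Nat.pow_le_pow_left e3 K
      _ = 2 ^ ((K + 1) ^ 2 * K) := by rw [← pow_mul]
      _ ≤ 2 ^ l := Nat.pow_le_pow_right (by norm_num) (le_trans (by nlinarith) hl)
      _ < 2 * n := by have : 0 < 2 ^ l := by positivity
                      omega
  obtain ⟨a, ha1, ha2, ha3, ha4⟩ := choose_axes K n (by omega) (by simp [hK, mul_comm]) idx h1 h2 hn0
  have hapow : a ^ K ≤ 6 * n := by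
    refine le_trans ?_ ha4
    have := Finset.pow_card_le_prod Finset.univ (fun p => idx p * a + 1) a (fun p _ => by
      have := h1 p
      nlinarith)
    simpa [hK, mul_comm] using this
  have ha5 : a ≤ 2 ^ ((l + 4) / K + 1) := by
    by_contra hc
    push Not at hc
    have e1 : (2 ^ ((l + 4) / K + 1)) ^ K ≤ a ^ K := Nat.pow_le_pow_left hc.le K
    rw [← pow_mul] at e1
    have e2 : l + 4 ≤ ((l + 4) / K + 1) * K := by
      have := Nat.lt_div_mul_add (a := l + 4) (b := K) (by omega)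
      nlinarith
    have e3 : 2 ^ (l + 4) ≤ 2 ^ (((l + 4) / K + 1) * K) := Nat.pow_le_pow_right (by norm_num) e2
    have e4 : 2 ^ (l + 4) = 8 * 2 ^ (l + 1) := by ring
    omega
  have hB : ∀ p, idx p * a + 1 ≤ 2 ^ (K + ((l + 4) / K + 1)) := fun p => by
    have e1 : K + 1 ≤ 2 ^ K := Nat.lt_two_pow_self
    have := h2 p
    calc idx p * a + 1 ≤ (K + 1) * a := by nlinarith
      _ ≤ 2 ^ K * 2 ^ ((l + 4) / K + 1) := by gcongr
      _ = _ := by rw [← pow_add]
  have hcop : Pairwise fun p p' => Nat.Coprime (idx p * a + 1) (idx p' * a + 1) := by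
    have key : ∀ p p', idx p < idx p' → Nat.Coprime (idx p * a + 1) (idx p' * a + 1) := by
      intro p p' h
      refine Nat.coprime_mul_succ (Dvd.dvd.trans ?_ ha1)
      have := h2 p'
      exact Nat.dvd_factorial (by omega) (by omega)
    intro p p' hp
    rcases lt_or_gt_of_ne (hinj.ne hp) with h | h
    · exact key _ _ h
    · exact (key _ _ h).symm
  refine (dft_cost n k _ (fun p => idx p * a + 1) (fun p => by omega) hcop ha3 hB hs).mono ?_
  have hs0 := hs.nonneg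
  have hkr : (1 : ℝ) ≤ k := by exact_mod_cast hk
  have hKr : (0 : ℝ) < K := by rw [hK]; push_cast; linarith
  have g1 : ∏ p, ((idx p * a + 1 : ℕ) : ℝ) ≤ 6 * n := by exact_mod_cast ha4
  have g2 : ∏ p, (((idx p * a + 1 : ℕ) : ℝ) + 5) ≤ 1458 * n := by
    have e1 : ∏ p, (((idx p * a + 1 : ℕ) : ℝ) + 5) ≤
        ∏ p, ((1 + (K : ℝ)⁻¹) ^ 5 * ((idx p * a + 1 : ℕ) : ℝ)) := by
      refine Finset.prod_le_prod (fun _ _ => by positivity) (fun p _ => ?_)
      have e2 : (K : ℝ) ≤ ((idx p * a + 1 : ℕ) : ℝ) := by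
        have := h1 p
        exact_mod_cast (by nlinarith : K ≤ idx p * a + 1)
      have e3 : 1 + 5 * (K : ℝ)⁻¹ ≤ (1 + (K : ℝ)⁻¹) ^ 5 := by
        have := one_add_mul_le_pow (a := (K : ℝ)⁻¹) (le_trans (by norm_num) (inv_pos.2 hKr).le) 5
        exact_mod_cast this
      have e4 : (1 : ℝ) ≤ (K : ℝ)⁻¹ * ((idx p * a + 1 : ℕ) : ℝ) := by
        rw [inv_mul_eq_div, le_div_iff₀ hKr]; linarith
      have e5 := mul_le_mul_of_nonneg_right e3 (le_trans hKr.le e2)
      nlinarith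
    rw [Finset.prod_mul_distrib, Finset.prod_const, Finset.card_univ, ← pow_mul, mul_comm 5,
      pow_mul] at e1
    have e6 : Fintype.card (Fin k × Bool) = K := by simp [hK, mul_comm]
    rw [e6] at e1
    have h8 : (1 + (K : ℝ)⁻¹) ^ K ≤ 3 :=
      Real.one_add_inv_pow_le_exp.trans (Real.exp_one_lt_d9.le.trans (by norm_num))
    have h9 : ((1 + (K : ℝ)⁻¹) ^ K) ^ 5 ≤ 3 ^ 5 := by gcongr
    refine e1.trans ((mul_le_mul h9 g1 (by positivity) (by norm_num)).trans (le_of_eq ?_))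
    ring
  have g3 : 2 * (288 * ((K + ((l + 4) / K + 1) : ℕ) : ℝ) + 369) ≤ 4000 * ((l : ℝ) / k) := by
    have ee : (K + 1) ^ 3 = 2 * k * k + 4 + (8 * k ^ 3 + 10 * k ^ 2 + 6 * (k - 1) + 3) := by
      obtain ⟨t, rfl⟩ : ∃ t, k = t + 1 := ⟨k - 1, by omega⟩
      rw [hK, Nat.add_sub_cancel]; ring
    have e0 : 2 * k * k ≤ l := by omega
    have e0' : 4 ≤ l := by omega
    have e1 : (K : ℝ) ≤ (l : ℝ) / k := by
      rw [le_div_iff₀ (by linarith), hK]; exact_mod_cast e0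
    have e2 : (((l + 4) / K : ℕ) : ℝ) ≤ (l : ℝ) / k := by
      refine Nat.cast_div_le.trans ?_
      rw [hK, div_le_div_iff₀ (by push_cast; linarith) (by linarith)]
      have : (4 : ℝ) ≤ l := by exact_mod_cast e0'
      push_cast; nlinarith
    have e3 : (1 : ℝ) ≤ K := by rw [hK]; push_cast; linarith
    push_cast
    linarith
  have g4 : (2 * (288 * ((K + ((l + 4) / K + 1) : ℕ) : ℝ) + 369) * (3 * s + 5) + 1) *
      ∏ p, (((idx p * a + 1 : ℕ) : ℝ) + 5) ≤ (4000 * ((l : ℝ) / k) * (3 * s + 5) + 1) * (1458 * n) := by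
    gcongr
  nlinarith

theorem dft_main : ∃ C : ℝ, 0 ≤ C ∧ ∀ n : ℕ, 2 ^ 27 ≤ n →
    LC (dftMatrix n) (C * n * Real.log n ^ savingExponent) := by
  obtain ⟨C0, hC0, hT⟩ := Tc_main
  have hθ1 := saving_le
  have hθ0 : 0.9 ≤ savingExponent := le_trans (by norm_num) saving_ge
  set θ := savingExponent with hθ
  refine ⟨2 * 1458 * (4000 * (250 * (3 * C0 + 5)) + 1) + 8, by positivity, fun n hn => ?_⟩
  set l := Nat.log 2 n with hl
  have hn0 : n ≠ 0 := by rintro rfl; simp at hn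
  have hl1 : 2 ^ l ≤ n := Nat.pow_log_le_self 2 hn0
  have hl2 : n < 2 ^ (l + 1) := Nat.lt_pow_succ_log_self (by norm_num) n
  have hl3 : 27 ≤ l := Nat.le_log_of_pow_le (by norm_num) hn
  obtain ⟨k, hk1, hk2, hk3⟩ : ∃ k, 1 ≤ k ∧ (2 * k + 1) ^ 3 ≤ l ∧ l ≤ 125 * k ^ 3 := by
    have hex : ∃ k, l < (2 * k + 1) ^ 3 := ⟨l, by nlinarith [Nat.zero_le (l ^ 3), Nat.zero_le (l ^ 2)]⟩
    have h1 := Nat.find_spec hex
    have h2 : 2 ≤ Nat.find hex := by
      by_contra hc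
      have : Nat.find hex ≤ 1 := by omega
      have : (2 * Nat.find hex + 1) ^ 3 ≤ 3 ^ 3 := Nat.pow_le_pow_left (by omega) 3
      omega
    obtain ⟨t, ht⟩ : ∃ t, Nat.find hex = t + 1 := ⟨Nat.find hex - 1, by omega⟩
    have h3 := Nat.find_min hex (m := t) (by omega)
    rw [ht] at h1 h2
    refine ⟨t, by omega, by omega, h1.le.trans ?_⟩
    calc (2 * (t + 1) + 1) ^ 3 ≤ (5 * t) ^ 3 := Nat.pow_le_pow_left (by omega) 3
      _ = _ := by ring
  refine (dft_cost' n k l hk1 hk2 hl1 hl2 (hT k)).mono ?_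
  have hkr : (1 : ℝ) ≤ k := by exact_mod_cast hk1
  have hlr : (27 : ℝ) ≤ l := by exact_mod_cast hl3
  have hlog : (l : ℝ) ≤ 2 * Real.log n := by
    have e1 : Real.log (2 ^ l) ≤ Real.log n :=
      Real.log_le_log (by positivity) (by exact_mod_cast hl1)
    rw [Real.log_pow] at e1
    have := Real.log_two_gt_d9
    nlinarith
  have hL1 : 1 ≤ Real.log n ^ θ := Real.one_le_rpow (by linarith) (by linarith)
  have hk4 : 1 ≤ (k : ℝ) ^ (3 * θ - 2) := Real.one_le_rpow hkr (by linarith)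
  have key : (l : ℝ) / k * (k : ℝ) ^ (3 * θ - 2) ≤ 250 * Real.log n ^ θ := by
    have e1 : (k : ℝ) ^ (3 * θ - 2) / k = (((k : ℝ) ^ 3) ^ (1 - θ))⁻¹ := by
      rw [← Real.rpow_natCast, ← Real.rpow_mul (by linarith), ← Real.rpow_neg (by linarith),
        ← Real.rpow_sub_one (by linarith)]
      congr 1; push_cast; ring
    have e2 : (l : ℝ) ^ (1 - θ) ≤ 125 * ((k : ℝ) ^ 3) ^ (1 - θ) := by
      have e3 : (l : ℝ) ^ (1 - θ) ≤ (125 * (k : ℝ) ^ 3) ^ (1 - θ) :=
        Real.rpow_le_rpow (by positivity) (by exact_mod_cast hk3) (by linarith)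
      rw [Real.mul_rpow (by norm_num) (by positivity)] at e3
      have e4 : (125 : ℝ) ^ (1 - θ) ≤ 125 ^ (1 : ℝ) :=
        Real.rpow_le_rpow_of_exponent_le (by norm_num) (by linarith)
      rw [Real.rpow_one] at e4
      exact e3.trans (mul_le_mul_of_nonneg_right e4 (by positivity))
    have e5 : (l : ℝ) = (l : ℝ) ^ θ * (l : ℝ) ^ (1 - θ) := by
      rw [← Real.rpow_add (by linarith)]; simp
    have e6 : (l : ℝ) ^ θ ≤ 2 * Real.log n ^ θ := by
      have e7 : (l : ℝ) ^ θ ≤ (2 * Real.log n) ^ θ :=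
        Real.rpow_le_rpow (by positivity) hlog (by linarith)
      rw [Real.mul_rpow (by norm_num) (by linarith)] at e7
      have e4 : (2 : ℝ) ^ θ ≤ 2 ^ (1 : ℝ) :=
        Real.rpow_le_rpow_of_exponent_le (by norm_num) hθ1
      rw [Real.rpow_one] at e4
      exact e7.trans (mul_le_mul_of_nonneg_right e4 (by linarith))
    have hp : 0 < ((k : ℝ) ^ 3) ^ (1 - θ) := by positivity
    calc (l : ℝ) / k * (k : ℝ) ^ (3 * θ - 2) = l * ((k : ℝ) ^ (3 * θ - 2) / k) := by ring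
      _ = l / ((k : ℝ) ^ 3) ^ (1 - θ) := by rw [e1, div_eq_mul_inv]
      _ ≤ 250 * Real.log n ^ θ := by
        rw [div_le_iff₀ hp]
        calc (l : ℝ) = (l : ℝ) ^ θ * (l : ℝ) ^ (1 - θ) := e5
          _ ≤ (2 * Real.log n ^ θ) * (125 * ((k : ℝ) ^ 3) ^ (1 - θ)) :=
            mul_le_mul e6 e2 (by positivity) (by linarith)
          _ = _ := by ring
  have k2 : (l : ℝ) / k * (3 * (C0 * (k : ℝ) ^ (3 * θ - 2)) + 5) ≤
      250 * (3 * C0 + 5) * Real.log n ^ θ := by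
    have e1 : 3 * (C0 * (k : ℝ) ^ (3 * θ - 2)) + 5 ≤ (3 * C0 + 5) * (k : ℝ) ^ (3 * θ - 2) := by
      nlinarith
    calc _ ≤ (l : ℝ) / k * ((3 * C0 + 5) * (k : ℝ) ^ (3 * θ - 2)) :=
          mul_le_mul_of_nonneg_left e1 (by positivity)
      _ = (3 * C0 + 5) * ((l : ℝ) / k * (k : ℝ) ^ (3 * θ - 2)) := by ring
      _ ≤ (3 * C0 + 5) * (250 * Real.log n ^ θ) := mul_le_mul_of_nonneg_left key (by positivity)
      _ = _ := by ring
  rw [mul_right_comm _ (n : ℝ)]
  refine mul_le_mul_of_nonneg_right ?_ (by positivity)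
  nlinarith

end Crest.Agent.H9.FC
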