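import Crest.Agent.H9.LCCost

/-!
Character tables, Bluestein's reduction and the radix two transform in place.
-/

set_option autoImplicit false
set_option linter.unusedSectionVars false
set_option linter.unusedSimpArgs false

namespace Crest.Agent.H9.FC

open Finset Matrix Kronecker Crest.FourierCircuit

/-- a symmetric character table of a finite abelian group -/
structure IsChar {Γ : Type} [AddCommGroup Γ] [Fintype Γ] [DecidableEq Γ] (F : Matrix Γ Γ ℂ) :
    Prop where
  symm : ∀ u v, F u v = F v u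
  add : ∀ ξ u v, F ξ (u + v) = F ξ u * F ξ v
  orth : ∀ u, ∑ ξ, F ξ u = if u = 0 then (Fintype.card Γ : ℂ) else 0

section char
variable {Γ : Type} [AddCommGroup Γ] [Fintype Γ] [DecidableEq Γ] {F : Matrix Γ Γ ℂ}

lemma IsChar.sq (h : IsChar F) : F * F = rm (fun u => -u) (fun _ => (Fintype.card Γ : ℂ)) := by
  ext u v
  simp only [Matrix.mul_apply, h.symm u, ← h.add, h.orth, rm_apply]
  congr 1
  rw [eq_iff_iff, add_comm, add_eq_zero_iff_eq_neg]

lemma IsChar.circ (h : IsChar F) (κ : Γ → ℂ) :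
    ∃ Λ : Γ → ℂ, ∀ u v, (F * diagonal Λ * F) u v = κ (u + v) := by
  refine ⟨fun ξ => (Fintype.card Γ : ℂ)⁻¹ * ∑ w, κ w * F ξ (-w), fun u v => ?_⟩
  have hN : (Fintype.card Γ : ℂ) ≠ 0 := by exact_mod_cast Fintype.card_ne_zero
  rw [Matrix.mul_apply]
  have e1 : ∀ ξ, (F * diagonal fun ξ => (Fintype.card Γ : ℂ)⁻¹ * ∑ w, κ w * F ξ (-w)) u ξ * F ξ v =
      ∑ w, (Fintype.card Γ : ℂ)⁻¹ * κ w * F ξ (u + v + -w) := by
    intro ξ
    rw [Matrix.mul_diagonal, h.symm u, Finset.mul_sum, Finset.mul_sum, Finset.sum_mul]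
    refine Finset.sum_congr rfl (fun w _ => ?_)
    rw [h.add, h.add]; ring
  simp only [e1]
  rw [Finset.sum_comm]
  simp only [← Finset.mul_sum, h.orth, add_neg_eq_zero]
  rw [Finset.sum_eq_single (u + v)]
  · simp only [if_true]; field_simp
  · intro b _ hb; simp [Ne.symm hb]
  · simp

lemma IsChar.prod {Γ' : Type} [AddCommGroup Γ'] [Fintype Γ'] [DecidableEq Γ']
    {F' : Matrix Γ' Γ' ℂ} (h : IsChar F) (h' : IsChar F') : IsChar (F ⊗ₖ F') where
  symm u v := by simp only [kroneckerMap_apply, h.symm u.1, h'.symm u.2]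
  add ξ u v := by
    simp only [kroneckerMap_apply, Prod.fst_add, Prod.snd_add, h.add, h'.add]; ring
  orth u := by
    simp only [kroneckerMap_apply, Fintype.sum_prod_type, ← Finset.mul_sum, ← Finset.sum_mul,
      h.orth, h'.orth, Prod.ext_iff, Prod.fst_zero, Prod.snd_zero, Fintype.card_prod]
    by_cases h1 : u.1 = 0 <;> by_cases h2 : u.2 = 0 <;> simp [h1, h2]

lemma IsChar.pi {J : Type} [Fintype J] [DecidableEq J] {G : J → Type} [∀ j, AddCommGroup (G j)]
    [∀ j, Fintype (G j)] [∀ j, DecidableEq (G j)] {A : ∀ j, Matrix (G j) (G j) ℂ}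
    (h : ∀ j, IsChar (A j)) : IsChar (TP A) where
  symm u v := by simp only [TP_apply]; exact Finset.prod_congr rfl (fun j _ => (h j).symm _ _)
  add ξ u v := by
    simp only [TP_apply, Pi.add_apply, (h _).add, Finset.prod_mul_distrib]
  orth u := by
    simp only [TP_apply]
    have h1 := Finset.prod_univ_sum (fun j : J => (Finset.univ : Finset (G j)))
      (fun j t => A j t (u j))
    rw [Fintype.piFinset_univ] at h1
    rw [← h1]
    simp only [(h _).orth]
    split_ifs with hu
    · subst hu; simp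
    · obtain ⟨j, hj⟩ : ∃ j, u j ≠ 0 := by
        by_contra hc
        push Not at hc
        exact hu (funext hc)
      exact Finset.prod_eq_zero (Finset.mem_univ j) (by simp [hj])

/-- Bluestein's factorization -/
lemma bluestein (h : IsChar F) {X : Type} [Fintype X] [DecidableEq X] (val : X → ℕ)
    (hval : Function.Injective val) (p : ℕ) (hp : ∀ x, val x < p) (g : Γ)
    (hg : ∀ d : ℤ, |d| < 2 * p → d • g = 0 → d = 0) (η : ℂ) (hη : η ≠ 0) :
    ∃ (ι ι' : X → Γ) (D : X → ℂ) (Λ : Γ → ℂ), Function.Injective ι ∧ Function.Injective ι' ∧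
      (Matrix.of fun x y => (η ^ 2) ^ (val x * val y)) =
        rm ι D * (F * diagonal Λ * F) * (rm ι' D)ᵀ := by
  classical
  obtain ⟨Λ, hΛ⟩ := h.circ (fun u => if hu : ∃ d : ℤ, |d| < p ∧ u = d • g then
    η ^ (-(hu.choose ^ 2)) else 0)
  have huniq : ∀ d d' : ℤ, |d| < p → |d'| < p → d • g = d' • g → d = d' := by
    intro d d' h1 h2 h3
    have := hg (d - d') (by
      rw [abs_lt] at *; constructor <;> linarith [h1.1, h1.2, h2.1, h2.2]) (by
      rw [sub_smul, h3, sub_self])
    linarith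
  have hv : ∀ x, |(val x : ℤ)| < p := fun x => by
    rw [abs_of_nonneg (by positivity)]; exact_mod_cast hp x
  have hinj : Function.Injective fun x => (val x : ℤ) • g := fun x y hxy =>
    hval (by exact_mod_cast huniq _ _ (hv x) (hv y) hxy)
  refine ⟨fun x => (val x : ℤ) • g, fun x => -((val x : ℤ) • g), fun x => η ^ (val x ^ 2), Λ,
    hinj, fun x y hxy => hinj (neg_injective hxy), ?_⟩
  ext x y
  rw [mul_rmT_apply, rm_mul_apply, hΛ]
  have hd : |(val x : ℤ) - val y| < p := by
    have h1 := hp x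
    have h2 := hp y
    rw [abs_lt]; constructor <;> omega
  have hu : ∃ d : ℤ, |d| < p ∧ (val x : ℤ) • g + -((val y : ℤ) • g) = d • g :=
    ⟨_, hd, by rw [sub_smul, sub_eq_add_neg]⟩
  have hc : hu.choose = (val x : ℤ) - val y :=
    huniq _ _ hu.choose_spec.1 hd (by rw [← hu.choose_spec.2, sub_smul, sub_eq_add_neg])
  simp only [Matrix.of_apply]
  rw [dif_pos hu, hc, ← pow_mul, ← zpow_natCast, ← zpow_natCast, ← zpow_natCast,
    ← zpow_add₀ hη, ← zpow_add₀ hη]
  congr 1
  push_cast; ring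

end char

/-- the primitive root of unity of order `q` -/
noncomputable def zt (q : ℕ) : ℂ := Complex.exp (2 * Real.pi * Complex.I / q)

lemma zt_prim {q : ℕ} (hq : q ≠ 0) : IsPrimitiveRoot (zt q) q := Complex.isPrimitiveRoot_exp q hq

lemma zt_sq (q : ℕ) : ∃ η : ℂ, η ≠ 0 ∧ η ^ 2 = zt q :=
  ⟨Complex.exp (Real.pi * Complex.I / q), Complex.exp_ne_zero _, by
    rw [zt, ← Complex.exp_nat_mul]; congr 1; push_cast; ring⟩

/-- the Fourier matrix on `ZMod q` -/
noncomputable def zdft (q : ℕ) : Matrix (ZMod q) (ZMod q) ℂ :=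
  Matrix.of fun u v => zt q ^ (u.val * v.val)

lemma zdft_char (q : ℕ) [NeZero q] : IsChar (zdft q) where
  symm u v := by simp [zdft, mul_comm]
  add ξ u v := by
    simp only [zdft, Matrix.of_apply, pow_mul, ZMod.val_add]
    rw [← pow_eq_pow_mod, pow_add]
    rw [← pow_mul, mul_comm, pow_mul, (zt_prim (NeZero.ne q)).pow_eq_one, one_pow]
  orth u := by
    have hq := zt_prim (NeZero.ne q)
    simp only [zdft, Matrix.of_apply]
    split_ifs with hu
    · subst hu; simp
    · have e1 : ∑ ξ : ZMod q, zt q ^ (ξ.val * u.val) = ∑ k ∈ range q, (zt q ^ u.val) ^ k := by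
        obtain ⟨n, rfl⟩ := Nat.exists_eq_succ_of_ne_zero (NeZero.ne q)
        rw [← Fin.sum_univ_eq_sum_range (fun k => (zt (n + 1) ^ u.val) ^ k)]
        refine Finset.sum_congr rfl (fun ξ _ => ?_)
        rw [mul_comm, pow_mul]; rfl
      have e2 : zt q ^ u.val ≠ 1 :=
        hq.pow_ne_one_of_pos_of_lt (by rwa [Ne, ZMod.val_eq_zero]) (ZMod.val_lt u)
      have e3 := geom_sum_mul (zt q ^ u.val) q
      rw [← pow_mul, mul_comm u.val, pow_mul, hq.pow_eq_one, one_pow, sub_self] at e3
      rw [e1]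
      exact (mul_eq_zero.1 e3).resolve_right (sub_ne_zero.2 e2)

lemma rd_butterfly : Rd 2 (Matrix.of fun (x y : Fin 2) => (-1 : ℂ) ^ (x.val * y.val)) := by
  have s1 : IsShear (1 + rm (![1, 1] : Fin 2 → Fin 2) ![(-1 : ℂ), 0]) :=
    ⟨_, _, by intro b; fin_cases b <;> simp, by
      intro b b'; fin_cases b <;> fin_cases b' <;> simp, rfl⟩
  have s2 : IsShear (1 + rm (![0, 0] : Fin 2 → Fin 2) ![(0 : ℂ), 1]) :=
    ⟨_, _, by intro b; fin_cases b <;> simp, by
      intro b b'; fin_cases b <;> fin_cases b' <;> simp, rfl⟩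
  have d1 : IsMon (diagonal ![(2 : ℂ), 1]) := IsMon.diag _ (by intro b; fin_cases b <;> simp)
  have d2 : IsMon (diagonal ![(1 : ℂ), -1]) := IsMon.diag _ (by intro b; fin_cases b <;> simp)
  have := ((s1.rd.mul d1.rd).mul s2.rd).mul d2.rd
  convert this using 1
  ext x y
  fin_cases x <;> fin_cases y <;>
    simp [Matrix.mul_apply, Fin.sum_univ_two, rm, Matrix.one_apply, Matrix.diagonal] <;> norm_num

lemma rd_fft (a : ℕ) : Rd (2 * a) (dftMatrix (2 ^ a)) := by
  induction a with
  | zero =>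
    have : dftMatrix (2 ^ 0) = 1 := by
      ext x y
      have hx : x = ⟨0, by simp⟩ := Fin.ext (by have := x.2; simp at this; simpa using this)
      have hy : y = ⟨0, by simp⟩ := Fin.ext (by have := y.2; simp at this; simpa using this)
      subst hx hy
      simp [dftMatrix]
    rw [this]; exact IsMon.one
  | succ a ih =>
    set L := 2 ^ a with hL
    have hL0 : L ≠ 0 := by positivity
    let eo : Fin 2 × Fin L ≃ Fin (2 ^ (a + 1)) :=
      finProdFinEquiv.trans (finCongr (by rw [pow_succ, mul_comm]))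
    let ei : Fin 2 × Fin L ≃ Fin (2 ^ (a + 1)) :=
      (Equiv.prodComm _ _).trans (finProdFinEquiv.trans (finCongr (by rw [pow_succ])))
    refine Rd.of_submatrix eo ei ?_
    have h1 := (rd_butterfly.bd (δ := Fin L)).reindex (Equiv.prodComm _ _)
    have h2 : IsMon (diagonal fun p : Fin 2 × Fin L => zt (2 ^ (a + 1)) ^ (p.2.val * p.1.val)) :=
      IsMon.diag _ (fun p => pow_ne_zero _ (Complex.exp_ne_zero _))
    have h3 := (h1.mul h2.rd).mul (ih.bd (δ := Fin 2))
    have hz := zt_prim (q := 2 ^ (a + 1)) (by positivity)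
    have z1 : zt (2 ^ (a + 1)) ^ 2 = zt L := by
      rw [zt, zt, ← Complex.exp_nat_mul]; congr 1
      rw [hL]; push_cast; field_simp; ring
    have z2 : zt (2 ^ (a + 1)) ^ L = -1 := by
      rw [zt, ← Complex.exp_nat_mul, ← Complex.exp_pi_mul_I]; congr 1
      rw [hL]; push_cast; field_simp; ring
    have z3 : zt L ^ L = 1 := (zt_prim hL0).pow_eq_one
    convert h3 using 1
    · ring
    · ext ⟨δ, u⟩ ⟨ε, v⟩
      rw [Matrix.mul_apply, Finset.sum_eq_single (ε, u)]
      · simp only [Matrix.mul_diagonal, Matrix.submatrix_apply, BD, Matrix.of_apply, dftMatrix,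
          Equiv.prodComm_apply, Prod.swap, if_true, eo, ei, Equiv.trans_apply, finCongr_apply,
          Fin.val_cast, finProdFinEquiv_apply_val]
        change zt (2 ^ (a + 1)) ^ _ = _ * _ * zt L ^ _
        have z4 : zt (2 ^ (a + 1)) ^ (2 * L) = 1 := by rw [pow_mul, z1, z3]
        have e : (u.val + L * δ.val) * (ε.val + 2 * v.val) = L * (δ.val * ε.val) + u.val * ε.val +
          2 * (u.val * v.val) + (2 * L) * (δ.val * v.val) := by ring
        rw [e, pow_add, pow_add, pow_add, pow_mul _ L, pow_mul _ 2, pow_mul _ (2 * L), z2, z1, z4,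
          one_pow, mul_one]
      · rintro ⟨ε', u'⟩ _ hb
        simp only [Matrix.mul_diagonal, Matrix.submatrix_apply, BD, Matrix.of_apply,
          Equiv.prodComm_apply, Prod.swap]
        by_cases h1 : u = u'
        · subst h1
          have : ε' ≠ ε := fun h => hb (by rw [h])
          simp [this]
        · simp [h1]
      · simp

lemma rd_zdft_of (L : ℕ) [NeZero L] (r : ℕ) (h : Rd r (dftMatrix L)) : Rd r (zdft L) := by
  obtain ⟨n, rfl⟩ := Nat.exists_eq_succ_of_ne_zero (NeZero.ne L)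
  exact h

lemma rd_zfft (a : ℕ) : Rd (2 * a) (zdft (2 ^ a)) := rd_zdft_of _ _ (rd_fft a)

end Crest.Agent.H9.FC
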