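import Crest.Agent.H9.LCTensor

/-!
Frames: Fourier multipliers on `M → ZMod 2` by fourth roots of unity given by quadratic forms.
-/

set_option autoImplicit false
set_option linter.unusedSectionVars false
set_option linter.unusedSimpArgs false

namespace Crest.Agent.H9.FC

open Finset Matrix

/-- the lift of a bit -/
def lift (t : ZMod 2) : ZMod 4 := (t.val : ZMod 4)
/-- twice a bit -/
def dbl (t : ZMod 2) : ZMod 4 := 2 * lift t

lemma lift_add (s t : ZMod 2) : lift (s + t) = lift s + lift t + dbl (s * t) := by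
  revert s t; decide
lemma dbl_add (s t : ZMod 2) : dbl (s + t) = dbl s + dbl t := by
  revert s t; decide
lemma lift_zero : lift 0 = 0 := by decide
lemma dbl_zero : dbl 0 = 0 := by decide
lemma dbl_add_self (s : ZMod 2) : dbl s + dbl s = 0 := by revert s; decide
lemma dbl_sum {ι : Type} (S : Finset ι) (t : ι → ZMod 2) :
    dbl (∑ i ∈ S, t i) = ∑ i ∈ S, dbl (t i) := by
  classical
  induction S using Finset.induction_on with
  | empty => simp [dbl_zero]
  | insert a S ha ih => rw [Finset.sum_insert ha, Finset.sum_insert ha, dbl_add, ih]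

lemma zmod2_cases (t : ZMod 2) : t = 0 ∨ t = 1 := by revert t; decide
lemma zmod2_mul_self (t : ZMod 2) : t * t = t := by revert t; decide
lemma zmod2_add_self (t : ZMod 2) : t + t = 0 := by revert t; decide

/-- the character of `ZMod 4` -/
noncomputable def e4 (a : ZMod 4) : ℂ := Complex.I ^ a.val

lemma e4_add (a b : ZMod 4) : e4 (a + b) = e4 a * e4 b := by
  unfold e4
  rw [ZMod.val_add, ← pow_eq_pow_mod _ Complex.I_pow_four, pow_add]

lemma e4_zero : e4 0 = 1 := by simp [e4]

lemma e4_sum {ι : Type} (S : Finset ι) (t : ι → ZMod 4) :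
    e4 (∑ i ∈ S, t i) = ∏ i ∈ S, e4 (t i) := by
  classical
  induction S using Finset.induction_on with
  | empty => simp [e4_zero]
  | insert a S ha ih => rw [Finset.sum_insert ha, Finset.prod_insert ha, e4_add, ih]

lemma e4_dbl_one : e4 (dbl 1) = -1 := by
  have : (dbl 1).val = 2 := by decide
  simp [e4, this]

lemma e4_lift_one : e4 (lift 1) = Complex.I := by
  have : (lift 1).val = 1 := by decide
  simp [e4, this]

lemma e4_lift (t : ZMod 2) : e4 (lift t) = ca + cb * e4 (dbl t) := by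
  rcases zmod2_cases t with rfl | rfl
  · simp [lift_zero, dbl_zero, e4_zero, ca, cb]; ring
  · rw [e4_lift_one, e4_dbl_one, ca, cb]; ring

variable {M : Type} [Fintype M] [DecidableEq M]

lemma sum_e4_dbl (z : M → ZMod 2) :
    ∑ y : M → ZMod 2, e4 (dbl (y ⬝ᵥ z)) = if z = 0 then (Fintype.card (M → ZMod 2) : ℂ) else 0 := by
  split_ifs with h
  · subst h; simp [dbl_zero, e4_zero]
  · obtain ⟨μ, hμ⟩ : ∃ μ, z μ = 1 := by
      by_contra hc
      push Not at hc
      exact h (funext fun μ => (zmod2_cases (z μ)).resolve_right (hc μ))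
    have h1 : ∑ y : M → ZMod 2, e4 (dbl (y ⬝ᵥ z)) =
        ∑ y : M → ZMod 2, e4 (dbl ((y + Pi.single μ 1) ⬝ᵥ z)) :=
      (Equiv.sum_comp (Equiv.addRight (Pi.single μ (1 : ZMod 2) : M → ZMod 2))
        (fun y => e4 (dbl (y ⬝ᵥ z)))).symm
    have h2 : ∀ y : M → ZMod 2, e4 (dbl ((y + Pi.single μ 1) ⬝ᵥ z)) = -e4 (dbl (y ⬝ᵥ z)) := by
      intro y
      rw [add_dotProduct, dbl_add, e4_add, single_dotProduct, hμ, one_mul, e4_dbl_one]; ring
    simp only [h2, Finset.sum_neg_distrib] at h1
    linear_combination h1 / 2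

/-- the Fourier multiplier with symbol `I ^ φ` -/
noncomputable def fr (φ : (M → ZMod 2) → ZMod 4) : Matrix (M → ZMod 2) (M → ZMod 2) ℂ :=
  Matrix.of fun x y => (Fintype.card (M → ZMod 2) : ℂ)⁻¹ *
    ∑ ξ : M → ZMod 2, e4 (φ ξ) * e4 (dbl (ξ ⬝ᵥ (x + y)))

lemma card_V_ne : (Fintype.card (M → ZMod 2) : ℂ) ≠ 0 := by
  exact_mod_cast Fintype.card_ne_zero

lemma vec_add_self (x : M → ZMod 2) : x + x = 0 := by
  funext μ; exact zmod2_add_self _

lemma vec_add_eq_zero (x y : M → ZMod 2) : x + y = 0 ↔ y = x := by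
  constructor
  · intro h
    have : x + (x + y) = x := by rw [h, add_zero]
    rwa [← add_assoc, vec_add_self, zero_add] at this
  · rintro rfl; exact vec_add_self _

lemma fr_mul (φ ψ : (M → ZMod 2) → ZMod 4) : fr φ * fr ψ = fr (φ + ψ) := by
  ext x z
  simp only [fr, Matrix.mul_apply, Matrix.of_apply]
  set N : ℂ := (Fintype.card (M → ZMod 2) : ℂ) with hN
  have hN0 : N ≠ 0 := card_V_ne
  have h1 : ∀ y : M → ZMod 2,
      (N⁻¹ * ∑ ξ : M → ZMod 2, e4 (φ ξ) * e4 (dbl (ξ ⬝ᵥ (x + y)))) *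
      (N⁻¹ * ∑ η : M → ZMod 2, e4 (ψ η) * e4 (dbl (η ⬝ᵥ (y + z)))) =
      ∑ ξ : M → ZMod 2, ∑ η : M → ZMod 2, N⁻¹ * N⁻¹ * (e4 (φ ξ) * e4 (ψ η) *
        e4 (dbl (ξ ⬝ᵥ x)) * e4 (dbl (η ⬝ᵥ z))) * e4 (dbl (y ⬝ᵥ (ξ + η))) := by
    intro y
    rw [mul_mul_mul_comm, Finset.sum_mul_sum, Finset.mul_sum]
    refine Finset.sum_congr rfl (fun ξ _ => ?_)
    rw [Finset.mul_sum]
    refine Finset.sum_congr rfl (fun η _ => ?_)
    simp only [dotProduct_add, add_dotProduct, dbl_add, e4_add, dotProduct_comm y]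
    ring
  simp only [h1]
  rw [Finset.sum_comm, Finset.mul_sum]
  refine Finset.sum_congr rfl (fun ξ _ => ?_)
  rw [Finset.sum_comm]
  simp only [← Finset.mul_sum, sum_e4_dbl, vec_add_eq_zero]
  rw [Finset.sum_eq_single ξ]
  · simp only [if_true, Pi.add_apply, e4_add, dotProduct_add, dbl_add, ← hN]
    field_simp
  · intro b _ hb; simp [hb]
  · simp

lemma fr_dbl (u : M → ZMod 2) : fr (fun ξ => dbl (ξ ⬝ᵥ u)) =
    Matrix.of fun x y => if y = x + u then (1 : ℂ) else 0 := by
  ext x y
  simp only [fr, Matrix.of_apply, ← e4_add, ← dbl_add, ← dotProduct_add, sum_e4_dbl]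
  have : u + (x + y) = 0 ↔ y = x + u := by
    rw [← add_assoc, vec_add_eq_zero, add_comm u x]
  simp only [this]
  split_ifs
  · exact inv_mul_cancel₀ card_V_ne
  · simp

lemma fr_zero : fr (0 : (M → ZMod 2) → ZMod 4) = 1 := by
  have := fr_dbl (0 : M → ZMod 2)
  simp only [dotProduct_zero, dbl_zero, add_zero] at this
  refine this.trans ?_
  ext x y; simp [Matrix.one_apply, eq_comm]

lemma fr_lift (w x y : M → ZMod 2) : fr (fun ξ => lift (ξ ⬝ᵥ w)) x y =
    (if y = x then ca else 0) + (if y = x + w then cb else 0) := by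
  have h0 := congrFun (congrFun (fr_dbl (0 : M → ZMod 2)) x) y
  have h1 := congrFun (congrFun (fr_dbl w) x) y
  simp only [fr, Matrix.of_apply, dotProduct_zero, dbl_zero, e4_zero, one_mul, add_zero] at h0 h1 ⊢
  simp only [e4_lift, add_mul, Finset.sum_add_distrib, mul_assoc, ← Finset.mul_sum]
  have e1 : (if y = x then ca else 0) = ca * (if y = x then (1 : ℂ) else 0) := by simp
  have e2 : (if y = x + w then cb else 0) = cb * (if y = x + w then (1 : ℂ) else 0) := by simp
  rw [e1, e2, ← h0, ← h1]; ring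

/-- the pairing along a nonzero vector -/
def pairEquiv (w : M → ZMod 2) (μ : M) (hμ : w μ = 1) :
    (M → ZMod 2) ≃ ZMod 2 × {x : M → ZMod 2 // x μ = 0} where
  toFun x := (x μ, ⟨x + x μ • w, by simp [hμ, zmod2_add_self]⟩)
  invFun p := p.2.1 + p.1 • w
  left_inv x := by
    simp only
    rw [add_assoc, vec_add_self, add_zero]
  right_inv p := by
    obtain ⟨t, x, hx⟩ := p
    have : (x + t • w) μ = t := by simp [hx, hμ]
    simp only [this, Prod.mk.injEq, true_and]
    ext1
    simp only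
    rw [add_assoc, vec_add_self, add_zero]

lemma fr_lift_blk (w : M → ZMod 2) (μ : M) (hμ : w μ = 1) :
    fr (fun ξ => lift (ξ ⬝ᵥ w)) = blk (pairEquiv w μ hμ) (fun _ => cM) := by
  ext x y
  rw [fr_lift]
  have hne : x + w ≠ x := by
    intro h
    have := congrFun h μ
    simp [hμ] at this
  simp only [blk, pairEquiv, Matrix.of_apply, Equiv.coe_fn_mk, Subtype.mk.injEq, cM]
  by_cases h1 : y = x
  · subst h1; simp [hne.symm]
  · by_cases h2 : y = x + w
    · subst h2
      have : x + x μ • w = x + w + (x + w) μ • w := by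
        simp only [Pi.add_apply, hμ, add_smul, one_smul]
        rw [add_comm (x μ • w) w, add_assoc, ← add_assoc w w, vec_add_self, zero_add]
      rw [if_neg h1, if_pos rfl, if_pos this, if_neg (by simp [hμ])]; simp
    · rw [if_neg h1, if_neg h2, if_neg]; · simp
      intro h
      have h3 : y = x + (x μ + y μ) • w := by
        rw [add_smul, ← add_assoc, h, add_assoc, vec_add_self, add_zero]
      rcases zmod2_cases (x μ + y μ) with h4 | h4
      · rw [h4] at h3; simp at h3; exact h1 h3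
      · rw [h4] at h3; simp at h3; exact h2 h3

section cost
variable {J : Type} [Fintype J] [DecidableEq J]

/-- the frame operator on `J` copies -/
noncomputable def FR (J : Type) [Fintype J] (φ : (M → ZMod 2) → ZMod 4) :
    Matrix (J → M → ZMod 2) (J → M → ZMod 2) ℂ := TP (fun _ : J => fr φ)

lemma FR_mul (φ ψ : (M → ZMod 2) → ZMod 4) : FR J φ * FR J ψ = FR J (φ + ψ) := by
  simp only [FR, TP_mul, fr_mul]

lemma FR_zero : FR J (0 : (M → ZMod 2) → ZMod 4) = 1 := by
  simp only [FR, fr_zero, TP_one]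

lemma LC_FR_dbl (u : M → ZMod 2) : LC (FR J (fun ξ => dbl (ξ ⬝ᵥ u))) 0 := by
  rw [FR, fr_dbl, TP_rowmon (fun _ x => x + u) (fun _ _ => 1)]
  simp only [Finset.prod_const_one]
  convert LC.sel (α := J → M → ZMod 2) (fun (x : J → M → ZMod 2) j => x j + u)

lemma LC_FR_lift {s : ℝ} (h : Tc J s) (w : M → ZMod 2) :
    LC (FR J (fun ξ => lift (ξ ⬝ᵥ w))) (s * Fintype.card (J → M → ZMod 2)) := by
  by_cases hw : w = 0
  · subst hw
    have := LC_FR_dbl (J := J) (0 : M → ZMod 2)
    simp only [dotProduct_zero, dbl_zero, lift_zero] at this ⊢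
    exact this.mono (mul_nonneg h.nonneg (by positivity))
  · obtain ⟨μ, hμ⟩ : ∃ μ, w μ = 1 := by
      by_contra hc
      push Not at hc
      exact hw (funext fun μ => (zmod2_cases (w μ)).resolve_right (hc μ))
    rw [FR, fr_lift_blk w μ hμ]
    exact LC_TP_blk (fun _ => pairEquiv w μ hμ) h

end cost

/-- the quadratic form modulo four attached to a matrix of bits -/
noncomputable def ph (B : Matrix M M (ZMod 2)) (ξ : M → ZMod 2) : ZMod 4 :=
  ∑ μ, lift (B μ μ * ξ μ) +
    dbl (∑ μ, ∑ ν, if Fintype.equivFin M μ < Fintype.equivFin M ν then B μ ν * ξ μ * ξ ν else 0)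

lemma ph_add (B B' : Matrix M M (ZMod 2)) (ξ : M → ZMod 2) :
    ph (B + B') ξ = ph B ξ + ph B' ξ + dbl (ξ ⬝ᵥ fun μ => B μ μ * B' μ μ) := by
  unfold ph
  have h1 : ∀ μ, lift ((B + B') μ μ * ξ μ) =
      lift (B μ μ * ξ μ) + lift (B' μ μ * ξ μ) + dbl (ξ μ * (B μ μ * B' μ μ)) := by
    intro μ
    rw [Matrix.add_apply, add_mul, lift_add]
    congr 2
    have := zmod2_mul_self (ξ μ)
    linear_combination (B μ μ * B' μ μ) * this
  have h2 : (∑ μ, ∑ ν, if Fintype.equivFin M μ < Fintype.equivFin M ν then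
      (B + B') μ ν * ξ μ * ξ ν else 0) =
      (∑ μ, ∑ ν, if Fintype.equivFin M μ < Fintype.equivFin M ν then B μ ν * ξ μ * ξ ν else 0) +
      (∑ μ, ∑ ν, if Fintype.equivFin M μ < Fintype.equivFin M ν then B' μ ν * ξ μ * ξ ν else 0) := by
    rw [← Finset.sum_add_distrib]
    refine Finset.sum_congr rfl (fun μ _ => ?_)
    rw [← Finset.sum_add_distrib]
    refine Finset.sum_congr rfl (fun ν _ => ?_)
    split_ifs
    · rw [Matrix.add_apply]; ring
    · simp
  simp only [h1, h2, Finset.sum_add_distrib, dbl_add, dotProduct, dbl_sum]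
  ring

lemma lift_sum {ι : Type} {κ : Type} [LinearOrder κ] (key : ι → κ) (hkey : Function.Injective key)
    (S : Finset ι) (t : ι → ZMod 2) :
    lift (∑ i ∈ S, t i) = ∑ i ∈ S, lift (t i) +
      dbl (∑ i ∈ S, ∑ j ∈ S, if key i < key j then t i * t j else 0) := by
  classical
  induction S using Finset.induction_on with
  | empty => simp [dbl_zero, lift_zero]
  | insert a S ha ih =>
    simp only [Finset.sum_insert ha, lift_add, ih, lt_irrefl, if_false, zero_add,
      Finset.sum_add_distrib, dbl_add]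
    have : t a * ∑ i ∈ S, t i = (∑ j ∈ S, if key a < key j then t a * t j else 0) +
        ∑ i ∈ S, if key i < key a then t i * t a else 0 := by
      rw [Finset.mul_sum, ← Finset.sum_add_distrib]
      refine Finset.sum_congr rfl (fun j hj => ?_)
      have hne : key a ≠ key j := fun h => ha (hkey h ▸ hj)
      rcases lt_or_gt_of_ne hne with h | h
      · simp [h, not_lt_of_gt h]
      · simp [h, not_lt_of_gt h, mul_comm]
    rw [this, dbl_add]; ring

lemma ph_vecMulVec (w ξ : M → ZMod 2) : ph (vecMulVec w w) ξ = lift (ξ ⬝ᵥ w) := by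
  unfold ph
  rw [dotProduct, lift_sum (Fintype.equivFin M) (Fintype.equivFin M).injective]
  congr 1
  · refine Finset.sum_congr rfl (fun μ _ => ?_)
    rw [vecMulVec_apply, zmod2_mul_self, mul_comm]
  · congr 1
    refine Finset.sum_congr rfl (fun μ _ => Finset.sum_congr rfl (fun ν _ => ?_))
    split_ifs
    · rw [vecMulVec_apply]; ring
    · rfl

lemma ph_one (ξ : M → ZMod 2) : ph (1 : Matrix M M (ZMod 2)) ξ = ∑ μ, lift (ξ μ) := by
  unfold ph
  have : (∑ μ, ∑ ν, if Fintype.equivFin M μ < Fintype.equivFin M ν then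
      (1 : Matrix M M (ZMod 2)) μ ν * ξ μ * ξ ν else 0) = 0 := by
    refine Finset.sum_eq_zero (fun μ _ => Finset.sum_eq_zero (fun ν _ => ?_))
    split_ifs with h
    · have : μ ≠ ν := by rintro rfl; exact lt_irrefl _ h
      simp [this]
    · rfl
  simp [this, dbl_zero]

lemma fr_ph_one : fr (ph (1 : Matrix M M (ZMod 2))) = GG M := by
  ext x y
  simp only [fr, GG, TP, Matrix.of_apply, ph_one, dotProduct, dbl_sum, e4_sum,
    ← Finset.prod_mul_distrib]
  have h1 := Finset.prod_univ_sum (fun _ : M => (Finset.univ : Finset (ZMod 2)))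
    (fun μ t => e4 (lift t) * e4 (dbl (t * (x + y) μ)))
  rw [Fintype.piFinset_univ] at h1
  rw [← h1]
  have h2 : ∀ μ, ∑ t : ZMod 2, e4 (lift t) * e4 (dbl (t * (x + y) μ)) = 2 * cM (x μ) (y μ) := by
    intro μ
    have hs : ∀ f : ZMod 2 → ℂ, ∑ t : ZMod 2, f t = f 0 + f 1 := fun f => Fin.sum_univ_two f
    rw [hs]
    simp only [zero_mul, one_mul, lift_zero, dbl_zero, e4_zero, e4_lift_one, cM, Matrix.of_apply,
      Pi.add_apply]
    split_ifs with h
    · rw [h, zmod2_add_self, dbl_zero, e4_zero, ca]; ring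
    · have : x μ + y μ = 1 := by
        revert h; generalize x μ = s; generalize y μ = t; revert s t; decide
      rw [this, e4_dbl_one, cb]; ring
  simp only [h2, Finset.prod_mul_distrib]
  simp

/-- `Q` is a sum of at most `r` squares -/
def Dec (Q : Matrix M M (ZMod 2)) (r : ℕ) : Prop :=
  ∃ l : List (M → ZMod 2), l.length ≤ r ∧ Q = (l.map fun w => vecMulVec w w).sum

lemma LC_move {J : Type} [Fintype J] [DecidableEq J] {s : ℝ} (h : Tc J s)
    {B B' : Matrix M M (ZMod 2)} {r : ℕ} (hd : Dec (B' - B) r) :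
    LC (FR J (ph B' - ph B)) (r * s * Fintype.card (J → M → ZMod 2)) := by
  obtain ⟨l, hl, hQ⟩ := hd
  have hs := h.nonneg
  refine LC.mono (s := l.length * s * Fintype.card (J → M → ZMod 2)) ?_
    (by gcongr)
  clear hl
  induction l generalizing B with
  | nil =>
    have : B' = B := by simpa [sub_eq_zero] using hQ
    subst this
    have := LC_FR_dbl (J := J) (0 : M → ZMod 2)
    simp only [dotProduct_zero, dbl_zero] at this
    rw [sub_self]
    exact LC.mono this (by simp)
  | cons w l ih =>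
    have h1 := ih (B := B + vecMulVec w w) (by
      simp only [List.map_cons, List.sum_cons] at hQ
      rw [← sub_sub, hQ]; abel)
    have h2 := (h1.mul (LC_FR_lift h w)).mul
      (LC_FR_dbl (fun μ => B μ μ * vecMulVec w w μ μ))
    rw [FR_mul, FR_mul] at h2
    convert h2 using 2
    · funext ξ
      simp only [Pi.add_apply, Pi.sub_apply, ph_add, ph_vecMulVec]
      ring
    · simp; ring

end Crest.Agent.H9.FC
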