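import Crest.Agent.H9.LCFourier

/-!
The Fourier transform of any order, six at a time, in place.
-/

set_option autoImplicit false
set_option linter.unusedSectionVars false
set_option linter.unusedSimpArgs false

namespace Crest.Agent.H9.FC

open Finset Matrix Kronecker Crest.FourierCircuit

section
variable {ω X Y Z : Type} [Fintype ω] [DecidableEq ω] [Fintype X] [DecidableEq X]
  [Fintype Y] [DecidableEq Y] [Fintype Z] [DecidableEq Z]

/-- add `M` applied to the coordinates `i` to the coordinates `j` -/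
noncomputable def Sh (j : Y → ω) (M : Matrix Y X ℂ) (i : X → ω) : Matrix ω ω ℂ :=
  1 + (rm j (fun _ => 1))ᵀ * M * rm i (fun _ => 1)

lemma sel_self {k : Z → ω} (hk : Function.Injective k) (W : Matrix Z ω ℂ) :
    rm k (fun _ => 1) * ((rm k (fun _ => 1))ᵀ * W) = W := by
  rw [← Matrix.mul_assoc, rm_mul_rmT hk, Matrix.one_mul]

lemma sel_disj {k : Z → ω} {j : Y → ω} (h : ∀ b c, k b ≠ j c) (W : Matrix Y ω ℂ) :
    rm k (fun _ => 1) * ((rm j (fun _ => 1))ᵀ * W) = 0 := by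
  rw [← Matrix.mul_assoc, rm_mul_rmT' h, Matrix.zero_mul]

lemma Sh_conj {j : Y → ω} {k : Z → ω} (hk : Function.Injective k) (hkj : ∀ b c, k b ≠ j c)
    (R : Matrix Y Z ℂ) {G G' : Matrix Z Z ℂ} (hG : G' * G = 1) :
    Sh j (R * G) k = Pl k G' * Sh j R k * Pl k G := by
  have h3 : ∀ W : Matrix Z ω ℂ, G' * (G * W) = W := fun W => by
    rw [← Matrix.mul_assoc, hG, Matrix.one_mul]
  simp only [Sh, Pl, Matrix.mul_add, Matrix.add_mul, Matrix.mul_sub, Matrix.sub_mul,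
    Matrix.mul_one, Matrix.one_mul, Matrix.mul_assoc, sel_self hk, sel_disj hkj, h3,
    Matrix.mul_zero]
  abel

lemma Sh_comm {i : X → ω} {j : Y → ω} {k : Z → ω} (hk : Function.Injective k)
    (hkj : ∀ b c, k b ≠ j c) (hij : ∀ b c, i b ≠ j c) (hik : ∀ b c, i b ≠ k c)
    (R : Matrix Y Z ℂ) (E : Matrix Z X ℂ) :
    Sh j (R * E) i = Sh k (-E) i * Sh j R k * Sh k E i * Sh j (-R) k := by
  simp only [Sh, Matrix.mul_add, Matrix.add_mul, Matrix.mul_neg, Matrix.neg_mul,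
    Matrix.mul_one, Matrix.one_mul, Matrix.mul_assoc, sel_self hk, sel_disj hkj, sel_disj hij,
    sel_disj hik, Matrix.mul_zero, neg_zero, Matrix.zero_mul]
  abel

lemma Sh_add {i : X → ω} {j : Y → ω} (hij : ∀ b c, i b ≠ j c) (M M' : Matrix Y X ℂ) :
    Sh j (M + M') i = Sh j M i * Sh j M' i := by
  simp only [Sh, Matrix.mul_add, Matrix.add_mul,
    Matrix.mul_one, Matrix.one_mul, Matrix.mul_assoc, sel_disj hij, Matrix.mul_zero]
  abel

lemma Sh_swap {i j : X → ω} (hi : Function.Injective i) (hj : Function.Injective j)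
    (hij : ∀ b c, i b ≠ j c) {A A' N : Matrix X X ℂ} (h1 : A' * A = 1) (h2 : A * A' = 1)
    (h3 : N * A' = A) :
    Pl i A * Pl j A = Pl i (-1) * Pl j (-N) * (Sh j 1 i * Sh i (-1) j * Sh j 1 i) *
      (Sh j A i * Sh i (-A') j * Sh j A i) := by
  have hji : ∀ b c, j b ≠ i c := fun b c h => hij c b h.symm
  have e1 : ∀ W : Matrix X ω ℂ, A' * (A * W) = W := fun W => by
    rw [← Matrix.mul_assoc, h1, Matrix.one_mul]
  have e2 : ∀ W : Matrix X ω ℂ, A * (A' * W) = W := fun W => by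
    rw [← Matrix.mul_assoc, h2, Matrix.one_mul]
  have e3 : ∀ W : Matrix X ω ℂ, N * (A' * W) = A * W := fun W => by
    rw [← Matrix.mul_assoc, h3]
  set I := rm i (fun _ => (1 : ℂ)) with hI
  set J := rm j (fun _ => (1 : ℂ)) with hJ
  have f1 : Sh j A i * Sh i (-A') j * Sh j A i =
      1 - Iᵀ * I - Jᵀ * J + Jᵀ * (A * I) - Iᵀ * (A' * J) := by
    simp only [Sh, Matrix.mul_add, Matrix.add_mul, Matrix.mul_neg, Matrix.neg_mul,
      Matrix.mul_one, Matrix.one_mul, Matrix.mul_assoc, sel_self hi, sel_self hj, sel_disj hij,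
      sel_disj hji, Matrix.mul_zero, neg_zero, e1, e2, hI, hJ]
    abel
  have f2 : Sh j 1 i * Sh i (-1) j * Sh j 1 i =
      1 - Iᵀ * I - Jᵀ * J + Jᵀ * I - Iᵀ * J := by
    simp only [Sh, Matrix.mul_add, Matrix.add_mul, Matrix.mul_neg, Matrix.neg_mul,
      Matrix.mul_one, Matrix.one_mul, Matrix.mul_assoc, sel_self hi, sel_self hj, sel_disj hij,
      sel_disj hji, Matrix.mul_zero, neg_zero, hI, hJ]
    abel
  have f3 : (1 - Iᵀ * I - Jᵀ * J + Jᵀ * I - Iᵀ * J) *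
      (1 - Iᵀ * I - Jᵀ * J + Jᵀ * (A * I) - Iᵀ * (A' * J)) =
      1 - Iᵀ * I - Jᵀ * J - Iᵀ * (A * I) - Jᵀ * (A' * J) := by
    simp only [Matrix.mul_add, Matrix.add_mul, Matrix.mul_sub, Matrix.sub_mul,
      Matrix.mul_one, Matrix.one_mul, Matrix.mul_assoc, sel_self hi, sel_self hj, sel_disj hij,
      sel_disj hji, Matrix.mul_zero, neg_zero, hI, hJ]
    abel
  rw [Matrix.mul_assoc (Pl i (-1) * Pl j (-N)), f1, f2, f3]
  simp only [Pl, Matrix.mul_add, Matrix.add_mul, Matrix.mul_sub, Matrix.sub_mul, Matrix.mul_neg,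
    Matrix.neg_mul,
    Matrix.mul_one, Matrix.one_mul, Matrix.mul_assoc, sel_self hi, sel_self hj, sel_disj hij,
    sel_disj hji, Matrix.mul_zero, neg_zero, hI, hJ, e3]
  abel

lemma rd_Sh_rm {j : Y → ω} {k : Z → ω} (hj : Function.Injective j) (hk : Function.Injective k)
    (hkj : ∀ b c, k b ≠ j c) {f : Y → Z} (hf : Function.Injective f) (d : Y → ℂ) :
    Rd 1 (Sh j (rm f d) k) := by
  rw [Sh, Matrix.mul_assoc, rm_mul_rm]
  exact (IsShear.of_inj (hk.comp hf) hj (fun x y => hkj _ _) _).rd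

lemma rd_Sh_rmT {i : X → ω} {k : Z → ω} (hi : Function.Injective i) (hk : Function.Injective k)
    (hik : ∀ b c, i b ≠ k c) {f : X → Z} (hf : Function.Injective f) (d : X → ℂ) :
    Rd 1 (Sh k (rm f d)ᵀ i) := by
  have e : (rm k (fun _ => 1))ᵀ * (rm f d)ᵀ * rm i (fun _ => 1) =
      (rm (k ∘ f) (fun _ => 1))ᵀ * rm i d := by
    have e1 : rm f d = rm id d * rm f (fun _ => 1) := by rw [rm_mul_rm]; simp
    have e2 : (rm (id : X → X) d)ᵀ = rm id d := by rw [rm_id]; simp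
    have e3 : rm (k ∘ f) (fun _ => (1 : ℂ)) = rm f (fun _ => 1) * rm k (fun _ => 1) := by
      rw [rm_mul_rm]; simp
    have e4 : rm i d = rm id d * rm i (fun _ => 1) := by rw [rm_mul_rm]; simp
    rw [e1, e3, e4, transpose_mul, transpose_mul, e2]
    simp only [Matrix.mul_assoc]
  rw [Sh, e]
  exact (IsShear.of_inj hi (hk.comp hf) (fun x y => hik _ _) _).rd

lemma neg_rm {α β : Type} [DecidableEq α] (f : β → α) (d : β → ℂ) :
    -rm f d = rm f (fun b => -d b) := by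
  ext b a; simp only [rm, Matrix.neg_apply, Matrix.of_apply]; split_ifs <;> simp

lemma rd_Sh_one {i : X → ω} {j : Y → ω} {k : Z → ω} (hi : Function.Injective i)
    (hj : Function.Injective j) (hk : Function.Injective k)
    (hkj : ∀ b c, k b ≠ j c) (hij : ∀ b c, i b ≠ j c) (hik : ∀ b c, i b ≠ k c)
    {f : Y → Z} (hf : Function.Injective f) (d : Y → ℂ)
    {g : X → Z} (hg : Function.Injective g) (e : X → ℂ) {G : Matrix Z Z ℂ} {r : ℕ} (hG : Rd r G) :
    Rd (4 * r + 4) (Sh j (rm f d * G * (rm g e)ᵀ) i) := by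
  obtain ⟨G', hG', hG''⟩ := hG.inv
  have h1 : ∀ d : Y → ℂ, Rd (r + 1 + r) (Sh j (rm f d * G) k) := fun d => by
    rw [Sh_conj hk hkj _ hG']
    exact ((hG''.pl hk).mul (rd_Sh_rm hj hk hkj hf d)).mul (hG.pl hk)
  rw [Sh_comm hk hkj hij hik, ← Matrix.neg_mul, neg_rm, ← transpose_neg, neg_rm]
  exact ((((rd_Sh_rmT hi hk hik hg _).mul (h1 _)).mul (rd_Sh_rmT hi hk hik hg _)).mul
    (h1 _)).mono (by omega)

lemma rd_Sh_conv {i : X → ω} {j : Y → ω} {k : Z → ω} (hi : Function.Injective i)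
    (hj : Function.Injective j) (hk : Function.Injective k)
    (hkj : ∀ b c, k b ≠ j c) (hij : ∀ b c, i b ≠ j c) (hik : ∀ b c, i b ≠ k c)
    {f : Y → Z} (hf : Function.Injective f) (d : Y → ℂ)
    {g : X → Z} (hg : Function.Injective g) (e : X → ℂ) {F : Matrix Z Z ℂ} {r : ℕ} (hF : Rd r F)
    (Λ : Z → ℂ) :
    Rd (16 * r + 8) (Sh j (rm f d * (F * diagonal Λ * F) * (rm g e)ᵀ) i) := by
  classical
  let Λ2 : Z → ℂ := fun z => if Λ z = 1 then 2 else 1
  have h2 : ∀ z, Λ2 z ≠ 0 := fun z => by simp only [Λ2]; split_ifs <;> simp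
  have h1 : ∀ z, Λ z - Λ2 z ≠ 0 := fun z => by
    simp only [Λ2]
    split_ifs with h
    · rw [h]; norm_num
    · exact sub_ne_zero.2 h
  have e1 : diagonal Λ = diagonal (fun z => Λ z - Λ2 z) + diagonal Λ2 := by
    rw [diagonal_add]; simp
  rw [e1, Matrix.mul_add, Matrix.add_mul, Matrix.mul_add, Matrix.add_mul, Sh_add hij]
  exact ((rd_Sh_one hi hj hk hkj hij hik hf d hg e
    ((hF.mul (IsMon.diag _ h1).rd).mul hF)).mul (rd_Sh_one hi hj hk hkj hij hik hf d hg e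
    ((hF.mul (IsMon.diag _ h2).rd).mul hF))).mono (by omega)

end

lemma rd_pair (q : ℕ) [NeZero q] (a : ℕ) (ha : 2 * q ≤ 2 ^ a) {ω : Type} [Fintype ω]
    [DecidableEq ω] {i j : ZMod q → ω} {k : ZMod (2 ^ a) → ω} (hi : Function.Injective i)
    (hj : Function.Injective j) (hk : Function.Injective k)
    (hkj : ∀ b c, k b ≠ j c) (hij : ∀ b c, i b ≠ j c) (hik : ∀ b c, i b ≠ k c) :
    Rd (96 * a + 27) (Pl i (zdft q) * Pl j (zdft q)) := by
  have hji : ∀ b c, j b ≠ i c := fun b c h => hij c b h.symm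
  have hjk : ∀ b c, j b ≠ k c := fun b c h => hkj c b h.symm
  have hki : ∀ b c, k b ≠ i c := fun b c h => hik c b h.symm
  obtain ⟨η, hη, hη2⟩ := zt_sq q
  obtain ⟨ι, ι', D, Λ, hι, hι', hB⟩ := bluestein (zdft_char (2 ^ a)) (ZMod.val : ZMod q → ℕ)
    (ZMod.val_injective q) q (ZMod.val_lt) 1 (fun d hd h => by
      rw [zsmul_eq_mul, mul_one, ZMod.intCast_zmod_eq_zero_iff_dvd] at h
      refine Int.eq_zero_of_abs_lt_dvd h (lt_of_lt_of_le hd ?_)
      exact_mod_cast ha) η hη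
  rw [hη2] at hB
  change zdft q = _ at hB
  have hq : (Fintype.card (ZMod q) : ℂ) ≠ 0 := by exact_mod_cast Fintype.card_ne_zero
  have hsq := (zdft_char q).sq
  set c : ℂ := (Fintype.card (ZMod q) : ℂ) with hc
  have hNN : rm (fun u : ZMod q => -u) (fun _ => c⁻¹) * rm (fun u : ZMod q => -u) (fun _ => c)
      = 1 := by
    rw [rm_mul_rm, ← rm_id_one]
    congr 1
    · funext u; simp
    · funext u; exact inv_mul_cancel₀ hq
  have h1 : (rm (fun u : ZMod q => -u) (fun _ => c⁻¹) * zdft q) * zdft q = 1 := by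
    rw [Matrix.mul_assoc, hsq, hNN]
  have h2 : zdft q * (rm (fun u : ZMod q => -u) (fun _ => c⁻¹) * zdft q) = 1 :=
    mul_eq_one_comm.1 h1
  have h3 : rm (fun u : ZMod q => -u) (fun _ => c) *
      (rm (fun u : ZMod q => -u) (fun _ => c⁻¹) * zdft q) = zdft q := by
    rw [← Matrix.mul_assoc, mul_eq_one_comm.1 hNN, Matrix.one_mul]
  rw [Sh_swap hi hj hij h1 h2 h3]
  have m1 : IsMon (-1 : Matrix (ZMod q) (ZMod q) ℂ) := by
    rw [← rm_id_one, neg_rm]
    exact ⟨_, _, Function.injective_id, by simp, rfl⟩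
  have m2 : IsMon (-rm (fun u : ZMod q => -u) (fun _ => c)) := by
    rw [neg_rm]
    exact ⟨_, _, neg_injective, by simpa using hq, rfl⟩
  have s1 : Rd 1 (Sh j 1 i) := by
    rw [← rm_id_one]; exact rd_Sh_rm hj hi hij Function.injective_id _
  have s2 : Rd 1 (Sh i (-1) j) := by
    rw [← rm_id_one, neg_rm]; exact rd_Sh_rm hi hj hji Function.injective_id _
  have s3 : Rd (16 * (2 * a) + 8) (Sh j (zdft q) i) := by
    rw [hB]; exact rd_Sh_conv hi hj hk hkj hij hik hι D hι' D (rd_zfft a) Λ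
  have s4 : Rd (16 * (2 * a) + 8)
      (Sh i (-(rm (fun u : ZMod q => -u) (fun _ => c⁻¹) * zdft q)) j) := by
    rw [← Matrix.neg_mul, neg_rm, hB, ← Matrix.mul_assoc, ← Matrix.mul_assoc, rm_mul_rm]
    exact rd_Sh_conv hj hi hk hki hji hjk (hι.comp neg_injective) _ hι' D (rd_zfft a) Λ
  exact ((((m1.rd.pl hi).mul (m2.rd.pl hj)).mul ((s1.mul s2).mul s1)).mul
    ((s3.mul s4).mul s3)).mono (by omega)

lemma Pl_fiber {δ X : Type} [Fintype δ] [DecidableEq δ] [Fintype X] [DecidableEq X] (f : δ)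
    (A : Matrix X X ℂ) : Pl (fun x => (f, x)) A = BD (fun g => if g = f then A else 1) := by
  have hi : Function.Injective (fun x : X => (f, x)) := fun x y h => (Prod.ext_iff.1 h).2
  ext ⟨g, x⟩ ⟨g', y⟩
  by_cases h1 : g = f
  · by_cases h2 : g' = f
    · subst h1 h2
      rw [Pl_apply hi]; simp [BD]
    · subst h1
      rw [Pl_apply_right _ _ (by rintro ⟨b, hb⟩; exact h2 (Prod.ext_iff.1 hb).1.symm)]
      simp [BD, Ne.symm h2]
  · rw [Pl_apply_left _ (by rintro ⟨b, hb⟩; exact h1 (Prod.ext_iff.1 hb).1.symm)]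
    by_cases h3 : g = g' <;> simp [BD, h1, h3, Matrix.one_apply]
    subst h3; simp [h1, Matrix.one_apply]

lemma rd_six (q : ℕ) [NeZero q] (B : ℕ) (hB : q ≤ 2 ^ B) :
    Rd (288 * B + 369) (BD (fun _ : Fin 6 => zdft q)) := by
  have hq : 0 < q := Nat.pos_of_ne_zero (NeZero.ne q)
  obtain ⟨a, ha1, ha2, ha3⟩ : ∃ a, 2 * q ≤ 2 ^ a ∧ 2 ^ a ≤ 4 * q ∧ a ≤ B + 1 := by
    refine ⟨Nat.clog 2 (2 * q), Nat.le_pow_clog (by norm_num) _, ?_, ?_⟩
    · have h1 := Nat.pow_pred_clog_lt_self (b := 2) (by norm_num) (x := 2 * q) (by omega)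
      have h2 : 0 < Nat.clog 2 (2 * q) := Nat.clog_pos (by norm_num) (by omega)
      obtain ⟨c, hc⟩ := Nat.exists_eq_succ_of_ne_zero h2.ne'
      rw [hc] at h1 ⊢
      simp only [Nat.pred_succ, Nat.succ_eq_add_one, pow_succ] at h1 ⊢
      omega
    · rw [Nat.clog_le_iff_le_pow (by norm_num), pow_succ]; omega
  obtain ⟨k0⟩ : Nonempty (ZMod (2 ^ a) ↪ Fin 4 × ZMod q) :=
    Function.Embedding.nonempty_of_card_le (by simpa using ha2)
  have key : ∀ (f f' : Fin 6) (g : Fin 4 → Fin 6), f ≠ f' → Function.Injective g →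
      (∀ t, g t ≠ f) → (∀ t, g t ≠ f') →
      Rd (96 * a + 27) (Pl (fun x => (f, x)) (zdft q) * Pl (fun x => (f', x)) (zdft q)) := by
    intro f f' g h1 h2 h3 h4
    refine rd_pair q a ha1 (k := fun z => (g (k0 z).1, (k0 z).2))
      (fun x y h => (Prod.ext_iff.1 h).2) (fun x y h => (Prod.ext_iff.1 h).2) ?_ ?_ ?_ ?_
    · intro x y h
      exact k0.injective (Prod.ext (h2 (Prod.ext_iff.1 h).1) (Prod.ext_iff.1 h).2)
    · intro x y h; exact h4 _ (Prod.ext_iff.1 h).1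
    · intro x y h; exact h1 (Prod.ext_iff.1 h).1
    · intro x y h; exact h3 _ (Prod.ext_iff.1 h).1.symm
  have := ((key 0 1 ![2, 3, 4, 5] (by decide) (by decide) (by decide) (by decide)).mul
    (key 2 3 ![0, 1, 4, 5] (by decide) (by decide) (by decide) (by decide))).mul
    (key 4 5 ![0, 1, 2, 3] (by decide) (by decide) (by decide) (by decide))
  simp only [Pl_fiber, BD_mul] at this
  refine Rd.mono (r := 96 * a + 27 + (96 * a + 27) + (96 * a + 27)) ?_ (by omega)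
  convert this using 2
  funext g
  fin_cases g <;> simp

end Crest.Agent.H9.FC
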