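import Crest.Agent.H9.LCFrame

/-!
A calculus of tokens: a token is a frame together with a formal combination of the inputs.
-/

set_option autoImplicit false
set_option linter.unusedSectionVars false
set_option linter.unusedSimpArgs false

namespace Crest.Agent.H9.FC

open Finset Matrix

variable {M : Type} [Fintype M] [DecidableEq M] {α : Type} [Fintype α] [DecidableEq α]

/-- a frame and a formal combination of input wires -/
abbrev Tok (M α : Type) := Matrix M M (ZMod 2) × (α → ℂ)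

/-- the physical content of a token -/
noncomputable def phys (J : Type) [Fintype J] [DecidableEq J] (φ0 : α → Matrix M M (ZMod 2))
    (t : Tok M α) (v : α × (J → M → ZMod 2) → ℂ) : (J → M → ZMod 2) → ℂ :=
  ∑ a, t.2 a • (FR J (ph t.1 - ph (φ0 a)) *ᵥ fun d => v (a, d))

/-- all tokens of `S` can be produced with `r` steps -/
def Net (φ0 : α → Matrix M M (ZMod 2)) (S : Set (Tok M α)) (r : ℝ) : Prop :=
  ∃ g : ℝ, ∀ (J : Type) [Fintype J] [DecidableEq J] (s : ℝ), Tc J s →
    LCf (fun v (p : S × (J → M → ZMod 2)) => phys J φ0 p.1 v p.2)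
      ((r * s + g) * Fintype.card (J → M → ZMod 2))

lemma Net.init (φ0 : α → Matrix M M (ZMod 2)) :
    Net φ0 (Set.range fun a => (φ0 a, Pi.single a 1)) 0 := by
  refine ⟨0, fun J _ _ s _ => ?_⟩
  refine (LCf.sel _ (fun p => Or.inl ?_)).mono (by simp)
  obtain ⟨⟨t, a, rfl⟩, d⟩ := p
  refine ⟨(a, d), fun v => ?_⟩
  simp only [phys]
  rw [Finset.sum_eq_single a]
  · simp [FR_zero]
  · intro b _ hb; simp [hb]
  · simp

lemma Net.mono {φ0 : α → Matrix M M (ZMod 2)} {S : Set (Tok M α)} {r r' : ℝ} (h : Net φ0 S r)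
    (hr : r ≤ r') : Net φ0 S r' := by
  obtain ⟨g, hg⟩ := h
  refine ⟨g, fun J _ _ s hs => (hg J s hs).mono ?_⟩
  have := hs.nonneg
  gcongr

/-- the token `t` is a combination of tokens of `S` in one frame, moved by `k` steps -/
def Der (S : Set (Tok M α)) (t : Tok M α) (k : ℕ) : Prop :=
  ∃ ψ, t.2 ∈ Submodule.span ℂ {l | (ψ, l) ∈ S} ∧ Dec (t.1 - ψ) k

lemma Net.step {φ0 : α → Matrix M M (ZMod 2)} {S : Set (Tok M α)} {r : ℝ} (h : Net φ0 S r)
    {β : Type} [Fintype β] (t : β → Tok M α) (k : β → ℕ) (hd : ∀ b, Der S (t b) (k b)) :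
    Net φ0 (S ∪ Set.range t) (r + ∑ b, (k b : ℝ)) := by
  classical
  obtain ⟨g, hg⟩ := h
  choose ψ hψ hdec using hd
  have h1 := fun b => Submodule.mem_span_set'.1 (hψ b)
  choose n f l hl using h1
  refine ⟨g + ∑ b, 2 * (n b : ℝ), fun J _ _ s hs => ?_⟩
  have h2 : ∀ b, LCf (fun (w : S × (J → M → ZMod 2) → ℂ) =>
      FR J (ph (t b).1 - ph (ψ b)) *ᵥ
        (fun d => ∑ i, f b i * w (⟨(ψ b, (l b i).1), (l b i).2⟩, d)))
      ((2 * n b + k b * s) * Fintype.card (J → M → ZMod 2)) := by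
    intro b
    have h3 := LCf.each (fun (w : S × (J → M → ZMod 2) → ℂ) (d : J → M → ZMod 2) =>
      ∑ i, f b i * w (⟨(ψ b, (l b i).1), (l b i).2⟩, d)) (fun _ => 2 * (n b : ℝ))
      (fun d => by
        have := LCf.lincomb (α := S × (J → M → ZMod 2)) Finset.univ (f b)
          (fun i => (⟨(ψ b, (l b i).1), (l b i).2⟩, d))
        simpa using this)
    have h4 := h3.comp (LC_move hs (hdec b))
    refine h4.mono (le_of_eq ?_)
    simp only [Finset.sum_const, Finset.card_univ, nsmul_eq_mul]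
    ring
  have h5 := (LCf.sel (fun (w : S × (J → M → ZMod 2) → ℂ) => w)
    (fun p => Or.inl ⟨p, fun _ => rfl⟩)).sum (LCf.prod _ _ h2)
  have h6 := (hg J s hs).comp h5
  have h7 : ∀ p : (S ∪ Set.range t : Set (Tok M α)) × (J → M → ZMod 2),
      ∃ q : (S × (J → M → ZMod 2)) ⊕ (β × (J → M → ZMod 2)), ∀ v,
        phys J φ0 p.1 v p.2 = Sum.elim (fun p : S × (J → M → ZMod 2) => phys J φ0 p.1 v p.2)
          (fun p : β × (J → M → ZMod 2) => (FR J (ph (t p.1).1 - ph (ψ p.1)) *ᵥ
            (fun d => ∑ i, f p.1 i * phys J φ0 (ψ p.1, (l p.1 i).1) v d)) p.2) q := by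
    rintro ⟨⟨x, hx | ⟨b, rfl⟩⟩, d⟩
    · exact ⟨Sum.inl (⟨x, hx⟩, d), fun v => rfl⟩
    · refine ⟨Sum.inr (b, d), fun v => ?_⟩
      simp only [Sum.elim_inr]
      have e1 : (fun d => ∑ i, f b i * phys J φ0 (ψ b, (l b i).1) v d) =
          phys J φ0 (ψ b, (t b).2) v := by
        funext d
        simp only [phys, ← hl b, Finset.sum_apply, Pi.smul_apply, smul_eq_mul, Finset.mul_sum,
          Finset.sum_mul]
        rw [Finset.sum_comm]
        refine Finset.sum_congr rfl (fun a _ => Finset.sum_congr rfl (fun i _ => by ring))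
      rw [e1]
      simp only [phys, Matrix.mulVec_sum, Matrix.mulVec_smul, Matrix.mulVec_mulVec, FR_mul,
        sub_add_sub_cancel]
  choose q hq using h7
  have h8 := h6.comp (LCf.sel (fun w p => w (q p)) (fun p => Or.inl ⟨q p, fun _ => rfl⟩))
  refine (h8.congr (fun v p => (hq p v).symm)).mono (le_of_eq ?_)
  simp only [← Finset.sum_mul, Finset.sum_add_distrib]
  ring

/-- the batch of full transforms -/
lemma Net.final {φ0 : α → Matrix M M (ZMod 2)} {S : Set (Tok M α)} {r : ℝ} (h : Net φ0 S r)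
    (hS : ∀ a, ∃ c : ℂ, c ≠ 0 ∧ (φ0 a + 1, Pi.single a c) ∈ S) :
    ∃ g : ℝ, ∀ (J : Type) [Fintype J] [DecidableEq J] (s : ℝ), Tc J s →
      LC (Matrix.of fun (p q : α × (J × M → ZMod 2)) =>
        if p.1 = q.1 then GG (J × M) p.2 q.2 else 0)
        ((r * s + g) * 2 ^ (Fintype.card J * Fintype.card M)) := by
  classical
  obtain ⟨g, hg⟩ := h
  choose c hc hcS using hS
  refine ⟨g + Fintype.card α, fun J _ _ s hs => ?_⟩
  have hD : (Fintype.card (J → M → ZMod 2) : ℝ) = 2 ^ (Fintype.card J * Fintype.card M) := by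
    simp [← pow_mul, mul_comm]
  have h2 : ∀ a, LCf (fun (w : S × (J → M → ZMod 2) → ℂ) =>
      FR J (fun ξ => dbl (ξ ⬝ᵥ fun μ => φ0 a μ μ * (1 : Matrix M M (ZMod 2)) μ μ)) *ᵥ
        (fun d => (c a)⁻¹ * w (⟨_, hcS a⟩, d))) (Fintype.card (J → M → ZMod 2)) := by
    intro a
    have h3 := LCf.each (fun (w : S × (J → M → ZMod 2) → ℂ) (d : J → M → ZMod 2) =>
      (c a)⁻¹ * w (⟨_, hcS a⟩, d)) (fun _ => 1) (fun d => LCf.smul_one _ _)
    have h4 := h3.comp (LC_FR_dbl (J := J) (fun μ => φ0 a μ μ * (1 : Matrix M M (ZMod 2)) μ μ))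
    exact h4.mono (by simp)
  have h6 := (hg J s hs).comp (LCf.prod _ _ h2)
  have h7 : LC (Matrix.of fun (p q : α × (J → M → ZMod 2)) =>
        if p.1 = q.1 then FR J (ph 1) p.2 q.2 else 0)
        ((r * s + (g + Fintype.card α)) * 2 ^ (Fintype.card J * Fintype.card M)) := by
    refine (h6.congr (fun v p => ?_)).mono (le_of_eq ?_)
    · obtain ⟨a, d⟩ := p
      have e1 : (fun d => (c a)⁻¹ * phys J φ0 (φ0 a + 1, Pi.single a (c a)) v d) =
          FR J (ph (φ0 a + 1) - ph (φ0 a)) *ᵥ fun d => v (a, d) := by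
        funext d
        simp only [phys]
        rw [Finset.sum_eq_single a]
        · simp [hc a]
        · intro b _ hb; simp [hb]
        · simp
      simp only [e1, Matrix.mulVec_mulVec, FR_mul]
      have e2 : ((fun ξ => dbl (ξ ⬝ᵥ fun μ => φ0 a μ μ * (1 : Matrix M M (ZMod 2)) μ μ)) +
          (ph (φ0 a + 1) - ph (φ0 a))) = ph 1 := by
        funext ξ
        simp only [Pi.add_apply, Pi.sub_apply, ph_add]
        have := dbl_add_self (ξ ⬝ᵥ fun μ => φ0 a μ μ * (1 : Matrix M M (ZMod 2)) μ μ)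
        linear_combination this
      rw [e2]
      simp [Matrix.mulVec, dotProduct, Fintype.sum_prod_type]
    · simp only [Finset.sum_const, Finset.card_univ, nsmul_eq_mul, hD]
      ring
  have h8 := h7.submatrix (fun p : α × (J × M → ZMod 2) => (p.1, Function.curry p.2))
    (fun p : α × (J × M → ZMod 2) => (p.1, Function.curry p.2))
    (fun x y hxy => by
      simp only [Prod.mk.injEq] at hxy
      exact Prod.ext hxy.1 (Function.curry_injective hxy.2))
  convert h8 using 1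
  ext p q
  simp only [Matrix.of_apply, Matrix.submatrix_apply, FR, fr_ph_one, GG, TP,
    Fintype.prod_prod_type, Function.curry]

end Crest.Agent.H9.FC
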