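import Crest.Agent.H9.LCRec

/-!
In-place factorizations into rounds of shears and monomial matrices.
-/

set_option autoImplicit false
set_option linter.unusedSectionVars false
set_option linter.unusedSimpArgs false

namespace Crest.Agent.H9.FC

open Finset Matrix

/-- matrix with at most one nonzero entry in each row -/
def rm {α β : Type} [DecidableEq α] (f : β → α) (d : β → ℂ) : Matrix β α ℂ :=
  Matrix.of fun b a => if a = f b then d b else 0

section rm
variable {α β γ : Type} [Fintype α] [Fintype β] [Fintype γ] [DecidableEq α] [DecidableEq β]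
  [DecidableEq γ]

lemma rm_apply (f : β → α) (d : β → ℂ) (b : β) (a : α) :
    rm f d b a = if a = f b then d b else 0 := rfl

lemma rm_mul_apply {δ : Type} (f : β → α) (d : β → ℂ) (A : Matrix α δ ℂ) (b : β) (c : δ) :
    (rm f d * A) b c = d b * A (f b) c := by
  simp [rm, Matrix.mul_apply]

lemma mul_rmT_apply {δ : Type} (f : β → α) (d : β → ℂ) (A : Matrix δ α ℂ) (c : δ) (b : β) :
    (A * (rm f d)ᵀ) c b = A c (f b) * d b := by
  simp [rm, Matrix.mul_apply]

lemma rm_mul_rm (f : γ → β) (d : γ → ℂ) (g : β → α) (e : β → ℂ) :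
    rm f d * rm g e = rm (g ∘ f) (fun c => d c * e (f c)) := by
  ext c a
  rw [rm_mul_apply]; simp [rm]

lemma rm_id (d : α → ℂ) : rm id d = diagonal d := by
  ext a b; simp [rm, diagonal, eq_comm]

lemma rm_id_one : rm (id : α → α) (fun _ => 1) = 1 := by rw [rm_id]; simp

lemma rmT_mul_apply {δ : Type} {k : β → α} (hk : Function.Injective k) (A : Matrix β δ ℂ) (b : β)
    (c : δ) : ((rm k (fun _ => 1))ᵀ * A) (k b) c = A b c := by
  simp [rm, Matrix.mul_apply, hk.eq_iff]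

lemma rmT_mul_apply' {δ : Type} {k : β → α} (A : Matrix β δ ℂ) {a : α} (ha : ¬ ∃ b, k b = a)
    (c : δ) : ((rm k (fun _ => 1))ᵀ * A) a c = 0 := by
  have : ∀ b, a ≠ k b := fun b h => ha ⟨b, h.symm⟩
  simp [rm, Matrix.mul_apply, this]

lemma rmT_mul_rm {k : β → α} (hk : Function.Injective k) (f : β → γ) (s : β → ℂ) (junk : α → γ) :
    (rm k (fun _ => 1))ᵀ * rm f s = rm (Function.extend k f junk) (Function.extend k s 0) := by
  ext a c
  by_cases ha : ∃ b, k b = a
  · obtain ⟨b, rfl⟩ := ha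
    rw [rmT_mul_apply hk]; simp [rm, hk.extend_apply]
  · rw [rmT_mul_apply' _ ha]; simp [rm, Function.extend_apply' _ _ _ ha]

lemma rm_mul_rmT {k : β → α} (hk : Function.Injective k) :
    rm k (fun _ => 1) * (rm k (fun _ => 1))ᵀ = 1 := by
  ext a b
  rw [rm_mul_apply]; simp [rm, hk.eq_iff, Matrix.one_apply]

lemma rm_mul_rmT' {k : β → α} {j : γ → α} (h : ∀ b c, k b ≠ j c) :
    rm k (fun _ => 1) * (rm j (fun _ => 1))ᵀ = 0 := by
  ext a b
  rw [rm_mul_apply]; simp [rm, h]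

lemma LC_rm (f : β → α) (d : β → ℂ) : LC (rm f d) (Fintype.card β) := LC.rowmon f d

/-- invertible monomial matrices -/
def IsMon (A : Matrix α α ℂ) : Prop :=
  ∃ (f : α → α) (d : α → ℂ), Function.Injective f ∧ (∀ a, d a ≠ 0) ∧ A = rm f d

/-- one round of disjoint shears -/
def IsShear (S : Matrix α α ℂ) : Prop :=
  ∃ (f : α → α) (s : α → ℂ), (∀ b, s b ≠ 0 → s (f b) = 0) ∧
    (∀ b b', s b ≠ 0 → s b' ≠ 0 → f b = f b' → b = b') ∧ S = 1 + rm f s

lemma IsMon.one : IsMon (1 : Matrix α α ℂ) :=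
  ⟨id, fun _ => 1, Function.injective_id, by simp, rm_id_one.symm⟩

lemma IsMon.diag (d : α → ℂ) (hd : ∀ a, d a ≠ 0) : IsMon (diagonal d) :=
  ⟨id, d, Function.injective_id, hd, (rm_id d).symm⟩

lemma IsMon.mul {A B : Matrix α α ℂ} (hA : IsMon A) (hB : IsMon B) : IsMon (A * B) := by
  obtain ⟨f, d, hf, hd, rfl⟩ := hA
  obtain ⟨g, e, hg, he, rfl⟩ := hB
  exact ⟨g ∘ f, _, hg.comp hf, fun a => mul_ne_zero (hd a) (he _), rm_mul_rm _ _ _ _⟩

lemma IsMon.inv {A : Matrix α α ℂ} (hA : IsMon A) : ∃ A', A' * A = 1 ∧ IsMon A' := by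
  obtain ⟨f, d, hf, hd, rfl⟩ := hA
  let e := Equiv.ofBijective f (Finite.injective_iff_bijective.1 hf)
  refine ⟨rm e.symm (fun a => (d (e.symm a))⁻¹), ?_, e.symm, _, e.symm.injective,
    fun a => inv_ne_zero (hd _), rfl⟩
  rw [rm_mul_rm, ← rm_id_one]
  congr 1
  · funext a; exact e.apply_symm_apply a
  · funext a; exact inv_mul_cancel₀ (hd _)

lemma IsShear.one : IsShear (1 : Matrix α α ℂ) :=
  ⟨id, 0, by simp, by simp, by ext a b; simp [rm]⟩

lemma IsShear.inv {S : Matrix α α ℂ} (hS : IsShear S) : ∃ S', S' * S = 1 ∧ IsShear S' := by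
  obtain ⟨f, s, h1, h2, rfl⟩ := hS
  refine ⟨1 + rm f (fun a => -s a), ?_, f, _, by simpa using h1, by simpa using h2, rfl⟩
  have e1 : rm f (fun a => -s a) * rm f s = 0 := by
    rw [rm_mul_rm]
    ext a b
    by_cases h : s a = 0
    · simp [rm, h]
    · simp [rm, h1 a h]
  have e2 : rm f s + rm f (fun a => -s a) = 0 := by
    ext a b; simp only [rm, Matrix.add_apply, Matrix.of_apply, Matrix.zero_apply]
    split_ifs <;> simp
  simp only [Matrix.add_mul, Matrix.mul_add, Matrix.one_mul, Matrix.mul_one, e1, add_zero]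
  rw [add_assoc, add_comm (rm f fun a => -s a), e2, add_zero]

lemma IsShear.of_inj {i j : β → α} (hi : Function.Injective i) (hj : Function.Injective j)
    (hij : ∀ x y, i x ≠ j y) (s : β → ℂ) : IsShear (1 + (rm j (fun _ => 1))ᵀ * rm i s) := by
  have key : ∀ a, Function.extend j s 0 a ≠ 0 → ∃ b, j b = a := by
    intro a ha
    by_contra hc
    exact ha (by rw [Function.extend_apply' _ _ _ hc]; rfl)
  refine ⟨Function.extend j i id, Function.extend j s 0, ?_, ?_, by rw [rmT_mul_rm hj]⟩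
  · intro a ha
    obtain ⟨b, rfl⟩ := key a ha
    rw [hj.extend_apply, Function.extend_apply' _ _ _ (by
      rintro ⟨c, hc⟩; exact hij _ _ hc.symm)]; rfl
  · intro a a' ha ha' h
    obtain ⟨b, rfl⟩ := key a ha
    obtain ⟨b', rfl⟩ := key a' ha'
    rw [hj.extend_apply, hj.extend_apply] at h
    rw [hi h]

/-- a product of `r` rounds -/
def Rd : ℕ → Matrix α α ℂ → Prop
  | 0, A => IsMon A
  | r + 1, A => ∃ M S B, IsMon M ∧ IsShear S ∧ Rd r B ∧ A = M * S * B

lemma Rd.mon_mul {r : ℕ} {M A : Matrix α α ℂ} (hM : IsMon M) (hA : Rd r A) : Rd r (M * A) := by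
  cases r with
  | zero => exact hM.mul hA
  | succ r =>
    obtain ⟨M', S, B, h1, h2, h3, rfl⟩ := hA
    exact ⟨M * M', S, B, hM.mul h1, h2, h3, by simp only [Matrix.mul_assoc]⟩

lemma Rd.mul {r r' : ℕ} {A B : Matrix α α ℂ} (hA : Rd r A) (hB : Rd r' B) :
    Rd (r + r') (A * B) := by
  induction r generalizing A with
  | zero => rw [zero_add]; exact Rd.mon_mul hA hB
  | succ r ih =>
    obtain ⟨M, S, C, h1, h2, h3, rfl⟩ := hA
    rw [Nat.add_right_comm]
    exact ⟨M, S, C * B, h1, h2, ih h3, by simp only [Matrix.mul_assoc]⟩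

lemma IsShear.rd {S : Matrix α α ℂ} (hS : IsShear S) : Rd 1 S :=
  ⟨1, S, 1, IsMon.one, hS, IsMon.one, by simp⟩

lemma IsMon.rd {S : Matrix α α ℂ} (hS : IsMon S) : Rd 0 S := hS

lemma Rd.mono {r r' : ℕ} {A : Matrix α α ℂ} (hA : Rd r A) (h : r ≤ r') : Rd r' A := by
  induction h with
  | refl => exact hA
  | step _ ih => exact ⟨1, 1, A, IsMon.one, IsShear.one, ih, by simp⟩

lemma Rd.inv {r : ℕ} {A : Matrix α α ℂ} (hA : Rd r A) : ∃ A', A' * A = 1 ∧ Rd r A' := by
  induction r generalizing A with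
  | zero => exact IsMon.inv hA
  | succ r ih =>
    obtain ⟨M, S, B, h1, h2, h3, rfl⟩ := hA
    obtain ⟨M', e1, h1'⟩ := h1.inv
    obtain ⟨S', e2, h2'⟩ := h2.inv
    obtain ⟨B', e3, h3'⟩ := ih h3
    refine ⟨B' * S' * M', ?_, (h3'.mul h2'.rd).mul h1'.rd⟩
    calc B' * S' * M' * (M * S * B) = B' * (S' * (M' * M) * S) * B := by
          simp only [Matrix.mul_assoc]
      _ = 1 := by rw [e1, Matrix.mul_one, e2, Matrix.mul_one, e3]

lemma Rd.map (Φ : Matrix α α ℂ → Matrix β β ℂ) (hmul : ∀ A B, Φ (A * B) = Φ A * Φ B)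
    (hM : ∀ A, IsMon A → IsMon (Φ A)) (hS : ∀ A, IsShear A → IsShear (Φ A)) {r : ℕ}
    {A : Matrix α α ℂ} (hA : Rd r A) : Rd r (Φ A) := by
  induction r generalizing A with
  | zero => exact hM A hA
  | succ r ih =>
    obtain ⟨M, S, B, h1, h2, h3, rfl⟩ := hA
    exact ⟨Φ M, Φ S, Φ B, hM _ h1, hS _ h2, ih h3, by rw [hmul, hmul]⟩

/-- `G` acting in place on the coordinates in the range of `k` -/
noncomputable def Pl (k : β → α) (G : Matrix β β ℂ) : Matrix α α ℂ :=
  1 + (rm k (fun _ => 1))ᵀ * (G - 1) * rm k (fun _ => 1)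

lemma Pl_mul {k : β → α} (hk : Function.Injective k) (G G' : Matrix β β ℂ) :
    Pl k (G * G') = Pl k G * Pl k G' := by
  have h : ∀ X : Matrix β α ℂ, rm k (fun _ => 1) * ((rm k (fun _ => 1))ᵀ * X) = X := fun X => by
    rw [← Matrix.mul_assoc, rm_mul_rmT hk, Matrix.one_mul]
  simp only [Pl, Matrix.mul_add, Matrix.add_mul, Matrix.mul_sub, Matrix.sub_mul, Matrix.mul_one,
    Matrix.one_mul, Matrix.mul_assoc, h]
  abel

lemma Pl_apply {k : β → α} (hk : Function.Injective k) (G : Matrix β β ℂ) (b b' : β) :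
    Pl k G (k b) (k b') = G b b' := by
  rw [Pl, Matrix.add_apply, Matrix.mul_assoc, rmT_mul_apply hk]
  simp [rm, Matrix.mul_apply, hk.eq_iff, Matrix.one_apply]

lemma Pl_apply_left {k : β → α} (G : Matrix β β ℂ) {a : α} (ha : ¬ ∃ b, k b = a) (a' : α) :
    Pl k G a a' = if a = a' then 1 else 0 := by
  rw [Pl, Matrix.add_apply, Matrix.mul_assoc, rmT_mul_apply' _ ha]
  simp [Matrix.one_apply]

lemma Pl_apply_right {k : β → α} (G : Matrix β β ℂ) (a : α) {a' : α} (ha : ¬ ∃ b, k b = a') :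
    Pl k G a a' = if a = a' then 1 else 0 := by
  have : ∀ b, a' ≠ k b := fun b h => ha ⟨b, h.symm⟩
  rw [Pl, Matrix.add_apply]
  simp [rm, Matrix.mul_apply, this, Matrix.one_apply]

lemma Rd.pl {k : β → α} (hk : Function.Injective k) {r : ℕ} {G : Matrix β β ℂ} (h : Rd r G) :
    Rd r (Pl k G) := by
  refine Rd.map (Pl k) (Pl_mul hk) ?_ ?_ h
  · rintro A ⟨f, d, hf, hd, rfl⟩
    refine ⟨Function.extend k (k ∘ f) id, Function.extend k d 1, ?_, ?_, ?_⟩
    · intro a a' h
      by_cases ha : ∃ b, k b = a <;> by_cases ha' : ∃ b, k b = a'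
      · obtain ⟨b, rfl⟩ := ha
        obtain ⟨b', rfl⟩ := ha'
        rw [hk.extend_apply, hk.extend_apply] at h
        rw [hf (hk h)]
      · obtain ⟨b, rfl⟩ := ha
        rw [hk.extend_apply, Function.extend_apply' _ _ _ ha'] at h
        exact absurd ⟨_, h⟩ ha'
      · obtain ⟨b, rfl⟩ := ha'
        rw [hk.extend_apply, Function.extend_apply' _ _ _ ha] at h
        exact absurd ⟨_, h.symm⟩ ha
      · rwa [Function.extend_apply' _ _ _ ha, Function.extend_apply' _ _ _ ha'] at h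
    · intro a
      by_cases ha : ∃ b, k b = a
      · obtain ⟨b, rfl⟩ := ha
        rw [hk.extend_apply]; exact hd b
      · rw [Function.extend_apply' _ _ _ ha]; simp
    · ext a a'
      by_cases ha : ∃ b, k b = a
      · obtain ⟨b, rfl⟩ := ha
        by_cases ha' : ∃ b, k b = a'
        · obtain ⟨b', rfl⟩ := ha'
          rw [Pl_apply hk]; simp [rm, hk.extend_apply, hk.eq_iff]
        · rw [Pl_apply_right _ _ ha', rm_apply, hk.extend_apply, if_neg, if_neg]
          · rintro rfl; exact ha' ⟨_, rfl⟩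
          · rintro rfl; exact ha' ⟨_, rfl⟩
      · rw [Pl_apply_left _ ha, rm_apply, Function.extend_apply' _ _ _ ha,
          Function.extend_apply' _ _ _ ha]
        simp [eq_comm]
  · rintro A ⟨f, s, h1, h2, rfl⟩
    have key : ∀ a, Function.extend k s 0 a ≠ 0 → ∃ b, k b = a := by
      intro a ha
      by_contra hc
      exact ha (by rw [Function.extend_apply' _ _ _ hc]; rfl)
    refine ⟨Function.extend k (k ∘ f) id, Function.extend k s 0, ?_, ?_, ?_⟩
    · intro a ha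
      obtain ⟨b, rfl⟩ := key a ha
      rw [hk.extend_apply] at ha
      rw [hk.extend_apply, Function.comp, hk.extend_apply]; exact h1 b ha
    · intro a a' ha ha' h
      obtain ⟨b, rfl⟩ := key a ha
      obtain ⟨b', rfl⟩ := key a' ha'
      rw [hk.extend_apply] at ha ha' h
      rw [hk.extend_apply] at h
      rw [h2 b b' ha ha' (hk h)]
    · rw [Pl, add_sub_cancel_left, Matrix.mul_assoc, rm_mul_rm, ← rmT_mul_rm hk]
      simp

lemma Rd.reindex (e : β ≃ α) {r : ℕ} {A : Matrix α α ℂ} (h : Rd r A) :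
    Rd r (A.submatrix e e) := by
  have := h.pl e.symm.injective
  convert this using 1
  ext b b'
  have := Pl_apply e.symm.injective A (e b) (e b')
  simpa using this.symm

lemma Rd.of_submatrix (e e' : β ≃ α) {r : ℕ} {A : Matrix α α ℂ} (h : Rd r (A.submatrix e e')) :
    Rd r A := by
  have h1 := (h.reindex e.symm).mul
    (IsMon.rd ⟨e' ∘ e.symm, fun _ => 1, e'.injective.comp e.symm.injective, by simp, rfl⟩)
  rw [add_zero] at h1
  convert h1 using 1
  ext a a'
  simp only [Matrix.mul_apply, rm, Matrix.submatrix_apply, Matrix.of_apply, Function.comp,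
    Equiv.apply_symm_apply]
  rw [Finset.sum_eq_single (e (e'.symm a'))]
  · simp
  · intro b _ hb
    rw [if_neg, mul_zero]
    rintro rfl; simp at hb
  · simp

/-- block diagonal matrix -/
def BD {δ : Type} [DecidableEq δ] (A : δ → Matrix β α ℂ) : Matrix (δ × β) (δ × α) ℂ :=
  Matrix.of fun p q => if p.1 = q.1 then A p.1 p.2 q.2 else 0

lemma BD_mul {δ : Type} [Fintype δ] [DecidableEq δ] (A : δ → Matrix γ β ℂ)
    (B : δ → Matrix β α ℂ) : BD A * BD B = BD (fun k => A k * B k) := by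
  ext ⟨k, c⟩ ⟨l, a⟩
  simp only [BD, Matrix.mul_apply, Matrix.of_apply, Fintype.sum_prod_type]
  rw [Finset.sum_eq_single k]
  · by_cases h : k = l <;> simp [h]
  · intro b _ hb; simp [Ne.symm hb]
  · simp

lemma BD_rm {δ : Type} [DecidableEq δ] (f : β → α) (d : β → ℂ) :
    BD (fun _ : δ => rm f d) = rm (Prod.map id f) (fun p => d p.2) := by
  ext ⟨k, c⟩ ⟨l, a⟩
  simp only [BD, rm, Matrix.of_apply, Prod.map, id, Prod.mk.injEq]
  by_cases h : k = l
  · simp [h]
  · simp [h, Ne.symm h]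

lemma Rd.bd {δ : Type} [Fintype δ] [DecidableEq δ] {r : ℕ} {A : Matrix α α ℂ} (h : Rd r A) :
    Rd r (BD (fun _ : δ => A)) := by
  refine Rd.map (fun A => BD (fun _ : δ => A)) (fun A B => (BD_mul _ _).symm) ?_ ?_ h
  · rintro A ⟨f, d, hf, hd, rfl⟩
    exact ⟨Prod.map id f, _, Function.injective_id.prodMap hf, fun p => hd p.2, BD_rm f d⟩
  · rintro A ⟨f, s, h1, h2, rfl⟩
    refine ⟨Prod.map id f, fun p => s p.2, fun p hp => h1 _ hp, ?_, ?_⟩
    · rintro ⟨k, a⟩ ⟨l, b⟩ ha hb h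
      simp only [Prod.map, id, Prod.mk.injEq] at h ⊢
      exact ⟨h.1, h2 _ _ ha hb h.2⟩
    · rw [← BD_rm]
      ext ⟨k, c⟩ ⟨l, a⟩
      simp only [BD, Matrix.of_apply, Matrix.add_apply, Matrix.one_apply, Prod.mk.injEq]
      by_cases h : k = l <;> simp [h]

end rm

end Crest.Agent.H9.FC
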