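import Crest.Agent.H9.LCStage

/-!
The recursion for the cost of the tensor powers.
-/

set_option autoImplicit false
set_option linter.unusedSectionVars false
set_option linter.unusedSimpArgs false

namespace Crest.Agent.H9.FC

open Finset Matrix Crest.FourierCircuit

theorem rec_step : ∃ g : ℝ, ∀ (j : ℕ) (s : ℝ), Tc (Fin j) s →
    Tc (Fin (29 + 256 * j)) ((256 - 26880 / 2 ^ 29) * s + g) := by
  have hP := card_PP
  obtain ⟨n, hn⟩ : ∃ n, Fintype.card (Wr n) = 2 ^ 29 := by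
    refine ⟨2 ^ 29 - (2 * (560 * 560) + 2 * (560 * Fintype.card PP)), ?_⟩
    simp only [Fintype.card_prod, card_TT, Fintype.card_fin, Fintype.card_sum, Fintype.card_bool]
    omega
  obtain ⟨S, hS, hfin⟩ := network n
  obtain ⟨g, hg⟩ := hS.final hfin
  refine ⟨g / 2 ^ 29 + 4 * 29, fun j s hs => ?_⟩
  have h1 := hg (Fin j) s hs
  have e : (Fin 29 → ZMod 2) ≃ Wr n := Fintype.equivOfCardEq (by rw [hn]; simp)
  have h2 := h1.submatrix
    (fun p : (Fin 29 → ZMod 2) × (Fin j × (HH × HH) → ZMod 2) => (e p.1, p.2))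
    (fun p : (Fin 29 → ZMod 2) × (Fin j × (HH × HH) → ZMod 2) => (e p.1, p.2))
    (fun x y hxy => by
      simp only [Prod.mk.injEq, e.injective.eq_iff] at hxy
      exact Prod.ext hxy.1 hxy.2)
  have h3 := Tc.sum (J := Fin j × (HH × HH)) (K := Fin 29)
    (s := (256 - 26880 / 2 ^ 29) * s + g / 2 ^ 29) (t := 4 * (29 : ℕ)) (by
      convert h2 using 1
      · ext p q
        simp only [Matrix.of_apply, Matrix.submatrix_apply, e.injective.eq_iff]
      · rw [hn]
        simp only [Fintype.card_prod, Fintype.card_fin, pow_add]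
        push_cast
        field_simp
        ring) (Tc_fin 29)
  have h4 := h3.equiv (Fintype.equivFinOfCardEq (n := 29 + 256 * j) (by simp; ring))
  exact h4.mono (le_of_eq (by push_cast; ring))

theorem Tc_rpow (θ : ℝ) (hθ : 0 < θ) (hl : 256 - 26880 / 2 ^ 29 < (256 : ℝ) ^ θ) :
    ∃ C : ℝ, 0 ≤ C ∧ ∀ k : ℕ, Tc (Fin k) (C * (k : ℝ) ^ θ) := by
  obtain ⟨g, hg⟩ := rec_step
  set lam : ℝ := 256 - 26880 / 2 ^ 29 with hlam
  set μ : ℝ := (256 : ℝ) ^ θ with hμ
  have hd : 0 < μ - lam := by linarith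
  set C : ℝ := max (4 * 285) ((g + 4 * 256) / (μ - lam)) with hC
  have hC1 : 4 * 285 ≤ C := le_max_left _ _
  have hC2 : g + 4 * 256 ≤ C * (μ - lam) := by
    have : (g + 4 * 256) / (μ - lam) ≤ C := le_max_right _ _
    rwa [div_le_iff₀ hd] at this
  refine ⟨C, by linarith, fun k => ?_⟩
  induction k using Nat.strong_induction_on with
  | _ k ih =>
    by_cases hk : k < 285
    · refine (Tc_fin k).mono ?_
      rcases Nat.eq_zero_or_pos k with rfl | hk0
      · simp [Real.zero_rpow hθ.ne']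
      · have h1 : (1 : ℝ) ≤ (k : ℝ) ^ θ := Real.one_le_rpow (by exact_mod_cast hk0) hθ.le
        have h2 : (k : ℝ) ≤ 285 := by exact_mod_cast hk.le
        nlinarith
    · obtain ⟨j, ρ, hj, hρ, rfl⟩ : ∃ j ρ, 1 ≤ j ∧ ρ < 256 ∧ k = 29 + 256 * j + ρ :=
        ⟨(k - 29) / 256, (k - 29) % 256, by omega, by omega, by omega⟩
      have h1 := Tc_fin_add (hg j _ (ih j (by omega))) (Tc_fin ρ)
      refine h1.mono ?_
      have h2 : (1 : ℝ) ≤ (j : ℝ) ^ θ := Real.one_le_rpow (by exact_mod_cast hj) hθ.le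
      have h3 : μ * (j : ℝ) ^ θ ≤ ((29 + 256 * j + ρ : ℕ) : ℝ) ^ θ := by
        rw [hμ, ← Real.mul_rpow (by norm_num) (by positivity)]
        refine Real.rpow_le_rpow (by positivity) ?_ hθ.le
        push_cast
        have : (0 : ℝ) ≤ ρ := by positivity
        linarith
      have h4 : (ρ : ℝ) ≤ 256 := by exact_mod_cast hρ.le
      have h5 : C * (μ * (j : ℝ) ^ θ) ≤ C * ((29 + 256 * j + ρ : ℕ) : ℝ) ^ θ :=
        mul_le_mul_of_nonneg_left h3 (by linarith)
      have h6 : C * (μ - lam) * 1 ≤ C * (μ - lam) * (j : ℝ) ^ θ :=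
        mul_le_mul_of_nonneg_left h2 (by positivity)
      nlinarith

lemma saving_le : savingExponent ≤ 1 := by
  unfold savingExponent
  rw [Real.logb_le_iff_le_rpow (by norm_num) (by norm_num)]
  norm_num

lemma saving_ge : 1 - 1 / 10 ^ 10 ≤ savingExponent := by
  unfold savingExponent
  rw [Real.le_logb_iff_rpow_le (by norm_num) (by norm_num)]
  rw [Real.rpow_sub (by norm_num), Real.rpow_one, div_le_iff₀ (by positivity)]
  have h1 : (1 : ℝ) + 1 / 10 ^ 10 ≤ ((10 : ℝ) ^ 6) ^ ((1 : ℝ) / 10 ^ 10) := by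
    rw [Real.rpow_def_of_pos (by norm_num)]
    have h2 : (1 : ℝ) ≤ Real.log (10 ^ 6) := by
      rw [Real.le_log_iff_exp_le (by norm_num)]
      have := Real.exp_one_lt_d9
      linarith
    have h3 := Real.add_one_le_exp (Real.log (10 ^ 6) * (1 / 10 ^ 10))
    have h4 : (1 : ℝ) * (1 / 10 ^ 10) ≤ Real.log (10 ^ 6) * (1 / 10 ^ 10) :=
      mul_le_mul_of_nonneg_right h2 (by positivity)
    generalize Real.log (10 ^ 6) * (1 / 10 ^ 10) = y at h3 h4 ⊢
    linarith
  have h4 : (0 : ℝ) < 10 ^ 6 - 6871402692000000 / 2 ^ 71 := by norm_num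
  calc (10 : ℝ) ^ 6 ≤ (10 ^ 6 - 6871402692000000 / 2 ^ 71) * (1 + 1 / 10 ^ 10) := by norm_num
    _ ≤ _ := mul_le_mul_of_nonneg_left h1 h4.le

theorem Tc_main : ∃ C : ℝ, 0 ≤ C ∧ ∀ k : ℕ,
    Tc (Fin k) (C * (k : ℝ) ^ (3 * savingExponent - 2)) := by
  have h0 := saving_ge
  refine Tc_rpow _ (by linarith) ?_
  have h1 : (256 : ℝ) ^ (1 - 3 / 10 ^ 10 : ℝ) ≤ (256 : ℝ) ^ (3 * savingExponent - 2) :=
    Real.rpow_le_rpow_of_exponent_le (by norm_num) (by linarith)
  refine lt_of_lt_of_le ?_ h1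
  clear h1
  rw [Real.rpow_def_of_pos (by norm_num), mul_sub, mul_one, Real.exp_sub,
    Real.exp_log (by norm_num), div_eq_mul_inv (256 : ℝ), ← Real.exp_neg]
  have h2 : Real.log 256 ≤ 8 := by
    have : (256 : ℝ) = 2 ^ 8 := by norm_num
    rw [this, Real.log_pow]
    have := Real.log_two_lt_d9
    push_cast; linarith
  have h3 := Real.add_one_le_exp (-(Real.log 256 * (3 / 10 ^ 10)))
  have h4 : (26880 : ℝ) / 2 ^ 29 > 256 * 8 * (3 / 10 ^ 10) := by norm_num
  have h5 : Real.log 256 * (3 / 10 ^ 10) ≤ 8 * (3 / 10 ^ 10) :=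
    mul_le_mul_of_nonneg_right h2 (by positivity)
  generalize Real.log 256 * (3 / 10 ^ 10) = y at h3 h5 ⊢
  linarith

end Crest.Agent.H9.FC
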