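import Crest.Agent.H9.LCInPlace

/-!
Slots of two coprime axes and the circuit for the Fourier transform of order `n`.
-/

set_option autoImplicit false
set_option linter.unusedSectionVars false
set_option linter.unusedSimpArgs false

namespace Crest.Agent.H9.FC

open Finset Matrix Kronecker Crest.FourierCircuit

lemma BD_Pl {δ X P : Type} [Fintype δ] [DecidableEq δ] [Fintype X] [DecidableEq X] [Fintype P]
    [DecidableEq P] {ι : X → P} (hι : Function.Injective ι) (G : Matrix X X ℂ) :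
    Pl (Prod.map id ι) (BD (fun _ : δ => G)) = BD (fun _ : δ => Pl ι G) := by
  have hi : Function.Injective (Prod.map (id : δ → δ) ι) := Function.injective_id.prodMap hι
  ext ⟨d, x⟩ ⟨d', y⟩
  by_cases hx : ∃ b, ι b = x
  · by_cases hy : ∃ b, ι b = y
    · obtain ⟨b, rfl⟩ := hx
      obtain ⟨b', rfl⟩ := hy
      have := Pl_apply hi (BD (fun _ : δ => G)) (d, b) (d', b')
      simp only [Prod.map, id] at this
      rw [this]; simp [BD, Pl_apply hι]
    · rw [Pl_apply_right _ _ (by rintro ⟨b, hb⟩; exact hy ⟨b.2, (Prod.ext_iff.1 hb).2⟩)]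
      simp only [BD, Matrix.of_apply, Pl_apply_right _ _ hy, Prod.mk.injEq]
      by_cases h : d = d' <;> simp [h]
  · rw [Pl_apply_left _ (by rintro ⟨b, hb⟩; exact hx ⟨b.2, (Prod.ext_iff.1 hb).2⟩)]
    simp only [BD, Matrix.of_apply, Pl_apply_left _ hx, Prod.mk.injEq]
    by_cases h : d = d' <;> simp [h]

lemma rd_half (q : ℕ) [NeZero q] (B : ℕ) (hB : q ≤ 2 ^ B) {P : Type} [Fintype P] [DecidableEq P]
    {ι : ZMod q → P} (hι : Function.Injective ι) (ρ : ℕ) :
    Rd (288 * B + 369) (BD (fun _ : Fin ρ × Fin 6 => Pl ι (zdft q))) := by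
  have h1 := ((rd_six q B hB).bd (δ := Fin ρ)).reindex (Equiv.prodAssoc _ _ _)
  have e : (BD (fun _ : Fin ρ => BD (fun _ : Fin 6 => zdft q))).submatrix
      (Equiv.prodAssoc _ _ _) (Equiv.prodAssoc _ _ _) = BD (fun _ : Fin ρ × Fin 6 => zdft q) := by
    ext ⟨⟨r, f⟩, x⟩ ⟨⟨r', f'⟩, y⟩
    simp only [BD, Matrix.submatrix_apply, Matrix.of_apply, Equiv.prodAssoc_apply, Prod.mk.injEq]
    by_cases h : r = r' <;> simp [h]
  rw [e] at h1
  rw [← BD_Pl hι]
  exact h1.pl (Function.injective_id.prodMap hι)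

/-- an axis padded to a multiple of six -/
abbrev Pad (q : ℕ) := Fin ((q + 5) / 6) × Fin 6

lemma slot (q q' : ℕ) [NeZero q] [NeZero q'] (B : ℕ) (hB : q ≤ 2 ^ B) (hB' : q' ≤ 2 ^ B) :
    ∃ (ι : ZMod q × ZMod q' → Pad q × Pad q') (A : Matrix (Pad q × Pad q') (Pad q × Pad q') ℂ),
      Function.Injective ι ∧ Rd (2 * (288 * B + 369)) A ∧
        A.submatrix ι ι = zdft q ⊗ₖ zdft q' := by
  obtain ⟨i⟩ : Nonempty (ZMod q ↪ Pad q) :=
    Function.Embedding.nonempty_of_card_le (by simp; omega)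
  obtain ⟨i'⟩ : Nonempty (ZMod q' ↪ Pad q') :=
    Function.Embedding.nonempty_of_card_le (by simp; omega)
  have h1 := (rd_half q B hB i.injective ((q' + 5) / 6)).reindex (Equiv.prodComm _ _)
  have h2 := rd_half q' B hB' i'.injective ((q + 5) / 6)
  refine ⟨Prod.map i i', _, i.injective.prodMap i'.injective, (h1.mul h2).mono (by omega), ?_⟩
  ext ⟨x, x'⟩ ⟨y, y'⟩
  simp only [Matrix.submatrix_apply, Matrix.mul_apply, Prod.map, kroneckerMap_apply]
  rw [Finset.sum_eq_single (i y, i' x')]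
  · simp [BD, Pl_apply i.injective, Pl_apply i'.injective]
  · rintro ⟨z, z'⟩ _ hz
    simp only [BD, Matrix.of_apply, Equiv.prodComm_apply, Prod.swap]
    by_cases h : z = i y
    · subst h
      have : i' x' ≠ z' := fun h => hz (by rw [h])
      simp [this]
    · simp [h]
  · simp

theorem dft_cost (n k B : ℕ) (Q : Fin k × Bool → ℕ) (hQ0 : ∀ p, Q p ≠ 0)
    (hcop : Pairwise fun p p' => Nat.Coprime (Q p) (Q p')) (hN : 2 * n ≤ ∏ p, Q p)
    (hB : ∀ p, Q p ≤ 2 ^ B) {s : ℝ} (hs : Tc (Fin k) s) :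
    LC (dftMatrix n) (2 * ((2 * (288 * B + 369) * (3 * s + 5) + 1) * ∏ p, ((Q p : ℝ) + 5)) +
      ∏ p, (Q p : ℝ) + 2 * n) := by
  have : ∀ p, NeZero (Q p) := fun p => ⟨hQ0 p⟩
  choose ι A hι hA hsub using fun κ : Fin k =>
    slot (Q (κ, false)) (Q (κ, true)) B (hB _) (hB _)
  have h1 := LC_TP_Rd (γ := fun κ => Pad (Q (κ, false)) × Pad (Q (κ, true))) hs
    (fun κ => by
      simp only [Fintype.card_prod, Fintype.card_fin]
      exact Even.mul_left (Even.mul_left (by decide) _) _) _ A hA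
  have h2 := h1.submatrix (fun (x : ∀ κ, ZMod (Q (κ, false)) × ZMod (Q (κ, true))) κ => ι κ (x κ))
    (fun (x : ∀ κ, ZMod (Q (κ, false)) × ZMod (Q (κ, true))) κ => ι κ (x κ))
    (fun x y h => funext fun κ => hι κ (congrFun h κ))
  set F := TP (fun κ : Fin k => zdft (Q (κ, false)) ⊗ₖ zdft (Q (κ, true))) with hF
  have e1 : (TP A).submatrix
      (fun (x : ∀ κ, ZMod (Q (κ, false)) × ZMod (Q (κ, true))) κ => ι κ (x κ))
      (fun (x : ∀ κ, ZMod (Q (κ, false)) × ZMod (Q (κ, true))) κ => ι κ (x κ)) = F := by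
    ext x y
    simp only [hF, TP, Matrix.submatrix_apply, Matrix.of_apply, ← hsub]
  rw [e1] at h2
  have hs0 := hs.nonneg
  have h3 : LC F ((2 * (288 * B + 369) * (3 * s + 5) + 1) * ∏ p, ((Q p : ℝ) + 5)) := by
    refine h2.mono ?_
    push_cast
    refine mul_le_mul_of_nonneg_left ?_ (by positivity)
    simp only [Fintype.card_pi, Fintype.card_prod, Fintype.card_fin, Fintype.prod_prod_type,
      Fintype.prod_bool]
    push_cast
    refine Finset.prod_le_prod (fun _ _ => by positivity) (fun κ _ => ?_)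
    have hq : ∀ q : ℕ, (((q + 5) / 6 : ℕ) : ℝ) * 6 ≤ q + 5 := fun q => by
      exact_mod_cast Nat.div_mul_le_self (q + 5) 6
    rw [mul_comm]
    exact mul_le_mul (hq _) (hq _) (by positivity) (by positivity)
  have hchar : IsChar F := IsChar.pi (fun κ => (zdft_char _).prod (zdft_char _))
  obtain ⟨η, hη, hη2⟩ := zt_sq n
  obtain ⟨j, j', D, Λ, hj, hj', hbl⟩ := bluestein hchar (Fin.val : Fin n → ℕ) Fin.val_injective n
    Fin.is_lt (fun _ => (1, 1)) (fun d hd h => by
      have hdvd : ∀ p, (Q p : ℤ) ∣ d := by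
        rintro ⟨κ, ε⟩
        have h0 := congrFun h κ
        simp only [Pi.smul_apply, Prod.smul_mk, Pi.zero_apply, Prod.mk_eq_zero, zsmul_eq_mul,
          mul_one, ZMod.intCast_zmod_eq_zero_iff_dvd] at h0
        cases ε
        · exact h0.1
        · exact h0.2
      have := Fintype.prod_dvd_of_coprime (s := fun p => (Q p : ℤ))
        (fun p p' hp => Nat.isCoprime_iff_coprime.2 (hcop hp)) hdvd
      refine Int.eq_zero_of_abs_lt_dvd this (lt_of_lt_of_le hd ?_)
      exact_mod_cast hN) η hη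
  rw [hη2] at hbl
  have e2 : dftMatrix n = diagonal D * (F * diagonal Λ * F).submatrix j j' * diagonal D := by
    refine Eq.trans hbl ?_
    ext x y
    rw [mul_rmT_apply, rm_mul_apply, Matrix.mul_diagonal, Matrix.diagonal_mul,
      Matrix.submatrix_apply]
  rw [e2]
  refine (((LC.diag D).mul (((h3.mul (LC.diag Λ)).mul h3).submatrix j j' hj')).mul
    (LC.diag D)).mono (le_of_eq ?_)
  simp only [Fintype.card_pi, Fintype.card_prod, Fintype.card_fin, Fintype.prod_prod_type,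
    Fintype.prod_bool, ZMod.card]
  push_cast
  simp only [mul_comm ((Q (_, true) : ℝ))]
  ring

lemma choose_axes {ι : Type} [Fintype ι] (K n : ℕ) (hK : 1 ≤ K) (hc : Fintype.card ι = K)
    (idx : ι → ℕ) (h1 : ∀ p, 1 ≤ idx p) (h2 : ∀ p, idx p ≤ K)
    (hn : (K * (K.factorial * K) + 1) ^ K < 2 * n) :
    ∃ a, K.factorial ∣ a ∧ K ≤ a ∧ 2 * n ≤ ∏ p, (idx p * a + 1) ∧ ∏ p, (idx p * a + 1) ≤ 6 * n := by
  classical
  have hf : 1 ≤ K.factorial := K.factorial_pos
  have hex : ∃ s, 2 * n ≤ ∏ p, (idx p * (K.factorial * s) + 1) := by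
    obtain ⟨p0⟩ : Nonempty ι := Fintype.card_pos_iff.1 (by omega)
    refine ⟨2 * n, le_trans ?_ (Finset.single_le_prod' (f := fun p =>
      idx p * (K.factorial * (2 * n)) + 1) (fun p _ => by omega) (Finset.mem_univ p0))⟩
    have := h1 p0
    calc 2 * n = 1 * (1 * (2 * n)) := by ring
      _ ≤ idx p0 * (K.factorial * (2 * n)) := by gcongr
      _ ≤ _ := Nat.le_succ _
  have hs := Nat.find_spec hex
  have hK' : K < Nat.find hex := by
    by_contra hc'
    push Not at hc'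
    have : ∏ p, (idx p * (K.factorial * Nat.find hex) + 1) ≤ (K * (K.factorial * K) + 1) ^ K := by
      have := Finset.prod_le_pow_card Finset.univ
        (fun p => idx p * (K.factorial * Nat.find hex) + 1) (K * (K.factorial * K) + 1)
        (fun p _ => by
          have := h2 p
          gcongr)
      rwa [Finset.card_univ, hc] at this
    omega
  obtain ⟨t, ht⟩ : ∃ t, Nat.find hex = t + 1 := ⟨Nat.find hex - 1, by omega⟩
  have hmin := Nat.find_min hex (m := t) (by omega)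
  push Not at hmin
  rw [ht] at hs hK'
  refine ⟨K.factorial * (t + 1), Dvd.intro _ rfl, by nlinarith, hs, ?_⟩
  have hKr : (0 : ℝ) < K := by exact_mod_cast hK
  have h3 : (∏ p, ((idx p : ℝ) * (K.factorial * (t + 1)) + 1)) ≤
      ∏ p, ((1 + (K : ℝ)⁻¹) * ((idx p : ℝ) * (K.factorial * t) + 1)) := by
    refine Finset.prod_le_prod (fun _ _ => by positivity) (fun p _ => ?_)
    have h4 : (K : ℝ) ≤ t := by exact_mod_cast Nat.lt_succ_iff.1 hK'
    have h5 : (1 : ℝ) ≤ (K : ℝ)⁻¹ * t := by rw [inv_mul_eq_div, le_div_iff₀ hKr]; linarith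
    have h6 : (0 : ℝ) ≤ (idx p : ℝ) * K.factorial := by positivity
    have h7 : (0 : ℝ) ≤ (K : ℝ)⁻¹ := by positivity
    nlinarith [mul_le_mul_of_nonneg_left h5 h6]
  rw [Finset.prod_mul_distrib, Finset.prod_const, Finset.card_univ, hc] at h3
  have h8 : (1 + (K : ℝ)⁻¹) ^ K ≤ 3 :=
    Real.one_add_inv_pow_le_exp.trans (Real.exp_one_lt_d9.le.trans (by norm_num))
  have h9 : (∏ p, ((idx p : ℝ) * (K.factorial * t) + 1)) ≤ 2 * n := by exact_mod_cast hmin.le
  have h10 : (∏ p, ((idx p : ℝ) * (K.factorial * (t + 1)) + 1)) ≤ 6 * n := by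
    refine h3.trans ((mul_le_mul h8 h9 (by positivity) (by norm_num)).trans (le_of_eq ?_))
    ring
  exact_mod_cast h10

end Crest.Agent.H9.FC
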