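import Crest.Agent.H9.LCGadget

/-!
The two gadgets and the whole network.
-/

set_option autoImplicit false
set_option linter.unusedSectionVars false
set_option linter.unusedSimpArgs false

namespace Crest.Agent.H9.FC

open Finset Matrix Kronecker

section stage
variable {M : Type} [Fintype M] [DecidableEq M] {α : Type} [Fintype α] [DecidableEq α]

lemma Net.step' {φ0 : α → Matrix M M (ZMod 2)} {S : Set (Tok M α)} {r : ℝ} (h : Net φ0 S r)
    {β : Type} [Fintype β] (t : β → Tok M α) (k : ℕ) (hd : ∀ b, Der S (t b) k) :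
    ∃ S', S ⊆ S' ∧ Net φ0 S' (r + Fintype.card β * k) ∧ ∀ b, t b ∈ S' := by
  refine ⟨S ∪ Set.range t, Set.subset_union_left, ?_, fun b => Or.inr ⟨b, rfl⟩⟩
  simpa using h.step t (fun _ => k) hd

lemma mem_sp {S : Set (Tok M α)} {ψ : Matrix M M (ZMod 2)} {l : α → ℂ} (h : (ψ, l) ∈ S) :
    l ∈ Submodule.span ℂ {l | (ψ, l) ∈ S} := Submodule.subset_span h

lemma Der.move {S : Set (Tok M α)} {ψ ψ' : Matrix M M (ZMod 2)} {l : α → ℂ} {k : ℕ}
    (h : (ψ, l) ∈ S) (hd : Dec (ψ' - ψ) k) : Der S (ψ', l) k := ⟨ψ, mem_sp h, hd⟩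

variable {K : Type} [Fintype K]

lemma dec_zero_one : Dec (0 - 1 : Matrix HH HH (ZMod 2)) 16 := by
  rw [zero_sub, mat_neg]; simpa using Dec.one (M := HH)

lemma stage_fwd {φ0 : α → Matrix M M (ZMod 2)} {S : Set (Tok M α)} {r : ℝ} (h : Net φ0 S r)
    (F : K → Matrix HH HH (ZMod 2) → Matrix M M (ZMod 2))
    (hF : ∀ κ Q Q' k, Dec (Q' - Q) k → Dec (F κ Q' - F κ Q) k)
    (X Y : K → TT → α → ℂ) (Z : K → PP → α → ℂ)
    (hX : ∀ κ B, (F κ (vv (ind B)), X κ B) ∈ S) (hY : ∀ κ A, (F κ 0, Y κ A) ∈ S)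
    (hZ : ∀ κ p, (F κ 0, Z κ p) ∈ S) :
    ∃ S', S ⊆ S' ∧ Net φ0 S' (r + Fintype.card K * (2 * 560 * 15 + 16 * Fintype.card PP + 256)) ∧
      (∀ κ B, (F κ 1, X κ B) ∈ S') ∧ (∀ κ A, (F κ (1 - vv (ind A)), Y κ A + X κ A) ∈ S') ∧
      ∀ κ p, (F κ 1, Z κ p) ∈ S' := by
  obtain ⟨S1, s1, n1, m1⟩ := h.step' (fun q : K × TT => (F q.1 1, X q.1 q.2)) 15
    (fun q => Der.move (hX _ _) (hF _ _ _ _ (dec_ind _)))
  obtain ⟨S2, s2, n2, m2⟩ := n1.step'
    (fun q : K × PP => (F q.1 (vv (ind q.2.1.2)), Z q.1 q.2)) 1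
    (fun q => Der.move (s1 (hZ _ _)) (hF _ _ _ _ (by rw [sub_zero]; exact Dec.single _)))
  obtain ⟨S3, s3, n3, m3⟩ := n2.step'
    (fun q : K × PP => (F q.1 (1 - vv (ind q.2.1.1)), Z q.1 q.2 + X q.1 q.2.1.2)) 14
    (fun q => ⟨F q.1 (vv (ind q.2.1.2)),
      Submodule.add_mem _ (mem_sp (m2 q)) (mem_sp (s2 (s1 (hX _ _)))),
      hF _ _ _ _ (dec_pair _)⟩)
  obtain ⟨S4, s4, n4, m4⟩ := n3.step'
    (fun q : K × HH => (F q.1 0, ∑ B, wb q.2 B • X q.1 B)) 16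
    (fun q => ⟨F q.1 1, by
      simp only
      exact Submodule.sum_mem _
        (fun B _ => Submodule.smul_mem _ _ (mem_sp (s3 (s2 (m1 (q.1, B)))))),
      hF _ _ _ _ dec_zero_one⟩)
  obtain ⟨S5, s5, n5, m5⟩ := n4.step'
    (fun q : K × TT => (F q.1 (1 - vv (ind q.2)),
      Y q.1 q.2 - ∑ p : PP, (if p.1.1 = q.2 then pw p.1.1 p.1.2 else 0) • Z q.1 p +
        ∑ i, wa q.2 i • ∑ B, wb i B • X q.1 B)) 15
    (fun q => ⟨F q.1 0,
      Submodule.add_mem _ (Submodule.sub_mem _ (mem_sp (s4 (s3 (s2 (s1 (hY _ _))))))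
        (Submodule.sum_mem _ (fun p _ => Submodule.smul_mem _ _
          (mem_sp (s4 (s3 (s2 (s1 (hZ _ _)))))))))
        (Submodule.sum_mem _ (fun i _ => Submodule.smul_mem _ _ (mem_sp (m4 (q.1, i))))),
      hF _ _ _ _ (by rw [sub_zero]; exact dec_ind _)⟩)
  obtain ⟨S6, s6, n6, m6⟩ := n5.step'
    (fun q : K × TT => (F q.1 (1 - vv (ind q.2)), Y q.1 q.2 + X q.1 q.2)) 0
    (fun q => ⟨F q.1 (1 - vv (ind q.2)), by
      have e : Y q.1 q.2 + X q.1 q.2 =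
          (Y q.1 q.2 - ∑ p : PP, (if p.1.1 = q.2 then pw p.1.1 p.1.2 else 0) • Z q.1 p +
            ∑ i, wa q.2 i • ∑ B, wb i B • X q.1 B) +
          ∑ p : PP, (if p.1.1 = q.2 then pw p.1.1 p.1.2 else 0) • (Z q.1 p + X q.1 p.1.2) := by
        rw [← key_fwd (X q.1) q.2]
        simp only [smul_add, Finset.sum_add_distrib]
        abel
      simp only
      rw [e]
      refine Submodule.add_mem _ (mem_sp (m5 q)) (Submodule.sum_mem _ (fun p _ => ?_))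
      split_ifs with hp
      · refine Submodule.smul_mem _ _ (mem_sp ?_)
        have := s5 (s4 (m3 (q.1, p)))
        simp only at this
        rw [← hp]; exact this
      · simp,
      Dec.self _⟩)
  obtain ⟨S7, s7, n7, m7⟩ := n6.step'
    (fun q : K × PP => (F q.1 1, Z q.1 q.2 + X q.1 q.2.1.2)) 1
    (fun q => Der.move (s6 (s5 (s4 (m3 q))))
      (hF _ _ _ _ (by rw [sub_sub_cancel]; exact Dec.single _)))
  obtain ⟨S8, s8, n8, m8⟩ := n7.step'
    (fun q : K × PP => (F q.1 1, Z q.1 q.2)) 0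
    (fun q => ⟨F q.1 1, by
      have e : Z q.1 q.2 = (Z q.1 q.2 + X q.1 q.2.1.2) - X q.1 q.2.1.2 := by abel
      simp only
      rw [e]
      exact Submodule.sub_mem _ (mem_sp (m7 q))
        (mem_sp (s7 (s6 (s5 (s4 (s3 (s2 (m1 (q.1, q.2.1.2))))))))), Dec.self _⟩)
  refine ⟨S8, fun x hx => s8 (s7 (s6 (s5 (s4 (s3 (s2 (s1 hx))))))), n8.mono (le_of_eq ?_),
    fun κ B => s8 (s7 (s6 (s5 (s4 (s3 (s2 (m1 (κ, B)))))))),
    fun κ A => s8 (s7 (m6 (κ, A))), fun κ p => m8 (κ, p)⟩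
  simp only [Fintype.card_prod, card_TT, Fintype.card_fin]
  push_cast; ring

lemma stage_bwd {φ0 : α → Matrix M M (ZMod 2)} {S : Set (Tok M α)} {r : ℝ} (h : Net φ0 S r)
    (F : K → Matrix HH HH (ZMod 2) → Matrix M M (ZMod 2))
    (hF : ∀ κ Q Q' k, Dec (Q' - Q) k → Dec (F κ Q' - F κ Q) k)
    (X Y : K → TT → α → ℂ) (Z : K → PP → α → ℂ)
    (hX : ∀ κ B, (F κ (vv (ind B)), X κ B) ∈ S) (hY : ∀ κ A, (F κ 0, Y κ A) ∈ S)
    (hZ : ∀ κ p, (F κ 0, Z κ p) ∈ S) :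
    ∃ S', S ⊆ S' ∧ Net φ0 S' (r + Fintype.card K * (2 * 560 * 15 + 16 * Fintype.card PP + 256)) ∧
      (∀ κ B, (F κ 1, X κ B - Y κ B) ∈ S') ∧ (∀ κ A, (F κ (1 - vv (ind A)), Y κ A) ∈ S') ∧
      ∀ κ p, (F κ 1, Z κ p) ∈ S' := by
  obtain ⟨S1, s1, n1, m1⟩ := h.step' (fun q : K × TT => (F q.1 (1 - vv (ind q.2)), Y q.1 q.2)) 15
    (fun q => Der.move (hY _ _) (hF _ _ _ _ (by rw [sub_zero]; exact dec_ind _)))
  obtain ⟨S2, s2, n2, m2⟩ := n1.step'
    (fun q : K × PP => (F q.1 (vv (ind q.2.1.2)),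
      Z q.1 q.2 + pw q.2.1.1 q.2.1.2 • Y q.1 q.2.1.1)) 1
    (fun q => ⟨F q.1 0,
      Submodule.add_mem _ (mem_sp (s1 (hZ _ _)))
        (Submodule.smul_mem _ _ (mem_sp (s1 (hY _ _)))),
      hF _ _ _ _ (by rw [sub_zero]; exact Dec.single _)⟩)
  obtain ⟨S3, s3, n3, m3⟩ := n2.step'
    (fun q : K × HH => (F q.1 1, ∑ A, wa A q.2 • Y q.1 A)) 16
    (fun q => ⟨F q.1 0, by
      simp only
      exact Submodule.sum_mem _ (fun A _ => Submodule.smul_mem _ _ (mem_sp (s2 (s1 (hY _ _))))),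
      hF _ _ _ _ (by rw [sub_zero]; simpa using Dec.one (M := HH))⟩)
  obtain ⟨S4, s4, n4, m4⟩ := n3.step'
    (fun q : K × TT => (F q.1 1, X q.1 q.2 - ∑ p : PP, (if p.1.2 = q.2 then (1 : ℂ) else 0) •
      (Z q.1 p + pw p.1.1 p.1.2 • Y q.1 p.1.1))) 15
    (fun q => ⟨F q.1 (vv (ind q.2)), by
      refine Submodule.sub_mem _ (mem_sp (s3 (s2 (s1 (hX _ _)))))
        (Submodule.sum_mem _ (fun p _ => ?_))
      split_ifs with hp
      · refine Submodule.smul_mem _ _ (mem_sp ?_)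
        have := s3 (m2 (q.1, p))
        simp only at this
        rw [← hp]; exact this
      · simp,
      hF _ _ _ _ (dec_ind _)⟩)
  obtain ⟨S5, s5, n5, m5⟩ := n4.step'
    (fun q : K × PP => (F q.1 (1 - vv (ind q.2.1.1)),
      Z q.1 q.2 + pw q.2.1.1 q.2.1.2 • Y q.1 q.2.1.1)) 14
    (fun q => Der.move (s4 (s3 (m2 q))) (hF _ _ _ _ (dec_pair _)))
  obtain ⟨S6, s6, n6, m6⟩ := n5.step'
    (fun q : K × PP => (F q.1 1, Z q.1 q.2)) 1
    (fun q => ⟨F q.1 (1 - vv (ind q.2.1.1)), by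
      have e : Z q.1 q.2 = (Z q.1 q.2 + pw q.2.1.1 q.2.1.2 • Y q.1 q.2.1.1) -
        pw q.2.1.1 q.2.1.2 • Y q.1 q.2.1.1 := by abel
      simp only
      rw [e]
      exact Submodule.sub_mem _ (mem_sp (m5 q))
        (Submodule.smul_mem _ _ (mem_sp (s5 (s4 (s3 (s2 (m1 (q.1, q.2.1.1)))))))),
      hF _ _ _ _ (by rw [sub_sub_cancel]; exact Dec.single _)⟩)
  obtain ⟨S7, s7, n7, m7⟩ := n6.step'
    (fun q : K × TT => (F q.1 1, X q.1 q.2 - Y q.1 q.2)) 0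
    (fun q => ⟨F q.1 1, by
      have e : X q.1 q.2 - Y q.1 q.2 =
          (X q.1 q.2 - ∑ p : PP, (if p.1.2 = q.2 then (1 : ℂ) else 0) •
            (Z q.1 p + pw p.1.1 p.1.2 • Y q.1 p.1.1)) +
          ∑ p : PP, (if p.1.2 = q.2 then (1 : ℂ) else 0) • Z q.1 p -
          ∑ i, wb i q.2 • ∑ A, wa A i • Y q.1 A := by
        rw [← key_bwd (Y q.1) q.2]
        simp only [smul_add, Finset.sum_add_distrib, smul_smul, ite_mul, one_mul, zero_mul]
        abel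
      simp only
      rw [e]
      exact Submodule.sub_mem _ (Submodule.add_mem _ (mem_sp (s6 (s5 (m4 q))))
        (Submodule.sum_mem _ (fun p _ => Submodule.smul_mem _ _ (mem_sp (m6 (q.1, p))))))
        (Submodule.sum_mem _ (fun i _ => Submodule.smul_mem _ _
          (mem_sp (s6 (s5 (s4 (m3 (q.1, i)))))))),
      Dec.self _⟩)
  refine ⟨S7, fun x hx => s7 (s6 (s5 (s4 (s3 (s2 (s1 hx)))))), n7.mono (le_of_eq ?_),
    fun κ B => m7 (κ, B),
    fun κ A => s7 (s6 (s5 (s4 (s3 (s2 (m1 (κ, A))))))), fun κ p => s7 (m6 (κ, p))⟩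
  simp only [Fintype.card_prod, card_TT, Fintype.card_fin]
  push_cast; ring

end stage

/-- the wires -/
abbrev Wr (n : ℕ) := (Bool × TT × TT) ⊕ (Bool × TT × PP) ⊕ Fin n

noncomputable instance (n : ℕ) : DecidableEq (Wr n) := Classical.decEq _

/-- initial frames -/
def fr0 (n : ℕ) : Wr n → Matrix (HH × HH) (HH × HH) (ZMod 2)
  | Sum.inl (false, A, B) => vv (ind A) ⊗ₖ vv (ind B)
  | _ => 0

/-- frames of the first stage -/
def F1 (B : TT) (Q : Matrix HH HH (ZMod 2)) : Matrix (HH × HH) (HH × HH) (ZMod 2) :=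
  Q ⊗ₖ vv (ind B)

/-- frames of the second stage -/
def F2 (A : TT) (Q : Matrix HH HH (ZMod 2)) : Matrix (HH × HH) (HH × HH) (ZMod 2) :=
  (1 - vv (ind A)) ⊗ₖ (1 : Matrix HH HH (ZMod 2)) + vv (ind A) ⊗ₖ Q

lemma dec_of_eq {M : Type} [Fintype M] [DecidableEq M] {Q Q' : Matrix M M (ZMod 2)} {k k' : ℕ}
    (h : Dec Q k) (e : Q' = Q) (e' : k ≤ k') : Dec Q' k' := e ▸ h.mono e'

/-- entrywise proof of identities between Kronecker products -/
macro "kron_ext" : tactic => `(tactic| (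
  simp only [F1, F2, ← Matrix.one_kronecker_one (α := ZMod 2) (m := HH) (n := HH)]
  ext ⟨i, j⟩ ⟨k, l⟩
  simp only [Matrix.sub_apply, Matrix.add_apply, Matrix.kroneckerMap_apply, Matrix.zero_apply]
  ring))

theorem network (n : ℕ) : ∃ S : Set (Tok (HH × HH) (Wr n)),
    Net (fr0 n) S (256 * Fintype.card (Wr n) - 26880) ∧
      ∀ a, ∃ c : ℂ, c ≠ 0 ∧ (fr0 n a + 1, Pi.single a c) ∈ S := by
  have dH : Dec (1 : Matrix HH HH (ZMod 2)) 16 := by simpa using Dec.one (M := HH)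
  let e : Wr n → Wr n → ℂ := fun a => Pi.single a 1
  have h0 := Net.init (fr0 n)
  have m0 : ∀ a, (fr0 n a, e a) ∈ Set.range fun a => (fr0 n a, (Pi.single a 1 : Wr n → ℂ)) :=
    fun a => ⟨a, rfl⟩
  obtain ⟨S1, s1, n1, x1, y1, z1⟩ := stage_fwd h0 F1
    (fun κ Q Q' k hk => dec_of_eq (hk.kron (Dec.single (ind κ))) (by kron_ext) (by simp))
    (fun B A => e (Sum.inl (false, A, B))) (fun B A => e (Sum.inl (true, A, B)))
    (fun B p => e (Sum.inr (Sum.inl (false, B, p))))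
    (fun B A => m0 (Sum.inl (false, A, B)))
    (fun B A => by simpa [F1, fr0] using m0 (Sum.inl (true, A, B)))
    (fun B p => by simpa [F1, fr0] using m0 (Sum.inr (Sum.inl (false, B, p))))
  obtain ⟨S2, s2, n2, m2⟩ := n1.step'
    (fun q : TT × TT => (F2 q.1 (vv (ind q.2)), e (Sum.inl (false, q.1, q.2)))) 225
    (fun q => Der.move (x1 q.2 q.1)
      (dec_of_eq ((dec_ind q.1).kron (dec_ind q.2)) (by kron_ext) (by simp)))
  obtain ⟨S3, s3, n3, m3⟩ := n2.step'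
    (fun q : TT × TT => (F2 q.1 0, e (Sum.inl (true, q.1, q.2)) + e (Sum.inl (false, q.1, q.2))))
    225
    (fun q => Der.move (s2 (y1 q.2 q.1))
      (dec_of_eq ((dec_ind q.1).kron (dec_ind q.2)) (by kron_ext) (by simp)))
  obtain ⟨S4, s4, n4, m4⟩ := n3.step'
    (fun q : TT × PP => (1, e (Sum.inr (Sum.inl (false, q.1, q.2))))) 240
    (fun q => Der.move (s3 (s2 (z1 q.1 q.2)))
      (dec_of_eq (dH.kron (dec_ind q.1)) (by kron_ext) (by simp)))
  obtain ⟨S5, s5, n5, m5⟩ := n4.step'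
    (fun q : TT × PP => (F2 q.1 0, e (Sum.inr (Sum.inl (true, q.1, q.2))))) 240
    (fun q => Der.move (s4 (s3 (s2 (s1 (m0 (Sum.inr (Sum.inl (true, q.1, q.2))))))))
      (dec_of_eq ((dec_ind q.1).kron dH) (by simp only [fr0]; kron_ext) (by simp)))
  obtain ⟨S6, s6, n6, x6, y6, z6⟩ := stage_bwd n5 F2
    (fun κ Q Q' k hk => dec_of_eq ((Dec.single (ind κ)).kron hk) (by kron_ext) (by simp))
    (fun A B => e (Sum.inl (false, A, B)))
    (fun A B => e (Sum.inl (true, A, B)) + e (Sum.inl (false, A, B)))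
    (fun A p => e (Sum.inr (Sum.inl (true, A, p))))
    (fun A B => s5 (s4 (s3 (m2 (A, B)))))
    (fun A B => s5 (s4 (m3 (A, B))))
    (fun A p => m5 (A, p))
  have hF21 : ∀ A, F2 A 1 = 1 := fun A => by kron_ext
  obtain ⟨S7, s7, n7, m7⟩ := n6.step'
    (fun q : TT × TT => (F2 q.1 (1 - vv (ind q.2)), e (Sum.inl (false, q.1, q.2)) -
      (e (Sum.inl (true, q.1, q.2)) + e (Sum.inl (false, q.1, q.2))))) 1
    (fun q => Der.move (x6 q.1 q.2)
      (dec_of_eq ((Dec.single (ind q.1)).kron (Dec.single (ind q.2)))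
        (by rw [← mat_neg (vv (ind q.1) ⊗ₖ vv (ind q.2))]
            simp only [← zero_sub (vv (ind q.1) ⊗ₖ vv (ind q.2))]
            kron_ext) (by simp)))
  obtain ⟨S8, s8, n8, m8⟩ := n7.step'
    (fun q : TT × TT => (F2 q.1 (1 - vv (ind q.2)), e (Sum.inl (false, q.1, q.2)))) 0
    (fun q => ⟨F2 q.1 (1 - vv (ind q.2)), by
      have e1 : e (Sum.inl (false, q.1, q.2)) = (e (Sum.inl (false, q.1, q.2)) -
        (e (Sum.inl (true, q.1, q.2)) + e (Sum.inl (false, q.1, q.2)))) +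
        (e (Sum.inl (true, q.1, q.2)) + e (Sum.inl (false, q.1, q.2))) := by abel
      simp only
      rw [e1]
      exact Submodule.add_mem _ (mem_sp (m7 q)) (mem_sp (s7 (y6 q.1 q.2))), Dec.self _⟩)
  obtain ⟨S9, s9, n9, m9⟩ := n8.step'
    (fun i : Fin n => (1, e (Sum.inr (Sum.inr i)))) 256
    (fun i => Der.move (s8 (s7 (s6 (s5 (s4 (s3 (s2 (s1 (m0 (Sum.inr (Sum.inr i)))))))))))
      (dec_of_eq (dH.kron dH) (by simp [fr0]) (by simp)))
  refine ⟨S9, n9.mono (le_of_eq ?_), ?_⟩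
  · simp only [Fintype.card_prod, card_TT, Fintype.card_fin, Fintype.card_sum, Fintype.card_bool]
    push_cast; ring
  · rintro (⟨_ | _, A, B⟩ | ⟨_ | _, A, p⟩ | i)
    · refine ⟨1, one_ne_zero, ?_⟩
      have := s9 (m8 (A, B))
      simp only at this
      convert this using 2
      simp only [fr0]
      rw [← mat_neg (vv (ind A) ⊗ₖ vv (ind B))]
      simp only [← zero_sub (vv (ind A) ⊗ₖ vv (ind B))]
      kron_ext
    · refine ⟨-1, by simp, ?_⟩
      have := s9 (s8 (s7 (x6 A B)))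
      rw [hF21] at this
      convert this using 2
      · simp [fr0]
      · simp [e, Pi.single_neg]
    · exact ⟨1, one_ne_zero, by simpa [fr0] using s9 (s8 (s7 (s6 (s5 (m4 (A, p))))))⟩
    · refine ⟨1, one_ne_zero, ?_⟩
      have := s9 (s8 (s7 (z6 A p)))
      rw [hF21] at this
      simpa [fr0] using this
    · exact ⟨1, one_ne_zero, by simpa [fr0] using m9 i⟩

end Crest.Agent.H9.FC
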