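import Crest.Agent.H9.LCBasic

/-!
Tensor products of matrices, the basic two by two block and its tensor powers.
-/

set_option autoImplicit false
set_option linter.unusedSectionVars false
set_option linter.unusedSimpArgs false

namespace Crest.Agent.H9.FC

open Finset Matrix

/-- tensor product of a finite family of matrices -/
def TP {J : Type} [Fintype J] {α β : J → Type} (A : ∀ j, Matrix (β j) (α j) ℂ) :
    Matrix (∀ j, β j) (∀ j, α j) ℂ :=
  Matrix.of fun x y => ∏ j, A j (x j) (y j)

section TP
variable {J : Type} [Fintype J] [DecidableEq J] {α β γ : J → Type}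

lemma TP_apply (A : ∀ j, Matrix (β j) (α j) ℂ) (x : ∀ j, β j) (y : ∀ j, α j) :
    TP A x y = ∏ j, A j (x j) (y j) := rfl

lemma TP_mul [∀ j, Fintype (β j)] (A : ∀ j, Matrix (γ j) (β j) ℂ)
    (B : ∀ j, Matrix (β j) (α j) ℂ) : TP A * TP B = TP (fun j => A j * B j) := by
  ext x z
  simp only [TP, Matrix.mul_apply, Matrix.of_apply]
  rw [Finset.prod_univ_sum, Fintype.piFinset_univ]
  exact Finset.sum_congr rfl (fun y _ => by rw [Finset.prod_mul_distrib])

lemma TP_rowmon [∀ j, DecidableEq (α j)] (f : ∀ j, β j → α j) (d : ∀ j, β j → ℂ) :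
    TP (fun j => Matrix.of fun b a => if a = f j b then d j b else 0) =
      Matrix.of fun x y => if y = (fun j => f j (x j)) then ∏ j, d j (x j) else 0 := by
  ext x y
  simp only [TP, Matrix.of_apply]
  split_ifs with h
  · subst h; simp
  · obtain ⟨j, hj⟩ : ∃ j, y j ≠ f j (x j) := by
      by_contra hc
      push Not at hc
      exact h (funext hc)
    exact Finset.prod_eq_zero (Finset.mem_univ j) (by simp [hj])

lemma TP_one [∀ j, DecidableEq (α j)] [∀ j, Fintype (α j)] :
    TP (fun j => (1 : Matrix (α j) (α j) ℂ)) = 1 := by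
  have := TP_rowmon (α := α) (β := α) (fun _ => id) (fun _ _ => 1)
  convert this using 1
  · congr 1; funext j; ext a b; simp [Matrix.one_apply, eq_comm]
  · ext a b; simp [Matrix.one_apply, eq_comm]

end TP

/-- the two entries of the basic block -/
noncomputable def ca : ℂ := (1 + Complex.I) / 2
/-- the two entries of the basic block -/
noncomputable def cb : ℂ := (1 - Complex.I) / 2

/-- the basic block, a square root of the swap -/
noncomputable def cM : Matrix (ZMod 2) (ZMod 2) ℂ := Matrix.of fun s t => if s = t then ca else cb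

/-- tensor power of the basic block -/
noncomputable def GG (J : Type) [Fintype J] : Matrix (J → ZMod 2) (J → ZMod 2) ℂ :=
  TP (fun _ : J => cM)

/-- the tensor power over `J` costs `s` per point -/
def Tc (J : Type) [Fintype J] [DecidableEq J] (s : ℝ) : Prop :=
  LC (GG J) (s * 2 ^ Fintype.card J)

lemma Tc.nonneg {J : Type} [Fintype J] [DecidableEq J] {s : ℝ} (h : Tc J s) : 0 ≤ s := by
  have := LCf.nonneg h
  exact nonneg_of_mul_nonneg_left this (by positivity)

lemma Tc.mono {J : Type} [Fintype J] [DecidableEq J] {s t : ℝ} (h : Tc J s) (hst : s ≤ t) :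
    Tc J t := LC.mono h (by gcongr)

lemma Tc.equiv {J K : Type} [Fintype J] [DecidableEq J] [Fintype K] [DecidableEq K] {s : ℝ}
    (h : Tc J s) (e : J ≃ K) : Tc K s := by
  have h1 := LC.submatrix h (fun (x : K → ZMod 2) => x ∘ e) (fun (x : K → ZMod 2) => x ∘ e)
    (fun x y hxy => by
      funext k
      have := congrFun hxy (e.symm k)
      simpa using this)
  unfold Tc
  rw [← Fintype.card_congr e]
  convert h1 using 1
  ext x y
  simp only [GG, TP, Matrix.submatrix_apply, Matrix.of_apply, Function.comp]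
  exact (Equiv.prod_comp e (fun k => cM (x k) (y k))).symm

/-- block diagonal matrix of two by two blocks along a pairing -/
def blk {α β : Type} [DecidableEq β] (e : α ≃ ZMod 2 × β) (A : β → Matrix (ZMod 2) (ZMod 2) ℂ) :
    Matrix α α ℂ :=
  Matrix.of fun x y => if (e x).2 = (e y).2 then A (e x).2 (e x).1 (e y).1 else 0

lemma blk_mul {α β : Type} [Fintype α] [Fintype β] [DecidableEq β] (e : α ≃ ZMod 2 × β)
    (A B : β → Matrix (ZMod 2) (ZMod 2) ℂ) :
    blk e A * blk e B = blk e (fun b => A b * B b) := by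
  ext x z
  simp only [blk, Matrix.mul_apply, Matrix.of_apply]
  rw [← Equiv.sum_comp e.symm]
  simp only [Equiv.apply_symm_apply, Fintype.sum_prod_type]
  split_ifs with h
  · refine Finset.sum_congr rfl (fun t _ => ?_)
    rw [Finset.sum_eq_single (e x).2]
    · simp [h]
    · intro b _ hb; simp [Ne.symm hb]
    · simp
  · refine Finset.sum_eq_zero (fun t _ => Finset.sum_eq_zero (fun b _ => ?_))
    by_cases h1 : (e x).2 = b
    · subst h1; simp [h]
    · simp [h1]

lemma LC_TP_blk {J : Type} [Fintype J] [DecidableEq J] {α β : J → Type} [∀ j, Fintype (α j)]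
    [∀ j, Fintype (β j)] [∀ j, DecidableEq (β j)] (e : ∀ j, α j ≃ ZMod 2 × β j) {s : ℝ}
    (h : Tc J s) :
    LC (TP (fun j => blk (e j) (fun _ => cM))) (s * Fintype.card (∀ j, α j)) := by
  have h1 := LC.batch (δ := ∀ j, β j) (fun _ => GG J) (fun _ => s * 2 ^ Fintype.card J)
    (fun _ => h)
  have h2 := h1.submatrix
    (fun x : ∀ j, α j => ((fun j => (e j (x j)).2), (fun j => (e j (x j)).1)))
    (fun x : ∀ j, α j => ((fun j => (e j (x j)).2), (fun j => (e j (x j)).1)))
    (fun x y hxy => by
      simp only [Prod.mk.injEq] at hxy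
      funext j
      exact (e j).injective (Prod.ext (congrFun hxy.2 j) (congrFun hxy.1 j)))
  have hc : (Fintype.card (∀ j, α j) : ℝ) = 2 ^ Fintype.card J * Fintype.card (∀ j, β j) := by
    simp only [Fintype.card_pi]
    have : ∀ j, Fintype.card (α j) = 2 * Fintype.card (β j) := fun j => by
      rw [Fintype.card_congr (e j)]; simp
    simp [this, Finset.prod_mul_distrib]
  convert h2 using 1
  · ext x y
    simp only [TP, blk, GG, Matrix.of_apply, Matrix.submatrix_apply]
    split_ifs with hh
    · refine Finset.prod_congr rfl (fun j _ => ?_)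
      rw [if_pos (congrFun hh j)]
    · obtain ⟨j, hj⟩ : ∃ j, (e j (x j)).2 ≠ (e j (y j)).2 := by
        by_contra hc
        push Not at hc
        exact hh (funext hc)
      exact Finset.prod_eq_zero (Finset.mem_univ j) (by simp [hj])
  · rw [hc]; simp; ring

/-- subadditivity -/
lemma Tc.sum {J K : Type} [Fintype J] [DecidableEq J] [Fintype K] [DecidableEq K] {s t : ℝ}
    (hJ : LC (Matrix.of fun (p q : (K → ZMod 2) × (J → ZMod 2)) =>
      if p.1 = q.1 then GG J p.2 q.2 else 0) (s * 2 ^ (Fintype.card J + Fintype.card K)))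
    (hK : Tc K t) : Tc (J ⊕ K) (s + t) := by
  have h1 := LC.batch (δ := J → ZMod 2) (fun _ => GG K) (fun _ => t * 2 ^ Fintype.card K)
    (fun _ => hK)
  have h2 := h1.submatrix (Prod.swap : (K → ZMod 2) × (J → ZMod 2) → _) Prod.swap
    Prod.swap_injective
  have h3 := (h2.mul hJ).submatrix
    (fun x : J ⊕ K → ZMod 2 => (x ∘ Sum.inr, x ∘ Sum.inl))
    (fun x : J ⊕ K → ZMod 2 => (x ∘ Sum.inr, x ∘ Sum.inl))
    (fun x y hxy => by
      simp only [Prod.mk.injEq] at hxy
      funext j
      rcases j with j | j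
      · exact congrFun hxy.2 j
      · exact congrFun hxy.1 j)
  unfold Tc
  convert h3 using 1
  · ext x y
    simp only [Matrix.submatrix_apply, Matrix.mul_apply, Matrix.of_apply, Fintype.sum_prod_type,
      Prod.swap, ite_mul, zero_mul, Finset.sum_ite_eq, Finset.mem_univ, if_true, mul_ite,
      mul_zero, Finset.sum_ite_eq']
    rw [Finset.sum_eq_single (y ∘ Sum.inr)]
    · simp [GG, TP, Fintype.prod_sum_type, mul_comm]
    · intro b _ hb; simp [hb]
    · simp
  · simp; ring

lemma Tc.sum' {J K : Type} [Fintype J] [DecidableEq J] [Fintype K] [DecidableEq K] {s t : ℝ}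
    (hJ : Tc J s) (hK : Tc K t) : Tc (J ⊕ K) (s + t) := by
  refine Tc.sum ?_ hK
  have h1 := LC.batch (δ := K → ZMod 2) (fun _ => GG J) (fun _ => s * 2 ^ Fintype.card J)
    (fun _ => hJ)
  refine h1.mono (le_of_eq ?_)
  simp; ring

lemma Tc_fin_add {j k : ℕ} {s t : ℝ} (hJ : Tc (Fin j) s) (hK : Tc (Fin k) t) :
    Tc (Fin (j + k)) (s + t) := (hJ.sum' hK).equiv finSumFinEquiv

lemma Tc_fin (k : ℕ) : Tc (Fin k) (4 * k) := by
  induction k with
  | zero =>
    have : GG (Fin 0) = Matrix.of fun b a => if a = id b then (1 : ℂ) else 0 := by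
      ext x y; simp [GG, TP, Subsingleton.elim y x]
    unfold Tc
    rw [this]
    simpa using LC.sel (α := Fin 0 → ZMod 2) id
  | succ k ih =>
    have h1 : Tc (Fin 1) 4 := (LC.any _).mono (by simp; norm_num)
    have := Tc_fin_add ih h1
    exact this.mono (by push_cast; linarith)

end Crest.Agent.H9.FC
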