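import Crest.Agent.H9.LpCore

set_option autoImplicit false

open MeasureTheory
open scoped ENNReal

namespace Crest.Agent.H9.Lp

open Real

/-- The localisation statement (part 1). -/
def Part1 : Prop := ∀ (p : ℝ) (_ : 1 < p) (_ : p ≠ 2) (ε : ℝ) (_ : 0 < ε),
  ∃ C : ℝ, 0 < C ∧ ∀ n : ℕ, 2 ≤ n → ∀ d : Fin n → Fin n → ℝ, (∀ a b, a ≠ b → 0 < d a b) →
    (∀ a b, d a b = d b a) → ∀ (Ω : Type) [Fintype Ω] (φ : Ω → Fin n → ℝ),
    (∀ a b, a ≠ b → ∑ ω, |(φ ω a - φ ω b) / d a b| ^ p = 1) →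
    ∀ Q : ℝ, Q = Real.exp (C * Real.log n ^ (if p < 2 then 2 - p else 1 - 2 / p)) →
    ∃ (m : ℕ) (ν : Fin m → ℝ) (h : Fin m → Fin n → ℝ) (Γ : ℝ), (∀ i, 0 ≤ ν i ∧ ν i ≤ Q) ∧
      1 / Q ≤ Γ ∧ ∀ a b, a ≠ b → (1 - ε) * Γ ≤ ∑ i, ν i * |(h i a - h i b) / d a b| ^ p ∧
        ∑ i, ν i * |(h i a - h i b) / d a b| ^ p ≤ (1 + ε) * Γ ∧
        (∀ i, |(h i a - h i b) / d a b| ≤ 1) ∧ ∑ i, ν i * |(h i a - h i b) / d a b| ≤ Q

theorem assemble (H : Part1)
    (p : ℝ≥0∞) [Fact (1 ≤ p)] (hp1 : 1 < p) (hptop : p ≠ ⊤) (hp2 : p ≠ 2)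
    (D : ℝ) (hD : 1 < D) :
    ∃ C : ℝ, ∀ (n : ℕ), 2 ≤ n →
      ∀ (α : Type*) [MeasurableSpace α] (μ : Measure α) (x : Fin n → Lp ℝ p μ),
        Function.Injective x →
        ∃ d : ℕ, (d : ℝ) ≤ Real.exp (C * Real.log n ^
            (if p.toReal < 2 then 2 - p.toReal else 1 - 2 / p.toReal)) ∧
          ∃ (y : Fin n → PiLp p (fun _ : Fin d => ℝ)) (s : ℝ), 0 < s ∧
            ∀ i j, s * ‖x i - x j‖ ≤ ‖y i - y j‖ ∧ ‖y i - y j‖ ≤ D * s * ‖x i - x j‖ := by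
  have hP := one_lt_toReal hp1 hptop
  have hP2 := toReal_ne_two hptop hp2
  set P := p.toReal with hPdef
  have hP0 : 0 < P := by linarith
  have hγ : 0 < (if P < 2 then 2 - P else 1 - 2 / P) := by
    split_ifs with h
    · linarith
    · have : 2 < P := lt_of_le_of_ne (not_lt.1 h) hP2.symm
      rw [sub_pos, div_lt_one hP0]; exact this
  set γ := (if P < 2 then 2 - P else 1 - 2 / P) with hγdef
  set ρ := D ^ (P / 2) with hρ
  have hρ1 : 1 < ρ := one_lt_rpow hD (by linarith)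
  have hρ2 : ρ * ρ = D ^ P := by rw [hρ, ← rpow_add (by linarith)]; congr 1; ring
  set θ := (ρ - 1) / (ρ + 1) with hθ
  have hθ0 : 0 < θ := div_pos (by linarith) (by linarith)
  have hθ1 : θ < 1 := by rw [hθ, div_lt_one (by linarith)]; linarith
  have hθρ : 1 + θ = ρ * (1 - θ) := by rw [hθ]; field_simp; ring
  obtain ⟨C1, hC1, H1⟩ := H P hP hP2 (θ / 4) (by linarith)
  obtain ⟨C, hC⟩ := finite_dim hP hγ (ε := θ / 4) (by linarith) (by linarith) hC1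
  refine ⟨C, fun n hn α _ μ x hx => ?_⟩
  have hz : ∀ a b, a ≠ b → 0 < ‖x a - x b‖ ^ P := by
    intro a b hab
    have : x a - x b ≠ 0 := sub_ne_zero.2 (hx.ne hab)
    have := norm_pos_iff.2 this
    positivity
  obtain ⟨η, hη0, hη⟩ : ∃ η : ℝ, 0 < η ∧ ∀ a b, a ≠ b → η ≤ θ * ‖x a - x b‖ ^ P := by
    have : Nonempty (Fin n × Fin n) := ⟨(⟨0, by omega⟩, ⟨0, by omega⟩)⟩
    obtain ⟨e, he⟩ := Finite.exists_min (fun e : Fin n × Fin n =>
      if e.1 = e.2 then (1:ℝ) else θ * ‖x e.1 - x e.2‖ ^ P)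
    refine ⟨_, ?_, fun a b hab => by simpa [hab] using he (a, b)⟩
    split_ifs with h
    · exact one_pos
    · exact mul_pos hθ0 (hz _ _ h)
  obtain ⟨Ω, _, φ, hφ⟩ := finite_model hp1 hptop x hη0
  rw [← hPdef] at hφ
  set z' : Fin n → Fin n → ℝ := fun a b => ∑ ω, |φ ω a - φ ω b| ^ P with hz'
  have hz'1 : ∀ a b, a ≠ b → (1 - θ) * ‖x a - x b‖ ^ P ≤ z' a b ∧
      z' a b ≤ (1 + θ) * ‖x a - x b‖ ^ P := by
    intro a b hab
    have h1 := abs_lt.1 (hφ a b)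
    have h2 := hη a b hab
    constructor <;> simp only [hz'] <;> linarith
  have hz'0 : ∀ a b, a ≠ b → 0 < z' a b := fun a b hab =>
    lt_of_lt_of_le (mul_pos (by linarith) (hz a b hab)) (hz'1 a b hab).1
  set d : Fin n → Fin n → ℝ := fun a b => z' a b ^ (1 / P) with hd
  have hd0 : ∀ a b, a ≠ b → 0 < d a b := fun a b hab => rpow_pos_of_pos (hz'0 a b hab) _
  have hdP : ∀ a b, a ≠ b → d a b ^ P = z' a b := by
    intro a b hab
    simp only [hd]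
    rw [← rpow_mul (hz'0 a b hab).le, one_div_mul_cancel hP0.ne', rpow_one]
  have hslope : ∀ a b, a ≠ b → ∀ t : ℝ, |t / d a b| ^ P = |t| ^ P / z' a b := by
    intro a b hab t
    rw [abs_div, div_rpow (abs_nonneg _) (abs_nonneg _), abs_of_pos (hd0 a b hab), hdP a b hab]
  obtain ⟨m, ν, h, Γ, hν, hΓ, hab⟩ := H1 n hn d hd0
    (by intro a b; simp only [hd, hz', abs_sub_comm]) Ω φ
    (by
      intro a b hab
      simp only [hslope a b hab, ← Finset.sum_div]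
      exact div_self (hz'0 a b hab).ne') _ rfl
  obtain ⟨N, hN, y, σ, hσ, hy⟩ := hC n hn d _ rfl m ν h Γ hν hΓ hab
  have hs0 : 0 < (1 - θ) * (1 - θ) * σ := by
    have : 0 < 1 - θ := by linarith
    positivity
  refine ⟨N, hN, fun a => WithLp.toLp p (fun r => y r a), ((1 - θ) * (1 - θ) * σ) ^ (1 / P),
    rpow_pos_of_pos hs0 _, fun a b => ?_⟩
  by_cases hab' : a = b
  · subst hab'; simp
  set s := ((1 - θ) * (1 - θ) * σ) ^ (1 / P) with hs
  have hspos : 0 < s := rpow_pos_of_pos hs0 _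
  have hsP : s ^ P = (1 - θ) * (1 - θ) * σ := by
    rw [hs, ← rpow_mul hs0.le, one_div_mul_cancel hP0.ne', rpow_one]
  have hnorm := piLp_norm_rpow hp1 hptop
    ((WithLp.toLp p (fun r => y r a) : PiLp p (fun _ : Fin N => ℝ)) - WithLp.toLp p (fun r => y r b))
  rw [← hPdef] at hnorm
  simp only [PiLp.sub_apply] at hnorm
  obtain ⟨h1, h2⟩ := hy a b hab'
  simp only [hslope a b hab', ← Finset.sum_div] at h1 h2
  rw [← hnorm] at h1 h2
  have hzab := hz'0 a b hab'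
  rw [le_div_iff₀ hzab] at h1
  rw [div_le_iff₀ hzab] at h2
  obtain ⟨h3, h4⟩ := hz'1 a b hab'
  have e4 : 4 * (θ / 4) = θ := by ring
  rw [e4] at h1 h2
  have hθ' : 0 < 1 - θ := by linarith
  constructor
  · rw [← rpow_le_rpow_iff (by positivity) (norm_nonneg _) hP0,
      mul_rpow hspos.le (norm_nonneg _), hsP]
    refine le_trans ?_ h1
    have := mul_le_mul_of_nonneg_left h3 (mul_pos hθ' hσ).le
    linarith
  · rw [← rpow_le_rpow_iff (norm_nonneg _) (by positivity) hP0,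
      mul_rpow (by positivity) (norm_nonneg _), mul_rpow (by positivity) hspos.le, hsP, ← hρ2]
    refine h2.trans ?_
    have := mul_le_mul_of_nonneg_left h4 (by positivity : 0 ≤ (1 + θ) * σ)
    refine this.trans (le_of_eq ?_)
    rw [hθρ]; ring

end Crest.Agent.H9.Lp
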