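import Mathlib

set_option autoImplicit false

open MeasureTheory
open scoped ENNReal

namespace Crest.Agent.H9.Lp

theorem one_lt_toReal {p : ℝ≥0∞} (hp1 : 1 < p) (hptop : p ≠ ⊤) : 1 < p.toReal := by
  have := (ENNReal.toReal_lt_toReal (by simp) hptop).2 hp1
  simpa using this

theorem toReal_ne_two {p : ℝ≥0∞} (hptop : p ≠ ⊤) (hp2 : p ≠ 2) : p.toReal ≠ 2 := by
  intro h
  apply hp2
  have : p = ENNReal.ofReal p.toReal := (ENNReal.ofReal_toReal hptop).symm
  rw [this, h]; simp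

/-- `p`-th power of the distance in `L^p` as an integral. -/
theorem norm_sub_rpow {α : Type*} [MeasurableSpace α] {μ : Measure α} {p : ℝ≥0∞} [Fact (1 ≤ p)]
    (hp1 : 1 < p) (hptop : p ≠ ⊤) (f g : Lp ℝ p μ) :
    Integrable (fun ω => |f ω - g ω| ^ p.toReal) μ ∧
      ‖f - g‖ ^ p.toReal = ∫ ω, |f ω - g ω| ^ p.toReal ∂μ := by
  have hp0 : p ≠ 0 := (lt_trans zero_lt_one hp1).ne'
  have hP := one_lt_toReal hp1 hptop
  have hae : (fun ω => ‖(f - g) ω‖ ^ p.toReal) =ᵐ[μ] fun ω => |f ω - g ω| ^ p.toReal := by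
    filter_upwards [Lp.coeFn_sub f g] with ω hω
    rw [hω]; simp
  have hm := Lp.memLp (f - g)
  refine ⟨(hm.integrable_norm_rpow hp0 hptop).congr hae, ?_⟩
  rw [← integral_congr_ae hae, Lp.norm_def, hm.eLpNorm_eq_integral_rpow_norm hp0 hptop,
    ENNReal.toReal_ofReal (by positivity), ← Real.rpow_mul (by positivity),
    inv_mul_cancel₀ (by positivity), Real.rpow_one]

theorem piLp_norm_rpow {ι : Type*} [Fintype ι] {p : ℝ≥0∞} [Fact (1 ≤ p)]
    (hp1 : 1 < p) (hptop : p ≠ ⊤) (y : PiLp p (fun _ : ι => ℝ)) :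
    ‖y‖ ^ p.toReal = ∑ i, |y i| ^ p.toReal := by
  have hP := one_lt_toReal hp1 hptop
  rw [PiLp.norm_eq_sum (by positivity), ← Real.rpow_mul (by positivity),
    one_div_mul_cancel (by positivity), Real.rpow_one]
  simp

end Crest.Agent.H9.Lp
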