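import Crest.Agent.H9.LpBasic

set_option autoImplicit false

open MeasureTheory
open scoped ENNReal

namespace Crest.Agent.H9.Lp

/-- Step (0): the `p`-th powers of the distances of finitely many points of `L^p` are approximated
by those of a finite model. -/
theorem finite_model {α : Type*} [MeasurableSpace α] {μ : Measure α} {p : ℝ≥0∞} [Fact (1 ≤ p)]
    (hp1 : 1 < p) (hptop : p ≠ ⊤) {n : ℕ} (x : Fin n → Lp ℝ p μ) {η : ℝ} (hη : 0 < η) :
    ∃ (Ω : Type) (_ : Fintype Ω) (φ : Ω → Fin n → ℝ), ∀ a b,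
      |∑ ω, |φ ω a - φ ω b| ^ p.toReal - ‖x a - x b‖ ^ p.toReal| < η := by
  classical
  have hP := one_lt_toReal hp1 hptop
  set P := p.toReal with hPdef
  let F : (Fin n → ℝ) → (Fin n × Fin n → ℝ) := fun φ e => |φ e.1 - φ e.2| ^ P
  have hFs : ∀ (c : ℝ) (φ : Fin n → ℝ), 0 ≤ c → F (c ^ (1 / P) • φ) = c • F φ := by
    intro c φ hc
    ext e
    simp only [F, Pi.smul_apply, smul_eq_mul]
    rw [← mul_sub, abs_mul, Real.mul_rpow (abs_nonneg _) (abs_nonneg _),
      abs_of_nonneg (by positivity), ← Real.rpow_mul hc, one_div_mul_cancel (by linarith),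
      Real.rpow_one]
  let z : Fin n × Fin n → ℝ := fun e => ‖x e.1 - x e.2‖ ^ P
  have hz : z ∈ closure (convexHull ℝ (Set.range F)) := by
    by_contra hcon
    obtain ⟨f, u, hfu, hf⟩ := geometric_hahn_banach_point_closed
      (convex_convexHull ℝ _).closure isClosed_closure hcon
    have hmem : ∀ φ, u < f (F φ) := fun φ =>
      hf _ (subset_closure (subset_convexHull ℝ _ ⟨φ, rfl⟩))
    have hu : u < 0 := by
      have := hmem ((0:ℝ) ^ (1 / P) • (0 : Fin n → ℝ))
      rw [hFs 0 _ le_rfl] at this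
      simpa using this
    have hpos : ∀ φ, 0 ≤ f (F φ) := by
      intro φ
      by_contra hneg
      push Not at hneg
      have hc : 0 ≤ u / f (F φ) := div_nonneg_of_nonpos hu.le hneg.le
      have := hmem ((u / f (F φ)) ^ (1 / P) • φ)
      rw [hFs _ _ hc, map_smul, smul_eq_mul, div_mul_cancel₀ _ hneg.ne] at this
      exact lt_irrefl _ this
    have hexp : ∀ w : Fin n × Fin n → ℝ,
        f w = ∑ e, w e * f (fun j => if e = j then 1 else 0) := by
      intro w
      have := LinearMap.pi_apply_eq_sum_univ (f : (Fin n × Fin n → ℝ) →ₗ[ℝ] ℝ) w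
      simpa using this
    have hint : f z = ∫ ω, f (F (fun a => x a ω)) ∂μ := by
      simp only [hexp (F _), hexp z]
      rw [integral_finsetSum]
      · refine Finset.sum_congr rfl fun e _ => ?_
        rw [integral_mul_const]
        simp only [z, F]
        rw [(norm_sub_rpow hp1 hptop (x e.1) (x e.2)).2]
      · intro e _
        exact (norm_sub_rpow hp1 hptop (x e.1) (x e.2)).1.mul_const _
    have : 0 ≤ f z := by
      rw [hint]
      exact integral_nonneg fun ω => hpos (fun a => x a ω)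
    linarith
  obtain ⟨w, hw, hdist⟩ := Metric.mem_closure_iff.1 hz η hη
  obtain ⟨ι, _, c, v, hc0, -, hv, hsum⟩ := mem_convexHull_iff_exists_fintype.1 hw
  choose φ hφ using hv
  refine ⟨ι, inferInstance, fun i => c i ^ (1 / P) • φ i, fun a b => ?_⟩
  have h1 : ∑ i, |(c i ^ (1 / P) • φ i) a - (c i ^ (1 / P) • φ i) b| ^ P = w (a, b) := by
    rw [← hsum, Finset.sum_apply]
    refine Finset.sum_congr rfl fun i _ => ?_
    have := congrFun (hFs (c i) (φ i) (hc0 i)) (a, b)
    rw [hφ] at this
    exact this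
  rw [h1]
  have h2 := (dist_le_pi_dist z w (a, b)).trans_lt hdist
  rw [Real.dist_eq, abs_sub_comm] at h2
  exact h2

end Crest.Agent.H9.Lp
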