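import Crest.Agent.H9.LpMerge
import Crest.Agent.H9.LpRed

set_option autoImplicit false

namespace Crest.Agent.H9.Lp

open Real

theorem core {P : ℝ} (hP : 1 < P) : ∃ A : ℝ, 1 ≤ A ∧
    ∀ (V E : Type) [AddCommGroup V] [Fintype E] (ℓ : E → V → ℝ),
      (∀ e a b, ℓ e (a + b) = ℓ e a + ℓ e b) → (∀ e, ℓ e 0 = 0) →
      ∀ (m : ℕ) (θ : Fin m → ℝ) (h : Fin m → V) (ζ τ K : ℝ) (d : ℕ),
      (∀ i, 0 ≤ θ i ∧ θ i ≤ 1) → (∀ e i, |ℓ e (h i)| ≤ 1) → 0 < ζ → ζ ≤ 1 / 2 →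
      (∀ e, ∑ i, θ i * |ℓ e (h i)| ≤ ζ ^ 2) → 0 < τ → τ ≤ 1 → 1 ≤ K →
      ζ ^ 2 * (A * (ζ ^ (P - 1) + ζ)) ≤ τ → A * Fintype.card E * exp (-K / 2) ≤ τ →
      4 * (K ^ P) ^ 2 * log (2 * Fintype.card E) ≤ d * τ ^ 2 →
      ∃ y : Fin d → V, ∀ e,
        |∑ r, |ℓ e (y r)| ^ P - d * ∑ i, θ i * |ℓ e (h i)| ^ P| ≤ d * (3 * τ) := by
  obtain ⟨A1, hA1, hA1x⟩ := rpow_le_exp_half (q := P) (by linarith)
  obtain ⟨A2, hA2, hA2x⟩ := split_le (q := P - 1) (by linarith)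
  set C := P * 2 ^ (P - 1) + 1 with hC
  have hC0 : 0 ≤ C := by positivity
  refine ⟨3 * A1 + C * (1 + 4 * A2), by nlinarith, ?_⟩
  intro V E _ _ ℓ hadd h0 m θ h ζ τ K d hθ hh hζ0 hζ hsum hτ0 hτ hK hA hA' hd
  obtain ⟨T, _, w, φ, hw0, hw1, hT⟩ := merge ℓ hadd h0 (P := P) (a := C * (ζ ^ (P - 1) + ζ))
    (b := C * (A2 / ζ)) (δ := ζ ^ 2) (by linarith) (by positivity) (by nlinarith) (by
      intro s z hz
      refine (defect_le hP hz).trans ?_
      have := hA2x ζ |s| hζ0 (by linarith) (abs_nonneg s)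
      calc C * (|z| * (|s| ^ (P - 1) + |s|)) ≤
          C * (|z| * (ζ ^ (P - 1) + ζ + A2 / ζ * (exp |s| - 1))) := by gcongr
        _ = _ := by ring) m θ h hθ hh hsum
  have hM : ∀ e, ∑ t, w t * exp |ℓ e (φ t)| ≤ 3 := by
    intro e
    refine (hT e).1.trans ?_
    have h1 : exp (2 * ∑ i, θ i * |ℓ e (h i)|) ≤ exp 1 := by
      apply exp_le_exp.2
      have := hsum e
      nlinarith
    have := Real.exp_one_lt_d9
    linarith
  obtain ⟨ψ, hψ1, hψ2⟩ := truncate ℓ h0 (P := P) (K := K) (by linarith) (by linarith)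
    (by linarith) hA1x w φ hw0 hM
  obtain ⟨t, ht⟩ := sample w hw0 hw1 (fun e s => |ℓ e (ψ s)| ^ P) (b := K ^ P)
    (one_le_rpow hK (by linarith)) hτ0 hτ
    (fun e s => ⟨by positivity, rpow_le_rpow (abs_nonneg _) (hψ1 e s) (by linarith)⟩) d hd
  refine ⟨fun r => ψ (t r), fun e => ?_⟩
  have a1 := ht e
  have a2 : |∑ t, w t * |ℓ e (ψ t)| ^ P - ∑ t, w t * |ℓ e (φ t)| ^ P| ≤ τ := by
    refine (hψ2 e).trans (le_trans ?_ hA')
    have h1 : 0 ≤ (Fintype.card E : ℝ) * exp (-K / 2) := by positivity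
    have h2 : 0 ≤ C * (1 + 4 * A2) := by positivity
    nlinarith
  have a3 : |∑ t, w t * |ℓ e (φ t)| ^ P - ∑ i, θ i * |ℓ e (h i)| ^ P| ≤ τ := by
    refine (hT e).2.trans (le_trans ?_ hA)
    have e1 : 4 * (C * (A2 / ζ)) * ζ ^ 2 = 4 * C * A2 * ζ := by field_simp
    rw [e1]
    have h1 : 0 ≤ ζ ^ (P - 1) := by positivity
    have h2 : C * (ζ ^ (P - 1) + ζ) + 4 * C * A2 * ζ ≤
        (3 * A1 + C * (1 + 4 * A2)) * (ζ ^ (P - 1) + ζ) := by
      have h3 : 0 ≤ C * A2 * ζ ^ (P - 1) := by positivity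
      have h4 : 0 ≤ A1 * (ζ ^ (P - 1) + ζ) := by positivity
      nlinarith
    exact mul_le_mul (hsum e) h2 (by positivity) (by positivity)
  have hd0 : (0:ℝ) ≤ d := Nat.cast_nonneg d
  have a4 : |∑ t, w t * |ℓ e (ψ t)| ^ P - ∑ i, θ i * |ℓ e (h i)| ^ P| ≤ 2 * τ := by
    have := abs_sub_le (∑ t, w t * |ℓ e (ψ t)| ^ P) (∑ t, w t * |ℓ e (φ t)| ^ P)
      (∑ i, θ i * |ℓ e (h i)| ^ P)
    linarith
  have a5 := mul_le_mul_of_nonneg_left a4 hd0
  rw [← abs_of_nonneg hd0, ← abs_mul, abs_of_nonneg hd0, mul_sub] at a5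
  have := abs_sub_le (∑ r, |ℓ e (ψ (t r))| ^ P) (d * ∑ t, w t * |ℓ e (ψ t)| ^ P)
    (d * ∑ i, θ i * |ℓ e (h i)| ^ P)
  linarith

/-- growth at most `exp (c * u n)` -/
def Tame (u f : ℕ → ℝ) : Prop := ∃ c : ℝ, 0 ≤ c ∧ ∀ n, 2 ≤ n → |f n| ≤ exp (c * u n)

section tame

variable {u : ℕ → ℝ} {u0 : ℝ}

theorem Tame.mul {f g : ℕ → ℝ} (hf : Tame u f) (hg : Tame u g) : Tame u (fun n => f n * g n) := by
  obtain ⟨c1, h1, hf⟩ := hf
  obtain ⟨c2, h2, hg⟩ := hg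
  refine ⟨c1 + c2, by linarith, fun n hn => ?_⟩
  rw [abs_mul, add_mul, exp_add]
  exact mul_le_mul (hf n hn) (hg n hn) (abs_nonneg _) (exp_pos _).le

theorem Tame.const (hu0 : 0 < u0) (hu : ∀ n, 2 ≤ n → u0 ≤ u n) (A : ℝ) :
    Tame u (fun _ => A) := by
  refine ⟨|A| / u0, by positivity, fun n hn => ?_⟩
  have h1 := add_one_le_exp (|A| / u0 * u n)
  have h2 : |A| ≤ |A| / u0 * u n := by
    rw [div_mul_eq_mul_div, le_div_iff₀ hu0]
    exact mul_le_mul_of_nonneg_left (hu n hn) (abs_nonneg _)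
  linarith

theorem Tame.add (hu0 : 0 < u0) (hu : ∀ n, 2 ≤ n → u0 ≤ u n) {f g : ℕ → ℝ} (hf : Tame u f)
    (hg : Tame u g) : Tame u (fun n => f n + g n) := by
  obtain ⟨c1, h1, hf⟩ := hf
  obtain ⟨c2, h2, hg⟩ := hg
  obtain ⟨c3, h3, hc⟩ := Tame.const hu0 hu 2
  refine ⟨c3 + (c1 + c2), by linarith, fun n hn => ?_⟩
  have hun : 0 ≤ u n := hu0.le.trans (hu n hn)
  have a1 : exp (c1 * u n) ≤ exp ((c1 + c2) * u n) := exp_le_exp.2 (by nlinarith)
  have a2 : exp (c2 * u n) ≤ exp ((c1 + c2) * u n) := exp_le_exp.2 (by nlinarith)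
  have a3 := hc n hn
  rw [abs_two] at a3
  rw [add_mul c3, exp_add]
  have := abs_add_le (f n) (g n)
  have := hf n hn
  have := hg n hn
  have := exp_pos ((c1 + c2) * u n)
  nlinarith

theorem Tame.rpow {f : ℕ → ℝ} (hf : Tame u f) {q : ℝ} (hq : 0 ≤ q) :
    Tame u (fun n => f n ^ q) := by
  obtain ⟨c1, h1, hf⟩ := hf
  refine ⟨c1 * q, by positivity, fun n hn => ?_⟩
  refine (abs_rpow_le_abs_rpow _ _).trans ?_
  refine (rpow_le_rpow (abs_nonneg _) (hf n hn) hq).trans ?_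
  rw [← exp_mul]; apply le_of_eq; congr 1; ring

theorem Tame.exp {c : ℝ} (hc : 0 ≤ c) : Tame u (fun n => exp (c * u n)) :=
  ⟨c, hc, fun n _ => by rw [abs_of_pos (exp_pos _)]⟩

theorem Tame.self (hu0 : 0 < u0) (hu : ∀ n, 2 ≤ n → u0 ≤ u n) : Tame u u := by
  refine ⟨1, zero_le_one, fun n hn => ?_⟩
  rw [abs_of_nonneg (hu0.le.trans (hu n hn)), one_mul]
  have := add_one_le_exp (u n)
  linarith

theorem Tame.logn {γ : ℝ} (hγ : 0 < γ) : Tame (fun n => log n ^ γ) (fun n => log n) := by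
  refine ⟨1 / γ, by positivity, fun n hn => ?_⟩
  have hn' : (1:ℝ) < n := by exact_mod_cast hn
  have hk : 0 < log n := log_pos hn'
  rw [abs_of_pos hk]
  have h1 := Real.log_le_rpow_div hk.le hγ
  calc log n = Real.exp (log (log n)) := (exp_log hk).symm
    _ ≤ _ := by apply exp_le_exp.2; rw [one_div_mul_eq_div]; exact h1

end tame

/-- The dimension bound in the finite model, given the localisation statement. -/
theorem finite_dim {P γ : ℝ} (hP : 1 < P) (hγ : 0 < γ) {ε : ℝ} (hε : 0 < ε) (hε1 : ε ≤ 1)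
    {C1 : ℝ} (hC1 : 0 < C1) :
    ∃ C : ℝ, ∀ n : ℕ, 2 ≤ n → ∀ d : Fin n → Fin n → ℝ, ∀ Q : ℝ, Q = exp (C1 * log n ^ γ) →
      ∀ (m : ℕ) (ν : Fin m → ℝ) (h : Fin m → Fin n → ℝ) (Γ : ℝ), (∀ i, 0 ≤ ν i ∧ ν i ≤ Q) →
      1 / Q ≤ Γ → (∀ a b, a ≠ b → (1 - ε) * Γ ≤ ∑ i, ν i * |(h i a - h i b) / d a b| ^ P ∧
        ∑ i, ν i * |(h i a - h i b) / d a b| ^ P ≤ (1 + ε) * Γ ∧
        (∀ i, |(h i a - h i b) / d a b| ≤ 1) ∧ ∑ i, ν i * |(h i a - h i b) / d a b| ≤ Q) →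
      ∃ N : ℕ, (N : ℝ) ≤ exp (C * log n ^ γ) ∧ ∃ (y : Fin N → Fin n → ℝ) (σ : ℝ), 0 < σ ∧
        ∀ a b, a ≠ b → (1 - 4 * ε) * σ ≤ ∑ r, |(y r a - y r b) / d a b| ^ P ∧
          ∑ r, |(y r a - y r b) / d a b| ^ P ≤ (1 + 4 * ε) * σ := by
  obtain ⟨A, hA, hcore⟩ := core hP
  set u : ℕ → ℝ := fun n => log n ^ γ with hudef
  set u0 := log 2 ^ γ with hu0def
  have hl2 : 0 < log 2 := log_pos (by norm_num)
  have hu0 : 0 < u0 := by positivity
  have hu : ∀ n, 2 ≤ n → u0 ≤ u n := by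
    intro n hn
    exact rpow_le_rpow hl2.le (log_le_log (by norm_num) (by exact_mod_cast hn)) hγ.le
  set β := min (P - 1) 1 with hβ
  have hβ0 : 0 < β := lt_min (by linarith) one_pos
  obtain ⟨c0, hc0, hc0x⟩ := Tame.const hu0 hu (2 * A / ε)
  set c2 := (2 * C1 + c0) / β with hc2
  have hc20 : 0 ≤ c2 := by positivity
  set c3 := 2 * c2 + 2 * C1 with hc3
  have hc30 : 0 ≤ c3 := by positivity
  let K : ℕ → ℝ := fun n => 4 * log n + 2 * (log (A / ε) + c3 * u n) + 1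
  let G : ℕ → ℝ := fun n => 4 * (K n ^ P * K n ^ P) * (log 2 + 2 * log n) *
    ((1 / ε * exp (c3 * u n)) * (1 / ε * exp (c3 * u n)))
  have hK : Tame u K := by
    refine Tame.add hu0 hu (Tame.add hu0 hu ((Tame.const hu0 hu 4).mul (Tame.logn hγ))
      ((Tame.const hu0 hu 2).mul (Tame.add hu0 hu (Tame.const hu0 hu _)
        ((Tame.const hu0 hu c3).mul (Tame.self hu0 hu))))) (Tame.const hu0 hu 1)
  have hKP := hK.rpow (q := P) (by linarith)
  have hE := (Tame.const hu0 hu (1 / ε)).mul (Tame.exp (u := u) hc30)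
  have hG : Tame u (fun n => G n + 1) := by
    refine Tame.add hu0 hu ((((Tame.const hu0 hu 4).mul (hKP.mul hKP)).mul
      (Tame.add hu0 hu (Tame.const hu0 hu _) ((Tame.const hu0 hu 2).mul (Tame.logn hγ)))).mul
      (hE.mul hE)) (Tame.const hu0 hu 1)
  obtain ⟨C, -, hC⟩ := hG
  refine ⟨C, fun n hn d Q hQ m ν h Γ hν hΓ hab => ?_⟩
  have hn' : (2:ℝ) ≤ n := by exact_mod_cast hn
  have hk : 0 < log n := log_pos (by linarith)
  have hun : 0 < u n := hu0.trans_le (hu n hn)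
  have hQ' : Q = exp (C1 * u n) := hQ
  have hQ0 : 0 < Q := by rw [hQ']; exact exp_pos _
  have hQ1 : 1 ≤ Q := by rw [hQ']; exact one_le_exp (by positivity)
  set ζ := exp (-(c2 * u n)) with hζ
  have hζ0 : 0 < ζ := exp_pos _
  have hζ1 : ζ ≤ 1 := exp_le_one_iff.2 (by have := mul_nonneg hc20 hun.le; linarith)
  have hζβ : 2 * A * ζ ^ β ≤ ε / Q ^ 2 := by
    have h1 := hc0x n hn
    rw [abs_of_pos (by positivity), div_le_iff₀ hε] at h1
    have e1 : ζ ^ β = exp (-(c0 * u n)) / Q ^ 2 := by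
      rw [hζ, ← exp_mul, hQ', ← exp_nat_mul, ← exp_sub]
      congr 1
      rw [hc2]; field_simp; push_cast; ring
    rw [e1, ← mul_div_assoc]
    gcongr
    rw [exp_neg, ← div_eq_mul_inv, div_le_iff₀ (exp_pos _)]
    linarith
  have hζa : ζ ^ (P - 1) ≤ ζ ^ β := rpow_le_rpow_of_exponent_ge hζ0 hζ1 (min_le_left _ _)
  have hζb : ζ ≤ ζ ^ β := by
    have := rpow_le_rpow_of_exponent_ge hζ0 hζ1 (min_le_right (P - 1) 1)
    simpa using this
  have hεQ : ε / Q ^ 2 ≤ 1 := by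
    rw [div_le_one (by positivity)]; nlinarith
  have hζ2 : ζ ≤ 1 / 2 := by
    have : 0 ≤ ζ ^ β := by positivity
    nlinarith
  set τ := ζ ^ 2 * (ε / Q ^ 2) with hτ
  have hτ0 : 0 < τ := by positivity
  have hτe : τ = ε * exp (-(c3 * u n)) := by
    rw [hτ, hζ, hQ', ← exp_nat_mul, ← exp_nat_mul, mul_div_assoc', mul_comm, mul_div_assoc,
      ← exp_sub]
    congr 2
    rw [hc3]; push_cast; ring
  have hτ1 : τ ≤ 1 := by
    have : ζ ^ 2 ≤ 1 := by nlinarith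
    rw [hτ]; exact mul_le_one₀ this (by positivity) hεQ
  have hlogA : 0 ≤ log (A / ε) := log_nonneg (by rw [le_div_iff₀ hε]; linarith)
  have hK1 : 1 ≤ K n := by
    have := mul_nonneg hc30 hun.le
    simp only [K]; linarith
  have hG0 : 0 < G n := by
    simp only [G]; positivity
  set N := ⌈G n⌉₊ with hN
  have hN0 : (0:ℝ) < N := hG0.trans_le (Nat.le_ceil _)
  have hcard : (Fintype.card (Fin n × Fin n) : ℝ) = exp (2 * log n) := by
    rw [show (2:ℝ) = (2:ℕ) by norm_num, exp_nat_mul, exp_log (by linarith)]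
    simp [sq]
  obtain ⟨y, hy⟩ := hcore (Fin n → ℝ) (Fin n × Fin n) (fun e g => (g e.1 - g e.2) / d e.1 e.2)
    (by intro e a b; simp only [Pi.add_apply]; ring) (by simp) m (fun i => ζ ^ 2 / Q * ν i) h
    ζ τ (K n) N
    (by
      intro i
      have h1 := (hν i).1
      refine ⟨by positivity, ?_⟩
      have h2 : ζ ^ 2 / Q * ν i ≤ ζ ^ 2 / Q * Q := by gcongr; exact (hν i).2
      rw [div_mul_cancel₀ _ hQ0.ne'] at h2
      nlinarith)
    (by
      rintro ⟨a, b⟩ i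
      by_cases hab' : a = b
      · simp [hab']
      · exact (hab a b hab').2.2.1 i)
    hζ0 hζ2
    (by
      rintro ⟨a, b⟩
      by_cases hab' : a = b
      · simp [hab']; positivity
      · simp only [mul_assoc, ← Finset.mul_sum]
        have h2 : ζ ^ 2 / Q * ∑ i, ν i * |(h i a - h i b) / d a b| ≤ ζ ^ 2 / Q * Q := by
          gcongr; exact (hab a b hab').2.2.2
        rwa [div_mul_cancel₀ _ hQ0.ne'] at h2)
    hτ0 hτ1 hK1
    (by
      rw [hτ]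
      gcongr
      nlinarith)
    (by
      rw [hcard, hτe, mul_assoc, ← exp_add]
      have e1 : A = ε * exp (log (A / ε)) := by rw [exp_log (by positivity)]; field_simp
      rw [e1, mul_assoc, ← exp_add]
      gcongr
      simp only [K]
      linarith)
    (by
      have h1 : G n * τ ^ 2 ≤ N * τ ^ 2 := by gcongr; exact Nat.le_ceil _
      refine le_trans (le_of_eq ?_) h1
      rw [log_mul (by norm_num) (by rw [hcard]; positivity), hcard, log_exp, hτe, exp_neg]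
      simp only [G]
      field_simp)
  refine ⟨N, ?_, y, N * (ζ ^ 2 / Q * Γ), ?_, fun a b hab' => ?_⟩
  · have h1 := hC n hn
    have h2 : (N:ℝ) < G n + 1 := Nat.ceil_lt_add_one hG0.le
    exact h2.le.trans ((le_abs_self _).trans h1)
  · have : 0 < Γ := lt_of_lt_of_le (by positivity) hΓ
    positivity
  · have h1 := abs_le.1 (hy (a, b))
    simp only [mul_assoc, ← Finset.mul_sum] at h1
    obtain ⟨h2, h3, -, -⟩ := hab a b hab'
    set S := ∑ i, ν i * |(h i a - h i b) / d a b| ^ P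
    have hm0 : 0 < ζ ^ 2 / Q := by positivity
    have h4 : τ ≤ ε * (ζ ^ 2 / Q * Γ) := by
      have : τ = ε * (ζ ^ 2 / Q * (1 / Q)) := by rw [hτ]; field_simp
      rw [this]; gcongr
    have h5 := mul_le_mul_of_nonneg_left h2 hm0.le
    have h6 := mul_le_mul_of_nonneg_left h3 hm0.le
    set m0 := ζ ^ 2 / Q
    have h7 := mul_le_mul_of_nonneg_left h4 hN0.le
    have h8 := mul_le_mul_of_nonneg_left h5 hN0.le
    have h9 := mul_le_mul_of_nonneg_left h6 hN0.le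
    obtain ⟨h10, h11⟩ := h1
    generalize (∑ r, |(y r a - y r b) / d a b| ^ P) = W at h10 h11 ⊢
    clear_value m0 S τ N
    constructor <;> linarith

end Crest.Agent.H9.Lp
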