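import Crest.Agent.H9.LpBasic

set_option autoImplicit false

open MeasureTheory
open scoped ENNReal

namespace Crest.Agent.H9.Lp

theorem mid_rpow_le {P : ℝ} (hP : 1 ≤ P) {x y : ℝ} (hx : 0 ≤ x) (hy : 0 ≤ y) :
    ((x + y) / 2) ^ P ≤ (x ^ P + y ^ P) / 2 := by
  have := (convexOn_rpow hP).2 (Set.mem_Ici.2 hx) (Set.mem_Ici.2 hy)
    (show (0:ℝ) ≤ 1 / 2 by norm_num) (show (0:ℝ) ≤ 1 / 2 by norm_num) (by norm_num)
  simp only [smul_eq_mul] at this
  have e : (x + y) / 2 = 1 / 2 * x + 1 / 2 * y := by ring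
  rw [e]; linarith

theorem mid_rpow_lt {P : ℝ} (hP : 1 < P) {x y : ℝ} (hx : 0 ≤ x) (hy : 0 ≤ y) (hxy : x ≠ y) :
    ((x + y) / 2) ^ P < (x ^ P + y ^ P) / 2 := by
  have := (strictConvexOn_rpow hP).2 (Set.mem_Ici.2 hx) (Set.mem_Ici.2 hy) hxy
    (show (0:ℝ) < 1 / 2 by norm_num) (show (0:ℝ) < 1 / 2 by norm_num) (by norm_num)
  simp only [smul_eq_mul] at this
  have e : (x + y) / 2 = 1 / 2 * x + 1 / 2 * y := by ring
  rw [e]; linarith

theorem le_mid_rpow {P : ℝ} (hP0 : 0 ≤ P) (hP : P ≤ 1) {x y : ℝ} (hx : 0 ≤ x) (hy : 0 ≤ y) :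
    (x ^ P + y ^ P) / 2 ≤ ((x + y) / 2) ^ P := by
  have := (Real.concaveOn_rpow hP0 hP).2 (Set.mem_Ici.2 hx) (Set.mem_Ici.2 hy)
    (show (0:ℝ) ≤ 1 / 2 by norm_num) (show (0:ℝ) ≤ 1 / 2 by norm_num) (by norm_num)
  simp only [smul_eq_mul] at this
  have e : (x + y) / 2 = 1 / 2 * x + 1 / 2 * y := by ring
  rw [e]; linarith

/-- the antipodal defect -/
noncomputable def anti (P a b : ℝ) : ℝ := (|a| ^ P + |b| ^ P) / 2 - |(a - b) / 2| ^ P

theorem anti_nonneg {P : ℝ} (hP : 1 < P) (a b : ℝ) : 0 ≤ anti P a b := by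
  unfold anti
  have h1 : |(a - b) / 2| ≤ (|a| + |b|) / 2 := by
    rw [abs_div, abs_two]; have := abs_sub a b; linarith
  have h2 := Real.rpow_le_rpow (abs_nonneg _) h1 (by linarith : 0 ≤ P)
  have h3 := mid_rpow_le hP.le (abs_nonneg a) (abs_nonneg b)
  linarith

theorem eq_neg_of_anti {P : ℝ} (hP : 1 < P) {a b : ℝ} (h : anti P a b = 0) : b = -a := by
  unfold anti at h
  have h1 : |(a - b) / 2| ≤ (|a| + |b|) / 2 := by
    rw [abs_div, abs_two]; have := abs_sub a b; linarith
  have h2 := Real.rpow_le_rpow (abs_nonneg _) h1 (by linarith : 0 ≤ P)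
  by_cases hab : |a| = |b|
  · rcases abs_eq_abs.1 hab with h3 | h3
    · subst h3
      have h0 : |(a - a) / 2| ^ P = 0 := by
        simp [Real.zero_rpow (by linarith : P ≠ 0)]
      rw [h0] at h
      have : |a| ^ P = 0 := by linarith
      rw [Real.rpow_eq_zero (abs_nonneg _) (by linarith)] at this
      have : a = 0 := abs_eq_zero.1 this
      simp [this]
    · linarith
  · have h3 := mid_rpow_lt hP (abs_nonneg a) (abs_nonneg b) hab
    linarith

/-- the parallelogram defect -/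
noncomputable def para (P a b : ℝ) : ℝ := |a + b| ^ P + |a - b| ^ P - 2 * |a| ^ P - 2 * |b| ^ P

theorem para_of_mul_eq_zero {P : ℝ} (hP : 0 < P) {a b : ℝ} (h : a * b = 0) : para P a b = 0 := by
  unfold para
  rcases mul_eq_zero.1 h with h | h
  · subst h; simp [Real.zero_rpow hP.ne']; ring
  · subst h; simp [Real.zero_rpow hP.ne']; ring

theorem abs_rpow_eq_sq (P a : ℝ) : |a| ^ P = (a ^ 2) ^ (P / 2) := by
  rw [← sq_abs, ← Real.rpow_natCast, ← Real.rpow_mul (abs_nonneg _)]
  congr 1; push_cast; ring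

theorem para_pos {P : ℝ} (hP : 2 < P) {a b : ℝ} (h : a * b ≠ 0) : 0 < para P a b := by
  unfold para
  have ha : 0 < a ^ 2 := by have := left_ne_zero_of_mul h; positivity
  have hb : 0 < b ^ 2 := by have := right_ne_zero_of_mul h; positivity
  simp only [abs_rpow_eq_sq]
  have hq : 1 < P / 2 := by linarith
  have h1 := mid_rpow_le hq.le (sq_nonneg (a + b)) (sq_nonneg (a - b))
  have e : ((a + b) ^ 2 + (a - b) ^ 2) / 2 = a ^ 2 + b ^ 2 := by ring
  rw [e] at h1
  set s := a ^ 2
  set t := b ^ 2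
  have h2 : s ^ (P / 2) + t ^ (P / 2) < (s + t) ^ (P / 2) := by
    have e1 : ∀ u : ℝ, 0 < u → u ^ (P / 2) = u * u ^ (P / 2 - 1) := by
      intro u hu
      rw [Real.rpow_sub_one hu.ne']; field_simp
    rw [e1 s ha, e1 t hb, e1 (s + t) (by positivity)]
    have k1 : s ^ (P / 2 - 1) < (s + t) ^ (P / 2 - 1) :=
      Real.rpow_lt_rpow ha.le (by linarith) (by linarith)
    have k2 : t ^ (P / 2 - 1) < (s + t) ^ (P / 2 - 1) :=
      Real.rpow_lt_rpow hb.le (by linarith) (by linarith)
    nlinarith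
  linarith

theorem para_neg {P : ℝ} (hP0 : 0 < P) (hP : P < 2) {a b : ℝ} (h : a * b ≠ 0) :
    para P a b < 0 := by
  unfold para
  have ha : 0 < a ^ 2 := by have := left_ne_zero_of_mul h; positivity
  have hb : 0 < b ^ 2 := by have := right_ne_zero_of_mul h; positivity
  simp only [abs_rpow_eq_sq]
  have hq : P / 2 < 1 := by linarith
  have h1 := le_mid_rpow (by linarith : 0 ≤ P / 2) hq.le (sq_nonneg (a + b)) (sq_nonneg (a - b))
  have e : ((a + b) ^ 2 + (a - b) ^ 2) / 2 = a ^ 2 + b ^ 2 := by ring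
  rw [e] at h1
  set s := a ^ 2
  set t := b ^ 2
  have h2 : (s + t) ^ (P / 2) < s ^ (P / 2) + t ^ (P / 2) := by
    have e1 : ∀ u : ℝ, 0 < u → u ^ (P / 2) = u * u ^ (P / 2 - 1) := by
      intro u hu
      rw [Real.rpow_sub_one hu.ne']; field_simp
    rw [e1 s ha, e1 t hb, e1 (s + t) (by positivity)]
    have k1 : (s + t) ^ (P / 2 - 1) < s ^ (P / 2 - 1) :=
      Real.rpow_lt_rpow_of_neg ha (by linarith) (by linarith)
    have k2 : (s + t) ^ (P / 2 - 1) < t ^ (P / 2 - 1) :=
      Real.rpow_lt_rpow_of_neg hb (by linarith) (by linarith)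
    nlinarith
  linarith

theorem sum_para_eq_zero_iff {ι : Type*} [Fintype ι] {P : ℝ} (hP0 : 0 < P) (hP2 : P ≠ 2)
    (u v : ι → ℝ) : ∑ i, para P (u i) (v i) = 0 ↔ ∀ i, u i * v i = 0 := by
  constructor
  · intro h
    rcases lt_or_gt_of_ne hP2 with hP | hP
    · have hle : ∀ i ∈ Finset.univ, para P (u i) (v i) ≤ 0 := by
        intro i _
        by_cases hi : u i * v i = 0
        · exact (para_of_mul_eq_zero hP0 hi).le
        · exact (para_neg hP0 hP hi).le
      intro i
      by_contra hi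
      have := (Finset.sum_eq_zero_iff_of_nonpos hle).1 h i (Finset.mem_univ _)
      exact (para_neg hP0 hP hi).ne this
    · have hle : ∀ i ∈ Finset.univ, 0 ≤ para P (u i) (v i) := by
        intro i _
        by_cases hi : u i * v i = 0
        · exact (para_of_mul_eq_zero hP0 hi).ge
        · exact (para_pos hP hi).le
      intro i
      by_contra hi
      have := (Finset.sum_eq_zero_iff_of_nonneg hle).1 h i (Finset.mem_univ _)
      exact (para_pos hP hi).ne' this
  · intro h
    exact Finset.sum_eq_zero fun i _ => para_of_mul_eq_zero hP0 (h i)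

/-- A scaled isometry on a symmetric set containing zero preserves disjointness of supports. -/
theorem disjoint_iff {α β : Type*} [Fintype α] [Fintype β] {P c : ℝ} (hP : 1 < P) (hP2 : P ≠ 2)
    (hc : 0 < c) (A : Set (α → ℝ)) (h0 : (0 : α → ℝ) ∈ A) (hneg : ∀ u ∈ A, -u ∈ A)
    (Y : (α → ℝ) → β → ℝ) (hY0 : Y 0 = 0)
    (hY : ∀ u ∈ A, ∀ v ∈ A, ∑ b, |Y u b - Y v b| ^ P = c * ∑ a, |u a - v a| ^ P)
    {u v : α → ℝ} (hu : u ∈ A) (hv : v ∈ A) :
    (∀ b, Y u b * Y v b = 0) ↔ ∀ a, u a * v a = 0 := by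
  have hN : ∀ u ∈ A, ∑ b, |Y u b| ^ P = c * ∑ a, |u a| ^ P := by
    intro u hu
    simpa [hY0] using hY u hu 0 h0
  have hodd : ∀ u ∈ A, ∀ b, Y (-u) b = - Y u b := by
    intro u hu b
    have h1 : ∑ b, anti P (Y u b) (Y (-u) b) = 0 := by
      have e1 : ∀ x : ℝ, |x / 2| ^ P = |x| ^ P / 2 ^ P := by
        intro x
        rw [abs_div, abs_two, Real.div_rpow (abs_nonneg _) (by norm_num)]
      simp only [anti, e1, Finset.sum_sub_distrib, ← Finset.sum_div, Finset.sum_add_distrib]
      rw [hN u hu, hN _ (hneg u hu), hY u hu _ (hneg u hu)]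
      have e2 : ∀ x : ℝ, |x - -x| ^ P = 2 ^ P * |x| ^ P := by
        intro x
        rw [← Real.mul_rpow (by norm_num) (abs_nonneg _)]
        congr 1
        rw [sub_neg_eq_add, ← two_mul, abs_mul, abs_two]
      simp only [Pi.neg_apply, abs_neg, e2, ← Finset.mul_sum]
      have : (2:ℝ) ^ P ≠ 0 := by positivity
      field_simp
      ring
    exact eq_neg_of_anti hP ((Finset.sum_eq_zero_iff_of_nonneg
      (fun b _ => anti_nonneg hP _ _)).1 h1 b (Finset.mem_univ _))
  rw [← sum_para_eq_zero_iff (by linarith) hP2, ← sum_para_eq_zero_iff (by linarith) hP2]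
  have key : ∑ b, para P (Y u b) (Y v b) = c * ∑ a, para P (u a) (v a) := by
    simp only [para, Finset.sum_sub_distrib, Finset.sum_add_distrib, ← Finset.mul_sum]
    have h1 := hY u hu _ (hneg v hv)
    simp only [hodd v hv, Pi.neg_apply, sub_neg_eq_add] at h1
    rw [h1, hY u hu v hv, hN u hu, hN v hv]
    ring
  rw [key]
  simp [hc.ne']

/-- The grid argument. -/
theorem grid_bound {β : Type*} [Fintype β] {r : ℕ} {P c : ℝ} (hP : 1 < P) (hP2 : P ≠ 2)
    (hc : 0 < c) (A : Set (Fin r × Fin r → ℝ)) (h0 : (0 : Fin r × Fin r → ℝ) ∈ A)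
    (hneg : ∀ u ∈ A, -u ∈ A)
    (hrow : ∀ i : Fin r, (fun a : Fin r × Fin r => if a.1 = i then (1:ℝ) else 0) ∈ A)
    (hcol : ∀ j : Fin r, (fun a : Fin r × Fin r => if a.2 = j then (1:ℝ) else 0) ∈ A)
    (Y : (Fin r × Fin r → ℝ) → β → ℝ) (hY0 : Y 0 = 0)
    (hY : ∀ u ∈ A, ∀ v ∈ A, ∑ b, |Y u b - Y v b| ^ P = c * ∑ a, |u a - v a| ^ P) :
    r ^ 2 ≤ Fintype.card β := by
  set row : Fin r → (Fin r × Fin r → ℝ) := fun i a => if a.1 = i then (1:ℝ) else 0 with hrowdef
  set col : Fin r → (Fin r × Fin r → ℝ) := fun j a => if a.2 = j then (1:ℝ) else 0 with hcoldef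
  have hex : ∀ ij : Fin r × Fin r, ∃ b, Y (row ij.1) b * Y (col ij.2) b ≠ 0 := by
    intro ij
    by_contra hcon
    push Not at hcon
    have := (disjoint_iff hP hP2 hc A h0 hneg Y hY0 hY (hrow ij.1) (hcol ij.2)).1 hcon ij
    simp at this
  choose f hf using hex
  have hinj : Function.Injective f := by
    intro x y hxy
    have hx := hf x
    have hy := hf y
    rw [← hxy] at hy
    ext1
    · by_contra hne
      have := (disjoint_iff hP hP2 hc A h0 hneg Y hY0 hY (hrow x.1) (hrow y.1)).2 (by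
        intro a
        by_cases h1 : a.1 = x.1
        · have : a.1 ≠ y.1 := by rw [h1]; exact hne
          simp [this]
        · simp [h1]) (f x)
      rcases mul_eq_zero.1 this with h | h
      · exact left_ne_zero_of_mul hx h
      · exact left_ne_zero_of_mul hy h
    · by_contra hne
      have := (disjoint_iff hP hP2 hc A h0 hneg Y hY0 hY (hcol x.2) (hcol y.2)).2 (by
        intro a
        by_cases h1 : a.2 = x.2
        · have : a.2 ≠ y.2 := by rw [h1]; exact hne
          simp [this]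
        · simp [h1]) (f x)
      rcases mul_eq_zero.1 this with h | h
      · exact right_ne_zero_of_mul hx h
      · exact right_ne_zero_of_mul hy h
  have := Fintype.card_le_of_injective f hinj
  simpa [sq] using this

theorem iso_lower (p : ℝ≥0∞) [Fact (1 ≤ p)] (hp1 : 1 < p) (hptop : p ≠ ⊤) (hp2 : p ≠ 2)
    (n : ℕ) (hn : 9 ≤ n) (d : ℕ)
    (hd : ∀ (α : Type) [MeasurableSpace α] (μ : Measure α) (x : Fin n → Lp ℝ p μ),
      Function.Injective x →
      ∃ (y : Fin n → PiLp p (fun _ : Fin d => ℝ)) (s : ℝ), 0 < s ∧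
        ∀ i j, ‖y i - y j‖ = s * ‖x i - x j‖) :
    ((n - 1) / 4) ^ 2 ≤ d := by
  classical
  have hP := one_lt_toReal hp1 hptop
  have hP2 := toReal_ne_two hptop hp2
  set r := (n - 1) / 4 with hr
  have hr2 : 2 ≤ r := by omega
  set row : Fin r → (Fin r × Fin r → ℝ) := fun i a => if a.1 = i then (1:ℝ) else 0 with hrowdef
  set col : Fin r → (Fin r × Fin r → ℝ) := fun j a => if a.2 = j then (1:ℝ) else 0 with hcoldef
  let A0 : Finset (Fin r × Fin r → ℝ) := Finset.univ.image row ∪ Finset.univ.image col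
  let A : Finset (Fin r × Fin r → ℝ) := insert 0 (A0 ∪ A0.image (fun u => -u))
  have hA0 : A0.card ≤ 2 * r := by
    refine (Finset.card_union_le _ _).trans ?_
    have h1 : (Finset.univ.image row).card ≤ r := by
      simpa using Finset.card_image_le (s := Finset.univ) (f := row)
    have h2 : (Finset.univ.image col).card ≤ r := by
      simpa using Finset.card_image_le (s := Finset.univ) (f := col)
    omega
  have hA : A.card ≤ n := by
    refine (Finset.card_insert_le _ _).trans ?_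
    have h1 := Finset.card_union_le A0 (A0.image (fun u => -u))
    have h2 : (A0.image (fun u => -u)).card ≤ A0.card := Finset.card_image_le
    omega
  have : Nonempty (Fin r × Fin r) := ⟨(⟨0, by omega⟩, ⟨0, by omega⟩)⟩
  obtain ⟨B, hAB, hB⟩ := Infinite.exists_superset_card_eq A n hA
  let e : Fin n ≃ B := (Finset.equivFinOfCardEq hB).symm
  let J : (Fin r × Fin r → ℝ) → Lp ℝ p (Measure.count : Measure (Fin r × Fin r)) :=
    fun f => (MemLp.of_discrete (f := f)).toLp f
  have hJ : ∀ f g, ‖J f - J g‖ ^ p.toReal = ∑ a, |f a - g a| ^ p.toReal := by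
    intro f g
    rw [(norm_sub_rpow hp1 hptop (J f) (J g)).2, ← integral_count]
    apply integral_congr_ae
    filter_upwards [MemLp.coeFn_toLp (MemLp.of_discrete (f := f) (p := p) (μ := Measure.count)),
      MemLp.coeFn_toLp (MemLp.of_discrete (f := g) (p := p) (μ := Measure.count))] with a h1 h2
    simp only [J]
    rw [h1, h2]
  have hJinj : Function.Injective J := by
    intro f g hfg
    have h1 := hJ f g
    rw [hfg, sub_self, norm_zero, Real.zero_rpow (by linarith)] at h1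
    ext a
    have := (Finset.sum_eq_zero_iff_of_nonneg (fun a _ => by positivity)).1 h1.symm a
      (Finset.mem_univ _)
    rw [Real.rpow_eq_zero (abs_nonneg _) (by linarith), abs_eq_zero] at this
    linarith
  obtain ⟨y, s, hs, hy⟩ := hd (Fin r × Fin r) Measure.count (fun i => J (e i))
    (hJinj.comp (Subtype.val_injective.comp e.injective))
  have h0A : (0 : Fin r × Fin r → ℝ) ∈ A := Finset.mem_insert_self _ _
  let Y : (Fin r × Fin r → ℝ) → Fin d → ℝ := fun u b =>
    if h : u ∈ B then y (e.symm ⟨u, h⟩) b - y (e.symm ⟨0, hAB h0A⟩) b else 0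
  have := grid_bound (β := Fin d) hP hP2 (c := s ^ p.toReal) (by positivity) (A : Set _)
    (by exact_mod_cast h0A) ?_ ?_ ?_ Y ?_ ?_
  · simpa using this
  · intro u hu
    simp only [A, Finset.coe_insert, Finset.coe_union, Finset.coe_image, Set.mem_insert_iff,
      Set.mem_union, Set.mem_image, Finset.mem_coe] at hu ⊢
    rcases hu with rfl | hu | ⟨v, hv, rfl⟩
    · left; simp
    · right; right; exact ⟨u, hu, rfl⟩
    · right; left; simpa using hv
  · intro i
    simp only [A, A0, Finset.coe_insert, Finset.coe_union, Set.mem_insert_iff,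
      Set.mem_union, Finset.mem_coe, Finset.mem_image]
    right; left; left; exact ⟨i, Finset.mem_univ _, rfl⟩
  · intro i
    simp only [A, A0, Finset.coe_insert, Finset.coe_union, Set.mem_insert_iff,
      Set.mem_union, Finset.mem_coe, Finset.mem_image]
    right; left; right; exact ⟨i, Finset.mem_univ _, rfl⟩
  · ext b
    simp [Y, hAB h0A]
  · intro u hu v hv
    have huB : u ∈ B := hAB hu
    have hvB : v ∈ B := hAB hv
    have h1 := hy (e.symm ⟨u, huB⟩) (e.symm ⟨v, hvB⟩)
    simp only [Equiv.apply_symm_apply] at h1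
    rw [← hJ, ← Real.mul_rpow hs.le (norm_nonneg _), ← h1, piLp_norm_rpow hp1 hptop]
    refine Finset.sum_congr rfl fun b _ => ?_
    simp [Y, huB, hvB]

end Crest.Agent.H9.Lp
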