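import Mathlib

set_option autoImplicit false

namespace Crest.Agent.H9.Lp

open Real

theorem rpow_le_exp_half {q : ℝ} (hq : 0 ≤ q) :
    ∃ A : ℝ, 1 ≤ A ∧ ∀ x : ℝ, 0 ≤ x → x ^ q ≤ A * exp (x / 2) := by
  set N := ⌈q⌉₊
  have hA : (1:ℝ) ≤ 2 ^ N * (N.factorial : ℝ) := by
    have h1 : (1:ℝ) ≤ 2 ^ N := one_le_pow₀ (by norm_num)
    have h2 : (1:ℝ) ≤ (N.factorial : ℝ) := by exact_mod_cast Nat.factorial_pos N
    nlinarith
  refine ⟨2 ^ N * (N.factorial : ℝ), hA, fun x hx => ?_⟩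
  rcases le_total x 1 with h1 | h1
  · have h2 : x ^ q ≤ 1 := rpow_le_one hx h1 hq
    have h3 : 1 ≤ exp (x / 2) := one_le_exp (by linarith)
    nlinarith
  · have h2 : x ^ q ≤ x ^ (N:ℝ) := rpow_le_rpow_of_exponent_le h1 (Nat.le_ceil q)
    rw [rpow_natCast] at h2
    have h3 := Real.pow_div_factorial_le_exp (x / 2) (by linarith) N
    have h4 : (0:ℝ) < (N.factorial : ℝ) := by exact_mod_cast Nat.factorial_pos N
    rw [div_le_iff₀ h4, div_pow, div_le_iff₀ (by positivity)] at h3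
    calc x ^ q ≤ x ^ N := h2
      _ ≤ exp (x / 2) * N.factorial * 2 ^ N := h3
      _ = _ := by ring

theorem rpow_sub_le {P u v : ℝ} (hP : 1 ≤ P) (hu : 0 ≤ u) (huv : u ≤ v) :
    v ^ P - u ^ P ≤ P * v ^ (P - 1) * (v - u) := by
  rcases eq_or_lt_of_le (hu.trans huv) with h0 | hv
  · have : u = 0 := by linarith
    subst this; rw [← h0]; simp
  · have h1 := one_add_mul_self_le_rpow_one_add (s := u / v - 1)
      (by have : 0 ≤ u / v := by positivity
          linarith) hP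
    rw [add_sub_cancel, div_rpow hu hv.le, le_div_iff₀ (by positivity)] at h1
    have e : v ^ P = v * v ^ (P - 1) := by
      rw [rpow_sub_one hv.ne']; field_simp
    have e2 : (1 + P * (u / v - 1)) * v ^ P = v ^ P - P * v ^ (P - 1) * (v - u) := by
      rw [e]; field_simp; ring
    linarith

theorem abs_rpow_sub_le {P u v M : ℝ} (hP : 1 ≤ P) (hu : 0 ≤ u) (hv : 0 ≤ v) (huM : u ≤ M)
    (hvM : v ≤ M) : |v ^ P - u ^ P| ≤ P * M ^ (P - 1) * |v - u| := by
  rcases le_total u v with h | h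
  · have h1 := rpow_sub_le hP hu h
    have h2 : u ^ P ≤ v ^ P := rpow_le_rpow hu h (by linarith)
    have h3 : v ^ (P - 1) ≤ M ^ (P - 1) := rpow_le_rpow hv hvM (by linarith)
    rw [abs_of_nonneg (by linarith), abs_of_nonneg (by linarith)]
    refine h1.trans ?_
    gcongr
  · have h1 := rpow_sub_le hP hv h
    have h2 : v ^ P ≤ u ^ P := rpow_le_rpow hv h (by linarith)
    have h3 : u ^ (P - 1) ≤ M ^ (P - 1) := rpow_le_rpow hu huM (by linarith)
    rw [abs_sub_comm, abs_sub_comm v, abs_of_nonneg (by linarith), abs_of_nonneg (by linarith)]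
    refine h1.trans ?_
    gcongr

theorem defect_le_aux {P s z : ℝ} (hP : 1 < P) (hzs : |z| ≤ |s|) :
    |(|s + z| ^ P - |s| ^ P - |z| ^ P)| ≤ (P * 2 ^ (P - 1) + 1) * (|z| * |s| ^ (P - 1)) := by
  have h1 := abs_rpow_sub_le (M := 2 * |s|) hP.le (abs_nonneg s) (abs_nonneg (s + z))
    (by have := abs_nonneg s; linarith) (by have := abs_add_le s z; linarith)
  have h2 : |(|s + z| - |s|)| ≤ |z| := by
    have := abs_abs_sub_abs_le_abs_sub (s + z) s
    simpa using this
  have h3 : |z| ^ P ≤ |z| * |s| ^ (P - 1) := by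
    have e : |z| ^ P = |z| * |z| ^ (P - 1) := by
      rw [← rpow_one_add' (abs_nonneg _) (by linarith)]; congr 1; ring
    rw [e]
    gcongr
  rw [mul_rpow (by norm_num) (abs_nonneg _)] at h1
  have h4 : P * (2 ^ (P - 1) * |s| ^ (P - 1)) * |(|s + z| - |s|)| ≤
      P * (2 ^ (P - 1) * |s| ^ (P - 1)) * |z| := by
    gcongr
  have h5 := abs_sub (|s + z| ^ P - |s| ^ P) (|z| ^ P)
  rw [abs_of_nonneg (by positivity : 0 ≤ |z| ^ P)] at h5
  nlinarith

theorem defect_le {P s z : ℝ} (hP : 1 < P) (hz : |z| ≤ 1) :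
    |(|s + z| ^ P - |s| ^ P - |z| ^ P)| ≤
      (P * 2 ^ (P - 1) + 1) * (|z| * (|s| ^ (P - 1) + |s|)) := by
  have hC : 0 ≤ P * 2 ^ (P - 1) + 1 := by positivity
  rcases le_total |z| |s| with h | h
  · refine (defect_le_aux hP h).trans ?_
    gcongr
    have := abs_nonneg s
    linarith
  · have h1 := defect_le_aux hP h
    have e : |z + s| ^ P - |z| ^ P - |s| ^ P = |s + z| ^ P - |s| ^ P - |z| ^ P := by
      rw [add_comm z s]; ring
    rw [e] at h1
    refine h1.trans (mul_le_mul_of_nonneg_left ?_ hC)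
    rcases le_total P 2 with h2 | h2
    · have e1 : |s| = |s| ^ (P - 1) * |s| ^ (2 - P) := by
        rw [← rpow_add' (abs_nonneg _) (by norm_num)]; norm_num
      have e2 : |z| = |z| ^ (2 - P) * |z| ^ (P - 1) := by
        rw [← rpow_add' (abs_nonneg _) (by norm_num)]; norm_num
      have h3 : |s| ^ (2 - P) ≤ |z| ^ (2 - P) := rpow_le_rpow (abs_nonneg _) h (by linarith)
      calc |s| * |z| ^ (P - 1) = |s| ^ (P - 1) * |s| ^ (2 - P) * |z| ^ (P - 1) := by rw [← e1]
        _ ≤ |s| ^ (P - 1) * |z| ^ (2 - P) * |z| ^ (P - 1) := by gcongr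
        _ = |z| * |s| ^ (P - 1) := by rw [mul_assoc, ← e2]; ring
        _ ≤ _ := by
          have := abs_nonneg s
          have := abs_nonneg z
          nlinarith
    · have h3 : |z| ^ (P - 1) ≤ |z| := by
        have := rpow_le_rpow_of_exponent_ge' (abs_nonneg z) hz (by norm_num : (0:ℝ) ≤ 1)
          (by linarith : 1 ≤ P - 1)
        simpa using this
      have h4 : 0 ≤ |z| * |s| ^ (P - 1) := by positivity
      have h5 : |s| * |z| ^ (P - 1) ≤ |s| * |z| := by gcongr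
      nlinarith

theorem split_le {q : ℝ} (hq : 0 ≤ q) : ∃ A : ℝ, 1 ≤ A ∧ ∀ ζ x : ℝ, 0 < ζ → ζ ≤ 1 → 0 ≤ x →
    x ^ q + x ≤ ζ ^ q + ζ + A / ζ * (exp x - 1) := by
  obtain ⟨A, hA, hAx⟩ := rpow_le_exp_half hq
  refine ⟨2 * A + 1, by linarith, fun ζ x hζ hζ1 hx => ?_⟩
  have he : x ≤ exp x - 1 := by have := add_one_le_exp x; linarith
  have hz : 0 ≤ ζ ^ q := by positivity
  have hdiv : 2 * A + 1 ≤ (2 * A + 1) / ζ := by
    rw [le_div_iff₀ hζ]; nlinarith
  rcases le_total x ζ with h | h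
  · have h1 : x ^ q ≤ ζ ^ q := rpow_le_rpow hx h hq
    have h2 : 0 ≤ (2 * A + 1) / ζ * (exp x - 1) := by
      apply mul_nonneg <;> linarith
    linarith
  · rcases le_total x 1 with h1 | h1
    · have h2 : x ^ q ≤ 1 := rpow_le_one hx h1 hq
      have h3 : 3 ≤ (2 * A + 1) / ζ * (exp x - 1) := by
        rw [div_mul_eq_mul_div, le_div_iff₀ hζ]; nlinarith
      linarith
    · have h2 := hAx x hx
      have h3 : exp (x / 2) ≤ 2 * (exp x - 1) := by
        have e : exp x = exp (x / 2) * exp (x / 2) := by rw [← exp_add]; congr 1; ring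
        have := add_one_le_exp (x / 2)
        nlinarith
      have h4 : (2 * A + 1) * (exp x - 1) ≤ (2 * A + 1) / ζ * (exp x - 1) := by
        gcongr; linarith
      nlinarith

theorem exp_sub_one_le {x : ℝ} (h0 : 0 ≤ x) (h1 : x ≤ 1) : exp x - 1 ≤ 2 * x := by
  have := Real.abs_exp_sub_one_sub_id_le (x := x) (by rw [abs_of_nonneg h0]; exact h1)
  have := (abs_le.1 this).2
  nlinarith

section merge

variable {V E : Type*} [AddCommGroup V] (ℓ : E → V → ℝ)

theorem merge (hadd : ∀ e a b, ℓ e (a + b) = ℓ e a + ℓ e b) (h0 : ∀ e, ℓ e 0 = 0)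
    {P a b δ : ℝ} (hP : 0 < P) (hb : 0 ≤ b) (hδ : δ ≤ 1 / 2)
    (hD : ∀ s z : ℝ, |z| ≤ 1 →
      |(|s + z| ^ P - |s| ^ P - |z| ^ P)| ≤ |z| * (a + b * (exp |s| - 1))) :
    ∀ (m : ℕ) (θ : Fin m → ℝ) (h : Fin m → V), (∀ i, 0 ≤ θ i ∧ θ i ≤ 1) →
      (∀ e i, |ℓ e (h i)| ≤ 1) → (∀ e, ∑ i, θ i * |ℓ e (h i)| ≤ δ) →
      ∃ (T : Type) (_ : Fintype T) (w : T → ℝ) (φ : T → V), (∀ t, 0 ≤ w t) ∧ ∑ t, w t = 1 ∧
        ∀ e, ∑ t, w t * exp |ℓ e (φ t)| ≤ exp (2 * ∑ i, θ i * |ℓ e (h i)|) ∧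
          |∑ t, w t * |ℓ e (φ t)| ^ P - ∑ i, θ i * |ℓ e (h i)| ^ P| ≤
            (∑ i, θ i * |ℓ e (h i)|) * (a + 4 * b * δ) := by
  intro m
  induction m with
  | zero =>
    intro θ h _ _ _
    refine ⟨Unit, inferInstance, fun _ => 1, fun _ => 0, by simp, by simp, fun e => ?_⟩
    simp [h0, zero_rpow hP.ne']
  | succ m ih =>
    intro θ h hth hh hδ'
    have htail : ∀ e, ∑ i : Fin m, θ i.succ * |ℓ e (h i.succ)| ≤ δ := by
      intro e
      have := hδ' e
      rw [Fin.sum_univ_succ] at this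
      have h1 : 0 ≤ θ 0 * |ℓ e (h 0)| := mul_nonneg (hth 0).1 (abs_nonneg _)
      linarith
    obtain ⟨T, _, w, φ, hw0, hw1, hT⟩ := ih (fun i => θ i.succ) (fun i => h i.succ)
      (fun i => hth _) (fun e i => hh e _) htail
    have hp0 := (hth 0).1
    have hp1 := (hth 0).2
    refine ⟨T ⊕ T, inferInstance, Sum.elim (fun t => (1 - θ 0) * w t) (fun t => θ 0 * w t),
      Sum.elim φ (fun t => φ t + h 0), ?_, ?_, fun e => ?_⟩
    · rintro (t | t)
      · exact mul_nonneg (by linarith) (hw0 t)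
      · exact mul_nonneg hp0 (hw0 t)
    · simp only [Fintype.sum_sum_type, Sum.elim_inl, Sum.elim_inr, ← Finset.mul_sum, hw1]; ring
    · obtain ⟨hT1, hT2⟩ := hT e
      simp only [Fintype.sum_sum_type, Sum.elim_inl, Sum.elim_inr, Fin.sum_univ_succ, hadd]
      set Z := ℓ e (h 0) with hZ
      have hZ1 : |Z| ≤ 1 := hh e 0
      set σ := ∑ i : Fin m, θ i.succ * |ℓ e (h i.succ)| with hσ
      have hσ0 : 0 ≤ σ := Finset.sum_nonneg fun i _ => mul_nonneg (hth _).1 (abs_nonneg _)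
      have hσδ : σ ≤ δ := htail e
      set M := ∑ t, w t * exp |ℓ e (φ t)| with hM
      have hM0 : 0 ≤ M := Finset.sum_nonneg fun t _ => mul_nonneg (hw0 t) (exp_pos _).le
      constructor
      · have h1 : ∑ t, θ 0 * w t * exp |ℓ e (φ t) + Z| ≤ θ 0 * exp |Z| * M := by
          rw [hM, Finset.mul_sum]
          refine Finset.sum_le_sum fun t _ => ?_
          have h2 : exp |ℓ e (φ t) + Z| ≤ exp |Z| * exp |ℓ e (φ t)| := by
            rw [← exp_add]; apply exp_le_exp.2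
            have := abs_add_le (ℓ e (φ t)) Z; linarith
          have := hw0 t
          calc θ 0 * w t * exp |ℓ e (φ t) + Z| ≤ θ 0 * w t * (exp |Z| * exp |ℓ e (φ t)|) := by
                gcongr
            _ = _ := by ring
        have h2 : ∑ t, (1 - θ 0) * w t * exp |ℓ e (φ t)| = (1 - θ 0) * M := by
          rw [hM, Finset.mul_sum]; exact Finset.sum_congr rfl fun t _ => by ring
        have h3 := exp_sub_one_le (abs_nonneg Z) hZ1
        have h4 := add_one_le_exp (2 * (θ 0 * |Z|))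
        have h5 : 1 - θ 0 + θ 0 * exp |Z| ≤ exp (2 * (θ 0 * |Z|)) := by nlinarith
        calc _ ≤ (1 - θ 0) * M + θ 0 * exp |Z| * M := by rw [h2]; linarith
          _ = (1 - θ 0 + θ 0 * exp |Z|) * M := by ring
          _ ≤ exp (2 * (θ 0 * |Z|)) * exp (2 * σ) := by gcongr
          _ = _ := by rw [← exp_add]; congr 1; ring
      · have hMδ : M - 1 ≤ 4 * δ := by
          have h1 : exp (2 * σ) ≤ exp (2 * δ) := exp_le_exp.2 (by linarith)
          have h2 := exp_sub_one_le (x := 2 * δ) (by linarith) (by linarith)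
          linarith
        have h1 : |∑ t, w t * (|ℓ e (φ t) + Z| ^ P - |ℓ e (φ t)| ^ P - |Z| ^ P)| ≤
            |Z| * (a + 4 * b * δ) := by
          refine (Finset.abs_sum_le_sum_abs _ _).trans ?_
          have h2 : ∑ t, |w t * (|ℓ e (φ t) + Z| ^ P - |ℓ e (φ t)| ^ P - |Z| ^ P)| ≤
              ∑ t, w t * (|Z| * (a + b * (exp |ℓ e (φ t)| - 1))) := by
            refine Finset.sum_le_sum fun t _ => ?_
            rw [abs_mul, abs_of_nonneg (hw0 t)]
            exact mul_le_mul_of_nonneg_left (hD _ _ hZ1) (hw0 t)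
          have h3 : ∑ t, w t * (|Z| * (a + b * (exp |ℓ e (φ t)| - 1))) =
              |Z| * ((a - b) * ∑ t, w t + b * M) := by
            rw [hM, Finset.mul_sum, Finset.mul_sum, ← Finset.sum_add_distrib, Finset.mul_sum]
            exact Finset.sum_congr rfl fun t _ => by ring
          rw [h3, hw1] at h2
          refine h2.trans ?_
          have : (a - b) * 1 + b * M ≤ a + 4 * b * δ := by nlinarith
          gcongr
        have e1 : ∑ t, (1 - θ 0) * w t * |ℓ e (φ t)| ^ P + ∑ t, θ 0 * w t * |ℓ e (φ t) + Z| ^ P -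
            (θ 0 * |Z| ^ P + ∑ i : Fin m, θ i.succ * |ℓ e (h i.succ)| ^ P) =
            (∑ t, w t * |ℓ e (φ t)| ^ P - ∑ i : Fin m, θ i.succ * |ℓ e (h i.succ)| ^ P) +
              θ 0 * ∑ t, w t * (|ℓ e (φ t) + Z| ^ P - |ℓ e (φ t)| ^ P - |Z| ^ P) := by
          have e2 : θ 0 * |Z| ^ P = ∑ t, θ 0 * |Z| ^ P * w t := by
            rw [← Finset.mul_sum, hw1, mul_one]
          have e3 : ∑ t, (1 - θ 0) * w t * |ℓ e (φ t)| ^ P + ∑ t, θ 0 * w t * |ℓ e (φ t) + Z| ^ P
              - ∑ t, θ 0 * |Z| ^ P * w t = ∑ t, w t * |ℓ e (φ t)| ^ P +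
                θ 0 * ∑ t, w t * (|ℓ e (φ t) + Z| ^ P - |ℓ e (φ t)| ^ P - |Z| ^ P) := by
            rw [Finset.mul_sum, ← Finset.sum_add_distrib, ← Finset.sum_add_distrib,
              ← Finset.sum_sub_distrib]
            exact Finset.sum_congr rfl fun t _ => by ring
          rw [e2]; linarith
        rw [e1]
        refine (abs_add_le _ _).trans ?_
        rw [abs_mul, abs_of_nonneg hp0]
        have h6 := mul_le_mul_of_nonneg_left h1 hp0
        nlinarith

theorem truncate [Fintype E] (h0 : ∀ e, ℓ e 0 = 0) {P A K M : ℝ} (hP : 0 < P) (hK : 0 ≤ K)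
    (hA0 : 0 ≤ A) (hA : ∀ x : ℝ, 0 ≤ x → x ^ P ≤ A * exp (x / 2))
    {T : Type*} [Fintype T] (w : T → ℝ) (φ : T → V) (hw0 : ∀ t, 0 ≤ w t)
    (hM : ∀ e, ∑ t, w t * exp |ℓ e (φ t)| ≤ M) :
    ∃ ψ : T → V, (∀ e t, |ℓ e (ψ t)| ≤ K) ∧ ∀ e,
      |∑ t, w t * |ℓ e (ψ t)| ^ P - ∑ t, w t * |ℓ e (φ t)| ^ P| ≤
        A * Fintype.card E * exp (-K / 2) * M := by
  classical
  refine ⟨fun t => if ∀ f, |ℓ f (φ t)| ≤ K then φ t else 0, fun e t => ?_, fun e => ?_⟩
  · by_cases h : ∀ f, |ℓ f (φ t)| ≤ K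
    · simp only [if_pos h]; exact h e
    · simp only [if_neg h, h0]; simpa using hK
  · rw [← Finset.sum_sub_distrib]
    refine (Finset.abs_sum_le_sum_abs _ _).trans ?_
    have h1 : ∀ t, |w t * |ℓ e (if ∀ f, |ℓ f (φ t)| ≤ K then φ t else 0)| ^ P -
        w t * |ℓ e (φ t)| ^ P| ≤
        ∑ f, A * exp (-K / 2) / 2 * (w t * exp |ℓ e (φ t)| + w t * exp |ℓ f (φ t)|) := by
      intro t
      have hnn : ∀ f ∈ Finset.univ,
          0 ≤ A * exp (-K / 2) / 2 * (w t * exp |ℓ e (φ t)| + w t * exp |ℓ f (φ t)|) := by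
        intro f _
        have := hw0 t
        positivity
      by_cases h : ∀ f, |ℓ f (φ t)| ≤ K
      · simp only [if_pos h, sub_self, abs_zero]
        exact Finset.sum_nonneg hnn
      · simp only [if_neg h, h0, abs_zero, zero_rpow hP.ne', mul_zero, zero_sub, abs_neg]
        push Not at h
        obtain ⟨f, hf⟩ := h
        refine le_trans ?_ (Finset.single_le_sum hnn (Finset.mem_univ f))
        have hwt := hw0 t
        rw [abs_of_nonneg (by positivity)]
        have h2 := hA _ (abs_nonneg (ℓ e (φ t)))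
        set x := |ℓ e (φ t)|
        set y := |ℓ f (φ t)|
        have h3 : exp (x / 2) ≤ exp (-K / 2) * (exp (x / 2) * exp (y / 2)) := by
          rw [← exp_add, ← exp_add]; apply exp_le_exp.2; linarith
        have h4 : exp (x / 2) * exp (y / 2) ≤ (exp x + exp y) / 2 := by
          have ex : exp x = exp (x / 2) * exp (x / 2) := by rw [← exp_add]; congr 1; ring
          have ey : exp y = exp (y / 2) * exp (y / 2) := by rw [← exp_add]; congr 1; ring
          rw [ex, ey]; nlinarith [sq_nonneg (exp (x / 2) - exp (y / 2))]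
        calc w t * x ^ P ≤ w t * (A * exp (x / 2)) := by gcongr
          _ ≤ w t * (A * (exp (-K / 2) * ((exp x + exp y) / 2))) := by
            gcongr
            refine h3.trans ?_
            gcongr
          _ = _ := by ring
    refine (Finset.sum_le_sum fun t _ => h1 t).trans ?_
    rw [Finset.sum_comm]
    have h2 : ∀ f ∈ (Finset.univ : Finset E),
        ∑ t, A * exp (-K / 2) / 2 * (w t * exp |ℓ e (φ t)| + w t * exp |ℓ f (φ t)|) ≤
          A * exp (-K / 2) * M := by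
      intro f _
      rw [← Finset.mul_sum, Finset.sum_add_distrib]
      have := hM e
      have := hM f
      have h3 : 0 ≤ A * exp (-K / 2) := by positivity
      nlinarith
    refine (Finset.sum_le_sum h2).trans ?_
    simp only [Finset.sum_const, Finset.card_univ, nsmul_eq_mul]
    apply le_of_eq; ring

end merge

theorem greedy {E T : Type*} [Fintype E] [Fintype T] (w : T → ℝ) (hw0 : ∀ t, 0 ≤ w t)
    (hw1 : ∑ t, w t = 1) (X : E → T → ℝ) {c : ℝ} (hc : c ≤ 1) (hX : ∀ e t, |X e t| ≤ c)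
    (hX0 : ∀ e, ∑ t, w t * X e t = 0) (d : ℕ) :
    ∃ t : Fin d → T, ∑ e, (exp (∑ r, X e (t r)) + exp (-∑ r, X e (t r))) ≤
      2 * Fintype.card E * exp (d * c ^ 2) := by
  induction d with
  | zero => exact ⟨Fin.elim0, by simp; apply le_of_eq; ring⟩
  | succ d ih =>
    obtain ⟨t, ht⟩ := ih
    have hmgf : ∀ (Y : T → ℝ), (∀ s, |Y s| ≤ c) → ∑ s, w s * Y s = 0 →
        ∑ s, w s * exp (Y s) ≤ exp (c ^ 2) := by
      intro Y hY hY0
      have h1 : ∑ s, w s * exp (Y s) ≤ ∑ s, w s * (1 + c ^ 2 + Y s) := by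
        refine Finset.sum_le_sum fun s _ => mul_le_mul_of_nonneg_left ?_ (hw0 s)
        have h2 := (abs_le.1 (Real.abs_exp_sub_one_sub_id_le ((hY s).trans hc))).2
        have h3 : Y s ^ 2 ≤ c ^ 2 := by
          rw [← sq_abs]; exact pow_le_pow_left₀ (abs_nonneg _) (hY s) 2
        linarith
      have h2 : ∑ s, w s * (1 + c ^ 2 + Y s) = 1 + c ^ 2 := by
        simp only [mul_add (w _) (1 + c ^ 2), Finset.sum_add_distrib, ← Finset.sum_mul, hw1, hY0]
        ring
      have := add_one_le_exp (c ^ 2)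
      linarith
    set Φ : T → ℝ := fun s => ∑ e, (exp (X e s + ∑ r, X e (t r)) + exp (-(X e s + ∑ r, X e (t r))))
      with hΦ
    have havg : ∑ s, w s * Φ s ≤ ∑ s, w s * (2 * Fintype.card E * exp ((d + 1 : ℕ) * c ^ 2)) := by
      rw [← Finset.sum_mul, hw1, one_mul]
      simp only [hΦ, Finset.mul_sum]
      rw [Finset.sum_comm]
      have h1 : ∀ e ∈ (Finset.univ : Finset E),
          ∑ s, w s * (exp (X e s + ∑ r, X e (t r)) + exp (-(X e s + ∑ r, X e (t r)))) ≤
          exp (c ^ 2) * (exp (∑ r, X e (t r)) + exp (-∑ r, X e (t r))) := by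
        intro e _
        have a1 := hmgf (X e) (hX e) (hX0 e)
        have a2 := hmgf (fun s => - X e s) (fun s => by simpa using hX e s)
          (by simp [hX0 e])
        have e1 : ∑ s, w s * (exp (X e s + ∑ r, X e (t r)) + exp (-(X e s + ∑ r, X e (t r)))) =
            (∑ s, w s * exp (X e s)) * exp (∑ r, X e (t r)) +
              (∑ s, w s * exp (-X e s)) * exp (-∑ r, X e (t r)) := by
          rw [Finset.sum_mul, Finset.sum_mul, ← Finset.sum_add_distrib]
          refine Finset.sum_congr rfl fun s _ => ?_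
          rw [neg_add, exp_add, exp_add]; ring
        rw [e1, mul_add]
        gcongr
      refine (Finset.sum_le_sum h1).trans ?_
      rw [← Finset.mul_sum]
      calc _ ≤ exp (c ^ 2) * (2 * Fintype.card E * exp (d * c ^ 2)) := by gcongr
        _ = _ := by
          push_cast
          rw [add_mul, exp_add]; ring_nf
    have hex : ∃ s, Φ s ≤ 2 * Fintype.card E * exp ((d + 1 : ℕ) * c ^ 2) := by
      by_contra hcon
      push Not at hcon
      obtain ⟨s0, -, hs0⟩ : ∃ s ∈ (Finset.univ : Finset T), w s ≠ 0 :=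
        Finset.exists_ne_zero_of_sum_ne_zero (by rw [hw1]; norm_num)
      have := Finset.sum_lt_sum (s := Finset.univ)
        (f := fun s => w s * (2 * Fintype.card E * exp ((d + 1 : ℕ) * c ^ 2)))
        (g := fun s => w s * Φ s)
        (fun s _ => mul_le_mul_of_nonneg_left (hcon s).le (hw0 s))
        ⟨s0, Finset.mem_univ _, mul_lt_mul_of_pos_left (hcon s0) (lt_of_le_of_ne (hw0 s0) hs0.symm)⟩
      linarith
    obtain ⟨s, hs⟩ := hex
    refine ⟨Fin.cons s t, ?_⟩
    simpa [Fin.sum_univ_succ, hΦ] using hs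

theorem sample {E T : Type*} [Fintype E] [Fintype T] (w : T → ℝ) (hw0 : ∀ t, 0 ≤ w t)
    (hw1 : ∑ t, w t = 1) (Y : E → T → ℝ) {b τ : ℝ} (hb : 1 ≤ b) (hτ0 : 0 < τ) (hτ : τ ≤ 1)
    (hY : ∀ e t, 0 ≤ Y e t ∧ Y e t ≤ b) (d : ℕ)
    (hd : 4 * b ^ 2 * log (2 * Fintype.card E) ≤ d * τ ^ 2) :
    ∃ t : Fin d → T, ∀ e, |∑ r, Y e (t r) - d * ∑ s, w s * Y e s| ≤ d * τ := by
  set lam := τ / (2 * b ^ 2) with hlam
  have hlam0 : 0 < lam := by positivity
  have hμ : ∀ e, 0 ≤ ∑ s, w s * Y e s ∧ ∑ s, w s * Y e s ≤ b := by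
    intro e
    refine ⟨Finset.sum_nonneg fun s _ => mul_nonneg (hw0 s) (hY e s).1, ?_⟩
    calc _ ≤ ∑ s, w s * b :=
          Finset.sum_le_sum fun s _ => mul_le_mul_of_nonneg_left (hY e s).2 (hw0 s)
      _ = b := by rw [← Finset.sum_mul, hw1, one_mul]
  obtain ⟨t, ht⟩ := greedy w hw0 hw1 (fun e s => lam * (Y e s - ∑ s, w s * Y e s))
    (c := lam * b) (by
      rw [hlam, div_mul_eq_mul_div, div_le_one (by positivity)]; nlinarith)
    (by
      intro e s
      rw [abs_mul, abs_of_pos hlam0]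
      gcongr
      have := hμ e
      have := hY e s
      rw [abs_le]; constructor <;> linarith)
    (by
      intro e
      have : ∀ s, w s * (lam * (Y e s - ∑ s, w s * Y e s)) =
          lam * (w s * Y e s) - lam * (∑ s, w s * Y e s) * w s := fun s => by ring
      simp only [this, Finset.sum_sub_distrib, ← Finset.mul_sum, hw1]
      ring) d
  refine ⟨t, fun e => ?_⟩
  set W := ∑ r, Y e (t r) - d * ∑ s, w s * Y e s with hW
  have e1 : ∑ r, lam * (Y e (t r) - ∑ s, w s * Y e s) = lam * W := by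
    rw [← Finset.mul_sum, Finset.sum_sub_distrib]; simp [hW]
  have h1 := (Finset.single_le_sum (f := fun e => exp (∑ r, lam * (Y e (t r) - ∑ s, w s * Y e s)) +
    exp (-∑ r, lam * (Y e (t r) - ∑ s, w s * Y e s))) (fun e _ => by positivity)
    (Finset.mem_univ e)).trans ht
  simp only [e1] at h1
  have h2 : exp (lam * |W|) ≤ 2 * Fintype.card E * exp (d * (lam * b) ^ 2) := by
    refine le_trans ?_ h1
    rcases abs_cases W with h | h
    · rw [h.1]; have := exp_pos (-(lam * W)); linarith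
    · rw [h.1, mul_neg]; have := exp_pos (lam * W); linarith
  have hE : (0:ℝ) < 2 * Fintype.card E := by
    have : 0 < Fintype.card E := Fintype.card_pos_iff.2 ⟨e⟩
    positivity
  rw [← exp_log hE, ← exp_add, exp_le_exp] at h2
  have h3 : lam * |W| ≤ lam * (d * τ) := by
    refine h2.trans ?_
    have e2 : lam * (d * τ) = d * τ ^ 2 / (2 * b ^ 2) := by rw [hlam]; field_simp
    have e3 : d * (lam * b) ^ 2 = d * τ ^ 2 / (4 * b ^ 2) := by rw [hlam]; field_simp; ring
    have e4 : log (2 * Fintype.card E) ≤ d * τ ^ 2 / (4 * b ^ 2) := by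
      rw [le_div_iff₀ (by positivity)]; linarith
    have e5 : d * τ ^ 2 / (2 * b ^ 2) = 2 * (d * τ ^ 2 / (4 * b ^ 2)) := by field_simp; ring
    linarith
  exact le_of_mul_le_mul_left h3 hlam0

end Crest.Agent.H9.Lp
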