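import Crest.Agent.H9.SPMul
import Crest.Prelude.Def_SPSPS

set_option autoImplicit false

namespace Crest.Agent.H9.SP

open Matrix MvPolynomial Finset Crest.ArithCircuit

section hom

variable {K σ L B P S R : Type*} [CommSemiring K] (C : SPSPS K σ L B P S R)

theorem hom_multiset_prod {ι : Type*} (m : Multiset ι) (f : ι → MvPolynomial σ K) (e : ι → ℕ)
    (h : ∀ i ∈ m, (f i).IsHomogeneous (e i)) : (m.map f).prod.IsHomogeneous (m.map e).sum := by
  induction m using Multiset.induction_on with
  | empty => simpa using isHomogeneous_one σ K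
  | cons a m ih =>
    simp only [Multiset.map_cons, Multiset.prod_cons, Multiset.sum_cons]
    exact (h a (Multiset.mem_cons_self _ _)).mul
      (ih fun i hi => h i (Multiset.mem_cons_of_mem hi))

theorem hom_smul {f : MvPolynomial σ K} {e : ℕ} (h : f.IsHomogeneous e) (a : K) :
    (a • f).IsHomogeneous e := by
  rw [smul_eq_C_mul]; exact h.C_mul a

theorem hom_leaf (l : L) : (C.leafVal l).IsHomogeneous (C.leafDeg l) := by
  unfold SPSPS.leafVal SPSPS.leafDeg
  rcases C.leaf l with x | a
  · exact isHomogeneous_X _ _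
  · exact isHomogeneous_C _ _

omit [CommSemiring K] in
theorem degB_le (b : B) : C.degB b ≤ 1 := by
  unfold SPSPS.degB
  refine Finset.sup_le fun l _ => ?_
  unfold SPSPS.leafDeg
  rcases C.leaf l with x | a <;> simp

variable {C}

theorem hom_B (h : C.IsHomogeneous) (b : B) : (C.valB b).IsHomogeneous (C.degB b) :=
  IsHomogeneous.sum _ _ _ fun l hl => hom_smul (h.1 b l hl ▸ hom_leaf C l) _

theorem hom_P (h : C.IsHomogeneous) (p : P) : (C.valP p).IsHomogeneous (C.degP p) :=
  hom_multiset_prod _ _ _ fun b _ => hom_B h b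

theorem hom_S (h : C.IsHomogeneous) (s : S) : (C.valS s).IsHomogeneous (C.degS s) :=
  IsHomogeneous.sum _ _ _ fun p hp => hom_smul (h.2.1 s p hp ▸ hom_P h p) _

theorem hom_R (h : C.IsHomogeneous) (r : R) : (C.valR r).IsHomogeneous (C.degR r) :=
  hom_multiset_prod _ _ _ fun s _ => hom_S h s

theorem hom_out (h : C.IsHomogeneous) : C.output.IsHomogeneous C.degOut :=
  IsHomogeneous.sum _ _ _ fun r hr => hom_smul (h.2.2 r hr ▸ hom_R h r) _

end hom

theorem FF_zero (A B : ℝ) : FF A B 0 = 1 := by simp [FF, uu]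

theorem circuit_bound {K σ L B P S R : Type*} [Field K] [Fintype σ] [DecidableEq σ]
    [Fintype P] [Fintype R] {C : SPSPS K σ L B P S R} (hC : C.IsHomogeneous)
    {Y : Finset σ} {d0 d : ℕ × ℕ} {a b W : ℝ} (ha : 0 < a) (hb : 0 < b) (hW : 0 ≤ W)
    (hcnt : ∀ d1 d2, d1 + d2 = d → (cnt Y (d0 + d1) : ℝ) ≤ W * (uu a b d1 / uu a b d2))
    {n t : ℕ} (hn : d.1 + d.2 = n) {ρ τ θ : ℝ} (hρ0 : 0 ≤ ρ) (hτ1 : 1 ≤ τ) (hθ0 : 0 ≤ θ)
    (hθ1 : θ ≤ 1) (hρ : ∀ e ≤ t, FF a b e ≤ ρ ^ e) (hτ : ∀ e ≤ n, FF a b e ≤ τ ^ e)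
    (hθ : FF a b 1 ≤ θ) :
    (mu Y d0 d C.output : ℝ) ≤ W * (Fintype.card R * (ρ ^ n + Fintype.card P * (τ ^ n * θ ^ t))) := by
  classical
  by_cases hdeg : C.degOut = n
  swap
  · rw [mu_eq_zero_of_degree d0 d (hom_out hC) (by rw [hn]; exact hdeg)]
    push_cast; positivity
  have hone : Bound Y d0 d a b W (1 : MvPolynomial σ K) 1 := Bound.one ha hb hW hcnt
  have hR : ∀ r ∈ C.inOut, Bound Y d0 d a b W (C.coefOut r • C.valR r)
      (ρ ^ n + Fintype.card P * (τ ^ n * θ ^ t)) := by
    intro r hr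
    refine Bound.smul ?_ _
    have hdr : ((C.inR r).map C.degS).sum = n := (hC.2.2 r hr).trans hdeg
    by_cases hsmall : ∀ s ∈ C.inR r, C.degS s ≤ t
    · have := Bound.prod ha hb hW (C.inR r) C.valS C.degS hρ0
        (fun s hs => ⟨hom_S hC s, hρ _ (hsmall s hs)⟩) zero_le_one hone
      rw [mul_one, mul_one, hdr] at this
      exact this.mono ha hb hW (le_add_of_nonneg_right (by positivity))
    · push Not at hsmall
      obtain ⟨s0, hs0, hbig⟩ := hsmall
      have hS : Bound Y d0 d a b W (C.valS s0) (Fintype.card P * θ ^ t) := by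
        have h1 : ∀ p ∈ C.inS s0, Bound Y d0 d a b W (C.coefS s0 p • C.valP p) (θ ^ t) := by
          intro p hp
          refine Bound.smul ?_ _
          have := Bound.prod ha hb hW (C.inP p) C.valB C.degB hθ0
            (fun x _ => ⟨hom_B hC x, by
              have := degB_le C x
              interval_cases C.degB x
              · simp [FF_zero]
              · simpa using hθ⟩) zero_le_one hone
          rw [mul_one, mul_one] at this
          refine this.mono ha hb hW ?_
          have h2 : ((C.inP p).map C.degB).sum = C.degS s0 := hC.2.1 s0 p hp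
          rw [h2]
          exact pow_le_pow_of_le_one hθ0 hθ1 hbig.le
        refine (Bound.sum _ h1).mono ha hb hW ?_
        rw [sum_const, nsmul_eq_mul]
        gcongr
        exact card_le_univ _
      have hsplit : C.inR r = s0 ::ₘ (C.inR r).erase s0 := (Multiset.cons_erase hs0).symm
      have hle : ∀ s ∈ C.inR r, C.degS s ≤ n := fun s hs =>
        hdr ▸ Multiset.single_le_sum (fun _ _ => Nat.zero_le _) _ (Multiset.mem_map_of_mem _ hs)
      have := Bound.prod ha hb hW ((C.inR r).erase s0) C.valS C.degS (by linarith : 0 ≤ τ)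
        (fun s hs => ⟨hom_S hC s, hτ _ (hle s (Multiset.mem_of_mem_erase hs))⟩)
        (by positivity) hS
      have e1 : C.valR r = (((C.inR r).erase s0).map C.valS).prod * C.valS s0 := by
        unfold SPSPS.valR
        conv_lhs => rw [hsplit]
        rw [Multiset.map_cons, Multiset.prod_cons, mul_comm]
      rw [e1]
      refine this.mono ha hb hW ?_
      have h3 : (((C.inR r).erase s0).map C.degS).sum ≤ n := by
        rw [← hdr]
        conv_rhs => rw [hsplit]
        rw [Multiset.map_cons, Multiset.sum_cons]; omega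
      have h4 : τ ^ (((C.inR r).erase s0).map C.degS).sum ≤ τ ^ n := pow_le_pow_right₀ hτ1 h3
      have h5 : 0 ≤ ρ ^ n := by positivity
      calc _ ≤ τ ^ n * (Fintype.card P * θ ^ t) := by gcongr
        _ ≤ _ := by linarith
  refine ((Bound.sum _ hR).mono ha hb hW ?_).le
  rw [sum_const, nsmul_eq_mul]
  gcongr
  exact card_le_univ _

end Crest.Agent.H9.SP
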