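import Crest.Agent.H9.SPMul

set_option autoImplicit false

namespace Crest.Agent.H9.SP

open Finset Real

theorem geo_bound {r : ℝ} (x : ℝ) (hr0 : 0 ≤ r) (hr : r ≤ 1 / 2) (e : ℕ) :
    ∑ p ∈ antidiagonal e, (if p.1 = p.2 then x else r ^ Nat.dist p.1 p.2) + 8 / 3 * r ^ (e + 2) ≤
      if Even e then x + 8 / 3 * r ^ 2 else 8 / 3 * r := by
  induction e using Nat.twoStepInduction with
  | zero => simp
  | one =>
    rw [Nat.sum_antidiagonal_succ]
    simp [Nat.dist]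
    have : r ^ 3 ≤ r / 4 := by nlinarith [mul_nonneg hr0 hr0]
    linarith
  | more e ih _ =>
    rw [Nat.sum_antidiagonal_succ, Nat.sum_antidiagonal_succ']
    have e1 : ∀ p : ℕ × ℕ, Nat.dist (p.1 + 1) (p.2 + 1) = Nat.dist p.1 p.2 := fun p =>
      Nat.dist_succ_succ
    simp only [e1, Nat.add_right_cancel_iff, Nat.dist_zero_left, Nat.dist_zero_right]
    rw [if_neg (by omega), if_neg (by omega)]
    have e2 : Even (e + 2) ↔ Even e := by simp [Nat.even_add]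
    simp only [e2]
    have h1 : r ^ (e + 2 + 2) = r ^ (e + 2) * r ^ 2 := pow_add _ _ _
    have h2 : 0 ≤ r ^ (e + 2) := by positivity
    have h3 : r ^ 2 ≤ 1 / 4 := by nlinarith
    have h4 : r ^ (e + 1 + 1) = r ^ (e + 2) := rfl
    rw [h1, h4]
    nlinarith

theorem min_le_term {A δ : ℝ} (hA : 0 < A) (hδ : 1 ≤ δ) (p : ℕ × ℕ) :
    min (uu A (δ ^ 2 * A) p) (uu A (δ ^ 2 * A) p)⁻¹ ≤
      δ ^ (p.1 + p.2) * (if p.1 = p.2 then (δ ^ (2 * (p.1 + p.2)))⁻¹ else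
        A⁻¹ ^ Nat.dist p.1 p.2) := by
  obtain ⟨i, j⟩ := p
  have hδ0 : 0 < δ := by linarith
  simp only [uu]
  rcases lt_trichotomy i j with h | h | h
  · obtain ⟨k, rfl⟩ := Nat.exists_eq_add_of_le h.le
    rw [if_neg h.ne, Nat.dist_eq_sub_of_le h.le, Nat.add_sub_cancel_left]
    refine (min_le_right _ _).trans ?_
    have e1 : ((δ ^ 2 * A) ^ (i + k) / A ^ i)⁻¹ = ((δ ^ 2) ^ (i + k))⁻¹ * A⁻¹ ^ k := by
      rw [mul_pow, pow_add A, inv_pow]; field_simp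
    rw [e1]
    gcongr
    exact le_trans (inv_le_one_of_one_le₀ (one_le_pow₀ (one_le_pow₀ hδ))) (one_le_pow₀ hδ)
  · subst h
    rw [if_pos rfl]
    refine (min_le_right _ _).trans (le_of_eq ?_)
    rw [mul_pow, ← pow_mul]
    have : δ ^ (2 * (i + i)) = δ ^ (i + i) * δ ^ (2 * i) := by rw [← pow_add]; congr 1; ring
    rw [this]; field_simp
  · obtain ⟨k, rfl⟩ := Nat.exists_eq_add_of_le h.le
    rw [if_neg h.ne', Nat.dist_eq_sub_of_le_right h.le, Nat.add_sub_cancel_left]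
    refine (min_le_left _ _).trans ?_
    have e1 : (δ ^ 2 * A) ^ j / A ^ (j + k) = δ ^ (2 * j) * A⁻¹ ^ k := by
      rw [mul_pow, pow_add A, inv_pow, ← pow_mul]; field_simp
    rw [e1]
    gcongr
    omega

theorem FF_le_geo {A δ : ℝ} (hA : 2 ≤ A) (hδ : 1 ≤ δ) (e : ℕ) :
    FF A (δ ^ 2 * A) e ≤ δ ^ e *
      if Even e then (δ ^ (2 * e))⁻¹ + 8 / 3 * A⁻¹ ^ 2 else 8 / 3 * A⁻¹ := by
  have hA0 : 0 < A := by linarith
  have h1 := geo_bound (r := A⁻¹) (δ ^ (2 * e))⁻¹ (by positivity)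
    (by rw [inv_eq_one_div]; exact one_div_le_one_div_of_le (by norm_num) hA) e
  have h2 : 0 ≤ 8 / 3 * A⁻¹ ^ (e + 2) := by positivity
  refine le_trans ?_ (mul_le_mul_of_nonneg_left (le_trans (le_add_of_nonneg_right h2) h1)
    (by positivity))
  rw [FF, mul_sum]
  refine sum_le_sum fun p hp => ?_
  have := min_le_term hA0 hδ p
  rwa [HasAntidiagonal.mem_antidiagonal.1 hp] at this

theorem FF_small {A δ : ℝ} (hA : 2 ≤ A) (hδ : 1 ≤ δ) {e : ℕ} (h1 : δ ^ (2 * e) ≤ 1 + e)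
    (h2 : δ ^ (2 * e) ≤ 3 / 8 * A) : FF A (δ ^ 2 * A) e ≤ (exp (4 / A ^ 2) / δ) ^ e := by
  have hA0 : 0 < A := by linarith
  have hδ0 : 0 < δ := by linarith
  rcases Nat.eq_zero_or_pos e with rfl | he
  · simp [FF, uu]
  refine (FF_le_geo hA hδ e).trans ?_
  have e1 : δ ^ (2 * e) = δ ^ e * δ ^ e := by rw [← pow_add]; congr 1; ring
  rw [div_pow, ← exp_nat_mul, le_div_iff₀ (by positivity), mul_comm, ← mul_assoc, ← e1]
  split_ifs with h
  · have he2 : (2:ℝ) ≤ e := by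
      obtain ⟨k, rfl⟩ := h
      exact_mod_cast (by omega : 2 ≤ k + k)
    have h3 := add_one_le_exp (e * (4 / A ^ 2))
    have h4 : δ ^ (2 * e) * (8 / 3 * A⁻¹ ^ 2) ≤ e * (4 / A ^ 2) := by
      have : δ ^ (2 * e) ≤ 3 / 2 * e := by linarith
      calc _ ≤ 3 / 2 * e * (8 / 3 * A⁻¹ ^ 2) := by gcongr
        _ = _ := by field_simp; ring
    rw [mul_add, mul_inv_cancel₀ (by positivity)]
    linarith
  · have h3 : 1 ≤ exp (e * (4 / A ^ 2)) := one_le_exp (by positivity)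
    refine le_trans ?_ h3
    calc _ ≤ 3 / 8 * A * (8 / 3 * A⁻¹) := by gcongr
      _ = _ := by field_simp

theorem FF_le_succ {A B : ℝ} (hA : 0 < A) (hB : 0 < B) (e : ℕ) : FF A B e ≤ e + 1 := by
  have : FF A B e ≤ ∑ _p ∈ antidiagonal e, (1:ℝ) := by
    refine sum_le_sum fun p _ => ?_
    have h := uu_pos hA hB p
    rcases le_total (uu A B p) 1 with h1 | h1
    · exact (min_le_left _ _).trans h1
    · exact (min_le_right _ _).trans (inv_le_one_of_one_le₀ h1)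
  simpa using this

theorem FF_one {A B : ℝ} (hA : 0 < A) (hAB : A ≤ B) : FF A B 1 ≤ 2 / A := by
  rw [FF, Nat.sum_antidiagonal_succ]
  simp only [Nat.antidiagonal_zero, sum_singleton, uu]
  have h1 : B⁻¹ ≤ A⁻¹ := inv_anti₀ hA hAB
  have h2 := min_le_right (B ^ (0 + 1) / A ^ 0) (B ^ (0 + 1) / A ^ 0)⁻¹
  have h3 := min_le_left (B ^ 0 / A ^ (0 + 1)) (B ^ 0 / A ^ (0 + 1))⁻¹
  simp only [zero_add, pow_one, pow_zero, div_one, one_div] at h2 h3 ⊢
  rw [div_eq_mul_inv]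
  linarith

end Crest.Agent.H9.SP
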