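import Crest.Agent.H9.SPLower
import Crest.Agent.H9.SPCirc
import Crest.Agent.H9.SPFF

set_option autoImplicit false

namespace Crest.Agent.H9.SP

open Finset Real Crest.ArithCircuit

/-- greedy balanced walk -/
noncomputable def walk (a b : ℝ) : ℕ → ℝ
  | 0 => 0
  | k + 1 => if 0 < walk a b k then walk a b k - a else walk a b k + b

theorem walk_mem {a b : ℝ} (ha : 0 ≤ a) (hb : 0 ≤ b) (k : ℕ) :
    -a ≤ walk a b k ∧ walk a b k ≤ b := by
  induction k with
  | zero => simp [walk, ha, hb]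
  | succ k ih =>
    rw [walk]
    split_ifs with h
    · constructor <;> linarith [ih.1, ih.2]
    · constructor <;> linarith [ih.1, ih.2]

theorem exists_word (n : ℕ) {σY σZ x : ℝ} (hY0 : 0 < σY) (hY1 : σY ≤ 1) (hZ0 : 0 < σZ)
    (hZ1 : σZ ≤ 1) (hx : 0 < x) (hprod : 1 ≤ σY * σZ * x ^ 2) :
    ∃ YP : Finset (Fin (n + 1)), (∀ J : Finset (Fin (n + 1)),
      σZ ^ (J \ YP).card ≤ σY ^ (YP ∩ J).card * x ^ (bd J).card) ∧
      σY ^ YP.card * σZ ≤ σZ ^ YPᶜ.card := by
  set a := -log σY with ha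
  set b := -log σZ with hb
  have ha0 : 0 ≤ a := by have := log_nonpos hY0.le hY1; linarith
  have hb0 : 0 ≤ b := by have := log_nonpos hZ0.le hZ1; linarith
  have hab : (a + b) / 2 ≤ log x := by
    have := log_le_log one_pos hprod
    rw [log_one, log_mul (by positivity) (by positivity), log_mul hY0.ne' hZ0.ne', log_pow] at this
    push_cast at this
    linarith
  set YP : Finset (Fin (n + 1)) := univ.filter fun k => 0 < walk a b k with hYP
  have hsum : ∀ J : Finset (Fin (n + 1)), ∑ k ∈ J, (walk a b (k + 1) - walk a b k) =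
      (J \ YP).card * b - (YP ∩ J).card * a := by
    intro J
    rw [← sum_inter_add_sum_sdiff J YP, inter_comm YP]
    rw [sum_congr rfl (g := fun _ => -a), sum_congr (s₁ := J \ YP) rfl (g := fun _ => b)]
    · simp only [sum_const, nsmul_eq_mul]; ring
    · intro k hk
      have : ¬ 0 < walk a b k := by simpa [hYP] using (mem_sdiff.1 hk).2
      rw [walk, if_neg this]; ring
    · intro k hk
      have : 0 < walk a b k := by simpa [hYP] using (mem_inter.1 hk).2
      rw [walk, if_pos this]; ring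
  have eY : ∀ m : ℕ, σY ^ m = exp (-(m * a)) := by
    intro m; rw [ha, mul_neg, neg_neg, exp_nat_mul, exp_log hY0]
  have eZ : ∀ m : ℕ, σZ ^ m = exp (-(m * b)) := by
    intro m; rw [hb, mul_neg, neg_neg, exp_nat_mul, exp_log hZ0]
  have eX : ∀ m : ℕ, x ^ m = exp (m * log x) := by
    intro m; rw [exp_nat_mul, exp_log hx]
  refine ⟨YP, fun J => ?_, ?_⟩
  · rw [eY, eZ, eX, ← exp_add, exp_le_exp]
    let c : Fin (n + 2) → ℝ := fun j => walk a b j - (b - a) / 2
    have hc : ∀ j, -log x ≤ c j ∧ c j ≤ log x := by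
      intro j
      have := walk_mem ha0 hb0 j
      simp only [c]
      constructor <;> linarith [this.1, this.2]
    have h1 : ∑ k ∈ J, (walk a b (k + 1) - walk a b k) =
        ∑ j ∈ J.image Fin.succ, c j - ∑ j ∈ J.image Fin.castSucc, c j := by
      rw [sum_image fun a _ b _ h => Fin.succ_injective _ h,
        sum_image fun a _ b _ h => Fin.castSucc_injective _ h, ← sum_sub_distrib]
      refine sum_congr rfl fun k _ => ?_
      simp [c]
    rw [← sum_sdiff_sub_sum_sdiff, hsum] at h1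
    have h2 : ((bd J).card : ℝ) = (J.image Fin.succ \ J.image Fin.castSucc).card +
        (J.image Fin.castSucc \ J.image Fin.succ).card := by
      rw [bd, symmDiff_def, sup_eq_union, card_union_of_disjoint disjoint_sdiff_sdiff]
      push_cast; rfl
    have h3 := card_nsmul_le_sum (J.image Fin.succ \ J.image Fin.castSucc) c _
      (fun j _ => (hc j).1)
    have h4 := sum_le_card_nsmul (J.image Fin.castSucc \ J.image Fin.succ) c _
      (fun j _ => (hc j).2)
    rw [nsmul_eq_mul] at h3 h4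
    rw [h2]
    linarith
  · have h1 := hsum univ
    rw [Fin.sum_univ_eq_sum_range (fun k => walk a b (k + 1) - walk a b k), sum_range_sub,
      ← compl_eq_univ_sdiff, inter_univ] at h1
    have h2 := (walk_mem ha0 hb0 (n + 1)).2
    have e1 := eZ 1
    rw [pow_one] at e1
    rw [eY, eZ, e1, ← exp_add, exp_le_exp]
    simp only [walk] at h1 h2
    push_cast
    linarith

theorem exp_neg_two_le {y : ℝ} (h0 : 0 ≤ y) (h1 : y ≤ 1 / 2) : exp (-(2 * y)) ≤ 1 - y := by
  have h2 := add_one_le_exp (2 * y)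
  rw [exp_neg, inv_le_comm₀ (exp_pos _) (by linarith)]
  refine le_trans ?_ h2
  rw [inv_eq_one_div, div_le_iff₀ (by linarith)]
  nlinarith

set_option maxHeartbeats 1600000 in
theorem combine {K L B P S R : Type*} [Field K] [CharZero K] [Fintype P] [Fintype R] {n : ℕ}
    (C : SPSPS K (Fin (n + 1) × Fin (n + 1) × Fin (n + 1)) L B P S R) (hC : C.IsHomogeneous)
    (hout : C.output = imm K (n + 1)) (u g t : ℕ) {x A δ τ : ℝ} (hu : 2 ≤ u)
    (hug : 2 * (u + g) + 2 ≤ n + 1) (hx : 0 < x) (hxu : ((n + 1 : ℕ) : ℝ) ^ 2 ≤ (u + g) * u * x ^ 2)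
    (hA2 : 2 ≤ A) (hA : A ^ 2 * (u + g) = (n + 1 : ℕ)) (hδ1 : 1 ≤ δ) (hδ : δ ^ 4 * u = u + g)
    (h1 : ∀ e ≤ t, δ ^ (2 * e) ≤ 1 + e) (h2 : ∀ e ≤ t, δ ^ (2 * e) ≤ 3 / 8 * A)
    (hτ1 : exp (4 / A ^ 2) ≤ τ) (hτ2 : ((n + 1 : ℕ) : ℝ) + 1 ≤ τ ^ t) :
    1 ≤ 4 * exp (4 * (u + 1)) * exp (4 * x) * exp (2 * (u + g)) * (δ ^ 2 * A) *
      (Fintype.card R * ((exp (4 / A ^ 2) / δ) ^ (n + 1) +
        Fintype.card P * (τ ^ (n + 1) * (2 / A) ^ t))) := by
  set N : ℝ := ((n + 1 : ℕ) : ℝ) with hN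
  have hu' : (2:ℝ) ≤ u := by exact_mod_cast hu
  have hg' : (0:ℝ) ≤ g := Nat.cast_nonneg g
  have hug' : 2 * ((u:ℝ) + g) + 2 ≤ N := by rw [hN]; exact_mod_cast hug
  have hN0 : 0 < N := by linarith
  have hA0 : 0 < A := by linarith
  have hδ0 : 0 < δ := by linarith
  set σY := (u + g) / N with hσY
  set σZ := u / N with hσZ
  have hY0 : 0 < σY := by positivity
  have hZ0 : 0 < σZ := by positivity
  have hY1 : σY ≤ 1 / 2 := by rw [hσY, div_le_iff₀ hN0]; linarith
  have hZ1 : σZ + 1 / N ^ 2 ≤ 1 / 2 := by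
    have a1 : 1 / N ^ 2 ≤ 1 / N := by
      apply one_div_le_one_div_of_le hN0; nlinarith
    have a2 : σZ + 1 / N ≤ 1 / 2 := by
      rw [hσZ, ← add_div, div_le_iff₀ hN0]; linarith
    linarith
  have hN2 : 0 < 1 / N ^ 2 := by positivity
  obtain ⟨YP, hword, hbal⟩ := exists_word n hY0 (by linarith) hZ0 (by linarith) hx (by
    rw [hσY, hσZ, div_mul_div_comm, div_mul_eq_mul_div, le_div_iff₀ (by positivity)]
    nlinarith)
  set p := YP.card with hp
  set q := YPᶜ.card with hq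
  have hpq : p + q = n + 1 := by rw [hp, hq, card_add_card_compl]; simp
  have hpN : (p:ℝ) ≤ N := by rw [hN]; exact_mod_cast (by omega : p ≤ n + 1)
  have hqN : (q:ℝ) ≤ N := by rw [hN]; exact_mod_cast (by omega : q ≤ n + 1)
  have hp0 : (0:ℝ) ≤ p := Nat.cast_nonneg _
  have hq0 : (0:ℝ) ≤ q := Nat.cast_nonneg _
  have cY : ((YY YP).card : ℝ) = p * N ^ 2 := by rw [card_YY]; push_cast [hN]; rfl
  have cZ : ((YY YPᶜ).card : ℝ) = q * N ^ 2 := by rw [card_YY]; push_cast [hN]; rfl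
  set α := p * ((n + 1) * (n + 1 - (u + g))) with hα
  set β := q * ((n + 1) * u) with hβ
  have cα : (α : ℝ) = p * N ^ 2 * (1 - σY) := by
    rw [hα, Nat.cast_mul, Nat.cast_mul, Nat.cast_sub (by omega), ← hN, hσY]
    push_cast; field_simp
  have cβ : (β : ℝ) = q * N ^ 2 * σZ := by
    rw [hβ, Nat.cast_mul, Nat.cast_mul, ← hN, hσZ]
    field_simp
  have hrY : 0 ≤ σY - 1 / N ^ 2 := by
    have a1 : 1 / N ^ 2 ≤ 1 / N := by
      apply one_div_le_one_div_of_le hN0; nlinarith
    have a2 : 1 / N ≤ σY := by rw [hσY]; gcongr; linarith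
    linarith
  have hlow := lower YP K (α := α) (β := β) (σY := σY) (σZ := σZ) (rY := σY - 1 / N ^ 2)
    (rZ := 1 - (σZ + 1 / N ^ 2)) (x := x) hY0.le (by linarith)
    (by rw [cY, cα]; apply le_of_eq; ring) hZ0.le (by linarith)
    (by rw [cZ, cβ]; apply le_of_eq; ring) hx.le hword hrY
    (by rw [cY, cα, ← hp]; apply le_of_eq; field_simp; ring) (by linarith)
    (by rw [cZ, cβ, ← hq]; apply le_of_eq; field_simp; ring)
  rw [← hp, ← hq] at hlow
  set D0 := ((YY YP).card.choose α : ℝ) * ((YY YPᶜ).card.choose β : ℝ) with hD0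
  have hD : 0 < D0 := by
    have a1 : α ≤ (YY YP).card := by
      have : (α:ℝ) ≤ (YY YP).card := by
        rw [cY, cα]; have : 0 ≤ p * N ^ 2 * σY := by positivity
        linarith
      exact_mod_cast this
    have a2 : β ≤ (YY YPᶜ).card := by
      have : (β:ℝ) ≤ (YY YPᶜ).card := by
        rw [cZ, cβ]; have : 0 ≤ q * N ^ 2 * (1 - σZ) := by
          have : 0 ≤ 1 - σZ := by linarith
          positivity
        linarith
      exact_mod_cast this
    have := Nat.choose_pos a1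
    have := Nat.choose_pos a2
    positivity
  have hAσ : A ^ 2 = σY⁻¹ := by
    rw [hσY, inv_div, eq_div_iff (by positivity)]; exact hA
  have hBσ : (δ ^ 2 * A) ^ 2 = σZ⁻¹ := by
    rw [hσZ, inv_div, eq_div_iff (by positivity), mul_pow, ← pow_mul, ← hA, ← hδ]; ring
  have huu : ∀ d : ℕ × ℕ, uu A (δ ^ 2 * A) d ^ 2 = σY ^ d.1 * σZ⁻¹ ^ d.2 := by
    intro d
    rw [uu, div_pow, ← pow_mul, ← pow_mul, mul_comm d.2, mul_comm d.1, pow_mul, pow_mul, hAσ, hBσ,
      inv_pow σY]
    field_simp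
  have hB0 : 0 < δ ^ 2 * A := by positivity
  have hκ : (1 - σY)⁻¹ ≤ exp (2 * σY) := by
    rw [inv_le_comm₀ (by linarith) (exp_pos _), ← exp_neg]
    exact exp_neg_two_le hY0.le hY1
  have hκN : ∀ i ≤ n + 1, (1 - σY)⁻¹ ^ i ≤ exp (2 * (u + g)) := by
    intro i hi
    have : (0:ℝ) < 1 - σY := by linarith
    refine (pow_le_pow_left₀ (by positivity) hκ i).trans ?_
    rw [← exp_nat_mul, exp_le_exp]
    have a1 : (i:ℝ) ≤ N := by rw [hN]; exact_mod_cast hi
    have a2 : N * σY = u + g := by rw [hσY]; field_simp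
    nlinarith
  have hup := circuit_bound hC (Y := YY YP) (d0 := (α, β)) (d := (p, q)) hA0 hB0
    (W := D0 * exp (2 * (u + g)) * uu A (δ ^ 2 * A) (p, q))
    (by have := uu_pos hA0 hB0 (p, q); positivity)
    (by
      rintro ⟨i, j⟩ d2 hd
      rw [← hd, uu_add]
      have a0 := uu_pos hA0 hB0 d2
      have e : D0 * exp (2 * (u + g)) * (uu A (δ ^ 2 * A) (i, j) * uu A (δ ^ 2 * A) d2) *
          (uu A (δ ^ 2 * A) (i, j) / uu A (δ ^ 2 * A) d2) =
          D0 * exp (2 * (u + g)) * uu A (δ ^ 2 * A) (i, j) ^ 2 := by field_simp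
      rw [e, huu, Prod.mk_add_mk, cnt_eq, YY_compl]
      have hi : i ≤ n + 1 := by
        have := congrArg Prod.fst hd
        simp only [Prod.fst_add] at this
        omega
      have hσ : (0:ℝ) < 1 - σY := by linarith
      have a1 := choose_add_le (N := (YY YP).card) (k := α) (r := σY * (1 - σY)⁻¹) (by positivity)
        (by rw [cY, cα]; apply le_of_eq; field_simp; ring) i
      have a2 := choose_add_le (N := (YY YPᶜ).card) (k := β) (r := σZ⁻¹) (by positivity)
        (by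
          rw [cZ, cβ]
          have : σZ⁻¹ * (q * N ^ 2 * σZ) = q * N ^ 2 := by field_simp
          rw [this]
          have : 0 ≤ q * N ^ 2 * σZ := by positivity
          linarith) j
      push_cast
      refine (mul_le_mul a1 a2 (by positivity) (by positivity)).trans ?_
      rw [mul_pow]
      have a3 := mul_le_mul_of_nonneg_left (hκN i hi)
        (show 0 ≤ D0 * (σY ^ i * σZ⁻¹ ^ j) by positivity)
      rw [hD0] at a3 ⊢
      linarith)
    (n := n + 1) (t := t) hpq (ρ := exp (4 / A ^ 2) / δ) (τ := τ) (θ := 2 / A) (by positivity)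
    (le_trans (one_le_exp (by positivity)) hτ1) (by positivity)
    (by rw [div_le_one hA0]; exact hA2)
    (fun e he => FF_small hA2 hδ1 (h1 e he) (h2 e he))
    (by
      intro e he
      rcases le_total e t with h | h
      · refine (FF_small hA2 hδ1 (h1 e h) (h2 e h)).trans (pow_le_pow_left₀ (by positivity) ?_ e)
        exact (div_le_self (exp_pos _).le hδ1).trans hτ1
      · refine (FF_le_succ hA0 hB0 e).trans ?_
        have a1 : (e:ℝ) ≤ N := by rw [hN]; exact_mod_cast he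
        have a2 : τ ^ t ≤ τ ^ e :=
          pow_le_pow_right₀ (le_trans (one_le_exp (by positivity)) hτ1) h
        linarith)
    (FF_one hA0 (le_mul_of_one_le_left hA0.le (one_le_pow₀ hδ1)))
  rw [hout] at hup
  set M := (Fintype.card R : ℝ) * ((exp (4 / A ^ 2) / δ) ^ (n + 1) +
        Fintype.card P * (τ ^ (n + 1) * (2 / A) ^ t)) with hM
  have hτ0 : 0 < τ := lt_of_lt_of_le (exp_pos _) hτ1
  have hM0 : 0 ≤ M := by positivity
  have hbal' : uu A (δ ^ 2 * A) (p, q) ≤ δ ^ 2 * A := by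
    refine le_of_sq_le_sq ?_ hB0.le
    rw [huu, hBσ, inv_pow, ← div_eq_mul_inv, div_le_iff₀ (by positivity), inv_mul_eq_div,
      le_div_iff₀ hZ0]
    exact hbal
  have a1 : σY ^ p / 2 ≤ (σY - 1 / N ^ 2) ^ p := by
    have e : σY - 1 / N ^ 2 = σY * (1 + -(1 / (N * (u + g)))) := by
      rw [hσY]; field_simp; ring
    have b0 : 1 / (N * (u + g)) ≤ 1 / (N * 2) := by gcongr; linarith
    have b1 : 1 / (N * 2) ≤ 1 := by rw [div_le_one (by positivity)]; linarith
    have b2 := one_add_mul_le_pow (a := -(1 / (N * (u + g)))) (by linarith) p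
    have b3 : (p:ℝ) * (1 / (N * (u + g))) ≤ N * (1 / (N * 2)) := by gcongr
    have b4 : N * (1 / (N * 2)) = 1 / 2 := by field_simp
    rw [e, mul_pow, div_eq_mul_one_div]
    gcongr
    linarith
  have a2 : exp (-(2 * (u + 1))) ≤ (1 - (σZ + 1 / N ^ 2)) ^ q := by
    refine le_trans ?_ (pow_le_pow_left₀ (exp_pos _).le (exp_neg_two_le (by positivity) hZ1) q)
    rw [← exp_nat_mul, exp_le_exp]
    have b1 : (q:ℝ) * (σZ + 1 / N ^ 2) ≤ N * (σZ + 1 / N) := by
      gcongr; nlinarith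
    have b2 : N * (σZ + 1 / N) = u + 1 := by rw [hσZ]; field_simp
    linarith
  have a3 : D0 * (σY ^ p / 2 * exp (-(2 * (u + 1)))) ^ 2 ≤
      D0 * exp (2 * (u + g)) * (δ ^ 2 * A) * M * (σY ^ (2 * p) * exp (4 * x)) := by
    refine le_trans (by gcongr) (hlow.trans ?_)
    gcongr
    refine hup.trans ?_
    gcongr
  have e1 : exp (4 * (u + 1)) * exp (-(2 * (u + 1))) ^ 2 = 1 := by
    rw [← exp_nat_mul, ← exp_add, ← exp_zero]; congr 1; push_cast; ring
  have a4 := mul_le_mul_of_nonneg_left a3 (show 0 ≤ 4 * exp (4 * (u + 1)) by positivity)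
  have h5 : 0 < D0 * σY ^ (2 * p) := by positivity
  refine le_of_mul_le_mul_left ?_ h5
  calc D0 * σY ^ (2 * p) * 1 = D0 * σY ^ (2 * p) *
        (exp (4 * (u + 1)) * exp (-(2 * (u + 1))) ^ 2) := by rw [e1]
    _ = 4 * exp (4 * (u + 1)) * (D0 * (σY ^ p / 2 * exp (-(2 * (u + 1)))) ^ 2) := by ring
    _ ≤ _ := a4
    _ = _ := by ring

end Crest.Agent.H9.SP
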