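import Crest.Agent.H9.SPMul

set_option autoImplicit false

namespace Crest.Agent.H9.SP

open Finset

theorem choose_add_le {N k : ℕ} {r : ℝ} (hr : 0 ≤ r) (h : (N:ℝ) - k ≤ r * k) (i : ℕ) :
    (N.choose (k + i) : ℝ) ≤ N.choose k * r ^ i := by
  induction i with
  | zero => simp
  | succ i ih =>
    have h1 : (N.choose (k + i + 1) : ℝ) * (k + i + 1 : ℕ) = N.choose (k + i) * (N - (k + i) : ℕ) := by
      exact_mod_cast Nat.choose_succ_right_eq N (k + i)
    have h2 : ((N - (k + i) : ℕ) : ℝ) ≤ r * (k + i + 1 : ℕ) := by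
      rcases le_total N (k + i) with h3 | h3
      · rw [Nat.sub_eq_zero_of_le h3]; push_cast; positivity
      · rw [Nat.cast_sub h3]; push_cast
        have : (0:ℝ) ≤ i := Nat.cast_nonneg i
        nlinarith
    have h3 : (0:ℝ) < (k + i + 1 : ℕ) := by positivity
    have h4 : (N.choose (k + i + 1) : ℝ) ≤ N.choose (k + i) * r := by
      refine le_of_mul_le_mul_right ?_ h3
      rw [h1, mul_assoc]; gcongr
    rw [← add_assoc, pow_succ, ← mul_assoc]
    exact h4.trans (by gcongr)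

theorem choose_sub_le {N α : ℕ} {r : ℝ} (hr : 0 ≤ r) (hr1 : r ≤ 1) (h : (N:ℝ) - α ≤ r * N)
    (f : ℕ) (hf : f ≤ N) : ((N - f).choose α : ℝ) ≤ N.choose α * r ^ f := by
  induction f with
  | zero => simp
  | succ f ih =>
    have ih := ih (by omega)
    obtain ⟨M, hM⟩ : ∃ M, N = M + 1 + f := ⟨N - (f + 1), by omega⟩
    have e1 : N - (f + 1) = M := by omega
    have e2 : N - f = M + 1 := by omega
    rw [e2] at ih
    rw [e1]
    have h1 : (M.choose α : ℝ) * (M + 1 : ℕ) = (M + 1).choose α * (M + 1 - α : ℕ) := by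
      exact_mod_cast Nat.choose_mul_succ_eq M α
    have h2 : ((M + 1 - α : ℕ) : ℝ) ≤ r * (M + 1 : ℕ) := by
      rcases le_total (M + 1) α with h3 | h3
      · rw [Nat.sub_eq_zero_of_le h3]; push_cast; positivity
      · rw [Nat.cast_sub h3]
        rw [hM] at h
        push_cast at h ⊢
        have : (0:ℝ) ≤ f := Nat.cast_nonneg f
        nlinarith
    have h3 : (0:ℝ) < (M + 1 : ℕ) := by positivity
    have h4 : (M.choose α : ℝ) ≤ (M + 1).choose α * r := by
      refine le_of_mul_le_mul_right ?_ h3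
      rw [h1, mul_assoc]; gcongr
    rw [pow_succ, ← mul_assoc]
    exact h4.trans (by gcongr)

theorem le_choose_sub {N α f0 : ℕ} {r : ℝ} (hr : 0 ≤ r) (h : r * N ≤ (N:ℝ) - α - f0)
    (f : ℕ) (hf : f ≤ f0) : (N.choose α : ℝ) * r ^ f ≤ ((N - f).choose α : ℝ) := by
  have hN : α + f0 ≤ N := by
    have : (0:ℝ) ≤ r * N := by positivity
    have : ((α + f0 : ℕ) : ℝ) ≤ N := by push_cast; linarith
    exact_mod_cast this
  induction f with
  | zero => simp
  | succ f ih =>
    have ih := ih (by omega)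
    obtain ⟨M, hM⟩ : ∃ M, N = M + 1 + f := ⟨N - (f + 1), by omega⟩
    have e1 : N - (f + 1) = M := by omega
    have e2 : N - f = M + 1 := by omega
    rw [e2] at ih
    rw [e1]
    have h1 : (M.choose α : ℝ) * (M + 1 : ℕ) = (M + 1).choose α * (M + 1 - α : ℕ) := by
      exact_mod_cast Nat.choose_mul_succ_eq M α
    have h2 : r * (M + 1 : ℕ) ≤ ((M + 1 - α : ℕ) : ℝ) := by
      rw [Nat.cast_sub (by omega)]
      rw [hM] at h
      have : ((f + 1 : ℕ) : ℝ) ≤ f0 := by exact_mod_cast hf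
      push_cast at h this ⊢
      have : (0:ℝ) ≤ f := Nat.cast_nonneg f
      nlinarith
    have h3 : (0:ℝ) < (M + 1 : ℕ) := by positivity
    have h4 : (M + 1).choose α * r ≤ (M.choose α : ℝ) := by
      refine le_of_mul_le_mul_right ?_ h3
      rw [h1, mul_assoc]; gcongr
    rw [pow_succ, ← mul_assoc]
    exact le_trans (by gcongr) h4

variable {σ : Type*} [Fintype σ] [DecidableEq σ]

theorem card_avoid (Y O : Finset σ) (α β : ℕ) :
    (univ.filter (fun S => wt Y S = (α, β) ∧ Disjoint S O)).card =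
      (Y \ O).card.choose α * (Yᶜ \ O).card.choose β := by
  rw [← card_powersetCard, ← card_powersetCard, ← card_product]
  refine card_nbij' (fun S => (S ∩ Y, S \ Y)) (fun T => T.1 ∪ T.2) ?_ ?_ ?_ ?_
  · intro S hS
    simp only [coe_filter, mem_univ, true_and, Set.mem_ofPred_eq, wt_eq, Prod.mk.injEq] at hS
    obtain ⟨⟨h1, h2⟩, h3⟩ := hS
    simp only [coe_product, Set.mem_prod, mem_coe, mem_powersetCard]
    refine ⟨⟨fun x hx => ?_, h1⟩, fun x hx => ?_, h2⟩
    · rw [mem_inter] at hx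
      exact mem_sdiff.2 ⟨hx.2, disjoint_left.1 h3 hx.1⟩
    · rw [mem_sdiff] at hx
      exact mem_sdiff.2 ⟨mem_compl.2 hx.2, disjoint_left.1 h3 hx.1⟩
  · rintro ⟨T1, T2⟩ hT
    simp only [coe_product, Set.mem_prod, mem_coe, mem_powersetCard] at hT
    obtain ⟨⟨h1, h2⟩, h3, h4⟩ := hT
    simp only [coe_filter, mem_univ, true_and, Set.mem_ofPred_eq, wt_eq, Prod.mk.injEq]
    have e1 : (T1 ∪ T2) ∩ Y = T1 := by
      ext x
      have a1 := @h1 x
      have a2 := @h3 x
      simp only [mem_sdiff, mem_compl, mem_inter, mem_union] at a1 a2 ⊢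
      tauto
    have e2 : (T1 ∪ T2) \ Y = T2 := by
      ext x
      have a1 := @h1 x
      have a2 := @h3 x
      simp only [mem_sdiff, mem_compl, mem_union] at a1 a2 ⊢
      tauto
    rw [e1, e2]
    refine ⟨⟨h2, h4⟩, disjoint_left.2 fun x hx => ?_⟩
    have a1 := @h1 x
    have a2 := @h3 x
    simp only [mem_sdiff, mem_compl, mem_union] at a1 a2 hx
    tauto
  · intro S _
    ext x; simp only [mem_union, mem_inter, mem_sdiff]; tauto
  · rintro ⟨T1, T2⟩ hT
    simp only [coe_product, Set.mem_prod, mem_coe, mem_powersetCard] at hT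
    obtain ⟨⟨h1, -⟩, h3, -⟩ := hT
    ext x
    · have a1 := @h1 x
      have a2 := @h3 x
      simp only [mem_sdiff, mem_compl, mem_inter, mem_union] at a1 a2 ⊢
      tauto
    · have a1 := @h1 x
      have a2 := @h3 x
      simp only [mem_sdiff, mem_compl, mem_union] at a1 a2 ⊢
      tauto

theorem cnt_eq (Y : Finset σ) (α β : ℕ) :
    cnt Y (α, β) = Y.card.choose α * Yᶜ.card.choose β := by
  have := card_avoid Y ∅ α β
  simpa [cnt] using this

theorem card_forced (Y O I : Finset σ) (hI : I ⊆ Yᶜ) (α β : ℕ) :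
    (univ.filter (fun S => wt Y S = (α, β) ∧ Disjoint S O ∧ I ⊆ S)).card ≤
      (Y \ O).card.choose α * (Yᶜ.card - I.card).choose (Yᶜ.card - β) := by
  rw [← card_sdiff_of_subset hI, ← card_powersetCard, ← card_powersetCard, ← card_product]
  refine card_le_card_of_injOn (fun S => (S ∩ Y, Yᶜ \ S)) ?_ ?_
  · intro S hS
    simp only [coe_filter, mem_univ, true_and, Set.mem_ofPred_eq, wt_eq, Prod.mk.injEq] at hS
    obtain ⟨⟨h1, h2⟩, h3, h4⟩ := hS
    simp only [coe_product, Set.mem_prod, mem_coe, mem_powersetCard]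
    refine ⟨⟨fun x hx => ?_, h1⟩, sdiff_subset_sdiff subset_rfl h4, ?_⟩
    · rw [mem_inter] at hx
      exact mem_sdiff.2 ⟨hx.2, disjoint_left.1 h3 hx.1⟩
    · have e : Yᶜ \ S = Yᶜ \ (S \ Y) := by
        ext x; simp only [mem_sdiff, mem_compl]; tauto
      rw [e, card_sdiff_of_subset, h2]
      intro x hx
      exact mem_compl.2 (mem_sdiff.1 hx).2
  · intro S _ T _ h
    simp only [Prod.mk.injEq] at h
    ext x
    have a1 := Finset.ext_iff.1 h.1 x
    have a2 := Finset.ext_iff.1 h.2 x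
    simp only [mem_sdiff, mem_compl, mem_inter] at a1 a2
    tauto

end Crest.Agent.H9.SP
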