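import Crest.Agent.H9.SPComb

set_option autoImplicit false

namespace Crest.Agent.H9.SP

open Finset Real Crest.ArithCircuit

theorem params {N : ℕ} (hL : 32000 ≤ log N) :
    ∃ (u g t : ℕ) (x A δ τ : ℝ), 2 ≤ u ∧ 2 * (u + g) + 2 ≤ N ∧ 0 < x ∧
      (N : ℝ) ^ 2 ≤ (u + g) * u * x ^ 2 ∧ 2 ≤ A ∧ A ^ 2 * (u + g) = N ∧ 1 ≤ δ ∧
      δ ^ 4 * u = u + g ∧ (∀ e ≤ t, δ ^ (2 * e) ≤ 1 + e) ∧ (∀ e ≤ t, δ ^ (2 * e) ≤ 3 / 8 * A) ∧
      exp (4 / A ^ 2) ≤ τ ∧ (N : ℝ) + 1 ≤ τ ^ t ∧
      4 * exp (4 * (u + 1)) * exp (4 * x) * exp (2 * (u + g)) * (δ ^ 2 * A) ≤ exp (25 * √N) ∧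
      (exp (4 / A ^ 2) / δ) ^ N ≤ exp (15 * √N - √N * log N / 160) ∧
      τ ^ N * (2 / A) ^ t ≤ exp (15 * √N - √N * log N / 160) := by
  have hN0 : (0:ℝ) < N := by
    rcases Nat.eq_zero_or_pos N with h | h
    · subst h; simp at hL; linarith
    · exact_mod_cast h
  set L := log N with hLdef
  set x := √(N:ℝ) with hxdef
  have hx0 : 0 < x := sqrt_pos.2 hN0
  have hxx : x ^ 2 = N := sq_sqrt hN0.le
  have hxe : x = exp (L / 2) := by
    rw [hxdef, sqrt_eq_rpow, rpow_def_of_pos hN0]; congr 1; ring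
  have hxL : L / 2 + 1 ≤ x := by rw [hxe]; exact add_one_le_exp _
  set u := ⌊x⌋₊ + 1 with hu
  have hu1 : x ≤ u := by rw [hu]; push_cast; exact (Nat.lt_floor_add_one x).le
  have hu2 : (u:ℝ) ≤ x + 1 := by rw [hu]; push_cast; linarith [Nat.floor_le hx0.le]
  set g := ⌊L / 16⌋₊ with hg
  have hg1 : (g:ℝ) ≤ L / 16 := Nat.floor_le (by linarith)
  have hg2 : L / 20 ≤ g := by have := Nat.lt_floor_add_one (L / 16); linarith
  have hu0 : (0:ℝ) < u := by linarith
  have hg0 : (0:ℝ) < g := by linarith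
  have hug : (u:ℝ) + g ≤ 2 * x := by linarith
  set η := log ((u + g) / u) with hη
  have hη1 : η ≤ g / u := by
    have := log_le_sub_one_of_pos (show (0:ℝ) < (u + g) / u by positivity)
    have e : ((u:ℝ) + g) / u - 1 = g / u := by field_simp; ring
    linarith
  have hη2 : L / (40 * x) ≤ η := by
    have h1 := one_sub_inv_le_log_of_pos (show (0:ℝ) < (u + g) / u by positivity)
    have e : 1 - (((u:ℝ) + g) / u)⁻¹ = g / (u + g) := by field_simp; ring
    have h2 : L / (40 * x) ≤ g / (u + g) := by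
      rw [div_le_div_iff₀ (by positivity) (by positivity)]; nlinarith
    linarith
  have hη0 : 0 ≤ η := le_trans (by positivity) hη2
  set a := log (N / (u + g)) / 2 with ha
  have ha1 : L / 4 - 1 / 2 ≤ a := by
    have h1 : x / 2 ≤ N / (u + g) := by
      rw [div_le_div_iff₀ (by norm_num) (by positivity)]; nlinarith
    have h2 := log_le_log (by positivity) h1
    rw [log_div hx0.ne' (by norm_num), hxe, log_exp] at h2
    have h3 : log 2 ≤ 1 := by have := log_two_lt_d9; linarith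
    linarith
  have hA2 : exp a ^ 2 = N / (u + g) := by
    rw [← exp_nat_mul, ha]; push_cast
    rw [mul_div_cancel₀ _ (by norm_num), exp_log (by positivity)]
  have hδ4 : exp (η / 4) ^ 4 = (u + g) / u := by
    rw [← exp_nat_mul]; push_cast
    rw [mul_div_cancel₀ _ (by norm_num), exp_log (by positivity)]
  have hδe : ∀ e : ℕ, exp (η / 4) ^ (2 * e) = exp (η * e / 2) := by
    intro e; rw [← exp_nat_mul]; congr 1; push_cast; ring
  have hδt : ∀ e ≤ 3 * u, η * e / 2 ≤ 3 * L / 32 := by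
    intro e he
    have h1 : (e:ℝ) ≤ 3 * u := by exact_mod_cast he
    have h2 : η * e ≤ g / u * (3 * u) := by gcongr
    have h3 : (g:ℝ) / u * (3 * u) = 3 * g := by field_simp
    linarith
  have h4A : N * (4 / exp a ^ 2) = 4 * (u + g) := by rw [hA2]; field_simp
  have ht0 : (0:ℝ) < (3 * u : ℕ) := by push_cast; linarith
  refine ⟨u, g, 3 * u, x, exp a, exp (η / 4), exp (4 / exp a ^ 2 + log (N + 1) / (3 * u : ℕ)),
    ?_, ?_, hx0, ?_, ?_, ?_, one_le_exp (by linarith), ?_, ?_, ?_, ?_, ?_, ?_, ?_, ?_⟩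
  · have : (2:ℝ) ≤ u := by linarith
    exact_mod_cast this
  · have : 2 * ((u:ℝ) + g) + 2 ≤ N := by nlinarith
    exact_mod_cast this
  · rw [hxx, sq]
    gcongr
    nlinarith
  · have := add_one_le_exp a; linarith
  · rw [hA2]; field_simp
  · rw [hδ4]; field_simp
  · intro e he
    rw [hδe]
    set y := η * e / 2 with hy
    have h1 := add_one_le_exp (-y)
    have h2 : exp y * exp (-y) = 1 := by rw [← exp_add]; simp
    have h3 : exp y ≤ 1 + y * exp y := by nlinarith [exp_pos y]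
    have h4 : exp y ≤ exp (3 * L / 32) := exp_le_exp.2 (hδt e he)
    have h5 : η * exp (3 * L / 32) ≤ 2 := by
      have b1 : (g:ℝ) ≤ exp (L / 16) := by have := add_one_le_exp (L / 16); linarith
      have b2 : exp (L / 16) * exp (3 * L / 32) ≤ x := by
        rw [← exp_add, hxe, exp_le_exp]; linarith
      have b3 : η * exp (3 * L / 32) ≤ exp (L / 16) / x * exp (3 * L / 32) := by
        gcongr
        exact hη1.trans (by gcongr)
      rw [div_mul_eq_mul_div] at b3
      have b4 : exp (L / 16) * exp (3 * L / 32) / x ≤ 1 := by rw [div_le_one hx0]; exact b2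
      linarith
    have he0 : (0:ℝ) ≤ e := Nat.cast_nonneg e
    have h6 : y * exp y ≤ y * exp (3 * L / 32) := by gcongr
    have h7 : y * exp (3 * L / 32) = e * (η * exp (3 * L / 32)) / 2 := by rw [hy]; ring
    nlinarith
  · intro e he
    rw [hδe]
    have h1 : exp (η * e / 2) ≤ exp (-1) * exp a := by
      rw [← exp_add, exp_le_exp]; have := hδt e he; linarith
    have h2 : exp (-1) ≤ 3 / 8 := by have := exp_neg_one_lt_d9; linarith
    refine h1.trans ?_
    gcongr
  · apply exp_le_exp.2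
    have : 0 ≤ log ((N:ℝ) + 1) := log_nonneg (by linarith)
    have : 0 ≤ log ((N:ℝ) + 1) / (3 * u : ℕ) := by positivity
    linarith
  · rw [← exp_nat_mul, mul_add, mul_div_cancel₀ _ ht0.ne', exp_add, exp_log (by linarith)]
    exact le_mul_of_one_le_left (by linarith) (one_le_exp (by positivity))
  · have h1 : exp (η / 4) ^ 2 * exp a ≤ x := by
      refine le_of_sq_le_sq ?_ hx0.le
      rw [mul_pow, ← pow_mul, hδ4, hA2, hxx]
      have : ((u:ℝ) + g) / u * (N / (u + g)) = N / u := by field_simp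
      rw [this]
      exact div_le_self hN0.le (by linarith)
    have h2 : x ≤ exp x := by have := add_one_le_exp x; linarith
    have h3 : 4 ≤ exp (2 * x) := by have := add_one_le_exp (2 * x); linarith
    calc _ ≤ exp (2 * x) * exp (4 * (u + 1)) * exp (4 * x) * exp (2 * (u + g)) * exp x := by
          gcongr; exact h1.trans h2
      _ ≤ _ := by
          rw [← exp_add, ← exp_add, ← exp_add, ← exp_add, exp_le_exp]; linarith
  · rw [← exp_sub, ← exp_nat_mul, exp_le_exp, mul_sub, h4A]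
    have h1 : x * L / 160 ≤ N * (η / 4) := by
      have : N * (L / (40 * x) / 4) ≤ N * (η / 4) := by gcongr
      have e : N * (L / (40 * x) / 4) = x * L / 160 := by rw [← hxx]; field_simp; ring
      linarith
    linarith
  · have e1 : 2 / exp a = exp (log 2 - a) := by rw [exp_sub, exp_log (by norm_num)]
    rw [e1, ← exp_nat_mul _ N, ← exp_nat_mul _ (3 * u), ← exp_add, exp_le_exp, mul_add, h4A]
    have h3 : log 2 ≤ 1 := by have := log_two_lt_d9; linarith
    have h1 : log ((N:ℝ) + 1) ≤ L + 1 := by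
      have hN1 : (1:ℝ) ≤ N := by nlinarith
      have := log_le_log (by positivity) (show (N:ℝ) + 1 ≤ 2 * N by linarith)
      rw [log_mul (by norm_num) hN0.ne'] at this
      linarith
    have h2 : N * (log ((N:ℝ) + 1) / (3 * u : ℕ)) ≤ x * (L + 1) / 3 := by
      have b1 : log ((N:ℝ) + 1) / (3 * u : ℕ) ≤ (L + 1) / (3 * x) := by
        push_cast
        gcongr
      have b2 : N * ((L + 1) / (3 * x)) = x * (L + 1) / 3 := by rw [← hxx]; field_simp
      rw [← b2]; gcongr
    have h4 : ((3 * u : ℕ) : ℝ) * (log 2 - a) ≤ -(3 * x * (L / 4 - 2)) := by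
      push_cast
      have b1 : 3 * x * (L / 4 - 2) ≤ 3 * u * (a - log 2) := by
        exact mul_le_mul (by linarith) (by linarith) (by linarith) (by linarith)
      linarith
    have h5 : 0 ≤ x * L := by positivity
    linarith

theorem lower_bound : ∃ n₀ : ℕ, ∀ n ≥ n₀, ∀ (K : Type*) [Field K] [CharZero K]
      (L B P S R : Type*) [Fintype L] [Fintype B] [Fintype P] [Fintype S] [Fintype R]
      (C : SPSPS K (Fin n × Fin n × Fin n) L B P S R),
      C.IsHomogeneous → C.output = imm K n →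
        (n : ℝ) ^ (Real.sqrt n / 400) ≤ (C.size : ℝ) := by
  refine ⟨⌈exp 32000⌉₊, fun N hN K _ _ L B P S R _ _ _ _ _ C hC hout => ?_⟩
  have h0 : exp 32000 ≤ N := Nat.ceil_le.1 hN
  have hN0 : (0:ℝ) < N := (exp_pos _).trans_le h0
  have hL : 32000 ≤ log N := (le_log_iff_exp_le hN0).2 h0
  clear h0 hN
  obtain ⟨n, rfl⟩ : ∃ n, N = n + 1 := ⟨N - 1, by
    have : 0 < N := by exact_mod_cast hN0
    omega⟩
  obtain ⟨u, g, t, x, A, δ, τ, a1, a2, a3, a4, a5, a6, a7, a8, a9, a10, a11, a12, b1, b2, b3⟩ :=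
    params hL
  have h := combine C hC hout u g t a1 a2 a3 a4 a5 a6 a7 a8 a9 a10 a11 a12
  set N : ℝ := ((n + 1 : ℕ) : ℝ)
  set y := √N
  have hy : 0 ≤ y := sqrt_nonneg _
  set E := exp (15 * y - y * log N / 160) with hE
  have hτ0 : 0 < τ := lt_of_lt_of_le (exp_pos _) a11
  have hs1 : (Fintype.card R : ℝ) ≤ C.size := by
    unfold SPSPS.size; exact_mod_cast (by omega)
  have hs2 : 1 + (Fintype.card P : ℝ) ≤ C.size := by
    unfold SPSPS.size; exact_mod_cast (by omega)
  have h1 : (Fintype.card R : ℝ) * ((exp (4 / A ^ 2) / δ) ^ (n + 1) +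
        Fintype.card P * (τ ^ (n + 1) * (2 / A) ^ t)) ≤ C.size * (C.size * E) := by
    gcongr
    calc _ ≤ E + Fintype.card P * E := by gcongr
      _ = (1 + Fintype.card P) * E := by ring
      _ ≤ _ := by gcongr
  have h2 : 1 ≤ exp (25 * y) * (C.size * (C.size * E)) := by
    refine h.trans ?_
    gcongr
  refine le_of_sq_le_sq ?_ (Nat.cast_nonneg _)
  rw [rpow_def_of_pos hN0, ← exp_nat_mul]
  have h3 : exp (25 * y) * E * exp ((2:ℕ) * (log N * (y / 400))) ≤ 1 := by
    rw [hE, ← exp_add, ← exp_add, exp_le_one_iff]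
    push_cast
    nlinarith
  have h4 : 0 < exp (25 * y) * E := by positivity
  refine le_of_mul_le_mul_left (h3.trans (h2.trans (le_of_eq ?_))) h4
  ring

end Crest.Agent.H9.SP
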