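import Crest.Agent.H9.SPQuad

set_option autoImplicit false

namespace Crest.Agent.H9.SP

open Finset Matrix MvPolynomial Crest.ArithCircuit

variable {n : ℕ} (YP : Finset (Fin (n + 1)))

theorem card_YY : (YY YP).card = YP.card * (n + 1) ^ 2 := by
  have : YY YP = YP ×ˢ univ := by ext x; simp [YY]
  rw [this, card_product]; simp [sq]

theorem YY_compl : (YY YP)ᶜ = YY YPᶜ := by ext x; simp [YY]

theorem es_inter (v : Fin (n + 2) → Fin (n + 1)) : es v ∩ YY YP = YP.image (ed v) := by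
  ext x
  simp only [es, YY, mem_inter, mem_image, mem_univ, true_and, mem_filter]
  constructor
  · rintro ⟨⟨k, rfl⟩, h⟩; exact ⟨k, h, rfl⟩
  · rintro ⟨k, h, rfl⟩; exact ⟨⟨k, rfl⟩, h⟩

theorem card_es_inter (v : Fin (n + 2) → Fin (n + 1)) : (es v ∩ YY YP).card = YP.card := by
  rw [es_inter, card_image_of_injective _ (ed_injective v)]

theorem wt_es (v : Fin (n + 2) → Fin (n + 1)) : wt (YY YP) (es v) = (YP.card, YPᶜ.card) := by
  rw [wt_eq, sdiff_eq_inter_compl, YY_compl, card_es_inter, card_es_inter]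

theorem prod_X_eq {σ K : Type*} [Fintype σ] [DecidableEq σ] [CommSemiring K] (S : Finset σ) :
    ∏ x ∈ S, (X x : MvPolynomial σ K) = monomial (ind S) 1 := by
  rw [← prod_X_pow_eq_monomial]
  have : (ind S).support = S := by ext x; simp [ind_apply]
  rw [this]
  exact prod_congr rfl fun x hx => by simp [ind_apply, hx]

/-- the matrix of the iterated matrix product -/
def TT (K : Type*) [Field K] (d0 : ℕ × ℕ) :
    Matrix (Finset (Fin (n + 1) × Fin (n + 1) × Fin (n + 1)))
      (Finset (Fin (n + 1) × Fin (n + 1) × Fin (n + 1))) K :=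
  Matrix.of fun S' S => ∑ v ∈ paths n,
    if (wt (YY YP) S = d0 ∧ Disjoint S (es v)) ∧ S' = S ∪ es v then 1 else 0

theorem mu_imm (K : Type*) [Field K] (d0 : ℕ × ℕ) :
    mu (YY YP) d0 (YP.card, YPᶜ.card) (imm K (n + 1)) = (TT YP K d0).rank := by
  unfold mu
  congr 1
  ext S' S
  have e1 : ∀ v : Fin (n + 2) → Fin (n + 1), ∏ k, (X (ed v k) : MvPolynomial _ K) =
      monomial (ind (es v)) 1 := by
    intro v
    rw [← prod_X_eq, es, prod_image fun a _ b _ h => ed_injective v h]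
  simp only [pr, mul_diagonal, diagonal_mul, mm, of_apply, TT, imm_eq, e1, coeff_sum,
    coeff_monomial, ind_injective.eq_iff]
  by_cases h1 : wt (YY YP) S = d0
  swap
  · simp [h1]
  by_cases h2 : S ⊆ S'
  swap
  · have : ∀ v, ¬ S' = S ∪ es v := fun (v : Fin (n + 2) → Fin (n + 1)) h =>
      h2 (h ▸ subset_union_left)
    simp [h2, this]
  simp only [h1, h2, if_true, mul_one, true_and, mul_sum]
  refine sum_congr rfl fun v _ => ?_
  by_cases h3 : es v = S' \ S
  · have h4 : wt (YY YP) S' = d0 + (YP.card, YPᶜ.card) := by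
      rw [wt_sdiff _ h2, h1, ← h3, wt_es]
    have h5 : Disjoint S (es v) ∧ S' = S ∪ es v := by
      rw [h3]; exact ⟨disjoint_sdiff, (union_sdiff_of_subset h2).symm⟩
    rw [if_pos h4, if_pos h3, if_pos h5, one_mul]
  · have h5 : ¬ (Disjoint S (es v) ∧ S' = S ∪ es v) := by
      rintro ⟨a, b⟩
      apply h3
      rw [b, union_sdiff_left, sdiff_eq_self_of_disjoint a.symm]
    rw [if_neg h3, if_neg h5, mul_zero]

theorem TT_map (K : Type*) [Field K] [CharZero K] (d0 : ℕ × ℕ) :
    (TT YP ℚ d0).map (algebraMap ℚ K) = TT YP K d0 := by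
  ext S' S
  simp only [TT, map_apply, of_apply, map_sum]
  refine sum_congr rfl fun v _ => ?_
  split_ifs <;> simp

theorem rank_TT (K : Type*) [Field K] [CharZero K] (d0 : ℕ × ℕ) :
    (TT YP K d0).rank = (TT YP ℝ d0).rank := by
  rw [← TT_map YP K, ← TT_map YP ℝ, rank_map, rank_map]

theorem trace_lower (α β : ℕ) :
    ((paths n).card : ℝ) * ((((YY YP).card - YP.card).choose α : ℝ) *
      (((YY YPᶜ).card - YPᶜ.card).choose β : ℝ)) ≤ ∑ S, ∑ S', TT YP ℝ (α, β) S' S ^ 2 := by
  have h1 : ∀ S S', TT YP ℝ (α, β) S' S ≤ TT YP ℝ (α, β) S' S ^ 2 := by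
    intro S S'
    simp only [TT, of_apply, sum_boole]
    exact_mod_cast Nat.le_self_pow (by norm_num) _
  refine le_trans (le_of_eq ?_) (sum_le_sum fun S _ => sum_le_sum fun S' _ => h1 S S')
  simp only [TT, of_apply]
  have h2 : ∀ S : Finset (Fin (n + 1) × Fin (n + 1) × Fin (n + 1)), ∑ S', ∑ v ∈ paths n,
      (if (wt (YY YP) S = (α, β) ∧ Disjoint S (es v)) ∧ S' = S ∪ es v then (1:ℝ) else 0) =
      ∑ v ∈ paths n, if wt (YY YP) S = (α, β) ∧ Disjoint S (es v) then 1 else 0 := by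
    intro S
    rw [sum_comm]
    refine sum_congr rfl fun v _ => ?_
    by_cases h : wt (YY YP) S = (α, β) ∧ Disjoint S (es v)
    · simp [h]
    · simp only [h, false_and, if_false, sum_const_zero]
  simp only [h2]
  rw [sum_comm, ← nsmul_eq_mul, ← sum_const]
  refine sum_congr rfl fun v _ => ?_
  rw [sum_boole, card_avoid, YY_compl, card_sdiff, card_sdiff, card_es_inter, card_es_inter]
  push_cast; rfl

theorem gram_eq (d0 : ℕ × ℕ) (S U : Finset (Fin (n + 1) × Fin (n + 1) × Fin (n + 1))) :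
    ∑ S', TT YP ℝ d0 S' S * TT YP ℝ d0 S' U = (AA YP d0 S U).card := by
  simp only [TT, of_apply, sum_mul_sum]
  rw [AA, card_filter, sum_product]
  push_cast
  rw [sum_comm]
  refine sum_congr rfl fun v _ => ?_
  rw [sum_comm]
  refine sum_congr rfl fun w _ => ?_
  rw [sum_eq_single (S ∪ es v)]
  · by_cases h : wt (YY YP) S = d0 ∧ Disjoint S (es v)
    · simp only [h, and_self, if_true, one_mul, true_and]
    · simp only [h, false_and, if_false, zero_mul]
  · intro b _ hb; simp [hb]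
  · simp

open Classical in
theorem card_cond {α β : ℕ} {σY σZ x : ℝ} (hβ : β ≤ (YY YPᶜ).card)
    (hY0 : 0 ≤ σY) (hY1 : σY ≤ 1) (hY : ((YY YP).card : ℝ) - α ≤ σY * (YY YP).card)
    (hZ0 : 0 ≤ σZ) (hZ1 : σZ ≤ 1) (hZ : (β : ℝ) ≤ σZ * (YY YPᶜ).card) (hx : 0 ≤ x)
    (hword : ∀ J : Finset (Fin (n + 1)),
      σZ ^ (J \ YP).card ≤ σY ^ (YP ∩ J).card * x ^ (bd J).card)
    (v1 v3 : Fin (n + 2) → Fin (n + 1)) (J : Finset (Fin (n + 1))) :
    ((univ.filter fun S => Cond YP (α, β) v1 v3 J S).card : ℝ) ≤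
      ((YY YP).card.choose α : ℝ) * ((YY YPᶜ).card.choose β : ℝ) * σY ^ (2 * YP.card) *
        if ∀ j ∈ bd J, v1 j = v3 j then x ^ (bd J).card else 0 := by
  by_cases h1 : ∀ j ∈ bd J, v1 j = v3 j
  swap
  · have : (univ.filter fun S => Cond YP (α, β) v1 v3 J S) = ∅ :=
      filter_eq_empty_iff.2 fun S _ h => h1 h.1
    rw [this, if_neg h1]; simp
  rw [if_pos h1]
  by_cases h2 : ∀ k ∈ YP \ J, ed v1 k ≠ ed v3 k
  swap
  · have : (univ.filter fun S => Cond YP (α, β) v1 v3 J S) = ∅ :=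
      filter_eq_empty_iff.2 fun S _ h => h2 h.2.1
    rw [this]; simp only [card_empty, Nat.cast_zero]; positivity
  have hI : In YP v3 J ⊆ (YY YP)ᶜ := by
    intro y hy
    simp only [In, mem_image, mem_sdiff] at hy
    obtain ⟨k, hk, rfl⟩ := hy
    simpa [YY, ed] using hk.2
  have hO : Out YP v1 v3 J ⊆ YY YP := by
    intro y hy
    simp only [Out, mem_union, mem_image, mem_sdiff] at hy
    rcases hy with ⟨k, hk, rfl⟩ | ⟨k, hk, rfl⟩
    · simpa [YY, ed] using hk
    · simpa [YY, ed] using hk.1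
  have cI : (In YP v3 J).card = (J \ YP).card := card_image_of_injective _ (ed_injective _)
  have cO : (Out YP v1 v3 J).card = YP.card + (YP \ J).card := by
    rw [Out, card_union_of_disjoint, card_image_of_injective _ (ed_injective _),
      card_image_of_injective _ (ed_injective _)]
    rw [disjoint_left]
    intro y hy hy'
    simp only [mem_image] at hy hy'
    obtain ⟨k, -, rfl⟩ := hy
    obtain ⟨k', hk', he⟩ := hy'
    have : k' = k := congrArg Prod.fst he
    subst this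
    exact h2 _ hk' he.symm
  have h3 := card_forced (YY YP) (Out YP v1 v3 J) (In YP v3 J) hI α β
  have h4 : (univ.filter fun S => Cond YP (α, β) v1 v3 J S).card ≤
      (univ.filter (fun S => wt (YY YP) S = (α, β) ∧ Disjoint S (Out YP v1 v3 J) ∧
        In YP v3 J ⊆ S)).card :=
    card_le_card fun S hS => by
      simp only [mem_filter, mem_univ, true_and] at hS ⊢
      exact hS.2.2
  have h5 := h4.trans h3
  rw [card_sdiff_of_subset hO] at h5
  have a1 := choose_sub_le hY0 hY1 hY _ (card_le_card hO)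
  have hI' := card_le_card hI
  rw [YY_compl] at h5 hI'
  have a2 := choose_sub_le (N := (YY YPᶜ).card) (α := (YY YPᶜ).card - β) hZ0 hZ1
    (by rw [Nat.cast_sub hβ]; linarith) _ hI'
  rw [Nat.choose_symm hβ] at a2
  have h6 : ((univ.filter fun S => Cond YP (α, β) v1 v3 J S).card : ℝ) ≤
      (((YY YP).card - (Out YP v1 v3 J).card).choose α : ℝ) *
        (((YY YPᶜ).card - (In YP v3 J).card).choose ((YY YPᶜ).card - β) : ℝ) := by
    exact_mod_cast h5
  refine h6.trans ((mul_le_mul a1 a2 (by positivity) (by positivity)).trans ?_)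
  rw [cI, cO]
  have e1 : 2 * YP.card = YP.card + (YP \ J).card + (YP ∩ J).card := by
    have := card_sdiff_add_card_inter YP J
    omega
  rw [e1, pow_add σY _ (YP ∩ J).card]
  have := mul_le_mul_of_nonneg_left (hword J) (show 0 ≤ ((YY YP).card.choose α : ℝ) *
    ((YY YPᶜ).card.choose β : ℝ) * σY ^ (YP.card + (YP \ J).card) by positivity)
  linarith

theorem sum_bd_le {x : ℝ} (hx : 0 ≤ x) (v1 v3 : Fin (n + 2) → Fin (n + 1)) :
    ∑ J : Finset (Fin (n + 1)), (if ∀ j ∈ bd J, v1 j = v3 j then x ^ (bd J).card else 0) ≤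
      ∏ j, (1 + if v1 j = v3 j then x else 0) := by
  rw [prod_one_add, ← sum_filter]
  have h1 : ∑ J ∈ univ.filter (fun J : Finset (Fin (n + 1)) => ∀ j ∈ bd J, v1 j = v3 j),
      x ^ (bd J).card = ∑ D ∈ (univ.filter
        (fun J : Finset (Fin (n + 1)) => ∀ j ∈ bd J, v1 j = v3 j)).image bd,
        ∏ j ∈ D, (if v1 j = v3 j then x else 0) := by
    rw [sum_image fun a _ b _ h => bd_injective h]
    refine sum_congr rfl fun J hJ => ?_
    rw [← prod_const]
    exact prod_congr rfl fun j hj => by rw [if_pos ((mem_filter.1 hJ).2 j hj)]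
  rw [h1]
  refine sum_le_sum_of_subset_of_nonneg (fun D _ => mem_powerset.2 (subset_univ _)) ?_
  intro D _ _
  exact prod_nonneg fun j _ => by split_ifs <;> simp [hx]

/-- allowed vertices -/
def tt (n : ℕ) (j : Fin (n + 2)) : Finset (Fin (n + 1)) :=
  if j = 0 ∨ j = Fin.last _ then {0} else univ

theorem paths_eq : paths n = Fintype.piFinset (tt n) := by
  ext v
  simp only [paths, mem_filter, mem_univ, true_and, Fintype.mem_piFinset, tt]
  constructor
  · rintro ⟨h1, h2⟩ j
    split_ifs with h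
    · rcases h with rfl | rfl <;> simp [h1, h2]
    · simp
  · intro h
    exact ⟨by simpa using h 0, by simpa using h (Fin.last _)⟩

theorem paths_card_pos : 0 < (paths n).card :=
  card_pos.2 ⟨fun _ => 0, by simp [paths]⟩

theorem sum_agree_le {x : ℝ} (hx : 0 ≤ x) :
    ∑ v1 ∈ paths n, ∑ v3 ∈ paths n, ∏ j, (1 + if v1 j = v3 j then x else 0) ≤
      ((paths n).card : ℝ) ^ 2 * Real.exp (4 * x) := by
  rw [paths_eq]
  have h1 : ∀ v1 : Fin (n + 2) → Fin (n + 1), ∑ v3 ∈ Fintype.piFinset (tt n),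
      ∏ j, (1 + if v1 j = v3 j then x else 0) =
      ∏ j, ∑ b ∈ tt n j, (1 + if v1 j = b then x else 0) := fun v1 =>
    (prod_univ_sum (tt n) (fun j b => 1 + if v1 j = b then x else 0)).symm
  simp only [h1]
  rw [← prod_univ_sum (tt n) (fun j a => ∑ b ∈ tt n j, (1 + if a = b then x else 0)),
    Fintype.card_piFinset]
  have h2 : ∀ j, ∑ a ∈ tt n j, ∑ b ∈ tt n j, (1 + if a = b then x else 0) ≤
      ((tt n j).card : ℝ) ^ 2 * Real.exp (x / (tt n j).card) := by
    intro j
    have hc : (0:ℝ) < (tt n j).card := by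
      unfold tt; split_ifs <;> simp; positivity
    have e : ∑ a ∈ tt n j, ∑ b ∈ tt n j, (1 + if a = b then x else 0) =
        ((tt n j).card : ℝ) ^ 2 * (x / (tt n j).card + 1) := by
      rw [sum_congr rfl (g := fun _ => ((tt n j).card : ℝ) + x)]
      · simp only [sum_const, nsmul_eq_mul]; field_simp; ring
      · intro a ha
        rw [sum_add_distrib, sum_ite_eq, if_pos ha]; simp
    rw [e]
    gcongr
    exact Real.add_one_le_exp _
  refine (prod_le_prod (fun j _ => sum_nonneg fun a _ => sum_nonneg fun b _ => by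
    split_ifs <;> linarith) fun j _ => h2 j).trans ?_
  rw [prod_mul_distrib, prod_pow, ← Real.exp_sum]
  push_cast
  gcongr
  have h3 : ∀ j : Fin (n + 2), x / (tt n j).card ≤
      (if j = 0 then x else 0) + (if j = Fin.last _ then x else 0) + x / (n + 1) := by
    intro j
    have : 0 ≤ x / (n + 1) := by positivity
    unfold tt
    by_cases h0 : j = 0
    · rw [if_pos (Or.inl h0), if_pos h0]; split_ifs <;> simp <;> linarith
    · by_cases hl : j = Fin.last _
      · rw [if_pos (Or.inr hl), if_neg h0, if_pos hl]; simp [this]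
      · simp [h0, hl]
  refine (sum_le_sum fun j _ => h3 j).trans ?_
  simp only [sum_add_distrib, sum_ite_eq', mem_univ, if_true, sum_const, card_univ,
    Fintype.card_fin, nsmul_eq_mul]
  have : ((n + 2 : ℕ) : ℝ) * (x / (n + 1)) ≤ 2 * x := by
    rw [mul_div_assoc', div_le_iff₀ (by positivity)]
    push_cast
    have : (0:ℝ) ≤ n := Nat.cast_nonneg n
    nlinarith
  linarith

theorem lower (K : Type*) [Field K] [CharZero K] {α β : ℕ} {σY σZ rY rZ x : ℝ}
    (hY0 : 0 ≤ σY) (hY1 : σY ≤ 1) (hY : ((YY YP).card : ℝ) - α ≤ σY * (YY YP).card)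
    (hZ0 : 0 ≤ σZ) (hZ1 : σZ ≤ 1) (hZ : (β : ℝ) ≤ σZ * (YY YPᶜ).card) (hx : 0 ≤ x)
    (hword : ∀ J : Finset (Fin (n + 1)),
      σZ ^ (J \ YP).card ≤ σY ^ (YP ∩ J).card * x ^ (bd J).card)
    (hrY0 : 0 ≤ rY) (hrY : rY * (YY YP).card ≤ ((YY YP).card : ℝ) - α - YP.card)
    (hrZ0 : 0 ≤ rZ) (hrZ : rZ * (YY YPᶜ).card ≤ ((YY YPᶜ).card : ℝ) - β - YPᶜ.card) :
    ((YY YP).card.choose α : ℝ) * ((YY YPᶜ).card.choose β : ℝ) *
      (rY ^ YP.card * rZ ^ YPᶜ.card) ^ 2 ≤
      mu (YY YP) (α, β) (YP.card, YPᶜ.card) (imm K (n + 1)) *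
        (σY ^ (2 * YP.card) * Real.exp (4 * x)) := by
  classical
  have hα : α ≤ (YY YP).card := by
    have h1 : 0 ≤ rY * (YY YP).card := by positivity
    have h2 : (0:ℝ) ≤ YP.card := Nat.cast_nonneg _
    have : (α:ℝ) ≤ (YY YP).card := by linarith
    exact_mod_cast this
  have hβ : β ≤ (YY YPᶜ).card := by
    have h1 : 0 ≤ rZ * (YY YPᶜ).card := by positivity
    have h2 : (0:ℝ) ≤ YPᶜ.card := Nat.cast_nonneg _
    have : (β:ℝ) ≤ (YY YPᶜ).card := by linarith
    exact_mod_cast this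
  set D0 := ((YY YP).card.choose α : ℝ) * ((YY YPᶜ).card.choose β : ℝ) with hD0
  have hD : 0 < D0 := by
    have := Nat.choose_pos hα
    have := Nat.choose_pos hβ
    positivity
  have hP : (0:ℝ) < (paths n).card := by exact_mod_cast paths_card_pos
  rw [mu_imm, rank_TT]
  have h1 := rank_lower (TT YP ℝ (α, β))
  have h2 : ((paths n).card : ℝ) * (D0 * (rY ^ YP.card * rZ ^ YPᶜ.card)) ≤
      ∑ S, ∑ S', TT YP ℝ (α, β) S' S ^ 2 := by
    refine le_trans ?_ (trace_lower YP α β)
    have a1 := le_choose_sub hrY0 hrY _ le_rfl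
    have a2 := le_choose_sub hrZ0 hrZ _ le_rfl
    have := mul_le_mul a1 a2 (by positivity) (by positivity)
    refine mul_le_mul_of_nonneg_left ?_ hP.le
    rw [hD0]; linarith
  have h3 : ∑ S, ∑ U, (∑ S', TT YP ℝ (α, β) S' S * TT YP ℝ (α, β) S' U) *
      (∑ S'', TT YP ℝ (α, β) S'' U * TT YP ℝ (α, β) S'' S) ≤
      D0 * σY ^ (2 * YP.card) * (((paths n).card : ℝ) ^ 2 * Real.exp (4 * x)) := by
    simp only [gram_eq]
    have a1 : ∀ S, ∑ U, ((AA YP (α, β) S U).card : ℝ) * (AA YP (α, β) U S).card ≤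
        ∑ v1 ∈ paths n, ∑ v3 ∈ paths n, ∑ J : Finset (Fin (n + 1)),
          if Cond YP (α, β) v1 v3 J S then (1:ℝ) else 0 := by
      intro S
      have := quad_count YP (α, β) S
      rw [card_filter, sum_product, sum_product] at this
      exact_mod_cast this
    refine (sum_le_sum fun S _ => a1 S).trans ?_
    rw [sum_comm]
    refine le_trans ?_ (mul_le_mul_of_nonneg_left (sum_agree_le hx) (by positivity))
    rw [mul_sum]
    refine sum_le_sum fun v1 _ => ?_
    rw [sum_comm, mul_sum]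
    refine sum_le_sum fun v3 _ => ?_
    rw [sum_comm]
    refine le_trans ?_ (mul_le_mul_of_nonneg_left (sum_bd_le hx v1 v3) (by positivity))
    rw [mul_sum]
    refine sum_le_sum fun J _ => ?_
    rw [sum_boole]
    exact card_cond YP hβ hY0 hY1 hY hZ0 hZ1 hZ hx hword v1 v3 J
  have h4 := (pow_le_pow_left₀ (by positivity) h2 2).trans
    (h1.trans (mul_le_mul_of_nonneg_left h3 (Nat.cast_nonneg _)))
  have h5 : 0 < ((paths n).card : ℝ) ^ 2 * D0 := by positivity
  refine le_of_mul_le_mul_left ?_ h5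
  calc _ = (((paths n).card : ℝ) * (D0 * (rY ^ YP.card * rZ ^ YPᶜ.card))) ^ 2 := by ring
    _ ≤ _ := h4
    _ = _ := by ring

end Crest.Agent.H9.SP
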