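import Crest.Agent.H9.SPRank

set_option autoImplicit false

namespace Crest.Agent.H9.SP

open Matrix MvPolynomial Finset

variable {σ K : Type*} [Fintype σ] [DecidableEq σ] [Field K]

/-- exponent vector of the multilinear monomial of a set -/
noncomputable def ind (S : Finset σ) : σ →₀ ℕ :=
  Finsupp.equivFunOnFinite.symm (fun x => if x ∈ S then 1 else 0)

theorem ind_apply (S : Finset σ) (x : σ) : ind S x = if x ∈ S then 1 else 0 := by
  simp [ind]

theorem ind_injective : Function.Injective (ind : Finset σ → σ →₀ ℕ) := by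
  intro S T h
  ext x
  have := congrArg (fun f => f x) h
  simp only [ind_apply] at this
  by_cases h1 : x ∈ S <;> by_cases h2 : x ∈ T <;> simp_all

theorem ind_empty : ind (∅ : Finset σ) = 0 := by
  ext x; simp [ind_apply]

/-- multiplication by `f` in the quotient by the squares of the variables -/
noncomputable def mm (f : MvPolynomial σ K) : Matrix (Finset σ) (Finset σ) K :=
  Matrix.of fun S' S => if S ⊆ S' then coeff (ind (S' \ S)) f else 0

theorem mm_add (f g : MvPolynomial σ K) : mm (f + g) = mm f + mm g := by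
  ext S' S
  simp only [mm, of_apply, Matrix.add_apply, coeff_add]
  split_ifs <;> simp

theorem mm_zero : mm (0 : MvPolynomial σ K) = 0 := by
  ext S' S
  simp [mm]

theorem mm_C_mul (a : K) (f : MvPolynomial σ K) : mm (C a * f) = a • mm f := by
  ext S' S
  simp only [mm, of_apply, Matrix.smul_apply, coeff_C_mul]
  split_ifs <;> simp

theorem mm_one : mm (1 : MvPolynomial σ K) = 1 := by
  ext S' S
  simp only [mm, of_apply, one_apply, coeff_one]
  by_cases h : S' = S
  · subst h; simp [ind_empty]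
  · rw [if_neg h]
    split_ifs with h1 h2
    · exfalso
      rw [← ind_empty] at h2
      have := ind_injective h2
      exact h (Subset.antisymm (sdiff_eq_empty_iff_subset.1 this.symm) h1)
    · rfl
    · rfl

/-- the matrix of multiplication by one variable -/
def ee (K : Type*) [Field K] (i : σ) : Matrix (Finset σ) (Finset σ) K :=
  Matrix.of fun S' U => if i ∈ S' ∧ U = S'.erase i then 1 else 0

theorem mm_X_mul (i : σ) (g : MvPolynomial σ K) : mm (X i * g) = ee K i * mm g := by
  ext S' S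
  rw [mul_apply, Finset.sum_eq_single (S'.erase i)]
  · simp only [mm, ee, of_apply, coeff_X_mul', Finsupp.mem_support_iff, ind_apply, and_true]
    by_cases hi : i ∈ S'
    · simp only [hi, if_true, one_mul]
      by_cases hS : S ⊆ S'
      · by_cases hiS : i ∈ S
        · have : ¬ S ⊆ S'.erase i := fun h => by simpa using h hiS
          simp [hS, hiS, this]
        · have h1 : S ⊆ S'.erase i := subset_erase.2 ⟨hS, hiS⟩
          have h2 : ind (S' \ S) - Finsupp.single i 1 = ind (S'.erase i \ S) := by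
            ext x
            simp only [Finsupp.coe_tsub, Pi.sub_apply, ind_apply, Finsupp.single_apply,
              mem_sdiff, mem_erase]
            by_cases hx : i = x
            · subst hx; simp [hi, hiS]
            · simp [hx, Ne.symm hx]
          simp [hS, hi, hiS, h1, h2]
      · have : ¬ S ⊆ S'.erase i := fun h => hS (h.trans (erase_subset _ _))
        simp [hS, this]
    · simp [hi]
  · intro U _ hU
    simp [ee, hU]
  · simp

theorem mm_mul (f g : MvPolynomial σ K) : mm (f * g) = mm f * mm g := by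
  induction f using MvPolynomial.induction_on generalizing g with
  | C a =>
    have : mm (C a : MvPolynomial σ K) = a • 1 := by rw [← mm_one, ← mm_C_mul, mul_one]
    rw [mm_C_mul, this]; simp
  | add f1 f2 h1 h2 => rw [add_mul, mm_add, mm_add, h1, h2, add_mul]
  | mul_X f i h =>
    have : mm (X i : MvPolynomial σ K) = ee K i := by
      have := mm_X_mul (K := K) i 1
      rwa [mul_one, mm_one, mul_one] at this
    rw [mul_assoc, h, h, mm_X_mul, this, mul_assoc]

/-- bidegree of a variable -/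
def wv (Y : Finset σ) (x : σ) : ℕ × ℕ := if x ∈ Y then (1, 0) else (0, 1)

/-- bidegree of a set -/
def wt (Y S : Finset σ) : ℕ × ℕ := ∑ x ∈ S, wv Y x

theorem weight_ind (Y S : Finset σ) : Finsupp.weight (wv Y) (ind S) = wt Y S := by
  rw [Finsupp.weight_eq_sum, wt]
  simp [ind_apply]

omit [Fintype σ] in
theorem wt_sdiff (Y : Finset σ) {S S' : Finset σ} (h : S ⊆ S') :
    wt Y S' = wt Y S + wt Y (S' \ S) := by
  unfold wt; rw [add_comm, sum_sdiff h]

omit [Fintype σ] in
theorem wt_eq (Y S : Finset σ) : wt Y S = ((S ∩ Y).card, (S \ Y).card) := by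
  unfold wt wv
  ext
  · rw [Prod.fst_sum]
    simp only [apply_ite Prod.fst]
    rw [← card_filter, filter_mem_eq_inter]
  · rw [Prod.snd_sum]
    simp only [apply_ite Prod.snd]
    rw [sdiff_eq_filter, card_filter]
    refine sum_congr rfl fun x _ => by split_ifs <;> rfl

theorem weight_add (Y : Finset σ) (d : σ →₀ ℕ) :
    (Finsupp.weight (wv Y) d).1 + (Finsupp.weight (wv Y) d).2 = Finsupp.weight 1 d := by
  simp only [Finsupp.weight_eq_sum, Prod.fst_sum, Prod.snd_sum, ← sum_add_distrib]
  refine sum_congr rfl fun x _ => ?_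
  unfold wv
  split_ifs <;> simp

/-- projection on a bidegree -/
def pr (K : Type*) [Field K] (Y : Finset σ) (d : ℕ × ℕ) : Matrix (Finset σ) (Finset σ) K :=
  diagonal fun S => if wt Y S = d then 1 else 0

/-- dimension of a bigraded piece -/
def cnt (Y : Finset σ) (d : ℕ × ℕ) : ℕ := (univ.filter (fun S => wt Y S = d)).card

theorem rank_pr (Y : Finset σ) (d : ℕ × ℕ) : (pr K Y d).rank = cnt Y d := by
  classical
  rw [pr, rank_diagonal, Fintype.card_subtype, cnt]
  congr 1
  ext S; simp

theorem mm_pr {Y : Finset σ} {g : MvPolynomial σ K} {d1 : ℕ × ℕ}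
    (hg : IsWeightedHomogeneous (wv Y) g d1) (d : ℕ × ℕ) :
    mm g * pr K Y d = pr K Y (d + d1) * mm g * pr K Y d := by
  ext S' S
  simp only [pr, mul_diagonal, diagonal_mul, mm, of_apply]
  by_cases h1 : wt Y S = d
  · by_cases h2 : S ⊆ S'
    · by_cases h3 : coeff (ind (S' \ S)) g = 0
      · simp [h3]
      · have := hg h3
        rw [weight_ind] at this
        have h4 : wt Y S' = d + d1 := by rw [wt_sdiff Y h2, h1, this]
        simp [h4]
    · simp [h2]
  · simp [h1]

theorem pr_mul_pr {Y : Finset σ} {d d' : ℕ × ℕ} (h : d ≠ d') : pr K Y d * pr K Y d' = 0 := by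
  rw [pr, pr, diagonal_mul_diagonal, ← diagonal_zero]
  congr 1
  ext S
  by_cases h1 : wt Y S = d
  · have : ¬ wt Y S = d' := fun h2 => h (h1.symm.trans h2)
    simp [this]
  · simp [h1]

/-- the complexity measure -/
noncomputable def mu (Y : Finset σ) (d0 d : ℕ × ℕ) (f : MvPolynomial σ K) : ℕ :=
  (pr K Y (d0 + d) * mm f * pr K Y d0).rank

theorem mu_add (Y : Finset σ) (d0 d : ℕ × ℕ) (f g : MvPolynomial σ K) :
    mu Y d0 d (f + g) ≤ mu Y d0 d f + mu Y d0 d g := by
  unfold mu
  rw [mm_add, mul_add, add_mul]; exact rank_add_le _ _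

theorem mu_C_mul (Y : Finset σ) (d0 d : ℕ × ℕ) (a : K) (f : MvPolynomial σ K) :
    mu Y d0 d (C a * f) ≤ mu Y d0 d f := by
  unfold mu
  rw [mm_C_mul, Matrix.mul_smul, Matrix.smul_mul]; exact rank_smul_le _ _

theorem mu_zero (Y : Finset σ) (d0 d : ℕ × ℕ) : mu Y d0 d (0 : MvPolynomial σ K) = 0 := by
  unfold mu; simp [mm_zero]

theorem mu_mul_le {Y : Finset σ} (d0 d : ℕ × ℕ) {g1 g2 : MvPolynomial σ K} {d1 : ℕ × ℕ}
    (h1 : IsWeightedHomogeneous (wv Y) g1 d1) : mu Y d0 d (g1 * g2) ≤ cnt Y (d0 + d1) := by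
  unfold mu
  rw [mul_comm g1, mm_mul, mul_assoc, mul_assoc, mm_pr h1, ← rank_pr (K := K)]
  refine (rank_mul_le_right _ _).trans ((rank_mul_le_right _ _).trans ?_)
  rw [mul_assoc]; exact rank_mul_le_left _ _

theorem mu_eq_zero {Y : Finset σ} (d0 d : ℕ × ℕ) {g : MvPolynomial σ K} {d1 : ℕ × ℕ}
    (h1 : IsWeightedHomogeneous (wv Y) g d1) (hd : d1 ≠ d) : mu Y d0 d g = 0 := by
  unfold mu
  rw [mul_assoc, mm_pr h1, ← mul_assoc, ← mul_assoc, pr_mul_pr]
  · simp
  · intro h; exact hd (add_left_cancel h).symm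

theorem sum_components (Y : Finset σ) {f : MvPolynomial σ K} {e : ℕ} (hf : f.IsHomogeneous e) :
    f = ∑ x ∈ antidiagonal e, weightedHomogeneousComponent (wv Y) x f := by
  ext d
  rw [coeff_sum]
  simp only [coeff_weightedHomogeneousComponent]
  rw [sum_ite_eq]
  split_ifs with h
  · rfl
  · by_contra h2
    apply h
    rw [Finset.HasAntidiagonal.mem_antidiagonal, weight_add]
    exact hf h2

theorem mu_eq_zero_of_degree {Y : Finset σ} (d0 d : ℕ × ℕ) {f : MvPolynomial σ K} {e : ℕ}
    (hf : f.IsHomogeneous e) (hd : e ≠ d.1 + d.2) : mu Y d0 d f = 0 := by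
  unfold mu
  have : pr K Y (d0 + d) * mm f * pr K Y d0 = 0 := by
    ext S' S
    simp only [pr, mul_diagonal, diagonal_mul, mm, of_apply, Matrix.zero_apply]
    by_cases h1 : wt Y S = d0
    · by_cases h2 : S ⊆ S'
      · by_cases h3 : coeff (ind (S' \ S)) f = 0
        · simp [h3]
        · have h4 := hf h3
          rw [← weight_add Y, weight_ind] at h4
          have h5 : ¬ wt Y S' = d0 + d := by
            rw [wt_sdiff Y h2, h1]
            intro h6
            rw [add_left_cancel h6] at h4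
            exact hd h4.symm
          simp [h5]
      · simp [h2]
    · simp [h1]
  rw [this, rank_zero]

/-- the balance function -/
noncomputable def uu (A B : ℝ) (d : ℕ × ℕ) : ℝ := B ^ d.2 / A ^ d.1

theorem uu_add (A B : ℝ) (d e : ℕ × ℕ) : uu A B (d + e) = uu A B d * uu A B e := by
  simp only [uu, Prod.fst_add, Prod.snd_add, pow_add]; ring

theorem uu_pos {A B : ℝ} (hA : 0 < A) (hB : 0 < B) (d : ℕ × ℕ) : 0 < uu A B d := by
  unfold uu; positivity

/-- cost of a homogeneous factor of degree `e` -/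
noncomputable def FF (A B : ℝ) (e : ℕ) : ℝ :=
  ∑ x ∈ antidiagonal e, min (uu A B x) (uu A B x)⁻¹

/-- `h` costs at most `c` as a cofactor. -/
def Bound (Y : Finset σ) (d0 d : ℕ × ℕ) (A B W : ℝ) (h : MvPolynomial σ K) (c : ℝ) : Prop :=
  ∀ (g1 g2 : MvPolynomial σ K) (d1 d2 : ℕ × ℕ), IsWeightedHomogeneous (wv Y) g1 d1 →
    IsWeightedHomogeneous (wv Y) g2 d2 →
    (mu Y d0 d (g1 * g2 * h) : ℝ) ≤ W * (uu A B d1 / uu A B d2) * c

section bound

variable {Y : Finset σ} {d0 d : ℕ × ℕ} {A B W : ℝ}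

theorem Bound.one (hA : 0 < A) (hB : 0 < B) (hW : 0 ≤ W)
    (hcnt : ∀ d1 d2, d1 + d2 = d → (cnt Y (d0 + d1) : ℝ) ≤ W * (uu A B d1 / uu A B d2)) :
    Bound Y d0 d A B W (1 : MvPolynomial σ K) 1 := by
  intro g1 g2 d1 d2 h1 h2
  rw [mul_one, mul_one]
  by_cases h : d1 + d2 = d
  · exact le_trans (by exact_mod_cast mu_mul_le d0 d h1) (hcnt d1 d2 h)
  · rw [mu_eq_zero d0 d (h1.mul h2) h]
    have := uu_pos hA hB d1
    have := uu_pos hA hB d2
    push_cast; positivity

theorem Bound.mono (hA : 0 < A) (hB : 0 < B) (hW : 0 ≤ W) {h : MvPolynomial σ K} {c c' : ℝ}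
    (H : Bound Y d0 d A B W h c) (hc : c ≤ c') : Bound Y d0 d A B W h c' := by
  intro g1 g2 d1 d2 h1 h2
  refine (H g1 g2 d1 d2 h1 h2).trans ?_
  have := uu_pos hA hB d1
  have := uu_pos hA hB d2
  gcongr

theorem Bound.zero : Bound Y d0 d A B W (0 : MvPolynomial σ K) 0 := by
  intro g1 g2 d1 d2 _ _
  simp [mu_zero]

theorem Bound.add {h h' : MvPolynomial σ K} {c c' : ℝ}
    (H : Bound Y d0 d A B W h c) (H' : Bound Y d0 d A B W h' c') :
    Bound Y d0 d A B W (h + h') (c + c') := by
  intro g1 g2 d1 d2 h1 h2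
  have a1 := H g1 g2 d1 d2 h1 h2
  have a2 := H' g1 g2 d1 d2 h1 h2
  have a3 : (mu Y d0 d (g1 * g2 * h + g1 * g2 * h') : ℝ) ≤
      mu Y d0 d (g1 * g2 * h) + mu Y d0 d (g1 * g2 * h') := by exact_mod_cast mu_add ..
  rw [mul_add, mul_add]; linarith

theorem Bound.smul {h : MvPolynomial σ K} {c : ℝ} (H : Bound Y d0 d A B W h c) (a : K) :
    Bound Y d0 d A B W (a • h) c := by
  intro g1 g2 d1 d2 h1 h2
  refine le_trans ?_ (H g1 g2 d1 d2 h1 h2)
  rw [mul_smul_comm, smul_eq_C_mul]
  exact_mod_cast mu_C_mul ..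

theorem Bound.sum {ι : Type*} (s : Finset ι) {h : ι → MvPolynomial σ K} {c : ι → ℝ}
    (H : ∀ i ∈ s, Bound Y d0 d A B W (h i) (c i)) :
    Bound Y d0 d A B W (∑ i ∈ s, h i) (∑ i ∈ s, c i) := by
  classical
  induction s using Finset.induction_on with
  | empty => simpa using Bound.zero
  | insert a s ha ih =>
    rw [sum_insert ha, sum_insert ha]
    exact (H a (mem_insert_self _ _)).add (ih fun i hi => H i (mem_insert_of_mem hi))

theorem Bound.mul_hom (hA : 0 < A) (hB : 0 < B) {h f : MvPolynomial σ K} {c : ℝ} {e : ℕ}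
    (H : Bound Y d0 d A B W h c) (hf : f.IsHomogeneous e) :
    Bound Y d0 d A B W (f * h) (FF A B e * c) := by
  rw [sum_components Y hf, FF, sum_mul, sum_mul]
  refine Bound.sum _ fun x _ => ?_
  have hx := weightedHomogeneousComponent_isWeightedHomogeneous (w := wv Y) x f
  intro g1 g2 d1 d2 h1 h2
  have p1 := uu_pos hA hB d1
  have p2 := uu_pos hA hB d2
  have p3 := uu_pos hA hB x
  rcases le_total (uu A B x) (uu A B x)⁻¹ with hle | hle
  · rw [min_eq_left hle]
    have := H _ _ _ _ (h1.mul hx) h2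
    rw [uu_add] at this
    convert this using 1
    · congr 2; ring
    · ring
  · rw [min_eq_right hle]
    have := H _ _ _ _ h1 (h2.mul hx)
    rw [uu_add] at this
    convert this using 1
    · congr 2; ring
    · field_simp

theorem Bound.prod (hA : 0 < A) (hB : 0 < B) (hW : 0 ≤ W) {ι : Type*} (m : Multiset ι)
    (f : ι → MvPolynomial σ K) (e : ι → ℕ) {r : ℝ} (hr : 0 ≤ r)
    (hf : ∀ i ∈ m, (f i).IsHomogeneous (e i) ∧ FF A B (e i) ≤ r ^ e i)
    {h : MvPolynomial σ K} {c : ℝ} (hc : 0 ≤ c) (H : Bound Y d0 d A B W h c) :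
    Bound Y d0 d A B W ((m.map f).prod * h) (r ^ (m.map e).sum * c) := by
  induction m using Multiset.induction_on with
  | empty => simpa using H
  | cons a m ih =>
    have h1 := ih fun i hi => hf i (Multiset.mem_cons_of_mem hi)
    have h2 := hf a (Multiset.mem_cons_self _ _)
    simp only [Multiset.map_cons, Multiset.prod_cons, Multiset.sum_cons, pow_add, mul_assoc]
    refine (h1.mul_hom hA hB h2.1).mono hA hB hW ?_
    gcongr
    exact h2.2

theorem Bound.le {h : MvPolynomial σ K} {c : ℝ} (H : Bound Y d0 d A B W h c) :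
    (mu Y d0 d h : ℝ) ≤ W * c := by
  have := H 1 1 0 0 (isWeightedHomogeneous_one _ _) (isWeightedHomogeneous_one _ _)
  simpa [uu] using this

end bound

end Crest.Agent.H9.SP
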