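import Mathlib
import Crest.Prelude.Def_SPSPS

set_option autoImplicit false

namespace Crest.Agent.H9.SP

open Finset Matrix MvPolynomial Crest.ArithCircuit

theorem prod_ofFn_apply {R ι : Type*} [CommSemiring R] [Fintype ι] [DecidableEq ι] :
    ∀ (m : ℕ) (A : Fin m → Matrix ι ι R) (i j : ι), (List.ofFn A).prod i j =
      ∑ v : Fin (m + 1) → ι, if v 0 = i ∧ v (Fin.last m) = j then
        ∏ k : Fin m, A k (v k.castSucc) (v k.succ) else 0 := by
  intro m
  induction m with
  | zero =>
    intro A i j
    rw [← (Equiv.funUnique (Fin 1) ι).symm.sum_comp]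
    simp only [List.ofFn_zero, List.prod_nil, one_apply, Equiv.funUnique_symm_apply,
      univ_eq_empty, prod_empty]
    rw [sum_eq_single i]
    · simp
    · intro b _ hb; simp [hb]
    · simp
  | succ m ih =>
    intro A i j
    rw [List.ofFn_succ, List.prod_cons, mul_apply]
    simp only [ih]
    rw [← (Fin.consEquiv (fun _ : Fin (m + 2) => ι)).sum_comp, Fintype.sum_prod_type]
    have key : ∀ (a : ι) (w : Fin (m + 1) → ι),
        (if (Fin.consEquiv (fun _ : Fin (m + 2) => ι)) (a, w) 0 = i ∧
          (Fin.consEquiv (fun _ : Fin (m + 2) => ι)) (a, w) (Fin.last (m + 1)) = j then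
          ∏ k : Fin (m + 1), A k ((Fin.consEquiv (fun _ : Fin (m + 2) => ι)) (a, w) k.castSucc)
            ((Fin.consEquiv (fun _ : Fin (m + 2) => ι)) (a, w) k.succ) else 0) =
        if a = i then (if w (Fin.last m) = j then
          A 0 i (w 0) * ∏ k : Fin m, A k.succ (w k.castSucc) (w k.succ) else 0) else 0 := by
      intro a w
      simp only [Fin.consEquiv_apply, Fin.prod_univ_succ, ← Fin.succ_last,
          Fin.cons_succ, Fin.cons_zero, Fin.castSucc_zero, ← Fin.succ_castSucc]
      by_cases h1 : a = i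
      · subst h1; simp
      · simp [h1]
    simp only [key]
    simp only [mul_sum]
    conv_rhs => rw [sum_comm]
    conv_lhs => rw [sum_comm]
    refine sum_congr rfl fun w _ => ?_
    rw [sum_eq_single (w 0) (by intro b _ hb; simp [hb.symm]) (by simp)]
    simp

/-- closed walks through the layers -/
def paths (n : ℕ) : Finset (Fin (n + 2) → Fin (n + 1)) :=
  univ.filter fun v => v 0 = 0 ∧ v (Fin.last _) = 0

/-- the variable used by a walk in a layer -/
def ed {n : ℕ} (v : Fin (n + 2) → Fin (n + 1)) (k : Fin (n + 1)) :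
    Fin (n + 1) × Fin (n + 1) × Fin (n + 1) := (k, v k.castSucc, v k.succ)

theorem imm_eq (K : Type*) [CommSemiring K] (n : ℕ) :
    imm K (n + 1) = ∑ v ∈ paths n, ∏ k, X (ed v k) := by
  rw [imm, prod_ofFn_apply, paths, sum_filter]
  rfl

end Crest.Agent.H9.SP
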