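import Crest.Agent.H9.SPCount
import Crest.Agent.H9.SPPath

set_option autoImplicit false

namespace Crest.Agent.H9.SP

open Finset Matrix MvPolynomial Crest.ArithCircuit

variable {n : ℕ}

/-- the set of variables of a walk -/
def es (v : Fin (n + 2) → Fin (n + 1)) : Finset (Fin (n + 1) × Fin (n + 1) × Fin (n + 1)) :=
  univ.image (ed v)

theorem ed_injective (v : Fin (n + 2) → Fin (n + 1)) : Function.Injective (ed v) :=
  fun _ _ h => congrArg Prod.fst h

theorem ed_mem_es (v w : Fin (n + 2) → Fin (n + 1)) (k : Fin (n + 1)) :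
    ed w k ∈ es v ↔ ed w k = ed v k := by
  simp only [es, mem_image, mem_univ, true_and]
  constructor
  · rintro ⟨j, hj⟩
    have : j = k := congrArg Prod.fst hj
    rw [← hj, this]
  · intro h; exact ⟨k, h.symm⟩

theorem local_case {τ : Type*} [DecidableEq τ] {S U : Finset τ} {e1 e2 e3 e4 : τ}
    (h1 : e1 ∉ S) (h2 : e2 ∉ U) (h3 : e3 ∉ U) (_h4 : e4 ∉ S)
    (a1 : e1 ∈ S ∨ e1 = e1 ↔ e1 ∈ U ∨ e1 = e2) (a2 : e2 ∈ S ∨ e2 = e1 ↔ e2 ∈ U ∨ e2 = e2)
    (a3 : e3 ∈ S ∨ e3 = e1 ↔ e3 ∈ U ∨ e3 = e2)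
    (b1 : e1 ∈ U ∨ e1 = e3 ↔ e1 ∈ S ∨ e1 = e4) (b2 : e2 ∈ U ∨ e2 = e3 ↔ e2 ∈ S ∨ e2 = e4)
    (b3 : e3 ∈ U ∨ e3 = e3 ↔ e3 ∈ S ∨ e3 = e4) :
    (e1 = e2 ∧ e3 = e4) ∨ (e1 ≠ e2 ∧ e1 = e4 ∧ e2 = e3 ∧ e3 ∈ S) := by
  by_cases h : e1 = e2
  · left
    refine ⟨h, ?_⟩
    rcases b3.1 (Or.inr rfl) with h5 | h5
    · rcases a3.1 (Or.inl h5) with h6 | h6
      · exact absurd h6 h3
      · rw [h6, ← h] at h5; exact absurd h5 h1
    · exact h5
  · right
    have s2 : e2 ∈ S := by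
      rcases a2.2 (Or.inr rfl) with h5 | h5
      · exact h5
      · exact absurd h5.symm h
    have e23 : e2 = e3 := by
      rcases b2.2 (Or.inl s2) with h5 | h5
      · exact absurd h5 h2
      · exact h5
    have u1 : e1 ∈ U := by
      rcases a1.1 (Or.inr rfl) with h5 | h5
      · exact h5
      · exact absurd h5 h
    have e14 : e1 = e4 := by
      rcases b1.1 (Or.inl u1) with h5 | h5
      · exact absurd h5 h1
      · exact h5
    exact ⟨h, e14, e23, e23 ▸ s2⟩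

/-- boundary points of a set of layers -/
def bd (J : Finset (Fin (n + 1))) : Finset (Fin (n + 2)) :=
  symmDiff (J.image Fin.succ) (J.image Fin.castSucc)

theorem bd_injective : Function.Injective (bd : Finset (Fin (n + 1)) → Finset (Fin (n + 2))) := by
  intro J J' h
  ext k
  induction k using Fin.induction with
  | zero =>
    have := Finset.ext_iff.1 h 0
    simpa [bd, mem_symmDiff] using this
  | succ k ih =>
    have := Finset.ext_iff.1 h k.succ.castSucc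
    have e1 : ∀ J : Finset (Fin (n + 1)), k.succ.castSucc ∈ J.image Fin.succ ↔ k.castSucc ∈ J := by
      intro J
      rw [← Fin.succ_castSucc]
      exact (Fin.succ_injective _).mem_finset_image
    have e2 : ∀ J : Finset (Fin (n + 1)), k.succ.castSucc ∈ J.image Fin.castSucc ↔ k.succ ∈ J :=
      fun J => (Fin.castSucc_injective _).mem_finset_image
    simp only [bd, mem_symmDiff, e1, e2] at this
    tauto

theorem agree_of_mix {v1 v2 v3 : Fin (n + 2) → Fin (n + 1)} (h1 : v1 ∈ paths n)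
    (h3 : v3 ∈ paths n) {J : Finset (Fin (n + 1))} (hin : ∀ k ∈ J, ed v2 k = ed v3 k)
    (hout : ∀ k ∉ J, ed v2 k = ed v1 k) : ∀ j ∈ bd J, v1 j = v3 j := by
  simp only [paths, mem_filter, mem_univ, true_and] at h1 h3
  intro j hj
  simp only [bd, mem_symmDiff, mem_image, not_exists, not_and] at hj
  rcases hj with ⟨⟨k, hk, rfl⟩, h⟩ | ⟨⟨k, hk, rfl⟩, h⟩
  · by_cases hl : k.succ = Fin.last _
    · rw [hl, h1.2, h3.2]
    · obtain ⟨k', hk'⟩ := Fin.exists_castSucc_eq.2 hl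
      have a1 := hin k hk
      have a2 := hout k' (fun hh => h k' hh hk')
      simp only [ed, Prod.mk.injEq, true_and] at a1 a2
      rw [← a1.2, ← hk', a2.1]
  · by_cases hl : k.castSucc = 0
    · rw [hl, h1.1, h3.1]
    · obtain ⟨k', hk'⟩ := Fin.exists_succ_eq.2 hl
      have a1 := hin k hk
      have a2 := hout k' (fun hh => h k' hh hk')
      simp only [ed, Prod.mk.injEq, true_and] at a1 a2
      rw [← a1.1, ← hk', a2.2]

theorem path_ext {v w : Fin (n + 2) → Fin (n + 1)} (h : ∀ k, ed v k = ed w k) : v = w := by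
  ext j
  induction j using Fin.cases with
  | zero =>
    have := h 0
    simp only [ed, Prod.mk.injEq, true_and] at this
    exact congrArg _ this.1
  | succ k =>
    have := h k
    simp only [ed, Prod.mk.injEq, true_and] at this
    exact congrArg _ this.2

variable (YP : Finset (Fin (n + 1)))

/-- the variables in the layers of `YP` -/
def YY : Finset (Fin (n + 1) × Fin (n + 1) × Fin (n + 1)) := univ.filter fun x => x.1 ∈ YP

/-- pairs of walks giving an entry of the Gram matrix -/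
def AA (d0 : ℕ × ℕ) (S U : Finset (Fin (n + 1) × Fin (n + 1) × Fin (n + 1))) :
    Finset ((Fin (n + 2) → Fin (n + 1)) × (Fin (n + 2) → Fin (n + 1))) :=
  (paths n ×ˢ paths n).filter fun w => (wt (YY YP) S = d0 ∧ Disjoint S (es w.1)) ∧
    (wt (YY YP) U = d0 ∧ Disjoint U (es w.2)) ∧ S ∪ es w.1 = U ∪ es w.2

/-- forbidden variables -/
def Out (v1 v3 : Fin (n + 2) → Fin (n + 1)) (J : Finset (Fin (n + 1))) :
    Finset (Fin (n + 1) × Fin (n + 1) × Fin (n + 1)) :=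
  YP.image (ed v1) ∪ (YP \ J).image (ed v3)

/-- forced variables -/
def In (v3 : Fin (n + 2) → Fin (n + 1)) (J : Finset (Fin (n + 1))) :
    Finset (Fin (n + 1) × Fin (n + 1) × Fin (n + 1)) :=
  (J \ YP).image (ed v3)

/-- the condition on the code of a quadruple -/
def Cond (d0 : ℕ × ℕ) (v1 v3 : Fin (n + 2) → Fin (n + 1)) (J : Finset (Fin (n + 1)))
    (S : Finset (Fin (n + 1) × Fin (n + 1) × Fin (n + 1))) : Prop :=
  (∀ j ∈ bd J, v1 j = v3 j) ∧ (∀ k ∈ YP \ J, ed v1 k ≠ ed v3 k) ∧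
    wt (YY YP) S = d0 ∧ Disjoint S (Out YP v1 v3 J) ∧ In YP v3 J ⊆ S

/-- the layers coding a quadruple -/
def JJ (v1 v2 v3 : Fin (n + 2) → Fin (n + 1)) : Finset (Fin (n + 1)) :=
  univ.filter fun k => ed v1 k ≠ ed v2 k ∨ (k ∈ YP ∧ ed v1 k = ed v3 k)

theorem quad_struct {d0 : ℕ × ℕ} {S U : Finset (Fin (n + 1) × Fin (n + 1) × Fin (n + 1))}
    {v1 v2 v3 v4 : Fin (n + 2) → Fin (n + 1)} (h12 : (v1, v2) ∈ AA YP d0 S U)
    (h34 : (v3, v4) ∈ AA YP d0 U S) :
    (∀ k ∈ JJ YP v1 v2 v3, ed v2 k = ed v3 k ∧ ed v4 k = ed v1 k) ∧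
    (∀ k ∉ JJ YP v1 v2 v3, ed v2 k = ed v1 k ∧ ed v4 k = ed v3 k) ∧
    U = (S ∪ es v1) \ es v2 ∧ Cond YP d0 v1 v3 (JJ YP v1 v2 v3) S := by
  simp only [AA, mem_filter, mem_product] at h12 h34
  obtain ⟨⟨p1, p2⟩, ⟨w1, d1⟩, ⟨w2, d2⟩, u12⟩ := h12
  obtain ⟨⟨p3, p4⟩, ⟨-, d3⟩, ⟨-, d4⟩, u34⟩ := h34
  have hn : ∀ {T : Finset _} {v : Fin (n + 2) → Fin (n + 1)}, Disjoint T (es v) → ∀ k, ed v k ∉ T :=
    fun h k hk => disjoint_left.1 h hk ((ed_mem_es _ _ _).2 rfl)
  have hu : ∀ {T T' : Finset _} {v v' : Fin (n + 2) → Fin (n + 1)}, T ∪ es v = T' ∪ es v' →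
      ∀ w k, (ed w k ∈ T ∨ ed w k = ed v k ↔ ed w k ∈ T' ∨ ed w k = ed v' k) := by
    intro T T' v v' h w k
    have := Finset.ext_iff.1 h (ed w k)
    simpa only [mem_union, ed_mem_es] using this
  have hloc := fun k => local_case (hn d1 k) (hn d2 k) (hn d3 k) (hn d4 k) (hu u12 v1 k)
    (hu u12 v2 k) (hu u12 v3 k) (hu u34 v1 k) (hu u34 v2 k) (hu u34 v3 k)
  have hin : ∀ k ∈ JJ YP v1 v2 v3, ed v2 k = ed v3 k ∧ ed v4 k = ed v1 k := by
    intro k hk
    simp only [JJ, mem_filter, mem_univ, true_and] at hk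
    rcases hloc k with ⟨a, b⟩ | ⟨-, a, b, -⟩
    · rcases hk with hk | hk
      · exact absurd a hk
      · exact ⟨a.symm.trans hk.2, b.symm.trans hk.2.symm⟩
    · exact ⟨b, a.symm⟩
  have hout : ∀ k ∉ JJ YP v1 v2 v3, ed v2 k = ed v1 k ∧ ed v4 k = ed v3 k := by
    intro k hk
    simp only [JJ, mem_filter, mem_univ, true_and, not_or, not_not] at hk
    rcases hloc k with ⟨a, b⟩ | ⟨a, -⟩
    · exact ⟨a.symm, b.symm⟩
    · exact absurd hk.1 a
  refine ⟨hin, hout, ?_, agree_of_mix p1 p3 (fun k hk => (hin k hk).1)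
    (fun k hk => (hout k hk).1), ?_, w1, ?_, ?_⟩
  · rw [u12, union_sdiff_right, sdiff_eq_self_of_disjoint d2]
  · intro k hk he
    rw [mem_sdiff] at hk
    apply hk.2
    simp only [JJ, mem_filter, mem_univ, true_and]
    exact Or.inr ⟨hk.1, he⟩
  · rw [disjoint_right]
    intro x hx
    simp only [Out, mem_union, mem_image] at hx
    rcases hx with ⟨k, -, rfl⟩ | ⟨k, hk, rfl⟩
    · exact hn d1 k
    · rw [← (hout k (mem_sdiff.1 hk).2).2]; exact hn d4 k
  · intro x hx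
    simp only [In, mem_image, mem_sdiff] at hx
    obtain ⟨k, ⟨hk, hk2⟩, rfl⟩ := hx
    simp only [JJ, mem_filter, mem_univ, true_and] at hk
    rcases hloc k with ⟨a, -⟩ | ⟨-, -, -, a⟩
    · rcases hk with hk | hk
      · exact absurd a hk
      · exact absurd hk.1 hk2
    · exact a

open Classical in
theorem quad_count (d0 : ℕ × ℕ) (S : Finset (Fin (n + 1) × Fin (n + 1) × Fin (n + 1))) :
    ∑ U, (AA YP d0 S U).card * (AA YP d0 U S).card ≤
      (((paths n ×ˢ paths n) ×ˢ (univ : Finset (Finset (Fin (n + 1))))).filter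
        fun w => Cond YP d0 w.1.1 w.1.2 w.2 S).card := by
  simp only [← card_product]
  rw [← card_sigma]
  refine card_le_card_of_injOn
    (fun z => ((z.2.1.1, z.2.2.1), JJ YP z.2.1.1 z.2.1.2 z.2.2.1)) ?_ ?_
  · rintro ⟨U, ⟨v1, v2⟩, ⟨v3, v4⟩⟩ hz
    simp only [coe_sigma, coe_univ, coe_product, Set.mem_sigma_iff, Set.mem_univ, Set.mem_prod,
      mem_coe, true_and] at hz
    have h := quad_struct YP hz.1 hz.2
    have h1 := hz.1
    have h2 := hz.2
    simp only [AA, mem_filter, mem_product] at h1 h2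
    simp only [coe_filter, mem_product, mem_univ, and_true, Set.mem_ofPred_eq]
    exact ⟨⟨h1.1.1, h2.1.1⟩, h.2.2.2⟩
  · rintro ⟨U, ⟨v1, v2⟩, ⟨v3, v4⟩⟩ hz ⟨U', ⟨v1', v2'⟩, ⟨v3', v4'⟩⟩ hz' he
    simp only [coe_sigma, coe_univ, coe_product, Set.mem_sigma_iff, Set.mem_univ, Set.mem_prod,
      mem_coe, true_and] at hz hz'
    simp only [Prod.mk.injEq] at he
    obtain ⟨⟨rfl, rfl⟩, hJ⟩ := he
    obtain ⟨a1, a2, a3, -⟩ := quad_struct YP hz.1 hz.2
    obtain ⟨b1, b2, b3, -⟩ := quad_struct YP hz'.1 hz'.2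
    rw [← hJ] at b1 b2
    have e2 : v2 = v2' := path_ext fun k => by
      by_cases hk : k ∈ JJ YP v1 v2 v3
      · rw [(a1 k hk).1, (b1 k hk).1]
      · rw [(a2 k hk).1, (b2 k hk).1]
    have e4 : v4 = v4' := path_ext fun k => by
      by_cases hk : k ∈ JJ YP v1 v2 v3
      · rw [(a1 k hk).2, (b1 k hk).2]
      · rw [(a2 k hk).2, (b2 k hk).2]
    subst e2 e4
    have : U = U' := a3.trans b3.symm
    subst this
    rfl

end Crest.Agent.H9.SP
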