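import Mathlib

set_option autoImplicit false

namespace Crest.Agent.H9.SP

open Matrix

theorem rank_add_le {K m n : Type*} [Field K] [Fintype n] [Fintype m] (A B : Matrix m n K) :
    (A + B).rank ≤ A.rank + B.rank := by
  unfold Matrix.rank
  rw [mulVecLin_add]
  refine le_trans (Submodule.finrank_mono ?_) (Submodule.finrank_add_le_finrank_add_finrank _ _)
  rintro _ ⟨v, rfl⟩
  exact Submodule.add_mem_sup ⟨v, rfl⟩ ⟨v, rfl⟩

theorem rank_smul_le {K m n : Type*} [Field K] [Fintype n] [Fintype m] (c : K)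
    (A : Matrix m n K) : (c • A).rank ≤ A.rank := by
  classical
  have : c • A = A * (c • (1 : Matrix n n K)) := by simp
  rw [this]; exact rank_mul_le_left _ _

theorem rank_blocks (K : Type*) [Field K] (r s : ℕ) :
    (fromBlocks 1 0 0 0 : Matrix (Fin r ⊕ Fin s) (Fin r ⊕ Fin s) K).rank = r := by
  classical
  have : (fromBlocks 1 0 0 0 : Matrix (Fin r ⊕ Fin s) (Fin r ⊕ Fin s) K) =
      diagonal (Sum.elim (fun _ => 1) (fun _ => 0)) := by
    rw [← fromBlocks_diagonal]; simp
  rw [this, rank_diagonal, Fintype.card_subtype]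
  rw [Finset.card_filter, Fintype.sum_sum_type]
  simp

theorem rank_map {F K m : Type*} [Field F] [Field K] [Fintype m] [DecidableEq m] (f : F →+* K)
    (A : Matrix m m F) : (A.map f).rank = A.rank := by
  obtain ⟨V, U, e, hV, hU, h⟩ := exists_rank_normal_form A
  have h2 := congrArg (f.mapMatrix) h
  rw [map_mul, map_mul] at h2
  have hV' : IsUnit (f.mapMatrix V).det := (isUnit_iff_isUnit_det _).1 (hV.map _)
  have hU' : IsUnit (f.mapMatrix U).det := (isUnit_iff_isUnit_det _).1 (hU.map _)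
  have h3 : (f.mapMatrix V * f.mapMatrix A * f.mapMatrix U).rank = (A.map f).rank := by
    rw [rank_mul_eq_left_of_isUnit_det _ _ hU', rank_mul_eq_right_of_isUnit_det _ _ hV']
    rfl
  rw [← h3, h2]
  have h4 : f.mapMatrix ((fromBlocks 1 0 0 0 : Matrix _ _ F).submatrix e e) =
      (fromBlocks 1 0 0 0 : Matrix _ _ K).submatrix e e := by
    ext i j
    simp only [RingHom.mapMatrix_apply, map_apply, submatrix_apply]
    rcases e i with a | a <;> rcases e j with b | b <;> simp [one_apply]
  rw [h4, rank_submatrix, rank_blocks]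

theorem trace_sq_le {m : Type*} [Fintype m] [DecidableEq m] (G : Matrix m m ℝ)
    (hG : G.IsHermitian) : G.trace ^ 2 ≤ G.rank * (G * G).trace := by
  have h1 := hG.trace_eq_sum_eigenvalues
  have h2 : (G * G).trace = ∑ i, hG.eigenvalues i ^ 2 := by
    conv_lhs => rw [hG.spectral_theorem, ← map_mul, Unitary.conjStarAlgAut_apply, trace_mul_comm,
      ← mul_assoc]
    simp [sq]
  rw [h1, h2, hG.rank_eq_card_non_zero_eigs, Fintype.card_subtype]
  simp only [RCLike.ofReal_real_eq_id, id]
  set s := Finset.univ.filter (fun i => hG.eigenvalues i ≠ 0)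
  have h3 : ∑ i, hG.eigenvalues i = ∑ i ∈ s, hG.eigenvalues i := by
    rw [Finset.sum_filter_ne_zero]
  have h4 : ∑ i ∈ s, hG.eigenvalues i ^ 2 ≤ ∑ i, hG.eigenvalues i ^ 2 :=
    Finset.sum_le_sum_of_subset_of_nonneg (Finset.subset_univ _) fun i _ _ => sq_nonneg _
  rw [h3]
  refine (sq_sum_le_card_mul_sum_sq).trans ?_
  gcongr

theorem rank_lower {m : Type*} [Fintype m] [DecidableEq m] (T : Matrix m m ℝ) :
    (∑ S, ∑ S', T S' S ^ 2) ^ 2 ≤ T.rank * ∑ S, ∑ U, (∑ S', T S' S * T S' U) *
      (∑ S'', T S'' U * T S'' S) := by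
  have h := trace_sq_le (Tᵀ * T) (by
    have := isHermitian_conjTranspose_mul_self T
    simpa using this)
  rw [rank_transpose_mul_self] at h
  simpa [trace, mul_apply, sq] using h

end Crest.Agent.H9.SP
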