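import Crest.Agent.H9.SPPath

set_option autoImplicit false

namespace Crest.Agent.H9.SP

open Finset MvPolynomial Crest.ArithCircuit

section reindex

variable {K ι L B P S R L' B' P' S' R' : Type*} [CommSemiring K] (C : SPSPS K ι L B P S R)
  (eL : L' ≃ L) (eB : B' ≃ B) (eP : P' ≃ P) (eS : S' ≃ S) (eR : R' ≃ R)

/-- renaming the gates -/
def reindex : SPSPS K ι L' B' P' S' R' where
  leaf l := C.leaf (eL l)
  inB b := (C.inB (eB b)).map eL.symm.toEmbedding
  coefB b l := C.coefB (eB b) (eL l)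
  inP p := (C.inP (eP p)).map eB.symm
  inS s := (C.inS (eS s)).map eP.symm.toEmbedding
  coefS s p := C.coefS (eS s) (eP p)
  inR r := (C.inR (eR r)).map eS.symm
  inOut := C.inOut.map eR.symm.toEmbedding
  coefOut r := C.coefOut (eR r)

theorem re_valB (b : B') : (reindex C eL eB eP eS eR).valB b = C.valB (eB b) := by
  simp [SPSPS.valB, SPSPS.leafVal, reindex]

theorem re_valP (p : P') : (reindex C eL eB eP eS eR).valP p = C.valP (eP p) := by
  unfold SPSPS.valP
  have : (reindex C eL eB eP eS eR).inP p = (C.inP (eP p)).map eB.symm := rfl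
  rw [this, Multiset.map_map]
  congr 2
  ext1 b
  simp [re_valB]

theorem re_valS (s : S') : (reindex C eL eB eP eS eR).valS s = C.valS (eS s) := by
  unfold SPSPS.valS
  simp only [re_valP]
  simp [reindex]

theorem re_valR (r : R') : (reindex C eL eB eP eS eR).valR r = C.valR (eR r) := by
  unfold SPSPS.valR
  have : (reindex C eL eB eP eS eR).inR r = (C.inR (eR r)).map eS.symm := rfl
  rw [this, Multiset.map_map]
  congr 2
  ext1 b
  simp [re_valS]

theorem re_output : (reindex C eL eB eP eS eR).output = C.output := by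
  unfold SPSPS.output
  simp only [re_valR]
  simp [reindex]

omit [CommSemiring K] in
theorem re_leafDeg (l : L') : (reindex C eL eB eP eS eR).leafDeg l = C.leafDeg (eL l) := rfl

omit [CommSemiring K] in
theorem re_degB (b : B') : (reindex C eL eB eP eS eR).degB b = C.degB (eB b) := by
  unfold SPSPS.degB
  have : (reindex C eL eB eP eS eR).inB b = (C.inB (eB b)).map eL.symm.toEmbedding := rfl
  rw [this, sup_map]
  congr 1
  ext1 l
  simp [re_leafDeg]

omit [CommSemiring K] in
theorem re_degP (p : P') : (reindex C eL eB eP eS eR).degP p = C.degP (eP p) := by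
  unfold SPSPS.degP
  have : (reindex C eL eB eP eS eR).inP p = (C.inP (eP p)).map eB.symm := rfl
  rw [this, Multiset.map_map]
  congr 2
  ext1 b
  simp [re_degB]

omit [CommSemiring K] in
theorem re_degS (s : S') : (reindex C eL eB eP eS eR).degS s = C.degS (eS s) := by
  unfold SPSPS.degS
  have : (reindex C eL eB eP eS eR).inS s = (C.inS (eS s)).map eP.symm.toEmbedding := rfl
  rw [this, sup_map]
  congr 1
  ext1 l
  simp [re_degP]

omit [CommSemiring K] in
theorem re_degR (r : R') : (reindex C eL eB eP eS eR).degR r = C.degR (eR r) := by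
  unfold SPSPS.degR
  have : (reindex C eL eB eP eS eR).inR r = (C.inR (eR r)).map eS.symm := rfl
  rw [this, Multiset.map_map]
  congr 2
  ext1 b
  simp [re_degS]

omit [CommSemiring K] in
theorem re_degOut : (reindex C eL eB eP eS eR).degOut = C.degOut := by
  unfold SPSPS.degOut
  have : (reindex C eL eB eP eS eR).inOut = C.inOut.map eR.symm.toEmbedding := rfl
  rw [this, sup_map]
  congr 1
  ext1 l
  simp [re_degR]

omit [CommSemiring K] in
theorem re_hom (h : C.IsHomogeneous) : (reindex C eL eB eP eS eR).IsHomogeneous := by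
  refine ⟨fun b l hl => ?_, fun s p hp => ?_, fun r hr => ?_⟩
  · rw [re_leafDeg, re_degB]
    exact h.1 _ _ (by simpa [reindex] using hl)
  · rw [re_degP, re_degS]
    exact h.2.1 _ _ (by simpa [reindex] using hp)
  · rw [re_degR, re_degOut]
    exact h.2.2 _ (by simpa [reindex] using hr)

end reindex

theorem ofFn_eq_range {α : Type*} (f : ℕ → α) (m : ℕ) :
    List.ofFn (fun i : Fin m => f i) = (List.range m).map f := by
  apply List.ext_getElem <;> simp

theorem prod_blocks {M : Type*} [Monoid M] (f : ℕ → M) (t r : ℕ) :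
    ((List.range r).map fun c => ((List.range t).map fun k => f (c * t + k)).prod).prod =
      ((List.range (r * t)).map f).prod := by
  induction r with
  | zero => simp
  | succ r ih =>
    rw [List.prod_range_succ, ih, add_mul, one_mul, List.range_add, List.map_append,
      List.prod_append, List.map_map]
    rfl

theorem prod_pad {M : Type*} [Monoid M] (f : ℕ → M) {n m : ℕ} (h : n ≤ m)
    (hf : ∀ k, n ≤ k → f k = 1) : ((List.range m).map f).prod = ((List.range n).map f).prod := by
  obtain ⟨e, rfl⟩ := Nat.exists_eq_add_of_le h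
  rw [List.range_add, List.map_append, List.prod_append, List.map_map]
  rw [List.prod_eq_one (l := List.map _ (List.range e)), mul_one]
  intro x hx
  obtain ⟨k, -, rfl⟩ := List.mem_map.1 hx
  exact hf _ (Nat.le_add_right _ _)

variable (K : Type*) [Field K] (n t r : ℕ)

/-- padded variable matrices -/
noncomputable def padM (m : ℕ) : Matrix (Fin (n + 1)) (Fin (n + 1))
    (MvPolynomial (Fin (n + 1) × Fin (n + 1) × Fin (n + 1)) K) :=
  if h : m < n + 1 then varMatrix K (n + 1) ⟨m, h⟩ else 1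

/-- top gates -/
def Top : Type := {u : Fin (r + 2) → Fin (n + 1) // u 0 = 0 ∧ u (Fin.last _) = 0}

noncomputable instance : Fintype (Top n r) := by unfold Top; infer_instance

theorem card_Top : Fintype.card (Top n r) ≤ (n + 1) ^ r := by
  have := Fintype.card_le_of_injective (fun (u : Top n r) (k : Fin r) => u.1 k.succ.castSucc) (by
    intro u v h
    apply Subtype.ext
    funext j
    induction j using Fin.lastCases with
    | last => rw [u.2.2, v.2.2]
    | cast j =>
      induction j using Fin.cases with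
      | zero => rw [Fin.castSucc_zero, u.2.1, v.2.1]
      | succ k => exact congrFun h k)
  simpa using this

/-- the layers of a block -/
def blk (c : ℕ) : Finset (Fin t) := univ.filter fun k => c * t + k < n + 1

/-- the circuit -/
noncomputable def circ : SPSPS K (Fin (n + 1) × Fin (n + 1) × Fin (n + 1))
    (Fin (n + 1) × Fin (n + 1) × Fin (n + 1)) (Fin (n + 1) × Fin (n + 1) × Fin (n + 1))
    (Fin (r + 1) × (Fin (t + 1) → Fin (n + 1))) (Fin (r + 1) × Fin (n + 1) × Fin (n + 1))
    (Top n r) where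
  leaf x := Sum.inl x
  inB b := {b}
  coefB _ _ := 1
  inP p := (blk n t p.1).val.map fun k : Fin t =>
    (Fin.ofNat (n + 1) (p.1 * t + k), p.2 k.castSucc, p.2 k.succ)
  inS s := univ.filter fun p => p.1 = s.1
  coefS s p := if (p.2 0 = s.2.1 ∧ p.2 (Fin.last _) = s.2.2) ∧
    ∀ k ∉ blk n t p.1, p.2 k.castSucc = p.2 k.succ then 1 else 0
  inR u := (univ : Finset (Fin (r + 1))).val.map fun c => (c, u.1 c.castSucc, u.1 c.succ)
  inOut := univ
  coefOut _ := 1

theorem circ_degB (b) : (circ K n t r).degB b = 1 := by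
  simp [SPSPS.degB, SPSPS.leafDeg, circ]

theorem circ_degP (p) : (circ K n t r).degP p = (blk n t p.1).card := by
  unfold SPSPS.degP
  have : (circ K n t r).degB = fun _ => 1 := funext (circ_degB K n t r)
  rw [this]
  simp [circ]

theorem circ_degS (s) : (circ K n t r).degS s = (blk n t s.1).card := by
  unfold SPSPS.degS
  rw [← sup_const (s := (circ K n t r).inS s) ⟨(s.1, fun _ => 0), by simp [circ]⟩
    (blk n t s.1).card]
  refine sup_congr rfl fun p hp => ?_
  rw [circ_degP]
  have : p.1 = s.1 := by simpa [circ] using hp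
  rw [this]

theorem circ_degR (u) : (circ K n t r).degR u = ∑ c : Fin (r + 1), (blk n t c).card := by
  unfold SPSPS.degR
  have : (circ K n t r).inR u =
    (univ : Finset (Fin (r + 1))).val.map fun c => (c, u.1 c.castSucc, u.1 c.succ) := rfl
  rw [this, Multiset.map_map]
  simp only [Function.comp_def, circ_degS]
  rfl

theorem circ_hom : (circ K n t r).IsHomogeneous := by
  refine ⟨fun b l _ => ?_, fun s p hp => ?_, fun u hu => ?_⟩
  · rw [circ_degB]; rfl
  · rw [circ_degP, circ_degS]
    have : p.1 = s.1 := by simpa [circ] using hp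
    rw [this]
  · unfold SPSPS.degOut
    have : (circ K n t r).degR = fun _ => ∑ c : Fin (r + 1), (blk n t c).card :=
      funext (circ_degR K n t r)
    rw [this, sup_const ⟨u, hu⟩]

theorem circ_valP (p) : (circ K n t r).valP p =
    ∏ k ∈ blk n t p.1, X (Fin.ofNat (n + 1) (p.1 * t + k), p.2 k.castSucc, p.2 k.succ) := by
  unfold SPSPS.valP
  have : (circ K n t r).valB = X := by
    funext b; simp [SPSPS.valB, SPSPS.leafVal, circ]
  rw [this]
  simp only [circ, Multiset.map_map]
  rfl

theorem circ_valS (s) : (circ K n t r).valS s =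
    ((List.range t).map fun k => padM K n (s.1 * t + k)).prod s.2.1 s.2.2 := by
  obtain ⟨c, i, j⟩ := s
  rw [← ofFn_eq_range (fun k => padM K n (c * t + k)), prod_ofFn_apply]
  unfold SPSPS.valS
  simp only [circ_valP]
  simp only [circ]
  rw [sum_filter, Fintype.sum_prod_type, sum_eq_single c (by intro b _ hb; simp [hb]) (by simp)]
  refine sum_congr rfl fun w _ => ?_
  rw [if_pos rfl]
  by_cases h1 : w 0 = i ∧ w (Fin.last t) = j
  swap
  · simp [h1]
  rw [if_pos h1, ← prod_filter_mul_prod_filter_not univ (fun k : Fin t => c * t + k < n + 1)]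
  have e1 : ∏ k ∈ univ.filter (fun k : Fin t => c * t + k < n + 1),
      padM K n (c * t + k) (w k.castSucc) (w k.succ) =
      ∏ k ∈ blk n t c, X (Fin.ofNat (n + 1) (c * t + k), w k.castSucc, w k.succ) := by
    refine prod_congr rfl fun k hk => ?_
    have hk' : c * t + k < n + 1 := by simpa [blk] using hk
    rw [padM, dif_pos hk']
    simp only [varMatrix, Matrix.of_apply]
    congr 2
    ext; simp [Nat.mod_eq_of_lt hk']
  rw [e1]
  by_cases h2 : ∀ k ∉ blk n t c, w k.castSucc = w k.succ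
  · rw [if_pos ⟨h1, h2⟩, one_smul, prod_eq_one (s := univ.filter _), mul_one]
    intro k hk
    have hk' : ¬ c * t + k < n + 1 := by simpa using hk
    rw [padM, dif_neg hk', h2 k (by simpa [blk] using hk'), Matrix.one_apply_eq]
  · rw [if_neg (fun h => h2 h.2), zero_smul]
    push Not at h2
    obtain ⟨k, hk, hne⟩ := h2
    have hk' : ¬ c * t + k < n + 1 := by simpa [blk] using hk
    rw [prod_eq_zero (s := univ.filter _) (i := k) (by simpa using hk'), mul_zero]
    rw [padM, dif_neg hk', Matrix.one_apply_ne hne]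

theorem circ_output (h : n + 1 ≤ (r + 1) * t) : (circ K n t r).output = imm K (n + 1) := by
  have e1 : List.ofFn (varMatrix K (n + 1)) = (List.range (n + 1)).map (padM K n) := by
    rw [← ofFn_eq_range]
    congr 1
    funext k
    rw [padM, dif_pos k.2]
  rw [imm, e1, ← prod_pad (padM K n) h (fun k hk => by rw [padM, dif_neg (by omega)]),
    ← prod_blocks, ← ofFn_eq_range, prod_ofFn_apply, ← sum_filter,
    sum_subtype (p := fun u : Fin (r + 2) → Fin (n + 1) => u 0 = 0 ∧ u (Fin.last _) = 0) _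
      (by simp)]
  unfold SPSPS.output
  refine sum_congr rfl fun u _ => ?_
  unfold SPSPS.valR
  have : (circ K n t r).inR u =
    (univ : Finset (Fin (r + 1))).val.map fun c => (c, u.1 c.castSucc, u.1 c.succ) := rfl
  rw [this, Multiset.map_map]
  simp only [Function.comp_def, circ_valS]
  exact one_smul _ _

theorem upper_bound (n : ℕ) (hn : 2 ≤ n) :
    ∃ (l b p s r : ℕ)
      (C : SPSPS K (Fin n × Fin n × Fin n) (Fin l) (Fin b) (Fin p) (Fin s) (Fin r)),
      C.IsHomogeneous ∧ C.output = imm K n ∧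
        C.size ≤ 2 * n ^ 3 + ⌈(n : ℝ) / ⌈Real.sqrt n⌉₊⌉₊ * n ^ 2 +
          ⌈(n : ℝ) / ⌈Real.sqrt n⌉₊⌉₊ * n ^ (⌈Real.sqrt n⌉₊ + 1) +
          n ^ (⌈(n : ℝ) / ⌈Real.sqrt n⌉₊⌉₊ - 1) + 1 ∧
        (C.size : ℝ) ≤ (n : ℝ) ^ (Real.sqrt n + 4) := by
  have hn' : (2:ℝ) ≤ n := by exact_mod_cast hn
  set t := ⌈Real.sqrt n⌉₊ with ht
  have ht1 : Real.sqrt n ≤ t := Nat.le_ceil _
  have ht2 : (t:ℝ) < Real.sqrt n + 1 := Nat.ceil_lt_add_one (Real.sqrt_nonneg _)
  have hsq : Real.sqrt n ^ 2 = n := Real.sq_sqrt (by linarith)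
  have hs1 : 1 < Real.sqrt n := by
    rw [Real.lt_sqrt (by norm_num)]; linarith
  have ht3 : 2 ≤ t := by
    have : (1:ℝ) < t := by linarith
    exact_mod_cast this
  have ht0 : (2:ℝ) ≤ t := by exact_mod_cast ht3
  set ρ := ⌈(n : ℝ) / t⌉₊ with hρ
  have hρ1 : n ≤ ρ * t := by
    have : (n:ℝ) / t ≤ ρ := Nat.le_ceil _
    rw [div_le_iff₀ (by linarith)] at this
    exact_mod_cast this
  have hρ2 : ρ ≤ t := by
    rw [hρ, Nat.ceil_le, div_le_iff₀ (by linarith)]
    nlinarith
  have hρ3 : ρ ≤ n - 1 := by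
    rw [hρ, Nat.ceil_le, div_le_iff₀ (by linarith), Nat.cast_sub (by omega)]
    push_cast
    nlinarith
  obtain ⟨r, hr⟩ : ∃ r, ρ = r + 1 := ⟨ρ - 1, by
    rcases Nat.eq_zero_or_pos ρ with h | h
    · rw [h] at hρ1; omega
    · omega⟩
  clear_value t ρ
  subst hr
  obtain ⟨m, rfl⟩ : ∃ m, n = m + 1 := ⟨n - 1, by omega⟩
  have hsize : (reindex (circ K m t r) (Fintype.equivFin _).symm (Fintype.equivFin _).symm
      (Fintype.equivFin _).symm (Fintype.equivFin _).symm (Fintype.equivFin _).symm).size ≤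
      2 * (m + 1) ^ 3 + (r + 1) * (m + 1) ^ 2 + (r + 1) * (m + 1) ^ (t + 1) +
        (m + 1) ^ (r + 1 - 1) + 1 := by
    have := card_Top m r
    simp only [SPSPS.size, Fintype.card_fin, Fintype.card_prod, Fintype.card_fun,
      Nat.add_sub_cancel]
    nlinarith
  refine ⟨_, _, _, _, _, _, re_hom _ _ _ _ _ _ (circ_hom K m t r), ?_, hsize, ?_⟩
  · rw [re_output, circ_output K m t r hρ1]
  · have h1 : 2 * (m + 1) ^ 3 + (r + 1) * (m + 1) ^ 2 + (r + 1) * (m + 1) ^ (t + 1) +
        (m + 1) ^ (r + 1 - 1) + 1 ≤ (m + 1) ^ (t + 3) := by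
      obtain ⟨s, rfl⟩ : ∃ s, t = s + 2 := ⟨t - 2, by omega⟩
      have a1 : (m + 1) ^ (r + 1 - 1) ≤ (m + 1) ^ (s + 1) :=
        Nat.pow_le_pow_right (by omega) (by omega)
      have a2 : r + 1 ≤ m := by omega
      have a3 : 1 ≤ (m + 1) ^ s := Nat.one_le_pow _ _ (by omega)
      have a4 : (r + 1) * (m + 1) ^ 2 ≤ m * (m + 1) ^ 2 := by gcongr
      have a5 : (r + 1) * (m + 1) ^ (s + 2 + 1) ≤ m * (m + 1) ^ (s + 2 + 1) := by gcongr
      have a6 : 2 * (m + 1) ^ 3 + m * (m + 1) ^ 2 + 1 ≤
          (m + 1) ^ s * (2 * (m + 1) ^ 3 + m * (m + 1) ^ 2 + 1) := Nat.le_mul_of_pos_left _ a3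
      have a7 : (2 * (m + 1) ^ 3 + m * (m + 1) ^ 2 + 1) + m * (m + 1) ^ 3 + (m + 1) ≤
          (m + 1) ^ 5 := by
        obtain ⟨k, rfl⟩ : ∃ k, m = k + 1 := ⟨m - 1, by omega⟩
        nlinarith [Nat.zero_le (k ^ 2), Nat.zero_le (k ^ 3), Nat.zero_le (k ^ 4),
          Nat.zero_le (k ^ 5)]
      have a8 := Nat.mul_le_mul_left ((m + 1) ^ s) a7
      have e1 : (m + 1) ^ (s + 2 + 3) = (m + 1) ^ s * (m + 1) ^ 5 := by ring
      have e2 : (m + 1) ^ (s + 2 + 1) = (m + 1) ^ s * (m + 1) ^ 3 := by ring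
      have e3 : (m + 1) ^ (s + 1) = (m + 1) ^ s * (m + 1) := by ring
      rw [e1]
      rw [e2] at a5 ⊢
      rw [e3] at a1
      nlinarith
    have h2 := hsize.trans h1
    calc _ ≤ (((m + 1) ^ (t + 3) : ℕ) : ℝ) := by exact_mod_cast h2
      _ = ((m + 1 : ℕ) : ℝ) ^ ((t + 3 : ℕ) : ℝ) := by rw [Real.rpow_natCast]; push_cast; rfl
      _ ≤ _ := by
        apply Real.rpow_le_rpow_of_exponent_le (by linarith)
        push_cast at ht2 ⊢
        linarith

end Crest.Agent.H9.SP
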