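import Mathlib

/-!
Typed sensitivity bookkeeping for Boolean predicates on finite cubes, and the
"certificate with killers" operator used to separate block sensitivity from sensitivity.
-/

set_option autoImplicit false
set_option linter.unusedSectionVars false

namespace Crest.Agent.H9.Sens

open Finset

/-- classical filter of `univ` -/
noncomputable def fl {α : Type} [Fintype α] (P : α → Prop) : Finset α :=
  @Finset.filter _ P (Classical.decPred P) univ

@[simp] lemma mem_fl {α : Type} [Fintype α] {P : α → Prop} {a : α} : a ∈ fl P ↔ P a := by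
  simp [fl]

/-- flip one coordinate -/
def flp {ι : Type} [DecidableEq ι] (x : ι → Bool) (i : ι) : ι → Bool :=
  Function.update x i (!x i)

/-- number of neighbours of `x` satisfying `Q` -/
noncomputable def cnt {ι : Type} [Fintype ι] [DecidableEq ι] (Q : (ι → Bool) → Prop)
    (x : ι → Bool) : ℕ :=
  (fl fun i => Q (flp x i)).card

/-- every point satisfying `P` has at most `a` neighbours satisfying `Q` -/
def Tr {ι : Type} [Fintype ι] [DecidableEq ι] (P Q : (ι → Bool) → Prop) (a : ℕ) : Prop :=
  ∀ x, P x → cnt Q x ≤ a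

/-- the `j`-th block of a point of the product cube -/
def blk {J ι : Type} (x : J × ι → Bool) (j : J) : ι → Bool := fun i => x (j, i)

section
variable {J ι : Type} [DecidableEq J] [DecidableEq ι]

lemma blk_flp_same (x : J × ι → Bool) (l : J) (p : ι) :
    blk (flp x (l, p)) l = flp (blk x l) p := by
  funext i
  simp only [blk, flp]
  by_cases h : i = p
  · subst h; simp
  · rw [Function.update_of_ne h, Function.update_of_ne (by simp [h])]; rfl

lemma blk_flp_ne (x : J × ι → Bool) {l k : J} (p : ι) (h : k ≠ l) :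
    blk (flp x (l, p)) k = blk x k := by
  funext i
  simp only [blk, flp]
  rw [Function.update_of_ne (by simp [h])]

end

section
variable {J ι : Type} [Fintype J] [DecidableEq J] [Fintype ι] [DecidableEq ι]

/-- coordinates `(l,p)` with `l ∈ L`, block `l` satisfying `P` and its `p`-neighbour satisfying `Q` -/
noncomputable def ES (x : J × ι → Bool) (L : Finset J) (P Q : (ι → Bool) → Prop) :
    Finset (J × ι) :=
  fl fun z => z.1 ∈ L ∧ P (blk x z.1) ∧ Q (flp (blk x z.1) z.2)

lemma mem_ES {x : J × ι → Bool} {L : Finset J} {P Q : (ι → Bool) → Prop} {l : J} {p : ι} :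
    (l, p) ∈ ES x L P Q ↔ l ∈ L ∧ P (blk x l) ∧ Q (flp (blk x l) p) := by
  simp [ES]

lemma card_ES_le (x : J × ι → Bool) (L : Finset J) {P Q : (ι → Bool) → Prop} {a : ℕ}
    (h : Tr P Q a) : (ES x L P Q).card ≤ L.card * a := by
  classical
  have h1 : (ES x L P Q).card = ∑ l ∈ L, ((ES x L P Q).filter fun z => z.1 = l).card := by
    apply card_eq_sum_card_fiberwise
    intro z hz
    obtain ⟨l, p⟩ := z
    exact (mem_ES.1 hz).1
  rw [h1]
  refine (sum_le_card_nsmul L _ a ?_).trans (by simp)
  intro l _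
  by_cases hP : P (blk x l)
  · refine le_trans ?_ (h _ hP)
    unfold cnt
    apply card_le_card_of_injOn (fun z => z.2)
    · intro z hz
      obtain ⟨l', p⟩ := z
      simp only [coe_filter, Set.mem_ofPred_eq] at hz
      obtain ⟨hz1, rfl⟩ := hz
      exact mem_coe.2 (mem_fl.2 (mem_ES.1 hz1).2.2)
    · intro z hz z' hz' he
      simp only [coe_filter, Set.mem_ofPred_eq] at hz hz'
      exact Prod.ext (hz.2.trans hz'.2.symm) he
  · have : ((ES x L P Q).filter fun z => z.1 = l) = ∅ := by
      apply filter_eq_empty_iff.2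
      intro z hz he
      obtain ⟨l', p⟩ := z
      simp only at he
      subst he
      exact hP (mem_ES.1 hz).2.1
    simp [this]

lemma cnt_le_of_subset (x : J × ι → Bool) (Q : (J × ι → Bool) → Prop) (E : Finset (J × ι))
    (h : ∀ l p, Q (flp x (l, p)) → (l, p) ∈ E) : cnt Q x ≤ E.card := by
  classical
  unfold cnt
  apply card_le_card
  intro z hz
  obtain ⟨l, p⟩ := z
  rw [mem_fl] at hz
  exact h l p hz

end

section op
variable {J ι C : Type}

/-- The certificate operator: some certificate `c` has its support block in state `F` and none of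
its killers in state `H`. -/
def Top (pos : C → J) (In : C → Finset J) (F H : (ι → Bool) → Prop) (x : J × ι → Bool) : Prop :=
  ∃ c, F (blk x (pos c)) ∧ ∀ k ∈ In c, ¬ H (blk x k)

variable [Fintype J] [DecidableEq J] [Fintype ι] [DecidableEq ι]

lemma Top_one (pos : C → J) (In : C → Finset J) (F H : (ι → Bool) → Prop) {a b r : ℕ}
    (hF : Tr F (fun y => ¬ F y) a) (hH : Tr (fun y => ¬ H y) H b)
    (hr : ∀ c, (In c).card ≤ r) :
    Tr (Top pos In F H) (fun y => ¬ Top pos In F H y) (a + r * b) := by
  classical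
  rintro x ⟨c, hc1, hc2⟩
  refine (cnt_le_of_subset x _
    (ES x {pos c} F (fun y => ¬ F y) ∪ ES x (In c) (fun y => ¬ H y) H) ?_).trans ?_
  · intro l p hn
    rw [mem_union, mem_ES, mem_ES]
    by_contra hcon
    rw [not_or] at hcon
    apply hn
    refine ⟨c, ?_, ?_⟩
    · by_cases h : pos c = l
      · subst h
        rw [blk_flp_same]
        by_contra h'
        exact hcon.1 ⟨by simp, hc1, h'⟩
      · rw [blk_flp_ne _ _ h]; exact hc1
    · intro k hk
      by_cases h : k = l
      · subst h
        rw [blk_flp_same]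
        intro h'
        exact hcon.2 ⟨hk, hc2 k hk, h'⟩
      · rw [blk_flp_ne _ _ h]; exact hc2 k hk
  · refine (card_union_le _ _).trans (add_le_add ?_ ?_)
    · simpa using card_ES_le x {pos c} hF
    · exact (card_ES_le x (In c) hH).trans (Nat.mul_le_mul_right _ (hr c))

lemma Top_zero [Fintype C] (pos : C → J) (In : C → Finset J) (F H : (ι → Bool) → Prop)
    {a b u v d e : ℕ}
    (hpos : ∀ c, pos c ∉ In c) (hFH : ∀ y, F y → H y)
    (hF : Tr (fun y => ¬ F y) F a) (hH : Tr H (fun y => ¬ H y) b)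
    (hup : Tr (fun y => ¬ H y) F u) (hdn : Tr F (fun y => ¬ H y) v)
    (hd : ∀ S : J → Prop, (fl fun c => S (pos c) ∧ ∀ k ∈ In c, ¬ S k).card ≤ d)
    (he : ∀ S : J → Prop,
      (fl fun c => S (pos c) ∧ ∀ k ∈ In c, ∀ k' ∈ In c, S k → S k' → k = k').card ≤ e) :
    Tr (fun y => ¬ Top pos In F H y) (Top pos In F H)
      (d * a + Fintype.card J * u + d * b + e * v) := by
  classical
  intro x hx
  -- the four kinds of blocks
  set LA : Finset J := (fl fun c => H (blk x (pos c)) ∧ ∀ k ∈ In c, ¬ H (blk x k)).image pos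
    with hLA
  set LB1 : Finset J := fl fun l => ∃ c, (F (blk x (pos c)) ∧ ∀ k ∈ In c, ¬ F (blk x k)) ∧
    l ∈ In c ∧ H (blk x l) ∧ ∀ k ∈ In c, k ≠ l → ¬ H (blk x k) with hLB1
  set LB2 : Finset J := fl fun l => ∃ c, (F (blk x (pos c)) ∧
      ∀ k ∈ In c, ∀ k' ∈ In c, F (blk x k) → F (blk x k') → k = k') ∧
    l ∈ In c ∧ H (blk x l) ∧ ∀ k ∈ In c, k ≠ l → ¬ H (blk x k) with hLB2
  have cA : LA.card ≤ d := card_image_le.trans (hd fun j => H (blk x j))
  have key : ∀ (W : C → Prop) (n : ℕ), (fl W).card ≤ n →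
      (fl fun l => ∃ c, W c ∧ l ∈ In c ∧ H (blk x l) ∧
        ∀ k ∈ In c, k ≠ l → ¬ H (blk x k)).card ≤ n := by
    intro W n hW
    refine le_trans ?_ hW
    have hex : ∀ l ∈ (fl fun l => ∃ c, W c ∧ l ∈ In c ∧ H (blk x l) ∧
        ∀ k ∈ In c, k ≠ l → ¬ H (blk x k)), ∃ c, W c ∧ l ∈ In c ∧ H (blk x l) ∧
        ∀ k ∈ In c, k ≠ l → ¬ H (blk x k) := by
      intro l hl
      rwa [mem_fl] at hl
    choose g hg using hex
    refine card_le_card_of_forall_subsingleton (fun l c => W c ∧ l ∈ In c ∧ H (blk x l) ∧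
        ∀ k ∈ In c, k ≠ l → ¬ H (blk x k)) ?_ ?_
    · intro l hl
      exact ⟨g l hl, mem_fl.2 (hg l hl).1, hg l hl⟩
    · intro c _ l hl l' hl'
      simp only [Set.mem_ofPred_eq] at hl hl'
      by_contra hne
      exact hl'.2.2.2.2 l hl.2.2.1 hne hl.2.2.2.1
  have cB1 : LB1.card ≤ d := key _ d (hd fun j => F (blk x j))
  have cB2 : LB2.card ≤ e := key _ e (he fun j => F (blk x j))
  refine (cnt_le_of_subset x _
    (ES x LA (fun y => ¬ F y) F ∪ ES x univ (fun y => ¬ H y) F ∪ ES x LB1 H (fun y => ¬ H y) ∪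
      ES x LB2 F (fun y => ¬ H y)) ?_).trans ?_
  · rintro l p ⟨c, hc1, hc2⟩
    simp only [mem_union, mem_ES]
    by_cases hl : pos c = l
    · subst hl
      rw [blk_flp_same] at hc1
      have hc3 : ∀ k ∈ In c, ¬ H (blk x k) := by
        intro k hk
        have hne : k ≠ pos c := fun h => hpos c (h ▸ hk)
        have := hc2 k hk
        rwa [blk_flp_ne _ _ hne] at this
      have hnF : ¬ F (blk x (pos c)) := fun h => hx ⟨c, h, hc3⟩
      by_cases hHc : H (blk x (pos c))
      · left; left; left
        refine ⟨?_, hnF, hc1⟩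
        exact mem_image.2 ⟨c, mem_fl.2 ⟨hHc, hc3⟩, rfl⟩
      · left; left; right
        exact ⟨mem_univ _, hHc, hc1⟩
    · rw [blk_flp_ne _ _ hl] at hc1
      have hc3 : ∀ k ∈ In c, k ≠ l → ¬ H (blk x k) := by
        intro k hk hne
        have := hc2 k hk
        rwa [blk_flp_ne _ _ hne] at this
      have hl2 : l ∈ In c ∧ H (blk x l) := by
        by_contra hcon
        apply hx
        refine ⟨c, hc1, fun k hk => ?_⟩
        by_cases hkl : k = l
        · subst hkl
          exact fun h => hcon ⟨hk, h⟩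
        · exact hc3 k hk hkl
      have hnH : ¬ H (flp (blk x l) p) := by
        have := hc2 l hl2.1
        rwa [blk_flp_same] at this
      by_cases hFl : F (blk x l)
      · right
        refine ⟨mem_fl.2 ⟨c, ⟨hc1, ?_⟩, hl2.1, hl2.2, hc3⟩, hFl, hnH⟩
        intro k hk k' hk' h1 h2
        have e1 : k = l := by
          by_contra hne
          exact hc3 k hk hne (hFH _ h1)
        have e2 : k' = l := by
          by_contra hne
          exact hc3 k' hk' hne (hFH _ h2)
        rw [e1, e2]
      · left; right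
        refine ⟨mem_fl.2 ⟨c, ⟨hc1, ?_⟩, hl2.1, hl2.2, hc3⟩, hl2.2, hnH⟩
        intro k hk h1
        by_cases hkl : k = l
        · subst hkl; exact hFl h1
        · exact hc3 k hk hkl (hFH _ h1)
  · refine (card_union_le _ _).trans (add_le_add ((card_union_le _ _).trans (add_le_add
      ((card_union_le _ _).trans (add_le_add ?_ ?_)) ?_)) ?_)
    · exact (card_ES_le x LA hF).trans (Nat.mul_le_mul_right _ cA)
    · simpa using card_ES_le x univ hup
    · exact (card_ES_le x LB1 hH).trans (Nat.mul_le_mul_right _ cB1)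
    · exact (card_ES_le x LB2 hdn).trans (Nat.mul_le_mul_right _ cB2)

end op

end Crest.Agent.H9.Sens
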