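import Mathlib
import Crest.Agent.H9.SensBasic

/-!
The three-level gadget: pairs, the pentagon blow-up, and the outer tournament.
-/

set_option autoImplicit false
set_option linter.unusedSectionVars false

namespace Crest.Agent.H9.Sens

open Finset

/-- `β` pairwise disjoint supports on each of which `G` holds -/
def Blocks {ι : Type} (G : (ι → Bool) → Prop) (β : ℕ) : Prop :=
  ∃ (κ : Type) (_ : Fintype κ), Fintype.card κ = β ∧ ∃ y : κ → ι → Bool,
    (∀ t t', t ≠ t' → ∀ i, y t i = true → y t' i = true → False) ∧ ∀ t, G (y t)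

section pair
variable {ι : Type} [Fintype ι] [DecidableEq ι]

/-- both halves on -/
def full (G : (ι → Bool) → Prop) (x : Bool × ι → Bool) : Prop := G (blk x false) ∧ G (blk x true)
/-- some half on -/
def touch (G : (ι → Bool) → Prop) (x : Bool × ι → Bool) : Prop := G (blk x false) ∨ G (blk x true)

variable {G : (ι → Bool) → Prop} {s t : ℕ}

lemma full_touch (y : Bool × ι → Bool) (h : full G y) : touch G y := Or.inl h.1

lemma full_up (h0 : Tr (fun y => ¬ G y) G s) : Tr (fun y => ¬ full G y) (full G) s := by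
  intro x hx
  by_cases h : G (blk x false)
  · have h' : ¬ G (blk x true) := fun h' => hx ⟨h, h'⟩
    refine (cnt_le_of_subset x _ (ES x {true} (fun y => ¬ G y) G) ?_).trans
      (by simpa using card_ES_le x {true} h0)
    intro l p hf
    cases l
    · have := hf.2
      rw [blk_flp_ne _ _ (by decide)] at this
      exact absurd this h'
    · have := hf.2
      rw [blk_flp_same] at this
      exact mem_ES.2 ⟨by simp, h', this⟩
  · refine (cnt_le_of_subset x _ (ES x {false} (fun y => ¬ G y) G) ?_).trans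
      (by simpa using card_ES_le x {false} h0)
    intro l p hf
    cases l
    · have := hf.1
      rw [blk_flp_same] at this
      exact mem_ES.2 ⟨by simp, h, this⟩
    · have := hf.1
      rw [blk_flp_ne _ _ (by decide)] at this
      exact absurd this h

lemma full_dn (h1 : Tr G (fun y => ¬ G y) t) : Tr (full G) (fun y => ¬ full G y) (2 * t) := by
  intro x hx
  refine (cnt_le_of_subset x _ (ES x univ G (fun y => ¬ G y)) ?_).trans
      (by simpa using card_ES_le x univ h1)
  intro l p hf
  cases l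
  · refine mem_ES.2 ⟨by simp, hx.1, fun h => hf ⟨?_, ?_⟩⟩
    · rwa [blk_flp_same]
    · rw [blk_flp_ne _ _ (by decide)]; exact hx.2
  · refine mem_ES.2 ⟨by simp, hx.2, fun h => hf ⟨?_, ?_⟩⟩
    · rw [blk_flp_ne _ _ (by decide)]; exact hx.1
    · rwa [blk_flp_same]

lemma touch_up (h0 : Tr (fun y => ¬ G y) G s) :
    Tr (fun y => ¬ touch G y) (touch G) (2 * s) := by
  intro x hx
  have hx1 : ¬ G (blk x false) := fun h => hx (Or.inl h)
  have hx2 : ¬ G (blk x true) := fun h => hx (Or.inr h)
  refine (cnt_le_of_subset x _ (ES x univ (fun y => ¬ G y) G) ?_).trans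
      (by simpa using card_ES_le x univ h0)
  intro l p hf
  cases l
  · rcases hf with hf | hf
    · rw [blk_flp_same] at hf
      exact mem_ES.2 ⟨by simp, hx1, hf⟩
    · rw [blk_flp_ne _ _ (by decide)] at hf
      exact absurd hf hx2
  · rcases hf with hf | hf
    · rw [blk_flp_ne _ _ (by decide)] at hf
      exact absurd hf hx1
    · rw [blk_flp_same] at hf
      exact mem_ES.2 ⟨by simp, hx2, hf⟩

lemma touch_dn (h1 : Tr G (fun y => ¬ G y) t) : Tr (touch G) (fun y => ¬ touch G y) t := by
  intro x hx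
  rcases hx with h | h
  · refine (cnt_le_of_subset x _ (ES x {false} G (fun y => ¬ G y)) ?_).trans
      (by simpa using card_ES_le x {false} h1)
    intro l p hf
    cases l
    · refine mem_ES.2 ⟨by simp, h, fun h' => hf (Or.inl ?_)⟩
      rwa [blk_flp_same]
    · exact absurd (Or.inl (by rw [blk_flp_ne _ _ (by decide)]; exact h)) hf
  · refine (cnt_le_of_subset x _ (ES x {true} G (fun y => ¬ G y)) ?_).trans
      (by simpa using card_ES_le x {true} h1)
    intro l p hf
    cases l
    · exact absurd (Or.inr (by rw [blk_flp_ne _ _ (by decide)]; exact h)) hf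
    · refine mem_ES.2 ⟨by simp, h, fun h' => hf (Or.inr ?_)⟩
      rwa [blk_flp_same]

lemma nodirect_up : Tr (fun y => ¬ touch G y) (full G) 0 := by
  intro x hx
  refine (cnt_le_of_subset x _ ∅ ?_).trans (by simp)
  intro l p hf
  exfalso
  cases l
  · have := hf.2
    rw [blk_flp_ne _ _ (by decide)] at this
    exact hx (Or.inr this)
  · have := hf.1
    rw [blk_flp_ne _ _ (by decide)] at this
    exact hx (Or.inl this)

lemma nodirect_dn : Tr (full G) (fun y => ¬ touch G y) 0 := by
  intro x hx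
  refine (cnt_le_of_subset x _ ∅ ?_).trans (by simp)
  intro l p hf
  exfalso
  cases l
  · exact hf (Or.inr (by rw [blk_flp_ne _ _ (by decide)]; exact hx.2))
  · exact hf (Or.inl (by rw [blk_flp_ne _ _ (by decide)]; exact hx.1))

lemma full_blocks {β : ℕ} (h : Blocks G β) : Blocks (full G) β := by
  obtain ⟨κ, hκ, hc, y, hy1, hy2⟩ := h
  refine ⟨κ, hκ, hc, fun t z => y t z.2, fun t t' hne i => hy1 t t' hne i.2, fun t => ?_⟩
  exact ⟨hy2 t, hy2 t⟩

lemma not_touch_zero (h : ¬ G fun _ => false) : ¬ touch G fun _ => false := by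
  rintro (h' | h') <;> exact h h'

end pair

section opblocks
variable {J ι C : Type}

lemma Top_not_zero (pos : C → J) (In : C → Finset J) {F H : (ι → Bool) → Prop}
    (h : ¬ F fun _ => false) : ¬ Top pos In F H fun _ => false := by
  rintro ⟨c, hc, -⟩
  exact h hc

lemma Top_blocks [Fintype J] [DecidableEq J] (In : J → Finset J) (hIn : ∀ j, j ∉ In j)
    {F H : (ι → Bool) → Prop} {β : ℕ} (hF : Blocks F β) (hH : ¬ H fun _ => false) :
    Blocks (Top id In F H) (Fintype.card J * β) := by
  obtain ⟨κ, hκ, hc, y, hy1, hy2⟩ := hF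
  refine ⟨J × κ, inferInstance, by simp [hc],
    fun t z => if z.1 = t.1 then y t.2 z.2 else false, ?_, ?_⟩
  · rintro ⟨j, t⟩ ⟨j', t'⟩ hne ⟨l, i⟩ h1 h2
    simp only at h1 h2
    by_cases e1 : l = j
    · by_cases e2 : l = j'
      · rw [if_pos e1] at h1
        rw [if_pos e2] at h2
        refine hy1 t t' ?_ i h1 h2
        intro e3
        apply hne
        rw [← e1, ← e2, e3]
      · rw [if_neg e2] at h2; simp at h2
    · rw [if_neg e1] at h1; simp at h1
  · rintro ⟨j, t⟩
    refine ⟨j, ?_, fun k hk => ?_⟩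
    · have : blk (fun z : J × ι => if z.1 = j then y t z.2 else false) (id j) = y t := by
        funext i; simp [blk]
      simp only
      rw [this]; exact hy2 t
    · have hne : k ≠ j := fun h => hIn j (h ▸ hk)
      have : blk (fun z : J × ι => if z.1 = j then y t z.2 else false) k = fun _ => false := by
        funext i; simp [blk, hne]
      simp only
      rw [this]; exact hH

end opblocks

section inner
variable {J ι : Type} [Fintype J] [DecidableEq J] [Fintype ι] [DecidableEq ι]

/-- the inner "exactly one block" predicate -/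
def innF (P Q : (ι → Bool) → Prop) : (J × ι → Bool) → Prop :=
  Top id (fun j : J => univ.erase j) P Q

/-- the inner two-certificate predicate -/
def innH (In : J × Bool → Finset J) (P Q : (ι → Bool) → Prop) : (J × ι → Bool) → Prop :=
  Top Prod.fst In P Q

variable {In : J × Bool → Finset J} {P Q : (ι → Bool) → Prop}

lemma innF_innH (hpos : ∀ c : J × Bool, c.1 ∉ In c) (y : J × ι → Bool) (h : innF P Q y) :
    innH In P Q y := by
  obtain ⟨j, h1, h2⟩ := h
  refine ⟨(j, false), h1, fun k hk => h2 k ?_⟩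
  exact mem_erase.2 ⟨fun e => hpos (j, false) (e ▸ hk), mem_univ _⟩

lemma cnt_zero_imp {x : ι → Bool} {R : (ι → Bool) → Prop} (h : cnt R x ≤ 0) (p : ι) :
    ¬ R (flp x p) := by
  intro hR
  have : p ∈ fl fun i => R (flp x i) := by rw [mem_fl]; exact hR
  have h2 := card_pos.2 ⟨p, this⟩
  unfold cnt at h
  omega

lemma inn_direct_up (hpos : ∀ c : J × Bool, c.1 ∉ In c)
    (hdisj : ∀ j l, l ∈ In (j, false) → l ∈ In (j, true) → False)
    (hnd : Tr (fun y => ¬ Q y) P 0) {a : ℕ} (hP : Tr (fun y => ¬ P y) P a) :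
    Tr (fun y => ¬ innH In P Q y) (innF P Q) a := by
  intro x hx
  set L : Finset J := fl fun j => Q (blk x j) ∧ ∀ k, k ≠ j → ¬ Q (blk x k) with hL
  have cL : L.card ≤ 1 := by
    rw [card_le_one]
    intro j hj k hk
    rw [hL, mem_fl] at hj hk
    by_contra hne
    exact hk.2 j hne hj.1
  refine (cnt_le_of_subset x _ (ES x L (fun y => ¬ P y) P) ?_).trans
    ((card_ES_le x L hP).trans (by nlinarith))
  rintro l p ⟨j, h1, h2⟩
  simp only [id] at h1
  have h3 : ∀ k, k ≠ j → k ≠ l → ¬ Q (blk x k) := by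
    intro k hk hkl
    have := h2 k (mem_erase.2 ⟨hk, mem_univ _⟩)
    rwa [blk_flp_ne _ _ hkl] at this
  by_cases hjl : j = l
  · subst hjl
    rw [blk_flp_same] at h1
    have hnP : ¬ P (blk x j) := by
      intro hPj
      apply hx
      refine ⟨(j, false), hPj, fun k hk => ?_⟩
      have hne : k ≠ j := fun e => hpos (j, false) (e ▸ hk)
      exact h3 k hne hne
    have hQ : Q (blk x j) := by
      by_contra hQ
      exact cnt_zero_imp (hnd _ hQ) p h1
    refine mem_ES.2 ⟨?_, hnP, h1⟩
    rw [hL, mem_fl]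
    exact ⟨hQ, fun k hk => h3 k hk hk⟩
  · exfalso
    rw [blk_flp_ne _ _ hjl] at h1
    apply hx
    by_cases hl : l ∈ In (j, false)
    · refine ⟨(j, true), h1, fun k hk => h3 k (fun e => hpos (j, true) (e ▸ hk)) ?_⟩
      rintro rfl
      exact hdisj j k hl hk
    · refine ⟨(j, false), h1, fun k hk => h3 k (fun e => hpos (j, false) (e ▸ hk)) ?_⟩
      rintro rfl
      exact hl hk

lemma inn_direct_dn (hpos : ∀ c : J × Bool, c.1 ∉ In c)
    (hdisj : ∀ j l, l ∈ In (j, false) → l ∈ In (j, true) → False)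
    {b : ℕ} (hP : Tr P (fun y => ¬ P y) b) :
    Tr (innF P Q) (fun y => ¬ innH In P Q y) b := by
  rintro x ⟨j, h1, h2⟩
  simp only [id] at h1
  have h3 : ∀ k, k ≠ j → ¬ Q (blk x k) := fun k hk => h2 k (mem_erase.2 ⟨hk, mem_univ _⟩)
  refine (cnt_le_of_subset x _ (ES x {j} P (fun y => ¬ P y)) ?_).trans
    (by simpa using card_ES_le x {j} hP)
  intro l p hn
  by_cases hjl : j = l
  · subst hjl
    refine mem_ES.2 ⟨by simp, h1, fun hPj => hn ⟨(j, false), ?_, fun k hk => ?_⟩⟩
    · simp only; rwa [blk_flp_same]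
    · have hne : k ≠ j := fun e => hpos (j, false) (e ▸ hk)
      rw [blk_flp_ne _ _ hne]
      exact h3 k hne
  · exfalso
    apply hn
    by_cases hl : l ∈ In (j, false)
    · refine ⟨(j, true), by simp only; rw [blk_flp_ne _ _ hjl]; exact h1, fun k hk => ?_⟩
      have hne : k ≠ l := by
        rintro rfl
        exact hdisj j k hl hk
      rw [blk_flp_ne _ _ hne]
      exact h3 k fun e => hpos (j, true) (e ▸ hk)
    · refine ⟨(j, false), by simp only; rw [blk_flp_ne _ _ hjl]; exact h1, fun k hk => ?_⟩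
      have hne : k ≠ l := by
        rintro rfl
        exact hl hk
      rw [blk_flp_ne _ _ hne]
      exact h3 k fun e => hpos (j, false) (e ▸ hk)

end inner

section tour

/-- circular tournament: `a` beats `b` -/
def beats (ρ : ℕ) (a b : ZMod (2 * ρ + 1)) : Prop := 1 ≤ (b - a).val ∧ (b - a).val ≤ ρ

lemma beats_irrefl (ρ : ℕ) (a : ZMod (2 * ρ + 1)) : ¬ beats ρ a a := by
  simp [beats]

lemma val_add_val_neg (ρ : ℕ) {a b : ZMod (2 * ρ + 1)} (h : a ≠ b) :
    (b - a).val + (a - b).val = 2 * ρ + 1 := by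
  have h1 : a - b = -(b - a) := by ring
  have h2 : b - a ≠ 0 := sub_ne_zero.2 h.symm
  rw [h1, ZMod.neg_val, if_neg h2]
  have := ZMod.val_lt (b - a)
  omega

lemma beats_asymm (ρ : ℕ) (a b : ZMod (2 * ρ + 1)) (h1 : beats ρ a b) (h2 : beats ρ b a) :
    False := by
  have hne : a ≠ b := by
    rintro rfl
    exact beats_irrefl ρ a h1
  have := val_add_val_neg ρ hne
  unfold beats at h1 h2
  omega

lemma beats_total (ρ : ℕ) {a b : ZMod (2 * ρ + 1)} (h : a ≠ b) : beats ρ a b ∨ beats ρ b a := by
  have := val_add_val_neg ρ h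
  have h1 : (b - a).val ≠ 0 := by
    rw [Ne, ZMod.val_eq_zero]; exact sub_ne_zero.2 h.symm
  have h2 : (a - b).val ≠ 0 := by
    rw [Ne, ZMod.val_eq_zero]; exact sub_ne_zero.2 h
  unfold beats
  omega

lemma card_beats_in (ρ : ℕ) (b : ZMod (2 * ρ + 1)) : (fl fun a => beats ρ a b).card ≤ ρ := by
  have : (fl fun a => beats ρ a b).card ≤ (Icc 1 ρ).card := by
    apply card_le_card_of_injOn (fun a => (b - a).val)
    · intro a ha
      rw [mem_coe, mem_fl] at ha
      simpa [beats] using ha
    · intro a _ a' _ h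
      have := ZMod.val_injective _ h
      exact sub_right_injective this
  simpa using this

lemma card_beats_out (ρ : ℕ) (a : ZMod (2 * ρ + 1)) : (fl fun b => beats ρ a b).card ≤ ρ := by
  have : (fl fun b => beats ρ a b).card ≤ (Icc 1 ρ).card := by
    apply card_le_card_of_injOn (fun b => (b - a).val)
    · intro b hb
      rw [mem_coe, mem_fl] at hb
      simpa [beats] using hb
    · intro b _ b' _ h
      have := ZMod.val_injective _ h
      exact sub_left_injective this
  simpa using this

lemma tour_src {J : Type} [Fintype J] (In : J → Finset J)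
    (htot : ∀ j k, j ≠ k → j ∈ In k ∨ k ∈ In j) (S : J → Prop) :
    (fl fun c => S (id c) ∧ ∀ k ∈ In c, ¬ S k).card ≤ 1 := by
  rw [card_le_one]
  intro j hj k hk
  rw [mem_fl] at hj hk
  by_contra hne
  rcases htot j k hne with h | h
  · exact hk.2 j h hj.1
  · exact hj.2 k h hk.1

lemma tour_nsrc {J : Type} [Fintype J] [DecidableEq J] (In : J → Finset J)
    (htot : ∀ j k, j ≠ k → j ∈ In k ∨ k ∈ In j) (S : J → Prop) :
    (fl fun c => S (id c) ∧ ∀ k ∈ In c, ∀ k' ∈ In c, S k → S k' → k = k').card ≤ 3 := by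
  by_contra hcon
  have h4 : 3 < (fl fun c => S (id c) ∧ ∀ k ∈ In c, ∀ k' ∈ In c, S k → S k' → k = k').card := by
    omega
  obtain ⟨a, ha, b, hb, c, hc, d, hd, hab, hac, had, hbc, hbd, hcd⟩ := three_lt_card.1 h4
  rw [mem_fl] at ha hb hc hd
  simp only [id] at ha hb hc hd
  have A := ha.2
  have B := hb.2
  have C := hc.2
  have D := hd.2
  have sa := ha.1
  have sb := hb.1
  have sc := hc.1
  have sd := hd.1
  rcases htot a b hab with h1 | h1 <;> rcases htot a c hac with h2 | h2 <;>
    rcases htot a d had with h3 | h3 <;> rcases htot b c hbc with h4 | h4 <;>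
    rcases htot b d hbd with h5 | h5 <;> rcases htot c d hcd with h6 | h6 <;>
    first
      | exact hbc (A b ‹_› c ‹_› sb sc)
      | exact hbd (A b ‹_› d ‹_› sb sd)
      | exact hcd (A c ‹_› d ‹_› sc sd)
      | exact hac (B a ‹_› c ‹_› sa sc)
      | exact had (B a ‹_› d ‹_› sa sd)
      | exact hcd (B c ‹_› d ‹_› sc sd)
      | exact hab (C a ‹_› b ‹_› sa sb)
      | exact had (C a ‹_› d ‹_› sa sd)
      | exact hbd (C b ‹_› d ‹_› sb sd)
      | exact hab (D a ‹_› b ‹_› sa sb)
      | exact hac (D a ‹_› c ‹_› sa sc)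
      | exact hbc (D b ‹_› c ‹_› sb sc)

end tour

end Crest.Agent.H9.Sens
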