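import Mathlib
import Crest.Agent.H9.SensStep

/-!
The pentagon blow-up and the recursion.
-/

set_option autoImplicit false
set_option linter.unusedSectionVars false

namespace Crest.Agent.H9.Sens

open Finset

section pent
variable (c ρ : ℕ)

/-- inner index set -/
abbrev PJ := Fin c × ZMod 5 × ZMod (2 * ρ + 1)

/-- the shift of the pentagon used by certificate type `s` -/
def sh (s : Bool) : ZMod 5 := if s then 2 else 1

/-- orientation inside a part -/
def ori (s : Bool) (a' a : ZMod (2 * ρ + 1)) : Prop := if s then beats ρ a a' else beats ρ a' a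

/-- killers of the certificate `(j, s)` -/
noncomputable def PIn (z : PJ c ρ × Bool) : Finset (PJ c ρ) :=
  fl fun k => k.1 = z.1.1 ∧ ((k.2.1 = z.1.2.1 ∧ ori ρ z.2 k.2.2 z.1.2.2) ∨ k.2.1 = z.1.2.1 - sh z.2)

lemma sh_ne (s : Bool) (i : ZMod 5) : i ≠ i - sh s := by
  revert s i; decide

lemma PIn_pos (z : PJ c ρ × Bool) : z.1 ∉ PIn c ρ z := by
  rw [PIn, mem_fl]
  rintro ⟨-, ⟨-, h⟩ | h⟩
  · unfold ori at h
    split_ifs at h <;> exact beats_irrefl ρ _ h
  · exact sh_ne _ _ h

lemma PIn_disj (j l : PJ c ρ) (h1 : l ∈ PIn c ρ (j, false)) (h2 : l ∈ PIn c ρ (j, true)) :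
    False := by
  rw [PIn, mem_fl] at h1 h2
  simp only [ori, sh, Bool.false_eq_true, if_false, if_true] at h1 h2
  obtain ⟨-, h1⟩ := h1
  obtain ⟨-, h2⟩ := h2
  have key : ∀ i : ZMod 5, i ≠ i - 1 ∧ i ≠ i - 2 ∧ i - 1 ≠ i - 2 := by decide
  rcases h1 with ⟨e1, h1⟩ | e1 <;> rcases h2 with ⟨e2, h2⟩ | e2
  · exact beats_asymm ρ _ _ h1 h2
  · exact (key j.2.1).2.1 (e1.symm.trans e2)
  · exact (key j.2.1).1 (e2.symm.trans e1)
  · exact (key j.2.1).2.2 (e1.symm.trans e2)

lemma ori_card (s : Bool) (a : ZMod (2 * ρ + 1)) : (fl fun a' => ori ρ s a' a).card ≤ ρ := by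
  cases s
  · simpa [ori] using card_beats_in ρ a
  · simpa [ori] using card_beats_out ρ a

lemma ori_total (s : Bool) {a a' : ZMod (2 * ρ + 1)} (h : a ≠ a') : ori ρ s a a' ∨ ori ρ s a' a := by
  cases s
  · simpa [ori] using beats_total ρ h
  · simpa [ori] using (beats_total ρ h).symm

lemma PIn_card (z : PJ c ρ × Bool) : (PIn c ρ z).card ≤ 3 * ρ + 1 := by
  classical
  have hsub : PIn c ρ z ⊆ (fl fun a' => ori ρ z.2 a' z.1.2.2).image (fun a' => (z.1.1, z.1.2.1, a')) ∪
      (univ : Finset (ZMod (2 * ρ + 1))).image (fun a' => (z.1.1, z.1.2.1 - sh z.2, a')) := by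
    rintro ⟨q, i, a⟩ hk
    rw [PIn, mem_fl] at hk
    simp only at hk
    obtain ⟨rfl, ⟨rfl, h⟩ | rfl⟩ := hk
    · exact mem_union_left _ (mem_image.2 ⟨a, by rw [mem_fl]; exact h, rfl⟩)
    · exact mem_union_right _ (mem_image.2 ⟨a, mem_univ _, rfl⟩)
  refine (card_le_card hsub).trans ((card_union_le _ _).trans ?_)
  have h1 := (card_image_le (s := fl fun a' => ori ρ z.2 a' z.1.2.2)
    (f := fun a' => (z.1.1, z.1.2.1, a'))).trans (ori_card ρ z.2 z.1.2.2)
  have h2 := card_image_le (s := (univ : Finset (ZMod (2 * ρ + 1))))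
    (f := fun a' => (z.1.1, z.1.2.1 - sh z.2, a'))
  rw [card_univ, ZMod.card] at h2
  omega

lemma pent_count (O : ZMod 5 → Bool) :
    (univ.filter fun w : ZMod 5 × Bool => O w.1 = true ∧ O (w.1 - sh w.2) = false).card ≤ 3 := by
  revert O; decide

lemma PIn_src (S : PJ c ρ → Prop) :
    (fl fun z : PJ c ρ × Bool => S z.1 ∧ ∀ k ∈ PIn c ρ z, ¬ S k).card ≤ 3 * c := by
  classical
  set O : Fin c → ZMod 5 → Bool := fun q i => decide (∃ a, S (q, i, a)) with hO
  set T : Finset (Fin c × (ZMod 5 × Bool)) :=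
    univ.filter fun w => O w.1 w.2.1 = true ∧ O w.1 (w.2.1 - sh w.2.2) = false with hT
  have hTc : T.card ≤ 3 * c := by
    have h1 : T.card = ∑ q ∈ (univ : Finset (Fin c)), (T.filter fun w => w.1 = q).card :=
      card_eq_sum_card_fiberwise (fun _ _ => mem_coe.2 (mem_univ _))
    rw [h1]
    refine (sum_le_card_nsmul _ _ 3 ?_).trans (by simp [mul_comm])
    intro q _
    refine le_trans ?_ (pent_count (O q))
    apply card_le_card_of_injOn (fun w => w.2)
    · rintro ⟨q', w⟩ hw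
      simp only [hT, coe_filter, mem_filter, mem_univ, true_and, Set.mem_ofPred_eq] at hw ⊢
      obtain ⟨hw, rfl⟩ := hw
      exact hw
    · intro w hw w' hw' he
      simp only [coe_filter, Set.mem_ofPred_eq] at hw hw'
      exact Prod.ext (hw.2.trans hw'.2.symm) he
  refine le_trans ?_ hTc
  apply card_le_card_of_injOn (fun z => (z.1.1, (z.1.2.1, z.2)))
  · rintro ⟨⟨q, i, a⟩, s⟩ hz
    rw [mem_coe, mem_fl] at hz
    simp only [hT, hO, coe_filter, mem_univ, true_and, Set.mem_ofPred_eq, decide_eq_true_eq,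
      decide_eq_false_iff_not]
    refine ⟨⟨a, hz.1⟩, ?_⟩
    rintro ⟨a', ha'⟩
    refine hz.2 _ ?_ ha'
    rw [PIn, mem_fl]
    exact ⟨rfl, Or.inr rfl⟩
  · rintro ⟨⟨q, i, a⟩, s⟩ hz ⟨⟨q', i', a'⟩, s'⟩ hz' he
    rw [mem_coe, mem_fl] at hz hz'
    simp only [Prod.mk.injEq] at he
    obtain ⟨rfl, rfl, rfl⟩ := he
    by_contra hne
    have hne' : a ≠ a' := by
      rintro rfl
      exact hne rfl
    rcases ori_total ρ s hne' with h | h
    · refine hz'.2 _ ?_ hz.1
      rw [PIn, mem_fl]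
      exact ⟨rfl, Or.inl ⟨rfl, h⟩⟩
    · refine hz.2 _ ?_ hz'.1
      rw [PIn, mem_fl]
      exact ⟨rfl, Or.inl ⟨rfl, h⟩⟩

end pent

lemma Tr.mono {ι : Type} [Fintype ι] [DecidableEq ι] {P Q : (ι → Bool) → Prop} {a b : ℕ}
    (h : Tr P Q a) (hab : a ≤ b) : Tr P Q b := fun x hx => (h x hx).trans hab

/-- A predicate with 0-sensitivity `≤ s`, 1-sensitivity `≤ t` and `β` disjoint blocks at `0`. -/
def Good (s t β : ℕ) : Prop :=
  ∃ (ι : Type) (_ : Fintype ι) (_ : DecidableEq ι) (G : (ι → Bool) → Prop),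
    Tr (fun y => ¬ G y) G s ∧ Tr G (fun y => ¬ G y) t ∧ (¬ G fun _ => false) ∧ Blocks G β

lemma Good.mono {s t β s' t' : ℕ} (h : Good s t β) (hs : s ≤ s') (ht : t ≤ t') : Good s' t' β := by
  obtain ⟨ι, i1, i2, G, h0, h1, h2, h3⟩ := h
  exact ⟨ι, i1, i2, G, h0.mono hs, h1.mono ht, h2, h3⟩

lemma good_base : Good 1 1 1 := by
  refine ⟨Unit, inferInstance, inferInstance, fun x => x () = true, ?_, ?_, by simp, ?_⟩
  · intro x _
    exact (card_le_univ _).trans (by simp)
  · intro x _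
    exact (card_le_univ _).trans (by simp)
  · exact ⟨Unit, inferInstance, by simp, fun _ _ => true, fun t t' h => absurd rfl h, by simp⟩

lemma good_step (c ρ R : ℕ) {s t β : ℕ} (h : Good s t β) :
    Good (9 * t + (6 * ρ + 2 * R + 4) * s)
      (2 * t + 2 * (c * (5 * (2 * ρ + 1))) * s + R * (3 * c * (s + t)))
      ((2 * R + 1) * (c * (5 * (2 * ρ + 1)) * β)) := by
  classical
  obtain ⟨ι, i1, i2, G, h0, h1, hz, hB⟩ := h
  -- the inner pair
  set F : (PJ c ρ × (Bool × ι) → Bool) → Prop := innF (full G) (touch G) with hF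
  set H : (PJ c ρ × (Bool × ι) → Bool) → Prop := innH (PIn c ρ) (full G) (touch G) with hH
  have cJ : Fintype.card (PJ c ρ) = c * (5 * (2 * ρ + 1)) := by simp [PJ, ZMod.card]
  have hFH : ∀ y, F y → H y := innF_innH (PIn_pos c ρ)
  have F0 : Tr (fun y => ¬ F y) F (s + t) := by
    have := Top_zero (J := PJ c ρ) id (fun j => univ.erase j) (full G) (touch G)
      (d := 1) (e := 3) (fun j => by simp) full_touch (full_up h0) (touch_dn h1)
      nodirect_up nodirect_dn
      (tour_src _ fun j k hjk => Or.inl (mem_erase.2 ⟨hjk, mem_univ _⟩))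
      (tour_nsrc _ fun j k hjk => Or.inl (mem_erase.2 ⟨hjk, mem_univ _⟩))
    exact this.mono (by simp)
  have F1 : Tr F (fun y => ¬ F y) (2 * t + (c * (5 * (2 * ρ + 1))) * (2 * s)) := by
    refine Top_one (J := PJ c ρ) id (fun j => univ.erase j) (full G) (touch G)
      (full_dn h1) (touch_up h0) fun j => ?_
    exact (card_le_univ _).trans cJ.le
  have H0 : Tr (fun y => ¬ H y) H (3 * c * (s + t)) := by
    have := Top_zero (J := PJ c ρ) Prod.fst (PIn c ρ) (full G) (touch G)
      (d := 3 * c) (e := Fintype.card (PJ c ρ × Bool)) (PIn_pos c ρ) full_touch (full_up h0)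
      (touch_dn h1) nodirect_up nodirect_dn (PIn_src c ρ) (fun S => card_le_univ _)
    exact this.mono (by simp [mul_add])
  have H1 : Tr H (fun y => ¬ H y) (2 * t + (3 * ρ + 1) * (2 * s)) :=
    Top_one (J := PJ c ρ) Prod.fst (PIn c ρ) (full G) (touch G)
      (full_dn h1) (touch_up h0) (PIn_card c ρ)
  have Dup : Tr (fun y => ¬ H y) F s :=
    inn_direct_up (PIn_pos c ρ) (PIn_disj c ρ) nodirect_up (full_up h0)
  have Ddn : Tr F (fun y => ¬ H y) (2 * t) :=
    inn_direct_dn (PIn_pos c ρ) (PIn_disj c ρ) (full_dn h1)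
  have zfull : ¬ full G fun _ => false := fun h => not_touch_zero hz (full_touch _ h)
  have zF : ¬ F fun _ => false := Top_not_zero _ _ zfull
  have zH : ¬ H fun _ => false := Top_not_zero _ _ zfull
  have BF : Blocks F (c * (5 * (2 * ρ + 1)) * β) := by
    have := Top_blocks (J := PJ c ρ) (fun j => univ.erase j) (fun j => by simp)
      (full_blocks hB) (not_touch_zero hz)
    rwa [cJ] at this
  -- the outer tournament
  set In : ZMod (2 * R + 1) → Finset (ZMod (2 * R + 1)) := fun b => fl fun a => beats R a b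
    with hIn
  have hpos : ∀ j, j ∉ In j := fun j => by
    rw [hIn]; simp only [mem_fl]; exact beats_irrefl R j
  have htot : ∀ j k, j ≠ k → j ∈ In k ∨ k ∈ In j := fun j k h => by
    rw [hIn]; simp only [mem_fl]; exact beats_total R h
  have cO : Fintype.card (ZMod (2 * R + 1)) = 2 * R + 1 := ZMod.card _
  refine ⟨ZMod (2 * R + 1) × (PJ c ρ × (Bool × ι)), inferInstance, inferInstance,
    Top id In F H, ?_, ?_, Top_not_zero _ _ zF, ?_⟩
  · have := Top_zero id In F H (d := 1) (e := 3) hpos hFH F0 H1 Dup Ddn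
      (tour_src _ htot) (tour_nsrc _ htot)
    refine this.mono (le_of_eq ?_)
    rw [cO]; ring
  · have := Top_one id In F H F1 H0 (r := R) fun j => card_beats_in R j
    refine this.mono (le_of_eq ?_)
    ring
  · have := Top_blocks In hpos BF zH
    rwa [cO] at this

lemma good_iter (k : ℕ) :
    Good (6170004 ^ k) (10000 * 6170004 ^ k) ((80001 * (50 * (5 * 2000001))) ^ k) := by
  induction k with
  | zero => exact good_base.mono (by simp) (by simp)
  | succ k ih =>
    have := good_step 50 1000000 40000 ih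
    have e : (2 * 40000 + 1) * (50 * (5 * (2 * 1000000 + 1)) * (80001 * (50 * (5 * 2000001))) ^ k)
        = (80001 * (50 * (5 * 2000001))) ^ (k + 1) := by
      rw [pow_succ]; ring
    rw [e] at this
    refine this.mono ?_ ?_
    · rw [pow_succ]; omega
    · rw [pow_succ]; omega

end Crest.Agent.H9.Sens
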