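import Crest.Agent.H9.TWDg

/-! Recurrent classes of idempotent diagrams. -/

set_option autoImplicit false

namespace Crest.Agent.H9.TW

open Relation

variable {Q : Type*}

lemma mul_lr {x y : Dg Q} {a b : Q} : (x * y).r false a true b ↔
    ∃ c c', x.r false a true c ∧ ReflTransGen (Mid x y) (true, c) (true, c') ∧
      y.r false c' true b := by
  simp [mul_r]

lemma bounce_l {e x : Dg Q} (h : e * x = x) {a b : Q} (hab : e.r false a false b) :
    x.r false a false b := by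
  rw [← h]; exact Or.inl ⟨rfl, hab⟩

lemma bounce_r {e x : Dg Q} (h : x * e = x) {a b : Q} (hab : e.r true a true b) :
    x.r true a true b := by
  rw [← h]; exact Or.inl ⟨rfl, hab⟩

/-- Bounces at a boundary between two copies of `e`. -/
def P0 (e : Dg Q) (a b : Q) : Prop := ReflTransGen (Mid e e) (true, a) (true, b)

/-- Crossing `x` and then bouncing as between two copies of `e`. -/
def RR (e x : Dg Q) (a b : Q) : Prop := ∃ c, x.r false a true c ∧ P0 e c b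

/-- `x` is `e`-local. -/
def Loc {M : Type*} [Mul M] (e x : M) : Prop := e * x = x ∧ x * e = x

lemma P0.mid {e x y : Dg Q} (hx : x * e = x) (hy : e * y = y) {a b : Q} (h : P0 e a b) :
    ReflTransGen (Mid x y) (true, a) (true, b) :=
  mid_mono (fun _ _ => bounce_r hx) (fun _ _ => bounce_l hy) h

lemma P0.up {e f : Dg Q} (h : Loc e f) {a b : Q} (hab : P0 e a b) : P0 f a b := hab.mid h.2 h.1

lemma RR.up {e f x : Dg Q} (h : Loc e f) {a b : Q} (hab : RR e x a b) : RR f x a b :=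
  let ⟨c, h1, h2⟩ := hab
  ⟨c, h1, h2.up h⟩

lemma RR.p0 {e x : Dg Q} {a b c : Q} (h : RR e x a b) (h' : P0 e b c) : RR e x a c :=
  let ⟨d, h1, h2⟩ := h
  ⟨d, h1, h2.trans h'⟩

lemma RR.lr {e x y : Dg Q} (hx : x * e = x) (hy : e * y = y) {a b c : Q} (h : RR e x a b)
    (h' : y.r false b true c) : (x * y).r false a true c :=
  let ⟨d, h1, h2⟩ := h
  mul_lr.2 ⟨d, b, h1, h2.mid hx hy, h'⟩

lemma RR.mul {e x y : Dg Q} (hx : x * e = x) (hy : e * y = y) {a b c : Q} (h : RR e x a b)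
    (h' : RR e y b c) : RR e (x * y) a c :=
  let ⟨d, h1, h2⟩ := h'
  ⟨d, h.lr hx hy h1, h2⟩

lemma RR.trans {e : Dg Q} (he : e * e = e) {a b c : Q} (h : RR e e a b) (h' : RR e e b c) :
    RR e e a c := by
  have := h.mul he he h'
  rwa [he] at this

lemma RR.hyb {e : Dg Q} (he : e * e = e) {a b c : Q} (h : RR e e a b)
    (h' : e.r false b true c) : e.r false a true c := by
  have := h.lr he he h'
  rwa [he] at this

lemma pass_cross {e x : Dg Q} (he : e * e = e) (hx : Loc e x) {m α α' m' : Q} (h1 : RR e e m α)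
    (h2 : RR e x α α') (h3 : e.r false α' true m') : x.r false m true m' := by
  have h4 := h1.mul he hx.1 h2
  rw [hx.1] at h4
  have h5 := h4.lr hx.2 he h3
  rwa [hx.2] at h5

/-- Right probe. -/
def prR (f : Dg Q) : Dg Q :=
  ⟨fun s a o b => s = false ∧ ((o = false ∧ f.r false a false b) ∨ (o = true ∧ a = b))⟩

/-- Left probe. -/
def prL (f : Dg Q) : Dg Q :=
  ⟨fun s a o b => o = true ∧ ((s = true ∧ f.r true a true b) ∨ (s = false ∧ a = b))⟩

lemma tri1 {e f : Dg Q} (h : Loc e f) {c m α : Q} (h1 : RR f f c m) (h2 : RR e e m α) :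
    RR f f c α := by
  obtain ⟨b, h3, h4⟩ := h1
  obtain ⟨b', h5, h6⟩ := h2
  have h7 : (f * (e * prR f)).r false c true α := by
    refine mul_lr.2 ⟨b, m, h3, mid_mono (fun _ _ h => h) (fun a a' ha => ?_) h4,
      mul_lr.2 ⟨b', α, h5, mid_mono (y' := prR f) (fun _ _ h => h)
        (fun a a' ha => ⟨rfl, Or.inl ⟨rfl, bounce_l h.1 ha⟩⟩) h6, rfl, Or.inr ⟨rfl, rfl⟩⟩⟩
    rw [← h.1] at ha
    rcases ha with ha | ⟨d, d', k1, k2, k3⟩
    · exact Or.inl ha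
    · exact Or.inr ⟨d, d', k1, mid_mono (y' := prR f) (fun _ _ h => h)
        (fun a a' ha => ⟨rfl, Or.inl ⟨rfl, ha⟩⟩) k2, k3⟩
  rw [← mul_assoc, h.2] at h7
  obtain ⟨d, d', k1, k2, -, k3 | ⟨-, rfl⟩⟩ := mul_lr.1 h7
  · simp at k3
  · refine ⟨d, k1, mid_mono (fun _ _ h => h) (fun a a' ha => ?_) k2⟩
    simpa [prR] using ha

lemma tri2 {e f : Dg Q} (h : Loc e f) {α m m' b : Q} (h1 : e.r false α true m) (h2 : P0 f m m')
    (h3 : f.r false m' true b) : ∃ m3, P0 f α m3 ∧ f.r false m3 true b := by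
  have h7 : ((prL f * e) * f).r false α true b := by
    refine mul_lr.2 ⟨m, m', mul_lr.2 ⟨α, α, ⟨rfl, Or.inr ⟨rfl, rfl⟩⟩, .refl, h1⟩,
      mid_mono (fun a a' ha => ?_) (fun _ _ h => h) h2, h3⟩
    rw [← h.2] at ha
    rcases ha with ha | ⟨d, d', k1, k2, k3⟩
    · exact Or.inl ha
    · exact Or.inr ⟨d, d', k1, mid_mono (x' := prL f)
        (fun a a' ha => ⟨rfl, Or.inl ⟨rfl, ha⟩⟩) (fun _ _ h => h) k2, k3⟩
  rw [mul_assoc, h.1] at h7
  obtain ⟨d, d', ⟨-, k1 | ⟨-, rfl⟩⟩, k2, k3⟩ := mul_lr.1 h7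
  · simp at k1
  · refine ⟨d', mid_mono (fun a a' ha => ?_) (fun _ _ h => h) k2, k3⟩
    simpa [prL] using ha

lemma exists_refl_of_succ {α : Type*} [Finite α] {r : α → α → Prop}
    (htr : ∀ a b c, r a b → r b c → r a c) {S : Set α} (hS : S.Nonempty)
    (h : ∀ a ∈ S, ∃ b ∈ S, r a b) : ∃ a ∈ S, r a a := by
  by_contra hc
  push Not at hc
  let r' : α → α → Prop := fun a b => a ∈ S ∧ r b a
  have : IsTrans α r' := ⟨fun a b c h1 h2 => ⟨h1.1, htr _ _ _ h2.2 h1.2⟩⟩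
  have : Std.Irrefl r' := ⟨fun a h => hc a h.1 h.2⟩
  obtain ⟨a, ha, hmin⟩ := (Finite.wellFounded_of_trans_of_irrefl r').has_min S hS
  obtain ⟨b, hb, hab⟩ := h a ha
  exact hmin b hb ⟨hb, hab⟩

variable [Fintype Q]

/-- Representatives of the recurrent classes. -/
def Rep (e : Dg Q) (a : Q) : Prop :=
  RR e e a a ∧ ∀ b, RR e e a b → RR e e b a → Fintype.equivFin Q a ≤ Fintype.equivFin Q b

lemma Rep.eq {e : Dg Q} {a b : Q} (ha : Rep e a) (hb : Rep e b) (h1 : RR e e a b)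
    (h2 : RR e e b a) : a = b :=
  (Fintype.equivFin Q).injective (le_antisymm (ha.2 b h1 h2) (hb.2 a h2 h1))

lemma exists_rep {e : Dg Q} (he : e * e = e) {a : Q} (ha : RR e e a a) :
    ∃ α, Rep e α ∧ RR e e a α ∧ RR e e α a := by
  obtain ⟨α, ⟨h1, h2⟩, h3⟩ := Set.exists_min_image {b | RR e e a b ∧ RR e e b a}
    (Fintype.equivFin Q) (Set.toFinite _) ⟨a, ha, ha⟩
  exact ⟨α, ⟨h2.trans he h1, fun b k1 k2 => h3 b ⟨h1.trans he k1, k2.trans he h2⟩⟩, h1, h2⟩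

lemma cross {e : Dg Q} (he : e * e = e) {m m' : Q} (h : e.r false m true m') :
    ∃ α, Rep e α ∧ RR e e m α ∧ e.r false α true m' := by
  have h0 : ∀ a, e.r false a true m' → ∃ b, RR e e a b ∧ e.r false b true m' := by
    intro a ha
    rw [← he] at ha
    obtain ⟨c, c', h1, h2, h3⟩ := mul_lr.1 ha
    exact ⟨c', ⟨c, h1, h2⟩, h3⟩
  obtain ⟨a, ⟨h1, h2⟩, h3⟩ := exists_refl_of_succ (r := RR e e) (fun _ _ _ => RR.trans he)
    (S := {a | RR e e m a ∧ e.r false a true m'}) (h0 m h)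
    (fun a ha => let ⟨b, k1, k2⟩ := h0 a ha.2; ⟨b, ⟨ha.1.trans he k1, k2⟩, k1⟩)
  obtain ⟨α, k1, k2, k3⟩ := exists_rep he h3
  exact ⟨α, k1, h1.trans he k2, k3.hyb he h2⟩

lemma crossL {e f : Dg Q} (he : e * e = e) (hf : e * f = f) {m m' : Q} (h : f.r false m true m') :
    ∃ α, Rep e α ∧ RR e e m α ∧ f.r false α true m' := by
  rw [← hf] at h
  obtain ⟨c, c', h1, h2, h3⟩ := mul_lr.1 h
  obtain ⟨α, k1, k2, k3⟩ := cross he h1
  exact ⟨α, k1, k2, hf ▸ mul_lr.2 ⟨c, c', k3, h2, h3⟩⟩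

lemma crossR {e f : Dg Q} (he : e * e = e) (hf : f * e = f) {m m' : Q} (h : f.r false m true m') :
    ∃ α, Rep e α ∧ RR e f m α ∧ e.r false α true m' := by
  rw [← hf] at h
  obtain ⟨c, c', h1, h2, h3⟩ := mul_lr.1 h
  obtain ⟨α, k1, ⟨d, k2, k4⟩, k3⟩ := cross he h3
  exact ⟨α, k1, ⟨d, hf ▸ mul_lr.2 ⟨c, c', h1, h2, k2⟩, k4⟩, k3⟩

omit [Fintype Q] in
/-- `α` lies on the recurrent `f`-orbit of `c`. -/
def TT (f : Dg Q) (c α : Q) : Prop := RR f f c α ∧ ∃ m, P0 f α m ∧ RR f f m c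

lemma junction0 {e f : Dg Q} (he : e * e = e) (hf : f * f = f) (h : Loc e f) {c : Q}
    (hc : RR f f c c) :
    ∃ α α', Rep e α ∧ Rep e α' ∧ RR e f α α' ∧ TT f c α ∧ TT f c α' := by
  obtain ⟨b, h1, h2⟩ := id hc
  obtain ⟨α, k1, k2, k3⟩ := crossL he h.1 h1
  obtain ⟨α', l1, l2, l3⟩ := crossR he h.2 k3
  have h3 := tri1 h hc k2
  obtain ⟨m, m1, m2⟩ := tri2 h l3 h2 h1
  exact ⟨α, α', k1, l1, l2, ⟨h3, α, .refl, b, k3, h2⟩, h3.trans hf (l2.up h), m, m1, b, m2, h2⟩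

omit [Fintype Q] in
lemma TT.rr {f : Dg Q} (hf : f * f = f) {c c' α : Q} (h : RR f f c α) (h' : TT f c' α) :
    RR f f c c' :=
  let ⟨_, h1, h2⟩ := h'.2
  (h.p0 h1).trans hf h2

/-! ### Both directions -/

omit [Fintype Q] in
/-- The diagram seen in direction `d`. -/
def sg : Bool → Dg Q → Dg Q
  | true, x => x
  | false, x => mir x

omit [Fintype Q] in
lemma sg_r (d : Bool) (x : Dg Q) (a b : Q) : (sg d x).r false a true b ↔ x.r (!d) a d b := by
  cases d <;> rfl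

omit [Fintype Q] in
lemma Loc.sg {e x : Dg Q} (h : Loc e x) (d : Bool) : Loc (sg d e) (sg d x) := by
  cases d
  · exact ⟨by simp only [TW.sg]; rw [← mir_mul, h.2], by simp only [TW.sg]; rw [← mir_mul, h.1]⟩
  · exact h

omit [Fintype Q] in
lemma sg_idem {e : Dg Q} (h : e * e = e) (d : Bool) : sg d e * sg d e = sg d e :=
  (Loc.sg ⟨h, h⟩ d).1

open Classical in
/-- The recurrent classes in both directions. -/
noncomputable def Cls (e : Dg Q) : Finset (Bool × Q) :=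
  Finset.univ.filter fun c => Rep (sg c.1 e) c.2

lemma mem_Cls {e : Dg Q} {c : Bool × Q} : c ∈ Cls e ↔ Rep (sg c.1 e) c.2 := by simp [Cls]

lemma card_Cls (e : Dg Q) : (Cls e).card ≤ 2 * Fintype.card Q := by
  have := Finset.card_le_univ (Cls e)
  simpa using this

/-- `x` passes every class of `e` outside `Z`. -/
def Full (e x : Dg Q) (Z : Finset (Bool × Q)) : Prop :=
  ∀ c ∈ Cls e, c ∉ Z → RR (sg c.1 e) (sg c.1 x) c.2 c.2

/-- No two classes of `e` are exchanged by `f`. -/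
def NonMut (e f : Dg Q) : Prop :=
  ∀ d a b, (d, a) ∈ Cls e → (d, b) ∈ Cls e → RR (sg d e) (sg d f) a b →
    RR (sg d e) (sg d f) b a → a = b

lemma Full.mono {e x : Dg Q} {Z Z' : Finset (Bool × Q)} (h : Full e x Z) (hZ : Z ⊆ Z') :
    Full e x Z' := fun c hc hc' => h c hc fun h' => hc' (hZ h')

lemma full_self (e : Dg Q) (Z : Finset (Bool × Q)) : Full e e Z :=
  fun _ hc _ => (mem_Cls.1 hc).1

lemma nonMut_self (e : Dg Q) : NonMut e e :=
  fun _ _ _ ha hb => (mem_Cls.1 ha).eq (mem_Cls.1 hb)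

lemma Full.mul {e x y : Dg Q} {Z : Finset (Bool × Q)} (hx : Loc e x) (hy : Loc e y)
    (h : Full e x Z) (h' : Full e y Z) : Full e (x * y) Z := by
  rintro ⟨d, a⟩ hc hc'
  have h1 := h _ hc hc'
  have h2 := h' _ hc hc'
  cases d
  · have := h2.mul (hy.sg false).2 (hx.sg false).1 h1
    simp only [sg] at this ⊢
    rwa [mir_mul]
  · exact h1.mul hx.2 hy.1 h2

lemma Full.le {e x : Dg Q} (he : e * e = e) (hx : Loc e x) (h : Full e x ∅) : Le e x := by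
  intro s a o b hab
  by_cases hso : s = o
  · subst hso
    cases s
    · exact bounce_l hx.1 hab
    · exact bounce_r hx.2 hab
  · obtain rfl : s = !o := by cases s <;> cases o <;> simp at hso ⊢
    rw [← sg_r] at hab ⊢
    obtain ⟨α, h1, h2, h3⟩ := cross (sg_idem he o) hab
    exact pass_cross (sg_idem he o) (hx.sg o) h2 (h (o, α) (mem_Cls.2 h1) (by simp)) h3

omit [Fintype Q] in
lemma Le.eq_of_det {e x : Dg Q} (hx : Loc e x) (h : Le e x) (hd : Det x) : x = e := by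
  ext s a o b
  refine ⟨fun hab => ?_, h _ _ _ _⟩
  have : ∃ o' b', e.r s a o' b' := by
    cases s
    · rw [← hx.1] at hab
      rcases hab with ⟨-, k⟩ | ⟨c, -, k, -⟩
      · exact ⟨_, _, k⟩
      · exact ⟨_, _, k⟩
    · rw [← hx.2] at hab
      rcases hab with ⟨-, k⟩ | ⟨c, -, k, -⟩
      · exact ⟨_, _, k⟩
      · exact ⟨_, _, k⟩
  obtain ⟨o', b', k⟩ := this
  obtain ⟨rfl, rfl⟩ := hd _ _ _ _ _ _ hab (h _ _ _ _ k)
  exact k

/-! ### The skeleton lemma -/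

lemma skeleton {u e v e' : Dg Q} (he : e * e = e) (h1 : Full e' (u * e * v) ∅)
    (h2 : NonMut e' (u * e * v)) {κ : ℕ} (hκ : κ = 2 ∨ (κ = 1 ∧ Det (u * e * v)))
    (Z : Finset (Bool × Q)) :
    ∃ Z' : Finset (Bool × Q), Z'.card ≤ κ * Z.card ∧
      ∀ x, Loc e x → Full e x Z → Full e' (u * x * v) Z' := by
  classical
  let In : Nd Q → Bool × Q → Prop := fun σ α =>
    ∃ m, Pth (s3 u e v) 0 3 σ (ent 1 2 (!α.1) m) ∧ RR (sg α.1 e) (sg α.1 e) m α.2
  let Out : Bool × Q → Nd Q → Prop := fun α ω =>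
    ∃ m, e.r (!α.1) α.2 α.1 m ∧ Pth (s3 u e v) 0 3 (ext 1 2 α.1 m) ω
  have hyb : ∀ σ α ω, In σ α → Out α ω → Pth (s3 u e v) 0 3 σ ω := by
    rintro σ ⟨t, α⟩ ω ⟨m, k1, k2⟩ ⟨m', k3, k4⟩
    refine (k1.tail ⟨1, !t, m, t, m', by omega, by omega, rfl, rfl, ?_⟩).trans k4
    exact (sg_r _ _ _ _).1 (k2.hyb (sg_idem he t) ((sg_r _ _ _ _).2 k3))
  have transfer : ∀ x, Loc e x → Full e x Z → ∀ σ ω, (∀ α ∈ Z, In σ α → ¬Out α ω) →
      ∀ n, Pth (s3 u e v) 0 3 σ n → Pth (s3 u e v) 0 3 n ω → Pth (s3 u x v) 0 3 σ n := by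
    intro x hx hZ σ ω hno n hn
    induction hn with
    | refl => exact fun _ => .refl
    | tail hp hst ih =>
      intro hω
      refine (ih (hω.head hst)).tail ?_
      obtain ⟨k, s, a, o, b, k1, k2, k3, k4, k5⟩ := hst
      refine ⟨k, s, a, o, b, k1, k2, k3, k4, ?_⟩
      match k, k3, k4, k5 with
      | 0, _, _, k5 => exact k5
      | k + 2, _, _, k5 => exact k5
      | 1, k3, k4, k5 =>
        change e.r s a o b at k5
        change x.r s a o b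
        by_cases hso : s = o
        · subst hso
          cases s
          · exact bounce_l hx.1 k5
          · exact bounce_r hx.2 k5
        · obtain rfl : s = !o := by cases s <;> cases o <;> simp at hso ⊢
          rw [← sg_r] at k5 ⊢
          obtain ⟨α, l1, l2, l3⟩ := cross (sg_idem he o) k5
          refine pass_cross (sg_idem he o) (hx.sg o) l2 (hZ (o, α) (mem_Cls.2 l1) fun hα => ?_) l3
          exact hno _ hα ⟨a, k3 ▸ hp, l2⟩ ⟨b, (sg_r _ _ _ _).1 l3, k4 ▸ hω⟩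
  let Hit : Bool × Q → Bool × Q → Prop := fun c α =>
    In (ent 0 3 (!c.1) c.2) α ∧ ∃ b, Out α (ext 0 3 c.1 b) ∧ P0 (sg c.1 e') b c.2
  have hcross : ∀ c c' α, Hit c α → Hit c' α →
      ∃ b, (u * e * v).r (!c.1) c.2 c'.1 b ∧ P0 (sg c'.1 e') b c'.2 := by
    rintro c c' α ⟨k1, -⟩ ⟨-, b, k2, k3⟩
    exact ⟨b, by rw [← comp_s3]; exact hyb _ _ _ k1 k2, k3⟩
  let Z' := (Cls e').filter fun c => ∃ α ∈ Z, Hit c α
  refine ⟨Z', ?_, fun x hx hZ c hc hc' => ?_⟩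
  · have hch : ∀ c ∈ Z', ∃ α ∈ Z, Hit c α := fun c hc => (Finset.mem_filter.1 hc).2
    choose! g hg1 hg2 using hch
    have hinj : ∀ c ∈ Z', ∀ c' ∈ Z', c.1 = c'.1 → g c = g c' → c = c' := by
      rintro ⟨d, a⟩ hc ⟨d', a'⟩ hc' hd hg
      obtain rfl : d = d' := hd
      obtain ⟨b, k1, k2⟩ := hcross _ _ _ (hg2 _ hc) (hg ▸ hg2 _ hc')
      obtain ⟨b', k3, k4⟩ := hcross _ _ _ (hg ▸ hg2 _ hc') (hg2 _ hc)
      rw [h2 d a a' (Finset.mem_filter.1 hc).1 (Finset.mem_filter.1 hc').1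
        ⟨b, (sg_r _ _ _ _).2 k1, k2⟩ ⟨b', (sg_r _ _ _ _).2 k3, k4⟩]
    rcases hκ with rfl | ⟨rfl, hd⟩
    · have := Finset.card_le_card_of_injOn (s := Z') (t := Finset.univ ×ˢ Z)
        (fun c => (c.1, g c)) (fun c hc => by simpa using hg1 c hc)
        (fun c hc c' hc' h => hinj c hc c' hc' (Prod.mk.inj h).1 (Prod.mk.inj h).2)
      simpa using this
    · rw [one_mul]
      refine Finset.card_le_card_of_injOn g hg1 fun c hc c' hc' h => hinj c hc c' hc' ?_ h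
      obtain ⟨b, k1, -⟩ := hcross _ _ _ (hg2 _ hc) (h ▸ hg2 _ hc')
      obtain ⟨b', k3, -⟩ := hcross _ _ _ (hg2 _ hc) (hg2 _ hc)
      exact (hd _ _ _ _ _ _ k3 k1).1
  · obtain ⟨b, k1, k2⟩ := h1 c hc (by simp)
    rw [sg_r, ← comp_s3] at k1
    refine ⟨b, ?_, k2⟩
    rw [sg_r, ← comp_s3]
    refine transfer x hx hZ _ _ (fun α hα l1 l2 => hc' ?_) _ k1 .refl
    exact Finset.mem_filter.2 ⟨hc, α, hα, l1, b, l2, k2⟩

/-! ### The junction lemma and its consequences -/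

lemma comb_singletons {α β : Type*} [DecidableEq β] (N' : Finset α) (N : Finset β)
    (T : α → Finset β) (hT : ∀ c ∈ N', T c ⊆ N) (hne : ∀ c ∈ N', (T c).Nonempty)
    (hd : ∀ c ∈ N', ∀ c' ∈ N', c ≠ c' → Disjoint (T c) (T c')) :
    ∃ Z ⊆ N, Z.card + 2 * N'.card ≤ 2 * N.card ∧ ∀ b ∈ N, b ∉ Z → ∃ c ∈ N', T c = {b} := by
  classical
  let S := N'.filter fun c => (T c).card = 1
  let K := S.biUnion T
  have hK : K.card = S.card := by
    rw [Finset.card_biUnion (fun c hc c' hc' h =>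
      hd c (Finset.mem_filter.1 hc).1 c' (Finset.mem_filter.1 hc').1 h)]
    rw [Finset.sum_congr rfl (fun c hc => (Finset.mem_filter.1 hc).2)]
    simp [S]
  have hKN : K ⊆ N := Finset.biUnion_subset.2 fun c hc => hT c (Finset.mem_filter.1 hc).1
  have h1 : ∑ c ∈ N', (T c).card ≤ N.card := by
    rw [← Finset.card_biUnion hd]
    exact Finset.card_le_card (Finset.biUnion_subset.2 hT)
  have h2 : 2 * N'.card ≤ ∑ c ∈ N', (T c).card + S.card := by
    rw [Finset.card_filter, ← Finset.sum_add_distrib, mul_comm, ← smul_eq_mul, ← Finset.sum_const]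
    refine Finset.sum_le_sum fun c hc => ?_
    have := (hne c hc).card_pos
    split_ifs <;> omega
  refine ⟨N \ K, Finset.sdiff_subset, ?_, fun b hb hb' => ?_⟩
  · have := Finset.card_sdiff_add_card_eq_card hKN
    omega
  · have : b ∈ K := by simpa [hb] using hb'
    obtain ⟨c, hc, hbc⟩ := Finset.mem_biUnion.1 this
    obtain ⟨hc1, hc2⟩ := Finset.mem_filter.1 hc
    obtain ⟨b', hb'⟩ := Finset.card_eq_one.1 hc2
    refine ⟨c, hc1, ?_⟩
    rw [hb'] at hbc ⊢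
    rw [Finset.mem_singleton.1 hbc]

open Classical in
/-- The classes of `e` on the orbit of a class of `f`. -/
noncomputable def Tset (e f : Dg Q) (c : Bool × Q) : Finset (Bool × Q) :=
  (Cls e).filter fun β => β.1 = c.1 ∧ TT (sg c.1 f) c.2 β.2

lemma mem_Tset {e f : Dg Q} {c β : Bool × Q} :
    β ∈ Tset e f c ↔ β ∈ Cls e ∧ β.1 = c.1 ∧ TT (sg c.1 f) c.2 β.2 := by simp [Tset]

lemma junction [DecidableEq Q] {e f : Dg Q} (he : e * e = e) (hf : f * f = f) (h : Loc e f)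
    (N' N : Finset (Bool × Q)) (hN' : N' ⊆ Cls f) (hT : ∀ c ∈ N', Tset e f c ⊆ N) :
    ∃ Z ⊆ N, Z.card + 2 * N'.card ≤ 2 * N.card ∧ ∀ β ∈ N, β ∉ Z →
      RR (sg β.1 e) (sg β.1 f) β.2 β.2 ∧ ∃ c ∈ N', Tset e f c = {β} := by
  have hj := fun c (hc : c ∈ N') =>
    junction0 (sg_idem he c.1) (sg_idem hf c.1) (h.sg c.1) (mem_Cls.1 (hN' hc)).1
  obtain ⟨Z, h1, h2, h3⟩ := comb_singletons N' N (Tset e f) hT
    (fun c hc => by
      obtain ⟨α, -, k1, -, -, k2, -⟩ := hj c hc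
      exact ⟨(c.1, α), mem_Tset.2 ⟨mem_Cls.2 k1, rfl, k2⟩⟩)
    (by
      rintro ⟨d, a⟩ hc ⟨d', a'⟩ hc' hne
      rw [Finset.disjoint_left]
      intro β k1 k2
      obtain ⟨-, k3, k4⟩ := mem_Tset.1 k1
      obtain ⟨-, k5, k6⟩ := mem_Tset.1 k2
      obtain rfl : d = d' := k3.symm.trans k5
      apply hne
      have : a = a' := Rep.eq (e := sg d f) (mem_Cls.1 (hN' hc)) (mem_Cls.1 (hN' hc'))
        (TT.rr (sg_idem hf d) k4.1 k6) (TT.rr (sg_idem hf d) k6.1 k4)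
      rw [this])
  refine ⟨Z, h1, h2, fun β k1 k2 => ?_⟩
  obtain ⟨c, hc, hc'⟩ := h3 β k1 k2
  refine ⟨?_, c, hc, hc'⟩
  obtain ⟨α, α', l1, l2, l3, l4, l5⟩ := hj c hc
  have m1 : (c.1, α) ∈ Tset e f c := mem_Tset.2 ⟨mem_Cls.2 l1, rfl, l4⟩
  have m2 : (c.1, α') ∈ Tset e f c := mem_Tset.2 ⟨mem_Cls.2 l2, rfl, l5⟩
  rw [hc', Finset.mem_singleton] at m1 m2
  obtain rfl : α = α' := (Prod.mk.inj (m1.trans m2.symm)).2
  rw [← m1]
  exact l3

lemma rigid {e f : Dg Q} (he : e * e = e) (hf : f * f = f) (h : Loc e f)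
    (hc : (Cls e).card ≤ (Cls f).card) : Full e f ∅ ∧ NonMut e f := by
  classical
  obtain ⟨Z, -, h2, h3⟩ := junction he hf h (Cls f) (Cls e) subset_rfl
    (fun c _ β hβ => (mem_Tset.1 hβ).1)
  obtain rfl : Z = ∅ := Finset.card_eq_zero.1 (by omega)
  refine ⟨fun c hc hc' => (h3 c hc hc').1, fun d a b ha hb k1 k2 => ?_⟩
  obtain ⟨-, ⟨d', c⟩, -, k3⟩ := h3 _ ha (by simp)
  have k4 : (d, a) ∈ Tset e f (d', c) := by rw [k3]; simp
  obtain ⟨-, k5, k6⟩ := mem_Tset.1 k4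
  obtain rfl : d = d' := k5
  have k7 : (d, b) ∈ Tset e f (d, c) :=
    mem_Tset.2 ⟨hb, rfl, k6.1.trans (sg_idem hf d) (k1.up (h.sg d)), b, .refl,
      TT.rr (sg_idem hf d) (k2.up (h.sg d)) k6⟩
  rw [k3, Finset.mem_singleton] at k7
  exact (Prod.mk.inj k7).2.symm

/-- A class of `X` is anchored if it is equivalent to a class of `W` outside `U`. -/
def Anch (W : Dg Q) (U : Finset (Bool × Q)) (X : Dg Q) (c : Bool × Q) : Prop :=
  ∃ α, (c.1, α) ∈ Cls W ∧ (c.1, α) ∉ U ∧ RR (sg c.1 X) (sg c.1 X) c.2 α ∧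
    RR (sg c.1 X) (sg c.1 X) α c.2

open Classical in
/-- The potential: the number of classes that are not anchored. -/
noncomputable def Phi (W : Dg Q) (U : Finset (Bool × Q)) (X : Dg Q) : ℕ :=
  ((Cls X).filter fun c => ¬Anch W U X c).card

lemma phi_self (W : Dg Q) (U : Finset (Bool × Q)) : Phi W U W ≤ U.card := by
  classical
  refine Finset.card_le_card fun c hc => ?_
  obtain ⟨h1, h2⟩ := Finset.mem_filter.1 hc
  by_contra h
  exact h2 ⟨c.2, h1, h, (mem_Cls.1 h1).1, (mem_Cls.1 h1).1⟩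

lemma potential {W X Y : Dg Q} {U : Finset (Bool × Q)} (hX : X * X = X) (hY : Y * Y = Y)
    (hWX : Loc W X) (hXY : Loc X Y) (hU : Full W Y U) :
    ∃ Z, Full X Y Z ∧ Z.card + 2 * Phi W U Y ≤ 2 * Phi W U X := by
  classical
  have hpass : ∀ c, Anch W U X c → RR (sg c.1 X) (sg c.1 Y) c.2 c.2 := by
    rintro ⟨d, c⟩ ⟨α, k1, k2, k3, k4⟩
    have k5 := (hU _ k1 k2).up (hWX.sg d)
    have k6 := k3.mul (sg_idem hX d) (hXY.sg d).1 k5
    rw [(hXY.sg d).1] at k6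
    have k7 := k6.mul (hXY.sg d).2 (sg_idem hX d) k4
    rwa [(hXY.sg d).2] at k7
  obtain ⟨Z, -, h2, h3⟩ := junction hX hY hXY ((Cls Y).filter fun c => ¬Anch W U Y c)
    ((Cls X).filter fun c => ¬Anch W U X c) (Finset.filter_subset _ _) (by
      rintro ⟨d, c⟩ hc ⟨d', β⟩ hβ
      obtain ⟨k1, k2, k3⟩ := mem_Tset.1 hβ
      obtain rfl : d' = d := k2
      refine Finset.mem_filter.2 ⟨k1, fun ha => (Finset.mem_filter.1 hc).2 ?_⟩
      have k4 := hpass _ ha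
      obtain ⟨α, l1, l2, l3, l4⟩ := ha
      have l5 := k4.mul (hXY.sg d').2 (sg_idem hX d') l3
      rw [(hXY.sg d').2] at l5
      have l6 := l4.mul (sg_idem hX d') (hXY.sg d').1 k4
      rw [(hXY.sg d').1] at l6
      exact ⟨α, l1, l2, k3.1.trans (sg_idem hY d') (l5.up (hXY.sg d')),
        TT.rr (sg_idem hY d') (l6.up (hXY.sg d')) k3⟩)
  refine ⟨Z, fun c hc hc' => ?_, h2⟩
  by_cases ha : Anch W U X c
  · exact hpass c ha
  · exact (h3 c (Finset.mem_filter.2 ⟨hc, ha⟩) hc').1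

end Crest.Agent.H9.TW
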