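import Mathlib

/-! Behaviour diagrams of two-way automata: four relations between ports, composed by the
Redheffer product. -/

set_option autoImplicit false

namespace Crest.Agent.H9.TW

open Relation

/-- A diagram: `r s a o b` says that entering on side `s` (`false` = left) in state `a` one can
leave on side `o` in state `b`. -/
@[ext] structure Dg (Q : Type*) where
  r : Bool → Q → Bool → Q → Prop

variable {Q : Type*}

lemma rtg_mono {α : Type*} {r p : α → α → Prop} (h : ∀ a b, r a b → p a b) {a b : α}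
    (hab : ReflTransGen r a b) : ReflTransGen p a b := by
  induction hab with
  | refl => exact .refl
  | tail _ h' ih => exact ih.tail (h _ _ h')

instance [Finite Q] : Finite (Dg Q) :=
  Finite.of_injective (fun x : Dg Q => x.r) fun _ _ h => Dg.ext h

/-- The block on side `t`. -/
def blk (x y : Dg Q) : Bool → Dg Q
  | false => x
  | true => y

@[simp] lemma blk_false (x y : Dg Q) : blk x y false = x := rfl
@[simp] lemma blk_true (x y : Dg Q) : blk x y true = y := rfl

/-- A bounce at the common boundary of two blocks; the first component is the direction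
(`true` = rightwards). -/
def Mid (x y : Dg Q) (n n' : Bool × Q) : Prop :=
  n'.1 = !n.1 ∧ (blk x y n.1).r (!n.1) n.2 (!n.1) n'.2

instance : Mul (Dg Q) := ⟨fun x y => ⟨fun s a o b => (o = s ∧ (blk x y s).r s a s b) ∨
  ∃ c c', (blk x y s).r s a (!s) c ∧ ReflTransGen (Mid x y) (!s, c) (o, c') ∧
    (blk x y o).r (!o) c' o b⟩⟩

instance : One (Dg Q) := ⟨⟨fun s a o b => o = !s ∧ a = b⟩⟩

lemma mul_r (x y : Dg Q) (s : Bool) (a : Q) (o : Bool) (b : Q) : (x * y).r s a o b ↔
    (o = s ∧ (blk x y s).r s a s b) ∨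
      ∃ c c', (blk x y s).r s a (!s) c ∧ ReflTransGen (Mid x y) (!s, c) (o, c') ∧
        (blk x y o).r (!o) c' o b := Iff.rfl

lemma one_r (s : Bool) (a : Q) (o : Bool) (b : Q) : (1 : Dg Q).r s a o b ↔ o = !s ∧ a = b :=
  Iff.rfl

/-! ### The path graph of a sequence of diagrams -/

/-- Nodes: boundary, direction, state. -/
abbrev Nd (Q : Type*) := ℕ × Bool × Q

/-- The node entering the range `[i, j)` on side `s`. -/
def ent (i j : ℕ) : Bool → Q → Nd Q
  | false, a => (i, true, a)
  | true, a => (j, false, a)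

/-- The node leaving the range `[i, j)` on side `o`. -/
def ext (i j : ℕ) : Bool → Q → Nd Q
  | false, a => (i, false, a)
  | true, a => (j, true, a)

/-- One step through a cell of the range `[i, j)`. -/
def St (D : ℕ → Dg Q) (i j : ℕ) (n n' : Nd Q) : Prop :=
  ∃ k s a o b, i ≤ k ∧ k < j ∧ n = ent k (k + 1) s a ∧ n' = ext k (k + 1) o b ∧ (D k).r s a o b

/-- Paths inside a range. -/
abbrev Pth (D : ℕ → Dg Q) (i j : ℕ) : Nd Q → Nd Q → Prop := ReflTransGen (St D i j)

/-- The composite diagram of a range. -/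
def comp (D : ℕ → Dg Q) (i j : ℕ) : Dg Q := ⟨fun s a o b => Pth D i j (ent i j s a) (ext i j o b)⟩

lemma Pth.range_mono {D : ℕ → Dg Q} {i j i' j' : ℕ} (hi : i' ≤ i) (hj : j ≤ j') {n n' : Nd Q}
    (h : Pth D i j n n') : Pth D i' j' n n' :=
  rtg_mono (fun _ _ ⟨k, s, a, o, b, h1, h2, h3⟩ =>
    ⟨k, s, a, o, b, hi.trans h1, h2.trans_le hj, h3⟩) h

lemma Pth.mem_range {D : ℕ → Dg Q} {i j : ℕ} {n n' : Nd Q} (h : Pth D i j n n')
    (hn : i ≤ n.1 ∧ n.1 ≤ j) : i ≤ n'.1 ∧ n'.1 ≤ j := by
  induction h with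
  | refl => exact hn
  | tail _ h _ =>
    obtain ⟨k, s, a, o, b, h1, h2, -, rfl, -⟩ := h
    cases o <;> simp [ext] <;> omega

section cut

variable {D : ℕ → Dg Q} {i j k : ℕ}

/-- Lower end of block `t`. -/
def lo (i j : ℕ) : Bool → ℕ
  | false => i
  | true => j

lemma blk_comp (t : Bool) :
    blk (comp D i j) (comp D j k) t = comp D (lo i j t) (lo j k t) := by cases t <;> rfl

lemma cut_ge (hij : i ≤ j) (hjk : j ≤ k) {s : Bool} {a : Q} {o : Bool} {b : Q}
    (h : (comp D i j * comp D j k).r s a o b) : (comp D i k).r s a o b := by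
  have hm : ∀ t {n n' : Nd Q}, Pth D (lo i j t) (lo j k t) n n' → Pth D i k n n' := by
    intro t n n' h
    cases t
    · exact h.range_mono le_rfl hjk
    · exact h.range_mono hij le_rfl
  rw [mul_r] at h
  simp only [blk_comp] at h
  rcases h with ⟨rfl, h⟩ | ⟨c, c', h1, h2, h3⟩
  · have := hm _ h
    cases o <;> exact this
  · have h4 : ∀ n n' : Bool × Q, ReflTransGen (Mid (comp D i j) (comp D j k)) n n' →
        Pth D i k (j, n) (j, n') := by
      intro n n' h
      induction h with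
      | refl => exact .refl
      | tail _ h ih =>
        rename_i m m' _
        obtain ⟨d, e⟩ := m
        obtain ⟨d', e'⟩ := m'
        obtain ⟨h5, h6⟩ := h
        simp only [blk_comp] at h5 h6
        subst h5
        have := hm _ h6
        cases d <;> exact ih.trans this
    have h5 := hm _ h1
    have h6 := hm _ h3
    have h7 := h4 _ _ h2
    cases s <;> cases o <;> exact (h5.trans h7).trans h6

lemma cut_le (hij : i ≤ j) (hjk : j ≤ k) {s : Bool} {a : Q} {o : Bool} {b : Q}
    (h : (comp D i k).r s a o b) : (comp D i j * comp D j k).r s a o b := by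
  set x := comp D i j with hx
  set y := comp D j k with hy
  let M : Bool × Q → Prop := fun n =>
    ∃ c, (blk x y s).r s a (!s) c ∧ ReflTransGen (Mid x y) (!s, c) n
  let P : Bool → Nd Q → Nd Q → Prop := fun t => Pth D (lo i j t) (lo j k t)
  let Inv : Nd Q → Bool → Prop := fun n t =>
    (t = s ∧ P s (ent i k s a) n) ∨ ∃ c, M (t, c) ∧ P t (j, t, c) n
  have hrange : ∀ n t, Inv n t → lo i j t ≤ n.1 ∧ n.1 ≤ lo j k t := by
    rintro n t (⟨rfl, h⟩ | ⟨c, -, h⟩)
    · exact h.mem_range (by cases t <;> simp [lo, ent, hij, hjk])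
    · exact h.mem_range (by cases t <;> simp [lo, hij, hjk])
  have hsw : ∀ t c, Inv (j, !t, c) t → M (!t, c) := by
    rintro t c (⟨rfl, h⟩ | ⟨c', ⟨c'', h1, h2⟩, h⟩)
    · refine ⟨c, ?_, .refl⟩
      rw [hx, hy, blk_comp]
      cases t <;> exact h
    · refine ⟨c'', h1, h2.tail ⟨rfl, ?_⟩⟩
      rw [hx, hy, blk_comp]
      cases t <;> exact h
  have key : ∀ n, Pth D i k (ent i k s a) n → ∃ t, Inv n t := by
    intro n hn
    induction hn with
    | refl => exact ⟨s, Or.inl ⟨rfl, .refl⟩⟩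
    | tail _ hst ih =>
      rename_i n n' _
      obtain ⟨t, ht⟩ := ih
      obtain ⟨c0, s', a', o', b', h1, h2, h3, h4, h5⟩ := hst
      by_cases hc : lo i j t ≤ c0 ∧ c0 < lo j k t
      · have hs : St D (lo i j t) (lo j k t) n n' := ⟨c0, s', a', o', b', hc.1, hc.2, h3, h4, h5⟩
        rcases ht with ⟨rfl, h⟩ | ⟨c, hM, h⟩
        · exact ⟨t, Or.inl ⟨rfl, h.tail hs⟩⟩
        · exact ⟨t, Or.inr ⟨c, hM, h.tail hs⟩⟩
      · have hr := hrange _ _ ht
        have hn : n = (j, !t, a') ∧ lo i j (!t) ≤ c0 ∧ c0 < lo j k (!t) := by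
          subst h3
          cases t <;> cases s' <;> simp [lo, ent] at hc hr ⊢ <;> omega
        obtain ⟨hn, h6, h7⟩ := hn
        rw [hn] at ht
        refine ⟨!t, Or.inr ⟨a', hsw _ _ ht, .single ⟨c0, s', a', o', b', h6, h7, ?_, h4, h5⟩⟩⟩
        rw [← hn, h3]
  obtain ⟨t, ht⟩ := key _ h
  rw [mul_r]
  by_cases hto : t = o
  · subst hto
    rcases ht with ⟨rfl, h⟩ | ⟨c, ⟨c', h1, h2⟩, h⟩
    · refine Or.inl ⟨rfl, ?_⟩
      rw [hx, hy, blk_comp]
      cases t <;> exact h
    · refine Or.inr ⟨c', c, h1, h2, ?_⟩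
      rw [hx, hy, blk_comp]
      cases t <;> exact h
  · obtain rfl : o = !t := by cases t <;> cases o <;> simp at hto ⊢
    have hr := hrange _ _ ht
    have hn : ext i k (!t) b = (j, !t, b) ∧ lo i j (!t) = lo j k (!t) := by
      cases t <;> simp [lo, ext] at hr ⊢ <;> omega
    rw [hn.1] at ht
    obtain ⟨c', h1, h2⟩ := hsw _ _ ht
    refine Or.inr ⟨c', b, h1, h2, ?_⟩
    rw [hx, hy, blk_comp, hn.2]
    cases t <;> exact .refl

lemma cut (hij : i ≤ j) (hjk : j ≤ k) : comp D i k = comp D i j * comp D j k := by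
  ext s a o b
  exact ⟨cut_le hij hjk, cut_ge hij hjk⟩

end cut

lemma comp_self (D : ℕ → Dg Q) (i : ℕ) : comp D i i = 1 := by
  ext s a o b
  rw [one_r]
  constructor
  · intro h
    rcases ReflTransGen.cases_head h with h | ⟨_, ⟨k, -, -, -, -, h1, h2, -⟩, -⟩
    · cases s <;> cases o <;> simp_all [ent, ext]
    · omega
  · rintro ⟨rfl, rfl⟩
    cases s <;> exact .refl

lemma comp_succ (D : ℕ → Dg Q) (i : ℕ) : comp D i (i + 1) = D i := by
  ext s a o b
  constructor
  · intro h
    rcases ReflTransGen.cases_head h with h | ⟨_, ⟨k, s', a', o', b', h1, h2, h3, rfl, h5⟩, h⟩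
    · cases s <;> cases o <;> simp [ent, ext] at h
    · obtain rfl : k = i := by omega
      obtain ⟨rfl, rfl⟩ : s = s' ∧ a = a' := by
        cases s <;> cases s' <;> simp_all [ent]
      rcases ReflTransGen.cases_head h with h | ⟨_, ⟨k', s', a', o'', b'', h6, h7, h8, -⟩, -⟩
      · obtain ⟨rfl, rfl⟩ : o = o' ∧ b = b' := by
          cases o <;> cases o' <;> simp_all [ext]
        exact h5
      · obtain rfl : k' = k := by omega
        cases s' <;> cases o' <;> simp [ent, ext] at h8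
  · intro h
    exact .single ⟨i, s, a, o, b, le_rfl, by omega, rfl, rfl, h⟩

/-- Three cells. -/
def s3 (x y z : Dg Q) : ℕ → Dg Q
  | 0 => x
  | 1 => y
  | _ => z

lemma comp_s3 (x y z : Dg Q) : comp (s3 x y z) 0 3 = x * y * z := by
  rw [cut (j := 2) (by omega) (by omega), cut (i := 0) (j := 1) (k := 2) (by omega) (by omega),
    comp_succ _ 0, comp_succ _ 1, comp_succ _ 2]
  rfl

instance : Monoid (Dg Q) where
  mul_assoc x y z := by
    rw [← comp_s3, cut (j := 1) (by omega) (by omega),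
      cut (i := 1) (j := 2) (k := 3) (by omega) (by omega), comp_succ _ 0, comp_succ _ 1,
      comp_succ _ 2]
    rfl
  one_mul x := by
    have := cut (D := fun _ => x) (i := 0) (j := 0) (k := 1) le_rfl (by omega)
    rw [comp_self, comp_succ _ 0] at this
    exact this.symm
  mul_one x := by
    have := cut (D := fun _ => x) (i := 0) (j := 1) (k := 1) (by omega) le_rfl
    rw [comp_self, comp_succ _ 0] at this
    exact this.symm

lemma comp_list (D : ℕ → Dg Q) (l : List (Dg Q)) (i : ℕ)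
    (h : ∀ k (hk : k < l.length), D (i + k) = l[k]) : comp D i (i + l.length) = l.prod := by
  induction l generalizing i with
  | nil => simp [comp_self]
  | cons x l ih =>
    rw [cut (j := i + 1) (by omega) (by simp), comp_succ, List.prod_cons, List.length_cons,
      show i + (l.length + 1) = i + 1 + l.length by omega, ih]
    · exact congrArg (· * l.prod) (h 0 (by simp))
    · intro k hk
      have := h (k + 1) (by simpa using hk)
      rw [show i + 1 + k = i + (k + 1) by omega, this]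
      simp

/-! ### Mirror image, order, determinism -/

/-- Mirror image. -/
def mir (x : Dg Q) : Dg Q := ⟨fun s a o b => x.r (!s) a (!o) b⟩

@[simp] lemma mir_mir (x : Dg Q) : mir (mir x) = x := by
  ext s a o b; simp [mir]

lemma mid_mir {x y : Dg Q} {n n' : Bool × Q} (h : ReflTransGen (Mid x y) n n') :
    ReflTransGen (Mid (mir y) (mir x)) (!n.1, n.2) (!n'.1, n'.2) := by
  induction h with
  | refl => exact .refl
  | tail _ h ih =>
    rename_i m m' _
    obtain ⟨d, e⟩ := m
    obtain ⟨d', e'⟩ := m'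
    obtain ⟨h5, h6⟩ := h
    simp only at h5 h6
    subst h5
    refine ih.tail ⟨rfl, ?_⟩
    cases d <;> exact h6

lemma mir_mul_le {x y : Dg Q} {s : Bool} {a : Q} {o : Bool} {b : Q}
    (h : (x * y).r s a o b) : (mir y * mir x).r (!s) a (!o) b := by
  rw [mul_r] at h ⊢
  rcases h with ⟨rfl, h⟩ | ⟨c, c', h1, h2, h3⟩
  · refine Or.inl ⟨rfl, ?_⟩
    cases o <;> exact h
  · refine Or.inr ⟨c, c', ?_, mid_mir h2, ?_⟩
    · cases s <;> exact h1
    · cases o <;> exact h3

lemma mir_mul (x y : Dg Q) : mir (x * y) = mir y * mir x := by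
  ext s a o b
  constructor
  · intro h
    simpa using mir_mul_le h
  · intro h
    simpa [mir] using mir_mul_le h

/-- Inclusion of diagrams. -/
def Le (x y : Dg Q) : Prop := ∀ s a o b, x.r s a o b → y.r s a o b

lemma mid_mono {x y x' y' : Dg Q} (hx : ∀ a b, x.r true a true b → x'.r true a true b)
    (hy : ∀ a b, y.r false a false b → y'.r false a false b) {n n' : Bool × Q}
    (h : ReflTransGen (Mid x y) n n') : ReflTransGen (Mid x' y') n n' := by
  refine rtg_mono ?_ h
  rintro ⟨d, a⟩ ⟨d', b⟩ ⟨h1, h2⟩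
  refine ⟨h1, ?_⟩
  cases d
  · exact hx _ _ h2
  · exact hy _ _ h2

lemma Le.mul {x y x' y' : Dg Q} (hx : Le x x') (hy : Le y y') : Le (x * y) (x' * y') := by
  have hb : ∀ t, Le (blk x y t) (blk x' y' t) := by rintro (_ | _) <;> assumption
  rintro s a o b (⟨h1, h⟩ | ⟨c, c', h1, h2, h3⟩)
  · exact Or.inl ⟨h1, hb _ _ _ _ _ h⟩
  · exact Or.inr ⟨c, c', hb _ _ _ _ _ h1, mid_mono (hx _ · _) (hy _ · _) h2, hb _ _ _ _ _ h3⟩

lemma Le.rfl {x : Dg Q} : Le x x := fun _ _ _ _ h => h

/-- Deterministic diagrams. -/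
def Det (x : Dg Q) : Prop := ∀ s a o b o' b', x.r s a o b → x.r s a o' b' → o = o' ∧ b = b'

lemma det_one : Det (1 : Dg Q) := by
  rintro s a o b o' b' ⟨rfl, rfl⟩ ⟨rfl, rfl⟩
  exact ⟨rfl, rfl⟩

lemma Det.mul {x y : Dg Q} (hx : Det x) (hy : Det y) : Det (x * y) := by
  have hb : ∀ t, Det (blk x y t) := by rintro (_ | _) <;> assumption
  have hu : Relator.RightUnique (Mid x y) := by
    rintro ⟨d, a⟩ ⟨d1, b1⟩ ⟨d2, b2⟩ ⟨h1, h2⟩ ⟨h3, h4⟩
    simp only at h1 h2 h3 h4
    rw [h1, h3, (hb _ _ _ _ _ _ _ h2 h4).2]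
  have hterm : ∀ {o c b n}, (blk x y o).r (!o) c o b → ReflTransGen (Mid x y) (o, c) n →
      n = (o, c) := by
    intro o c b n h1 h2
    rcases ReflTransGen.cases_head h2 with h | ⟨_, ⟨-, h⟩, -⟩
    · exact h.symm
    · have := (hb _ _ _ _ _ _ _ h1 h).1
      simp at this
  rintro s a o b o' b' (⟨h0, h⟩ | ⟨c, c', h1, h2, h3⟩) (⟨h0', h'⟩ | ⟨d, d', h1', h2', h3'⟩)
  · exact ⟨h0.trans h0'.symm, (hb _ _ _ _ _ _ _ h h').2⟩
  · have := (hb _ _ _ _ _ _ _ h h1').1
    simp at this
  · have := (hb _ _ _ _ _ _ _ h' h1).1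
    simp at this
  · obtain rfl : c = d := (hb _ _ _ _ _ _ _ h1 h1').2
    have : (o, c') = (o', d') := by
      rcases ReflTransGen.total_of_right_unique hu h2 h2' with h | h
      · exact (hterm h3 h).symm
      · exact hterm h3' h
    obtain ⟨rfl, rfl⟩ := Prod.mk.inj this
    exact ⟨rfl, (hb _ _ _ _ _ _ _ h3 h3').2⟩

lemma det_prod {l : List (Dg Q)} (h : ∀ x ∈ l, Det x) : Det l.prod := by
  induction l with
  | nil => exact det_one
  | cons x l ih =>
    rw [List.prod_cons]
    exact (h x (by simp)).mul (ih fun y hy => h y (by simp [hy]))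

end Crest.Agent.H9.TW
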