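import Crest.Agent.H9.TWSys
import Crest.Prelude.Def_TwoWay

/-! Diagrams of two-way automata, and the bounds for one-way liveness. -/

set_option autoImplicit false

namespace Crest.Agent.H9.TW

open Relation Crest.TwoWay

variable {α σ : Type*}

/-- One step inside a cell, on states extended by an accepting sink `none` running right. -/
def st (M : TwoWayNFA α σ) (c : Cell α) : Option σ → Option σ → HeadMove → Prop
  | none, r, m => r = none ∧ m = .moveRight
  | some q, r, m => (q ∈ M.accept ∧ r = none ∧ m = .moveRight) ∨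
      (q ∉ M.accept ∧ ∃ r', r = some r' ∧ (r', m) ∈ M.step q c ∧
        (m = .moveLeft → c ≠ .leftEnd) ∧ (m = .moveRight → c ≠ .rightEnd))

/-- The move leaving a cell on a side. -/
def mv : Bool → HeadMove
  | false => .moveLeft
  | true => .moveRight

/-- The diagram of a cell. -/
def cell (M : TwoWayNFA α σ) (c : Cell α) : Dg (Option σ) :=
  ⟨fun _ p o r => ∃ q, ReflTransGen (fun a b => st M c a b .stay) p q ∧ st M c q r (mv o)⟩

lemma st_unique {M : TwoWayNFA α σ} (hM : M.IsDeterministic) {c : Cell α} {q r r' : Option σ}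
    {m m' : HeadMove} (h : st M c q r m) (h' : st M c q r' m') : r = r' ∧ m = m' := by
  cases q with
  | none => exact ⟨h.1.trans h'.1.symm, h.2.trans h'.2.symm⟩
  | some q =>
    rcases h with ⟨h1, rfl, rfl⟩ | ⟨h1, r, rfl, h2, -⟩ <;>
      rcases h' with ⟨h1', rfl, rfl⟩ | ⟨h1', r', rfl, h2', -⟩
    · exact ⟨rfl, rfl⟩
    · exact absurd h1 h1'
    · exact absurd h1' h1
    · obtain ⟨rfl, rfl⟩ := Prod.mk.inj (hM q c h2 h2')
      exact ⟨rfl, rfl⟩

lemma det_cell {M : TwoWayNFA α σ} (hM : M.IsDeterministic) (c : Cell α) : Det (cell M c) := by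
  rintro s a o b o' b' ⟨q, h1, h2⟩ ⟨q', h1', h2'⟩
  have hterm : ∀ {q r o q'}, st M c q r (mv o) →
      ReflTransGen (fun a b => st M c a b .stay) q q' → q = q' := by
    intro q r o q' h1 h2
    rcases ReflTransGen.cases_head h2 with h | ⟨_, h, -⟩
    · exact h
    · have := (st_unique hM h1 h).2
      cases o <;> simp [mv] at this
  obtain rfl : q = q' := by
    rcases ReflTransGen.total_of_right_unique (r := fun a b => st M c a b .stay)
      (fun _ _ _ h h' => (st_unique hM h h').1) h1 h1' with h | h
    · exact hterm h2 h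
    · exact (hterm h2' h).symm
  obtain ⟨rfl, h⟩ := st_unique hM h2 h2'
  refine ⟨?_, rfl⟩
  cases o <;> cases o' <;> simp [mv] at h ⊢

lemma scan_eq_leftEnd {w : List α} {k : ℕ} : scan w k = .leftEnd ↔ k = 0 := by
  unfold scan
  split_ifs with h
  · simp [h]
  · split <;> simp [h]

lemma scan_eq_rightEnd {w : List α} {k : ℕ} : scan w k = .rightEnd ↔ w.length + 1 ≤ k := by
  unfold scan
  split_ifs with h
  · simp [h]
  · split
    · rename_i a ha
      have := (List.getElem?_eq_some_iff.1 ha).1
      simp; omega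
    · rename_i ha
      have := List.getElem?_eq_none_iff.1 ha
      simp; omega

lemma scan_succ {w : List α} {k : ℕ} (hk : k < w.length) : scan w (k + 1) = .letter w[k] := by
  simp [scan, hk]

lemma accepts_of_path (M : TwoWayNFA α σ) (w : List α)
    (h : (comp (fun k => cell M (scan w k)) 0 (w.length + 2)).r false (some M.start) true none) :
    M.Accepts w := by
  have key : ∀ n, Pth (fun k => cell M (scan w k)) 0 (w.length + 2) (0, true, some M.start) n →
      M.Accepts w ∨ ∃ q pos, n.2.2 = some q ∧ ReflTransGen (M.Step w) (M.start, 0) (q, pos) ∧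
        pos + (if n.2.1 then 0 else 1) = n.1 := by
    intro n hn
    induction hn with
    | refl => exact Or.inr ⟨_, 0, rfl, .refl, rfl⟩
    | tail _ hst ih =>
      rcases ih with ih | ⟨q, pos, h1, h2, h3⟩
      · exact Or.inl ih
      obtain ⟨k, s, a, o, b, -, hk, rfl, rfl, q', h4, h5⟩ := hst
      obtain ⟨rfl, rfl⟩ : a = some q ∧ pos = k := by
        cases s <;> simp_all [ent]
      have h6 : ∃ q'', q' = some q'' ∧ ReflTransGen (M.Step w) (M.start, 0) (q'', pos) := by
        clear h5
        induction h4 with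
        | refl => exact ⟨q, rfl, h2⟩
        | tail _ h7 ih =>
          obtain ⟨q'', rfl, h8⟩ := ih
          rcases h7 with ⟨-, -, h7⟩ | ⟨-, r, rfl, h7, -⟩
          · simp at h7
          · exact ⟨r, rfl, h8.tail ⟨.stay, h7, rfl⟩⟩
      obtain ⟨q'', rfl, h6⟩ := h6
      rcases h5 with ⟨h5, -⟩ | ⟨-, r, rfl, h7, h8, h9⟩
      · exact Or.inl ⟨_, h6, h5⟩
      cases o
      · have h10 : pos ≠ 0 := fun h => h8 rfl (scan_eq_leftEnd.2 h)
        refine Or.inr ⟨r, pos - 1, rfl, h6.tail ⟨.moveLeft, h7, by simp [movePos, h10]⟩, ?_⟩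
        simp [ext]; omega
      · have h10 : ¬w.length + 1 ≤ pos := fun h => h9 rfl (scan_eq_rightEnd.2 h)
        exact Or.inr ⟨r, pos + 1, rfl, h6.tail ⟨.moveRight, h7, by simp [movePos, h10]⟩, rfl⟩
  rcases key _ h with h | ⟨q, pos, h1, -⟩
  · exact h
  · simp [ext] at h1

lemma path_of_accepts (M : TwoWayNFA α σ) (w : List α) (h : M.Accepts w) :
    (comp (fun k => cell M (scan w k)) 0 (w.length + 2)).r false (some M.start) true none := by
  set D := fun k => cell M (scan w k) with hD
  have hdone : ∀ j k, k + j = w.length + 2 →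
      Pth D 0 (w.length + 2) (k, true, none) (w.length + 2, true, none) := by
    intro j
    induction j with
    | zero => rintro k rfl; exact .refl
    | succ j ih =>
      intro k hk
      exact .head ⟨k, false, none, true, none, by omega, by omega, rfl, rfl, none, .refl, rfl, rfl⟩
        (ih (k + 1) (by omega))
  let Mi : σ × ℕ → Prop := fun c => c.2 < w.length + 2 ∧ ∃ s p,
    Pth D 0 (w.length + 2) (0, true, some M.start) (ent c.2 (c.2 + 1) s p) ∧
      ReflTransGen (fun a b => st M (scan w c.2) a b .stay) p (some c.1)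
  have hacc : ∀ c, Mi c → c.1 ∈ M.accept →
      Pth D 0 (w.length + 2) (0, true, some M.start) (w.length + 2, true, none) := by
    rintro ⟨q, k⟩ ⟨h1, s, p, h2, h3⟩ h4
    exact (h2.tail ⟨k, s, p, true, none, by omega, h1, rfl, rfl, some q, h3,
      Or.inl ⟨h4, rfl, rfl⟩⟩).trans (hdone (w.length + 2 - (k + 1)) (k + 1) (by simp at h1; omega))
  have key : ∀ c, ReflTransGen (M.Step w) (M.start, 0) c →
      Pth D 0 (w.length + 2) (0, true, some M.start) (w.length + 2, true, none) ∨ Mi c := by
    intro c hc
    induction hc with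
    | refl => exact Or.inr ⟨by simp, false, _, .refl, .refl⟩
    | tail _ hst ih =>
      rename_i c d _
      rcases ih with ih | ih
      · exact Or.inl ih
      by_cases ha : c.1 ∈ M.accept
      · exact Or.inl (hacc c ih ha)
      obtain ⟨q, k⟩ := c
      obtain ⟨q', k'⟩ := d
      obtain ⟨h1, s, p, h2, h3⟩ := ih
      obtain ⟨m, h4, h5⟩ := hst
      simp only at h1 h2 h3 h4 h5 ha
      refine Or.inr ?_
      cases m with
      | stay =>
        obtain rfl : k = k' := by simpa [movePos] using h5
        exact ⟨h1, s, p, h2, h3.tail (Or.inr ⟨ha, q', rfl, h4, by simp, by simp⟩)⟩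
      | moveLeft =>
        obtain ⟨h6, h7⟩ : k ≠ 0 ∧ k - 1 = k' := by simpa [movePos] using h5
        obtain rfl : k = k' + 1 := by omega
        refine ⟨by simp only; omega, true, some q', h2.tail ⟨k' + 1, s, p, false, some q', by omega,
          h1, rfl, rfl, some q, h3, Or.inr ⟨ha, q', rfl, h4, fun _ h => ?_, by simp [mv]⟩⟩, .refl⟩
        exact h6 (scan_eq_leftEnd.1 h)
      | moveRight =>
        obtain ⟨h6, rfl⟩ : k < w.length + 1 ∧ k + 1 = k' := by simpa [movePos] using h5
        refine ⟨by simp only; omega, false, some q', h2.tail ⟨k, s, p, true, some q', by omega,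
          h1, rfl, rfl, some q, h3, Or.inr ⟨ha, q', rfl, h4, by simp [mv], fun _ h => ?_⟩⟩, .refl⟩
        have := scan_eq_rightEnd.1 h
        omega
  obtain ⟨c, h1, h2⟩ := h
  rcases key c h1 with h | h
  · exact h
  · exact hacc c h h2

/-- The diagram of a word. -/
def beta (M : TwoWayNFA α σ) (w : List α) : Dg (Option σ) :=
  (w.map fun a => cell M (.letter a)).prod

lemma accepts_iff (M : TwoWayNFA α σ) (w : List α) : M.Accepts w ↔
    (cell M .leftEnd * beta M w * cell M .rightEnd).r false (some M.start) true none := by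
  have : comp (fun k => cell M (scan w k)) 0 (w.length + 2)
      = cell M .leftEnd * beta M w * cell M .rightEnd := by
    rw [cut (j := w.length + 1) (by omega) (by omega), cut (j := 1) (k := w.length + 1) (by omega)
      (by omega), comp_succ _ 0, comp_succ _ (w.length + 1), scan_eq_leftEnd.2 rfl,
      scan_eq_rightEnd.2 le_rfl, beta, ← comp_list (fun k => cell M (scan w k)) _ 1]
    · simp [add_comm]
    · intro k hk
      rw [add_comm, scan_succ (by simpa using hk)]
      simp
  rw [← this]
  exact ⟨path_of_accepts M w, accepts_of_path M w⟩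

variable {h : ℕ}

/-- The relation of a letter. -/
def rl (R : Fin h → Fin h → Bool) : Rl (Fin h) := ⟨fun a b => R a b = true⟩

lemma wordRel_eq (w : List (Fin h → Fin h → Bool)) : (w.map rl).prod.r = wordRel w := by
  induction w with
  | nil => rfl
  | cons R w ih =>
    rw [List.map_cons, List.prod_cons]
    funext a b
    rw [wordRel, ← ih]
    rfl

/-- The monoid of behaviours paired with relations. -/
def sys (M : TwoWayNFA (Fin h → Fin h → Bool) σ) : Submonoid (Dg (Option σ) × Rl (Fin h)) where
  carrier := {t | ∃ w, t = (beta M w, (w.map rl).prod)}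
  mul_mem' := by
    rintro _ _ ⟨w, rfl⟩ ⟨w', rfl⟩
    exact ⟨w ++ w', by simp [beta]⟩
  one_mem' := ⟨[], rfl⟩

lemma sys_surj (M : TwoWayNFA (Fin h → Fin h → Bool) σ) (r : Rl (Fin h)) :
    ∃ t ∈ sys M, t.2 = r := by
  classical
  refine ⟨_, ⟨[fun a b => decide (r.r a b)], rfl⟩, ?_⟩
  ext a b
  simp [rl]

lemma sys_det {M : TwoWayNFA (Fin h → Fin h → Bool) σ} (hM : M.IsDeterministic) :
    ∀ t ∈ sys M, Det t.1 := by
  rintro _ ⟨w, rfl⟩
  refine det_prod fun x hx => ?_
  obtain ⟨a, -, rfl⟩ := List.mem_map.1 hx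
  exact det_cell hM _

lemma exists_context (M : TwoWayNFA (Fin h → Fin h → Bool) σ) (u v : Fin h) :
    ∃ l r : Dg (Option σ), ∀ t ∈ sys M, ∃ w, (w ∈ liveness h ↔ t.2.r u v) ∧
      (w ∈ M.language ↔ (l * t.1 * r).r false (some M.start) true none) := by
  let p : Fin h → Fin h → Fin h → Bool := fun c a b => decide (a = c ∧ b = c)
  refine ⟨cell M .leftEnd * cell M (.letter (p u)), cell M (.letter (p v)) * cell M .rightEnd, ?_⟩
  rintro _ ⟨w, rfl⟩
  refine ⟨p u :: (w ++ [p v]), ?_, ?_⟩
  · change (∃ a b, wordRel _ a b) ↔ _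
    rw [← wordRel_eq]
    simp only [List.map_cons, List.map_append, List.prod_cons, List.prod_append, List.map_nil,
      List.prod_nil, mul_one, Rl.mul_r]
    simp [rl, p]
  · change M.Accepts _ ↔ _
    rw [accepts_iff]
    simp [beta, mul_assoc]

theorem lower_compl [Fintype σ] (hh : 2 ≤ h) (M : TwoWayNFA (Fin h → Fin h → Bool) σ)
    (hM : M.language = (liveness h)ᶜ) : 2 ^ ((h - 2) / 63) ≤ 2 * (Fintype.card σ + 1) := by
  have := main_bound (S := sys M) (κ := 2) (sys_surj M) (Or.inl rfl) (fun e he x hx _ hle u v huv => by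
    obtain ⟨l, r, hc⟩ := exists_context M u v
    obtain ⟨w, h1, h2⟩ := hc e he
    obtain ⟨w', h3, h4⟩ := hc x hx
    by_contra hne
    rw [hM] at h2 h4
    exact h4.2 ((Le.rfl.mul hle).mul Le.rfl _ _ _ _ (h2.1 fun h => hne (h1.1 h))) (h3.2 huv))
    (by simpa using hh)
  simpa using this

theorem lower_det [Fintype σ] (hh : 2 ≤ h) (M : TwoWayNFA (Fin h → Fin h → Bool) σ)
    (hd : M.IsDeterministic) (hM : M.language = liveness h) :
    2 ^ ((h - 2) / 15) ≤ 2 * (Fintype.card σ + 1) := by
  have := main_bound (S := sys M) (κ := 1) (sys_surj M) (Or.inr ⟨rfl, sys_det hd⟩)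
    (fun e he x hx hl hle u v huv => by
      obtain ⟨l, r, hc⟩ := exists_context M u v
      obtain ⟨w, h1, h2⟩ := hc e he
      obtain ⟨w', h3, h4⟩ := hc x hx
      rw [hM] at h2 h4
      rw [Le.eq_of_det hl.fst hle (sys_det hd x hx)] at h4
      exact h1.1 (h2.2 (h4.1 (h3.2 huv))))
    (by simpa using hh)
  simpa using this

/-- The one-way automaton for liveness. -/
def upper (h N : ℕ) (hN : h + 2 ≤ N) : TwoWayNFA (Fin h → Fin h → Bool) (Fin N) where
  start := ⟨h, by omega⟩
  accept := {q | q.val = h + 1}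
  step q c := {x | match c with
    | .leftEnd => q.val = h ∧ x.1.val < h ∧ x.2 = .moveRight
    | .letter R => ∃ a b : Fin h, q.val = a ∧ x.1.val = b ∧ R a b = true ∧ x.2 = .moveRight
    | .rightEnd => q.val < h ∧ x.1.val = h + 1 ∧ x.2 = .stay}

lemma upper_noLeft (h N : ℕ) (hN : h + 2 ≤ N) : (upper h N hN).NoLeftMoves := by
  intro q c p hp
  cases c with
  | leftEnd => rw [hp.2.2]; simp
  | letter R => obtain ⟨a, b, -, -, -, h⟩ := hp; rw [h]; simp
  | rightEnd => rw [hp.2.2]; simp

lemma upper_language (h N : ℕ) (hN : h + 2 ≤ N) : (upper h N hN).language = liveness h := by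
  ext w
  constructor
  · rintro ⟨c, h1, h2⟩
    let Good : Fin N × ℕ → Prop := fun c => c.1.val = h + 1 ∨ (c.1.val = h ∧ w ∈ liveness h) ∨
      ∃ a b : Fin h, c.1.val = a ∧ wordRel (w.drop (c.2 - 1)) a b
    have key : ∀ d, ReflTransGen ((upper h N hN).Step w) d c → Good d := by
      intro d hd
      induction hd using ReflTransGen.head_induction_on with
      | refl => exact Or.inl h2
      | head hst _ ih =>
        rename_i d d' _
        obtain ⟨q, k⟩ := d
        obtain ⟨q', k'⟩ := d'
        obtain ⟨m, h3, h4⟩ := hst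
        simp only at h3 h4
        rcases Nat.eq_zero_or_pos k with rfl | hk
        · obtain ⟨h5, h6, h7⟩ := h3
          simp only at h5 h6 h7
          subst h7
          obtain rfl : 1 = k' := by simpa [movePos] using h4
          rcases ih with ih | ⟨ih, -⟩ | ⟨a, b, -, ih⟩
          · simp only at ih; omega
          · simp only at ih; omega
          · exact Or.inr (Or.inl ⟨h5, a, b, ih⟩)
        obtain ⟨k, rfl⟩ : ∃ j, k = j + 1 := ⟨k - 1, by omega⟩
        by_cases hk' : k < w.length
        · rw [scan_succ hk'] at h3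
          obtain ⟨a, b, h5, h6, h7, h8⟩ := h3
          simp only at h5 h6 h8
          subst h8
          obtain ⟨-, rfl⟩ : k < w.length ∧ k + 1 + 1 = k' := by simpa [movePos] using h4
          have := b.2
          rcases ih with ih | ⟨ih, -⟩ | ⟨a', b', h9, ih⟩
          · simp only at ih; omega
          · simp only at ih; omega
          · obtain rfl : b = a' := Fin.ext (h6.symm.trans h9)
            refine Or.inr (Or.inr ⟨a, b', h5, ?_⟩)
            simp only [Nat.add_sub_cancel] at ih ⊢
            rw [List.drop_eq_getElem_cons hk']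
            exact ⟨b, h7, ih⟩
        · rw [scan_eq_rightEnd.2 (by omega)] at h3
          refine Or.inr (Or.inr ⟨⟨q, h3.1⟩, ⟨q, h3.1⟩, rfl, ?_⟩)
          simp only [Nat.add_sub_cancel]
          rw [List.drop_eq_nil_of_le (by omega)]
          rfl
    rcases key _ h1 with h3 | ⟨-, h3⟩ | ⟨a, -, h3, -⟩
    · simp [upper] at h3
    · exact h3
    · have := a.2
      simp only [upper] at h3
      omega
  · rintro ⟨a, b, hab⟩
    have key : ∀ (suf pre : List (Fin h → Fin h → Bool)) (a : Fin h), w = pre ++ suf →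
        wordRel suf a b → ReflTransGen ((upper h N hN).Step w)
          (⟨a, by omega⟩, pre.length + 1) (⟨h + 1, by omega⟩, w.length + 1) := by
      intro suf
      induction suf with
      | nil =>
        intro pre a hw _
        obtain rfl : w = pre := by simpa using hw
        refine .single ⟨.stay, ?_, rfl⟩
        rw [scan_eq_rightEnd.2 le_rfl]
        exact ⟨a.2, rfl, rfl⟩
      | cons R suf ih =>
        rintro pre a hw ⟨c, h1, h2⟩
        have hlt : pre.length < w.length := by simp [hw]
        have h3 := ih (pre ++ [R]) c (by simp [hw]) h2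
        rw [List.length_append, List.length_singleton] at h3
        refine .head ⟨.moveRight, ?_, by simp [movePos, hlt]⟩ h3
        rw [scan_succ hlt]
        have h4 : w[pre.length] = R := by
          subst hw
          exact List.getElem_of_append rfl rfl
        exact ⟨a, c, rfl, rfl, h4 ▸ h1, rfl⟩
    refine ⟨_, .head ⟨.moveRight, ?_, by simp [movePos]⟩ (key w [] a rfl hab), rfl⟩
    exact ⟨rfl, a.2, rfl⟩

end Crest.Agent.H9.TW
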