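import Crest.Agent.H9.TWCls

/-! The halving argument for a monoid of diagrams lying over all binary relations. -/

set_option autoImplicit false

namespace Crest.Agent.H9.TW

/-- Binary relations under composition. -/
@[ext] structure Rl (ι : Type*) where
  r : ι → ι → Prop

variable {ι : Type*}

instance : Monoid (Rl ι) where
  mul x y := ⟨fun a c => ∃ b, x.r a b ∧ y.r b c⟩
  one := ⟨fun a b => a = b⟩
  mul_assoc x y z := Rl.ext <| funext₂ fun _ _ => propext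
    ⟨fun ⟨c, ⟨b, h1, h2⟩, h3⟩ => ⟨b, h1, c, h2, h3⟩, fun ⟨b, h1, c, h2, h3⟩ => ⟨c, ⟨b, h1, h2⟩, h3⟩⟩
  one_mul x := Rl.ext <| funext₂ fun a _ => propext
    ⟨fun ⟨_, h1, h2⟩ => h1 ▸ h2, fun h => ⟨a, rfl, h⟩⟩
  mul_one x := Rl.ext <| funext₂ fun _ b => propext
    ⟨fun ⟨_, h1, h2⟩ => h2 ▸ h1, fun h => ⟨b, h, rfl⟩⟩

lemma Rl.mul_r (x y : Rl ι) (a c : ι) : (x * y).r a c ↔ ∃ b, x.r a b ∧ y.r b c := Iff.rfl

lemma Rl.one_r (a b : ι) : (1 : Rl ι).r a b ↔ a = b := Iff.rfl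

instance [Finite ι] : Finite (Rl ι) :=
  Finite.of_injective (fun x : Rl ι => x.r) fun _ _ h => Rl.ext h

lemma exists_idem_pow {M : Type*} [Monoid M] [Finite M] (x : M) :
    ∃ n, x ^ (n + 1) * x ^ (n + 1) = x ^ (n + 1) := by
  obtain ⟨i, p, h⟩ : ∃ i p, x ^ (i + (p + 1)) = x ^ i := by
    obtain ⟨i, j, hij, h⟩ := Finite.exists_ne_map_eq_of_infinite (fun n : ℕ => x ^ n)
    rcases lt_or_gt_of_ne hij with h' | h'
    · exact ⟨i, j - i - 1, by rw [show i + (j - i - 1 + 1) = j by omega]; exact h.symm⟩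
    · exact ⟨j, i - j - 1, by rw [show j + (i - j - 1 + 1) = i by omega]; exact h⟩
  have h1 : ∀ c, x ^ (i + c * (p + 1)) = x ^ i := by
    intro c
    induction c with
    | zero => simp
    | succ c ih =>
      rw [show i + (c + 1) * (p + 1) = i + (p + 1) + c * (p + 1) by ring, pow_add, h, ← pow_add, ih]
  refine ⟨i * (p + 1) + p, ?_⟩
  rw [← pow_add, show i * (p + 1) + p + 1 + (i * (p + 1) + p + 1)
    = (i * p + p + 1) + (i + (i + 1) * (p + 1)) by ring, pow_add, h1, ← pow_add]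
  congr 1
  ring

section loc

variable {M : Type*} [Monoid M] {e x y : M}

lemma Loc.mul (hx : Loc e x) (hy : Loc e y) : Loc e (x * y) :=
  ⟨by rw [← mul_assoc, hx.1], by rw [mul_assoc, hy.2]⟩

lemma Loc.pow (hx : Loc e x) (n : ℕ) : Loc e (x ^ (n + 1)) := by
  induction n with
  | zero => simpa using hx
  | succ n ih => rw [pow_succ]; exact ih.mul hx

lemma Loc.sandwich (he : e * e = e) (x : M) : Loc e (e * x * e) :=
  ⟨by rw [← mul_assoc, ← mul_assoc, he], by rw [mul_assoc, he]⟩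

lemma Loc.trans (hx : Loc e x) (hy : Loc x y) : Loc e y :=
  ⟨by rw [← hy.1, ← mul_assoc, hx.1], by rw [← hy.2, mul_assoc, hx.2]⟩

lemma Loc.fst {N : Type*} [Monoid N] {e x : M × N} (h : Loc e x) : Loc e.1 x.1 :=
  ⟨congrArg Prod.fst h.1, congrArg Prod.fst h.2⟩

end loc

/-- `t` respects the levels and restricts to `r` on the active level `1`. -/
def Lifts (lev : ι → ℕ) (t : Rl ι) (r : ι → ι → Prop) : Prop :=
  (∀ i j, t.r i j → lev i ≤ lev j) ∧ ∀ i j, lev i = 1 → lev j = 1 → (t.r i j ↔ r i j)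

lemma Lifts.mul {lev : ι → ℕ} {t t' : Rl ι} {r r' r'' : ι → ι → Prop} (h : Lifts lev t r)
    (h' : Lifts lev t' r')
    (hr : ∀ i k, lev i = 1 → lev k = 1 → ((∃ j, lev j = 1 ∧ r i j ∧ r' j k) ↔ r'' i k)) :
    Lifts lev (t * t') r'' := by
  refine ⟨fun i k ⟨j, h1, h2⟩ => (h.1 _ _ h1).trans (h'.1 _ _ h2), fun i k hi hk => ?_⟩
  rw [← hr i k hi hk, Rl.mul_r]
  constructor
  · rintro ⟨j, h1, h2⟩
    have hj : lev j = 1 := by
      have := h.1 _ _ h1
      have := h'.1 _ _ h2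
      omega
    exact ⟨j, hj, (h.2 _ _ hi hj).1 h1, (h'.2 _ _ hj hk).1 h2⟩
  · rintro ⟨j, hj, h1, h2⟩
    exact ⟨j, (h.2 _ _ hi hj).2 h1, (h'.2 _ _ hj hk).2 h2⟩

lemma Lifts.pow {lev : ι → ℕ} {t : Rl ι} {r : ι → ι → Prop} (h : Lifts lev t r)
    (hr : ∀ i k, lev i = 1 → lev k = 1 → ((∃ j, lev j = 1 ∧ r i j ∧ r j k) ↔ r i k)) (n : ℕ) :
    Lifts lev (t ^ (n + 1)) r := by
  induction n with
  | zero => simpa using h
  | succ n ih => rw [pow_succ]; exact ih.mul h hr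

lemma Lifts.eq_mul {lev : ι → ℕ} {t t' : Rl ι} {r : ι → ι → Prop} (h : Lifts lev t Eq)
    (h' : Lifts lev t' r) : Lifts lev (t * t') r :=
  h.mul h' fun i _ hi _ => ⟨fun ⟨_, _, h1, h2⟩ => h1 ▸ h2, fun h => ⟨i, hi, rfl, h⟩⟩

lemma Lifts.mul_eq {lev : ι → ℕ} {t t' : Rl ι} {r : ι → ι → Prop} (h : Lifts lev t r)
    (h' : Lifts lev t' Eq) : Lifts lev (t * t') r :=
  h.mul h' fun _ k _ hk => ⟨fun ⟨_, _, h1, h2⟩ => h2 ▸ h1, fun h => ⟨k, hk, h, rfl⟩⟩

lemma Lifts.one (lev : ι → ℕ) : Lifts lev 1 Eq :=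
  ⟨fun _ _ h => by rw [(Rl.one_r _ _).1 h], fun _ _ _ _ => Iff.rfl⟩

lemma Lifts.pow_eq {lev : ι → ℕ} {t : Rl ι} (h : Lifts lev t Eq) (n : ℕ) :
    Lifts lev (t ^ n) Eq := by
  induction n with
  | zero => simpa using Lifts.one lev
  | succ n ih => rw [pow_succ]; exact ih.mul_eq h

lemma Lifts.conj {lev : ι → ℕ} {s t s' : Rl ι} {r : ι → ι → Prop} (σ : Equiv.Perm ι)
    (hσ : ∀ i, lev (σ i) = 1 ↔ lev i = 1) (hs : Lifts lev s fun i j => σ i = j)
    (ht : Lifts lev t r) (hs' : Lifts lev s' fun i j => i = σ j) :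
    Lifts lev (s * t * s') fun i j => r (σ i) (σ j) := by
  refine (hs.mul (r'' := fun i j => r (σ i) j) ht fun i k hi _ => ?_).mul hs' fun i k _ hk => ?_
  · exact ⟨fun ⟨_, _, h1, h2⟩ => h1 ▸ h2, fun h => ⟨σ i, (hσ i).2 hi, rfl, h⟩⟩
  · exact ⟨fun ⟨_, _, h1, h2⟩ => h2 ▸ h1, fun h => ⟨σ k, (hσ k).2 hk, h, rfl⟩⟩

lemma Lifts.congr {lev : ι → ℕ} {t : Rl ι} {r r' : ι → ι → Prop} (h : Lifts lev t r)
    (hr : ∀ i k, lev i = 1 → lev k = 1 → (r i k ↔ r' i k)) : Lifts lev t r' :=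
  ⟨h.1, fun i k hi hk => (h.2 i k hi hk).trans (hr i k hi hk)⟩

lemma exists_perm [DecidableEq ι] {lev : ι → ℕ} {a b u v : ι} (ha : lev a = 1) (hb : lev b = 1)
    (hu : lev u = 1) (hv : lev v = 1) (hab : a ≠ b) (huv : u ≠ v) :
    ∃ σ : Equiv.Perm ι, (∀ i, lev (σ i) = 1 ↔ lev i = 1) ∧ σ a = u ∧ σ b = v := by
  have hsw : ∀ c d, lev c = 1 → lev d = 1 → ∀ i, lev (Equiv.swap c d i) = 1 ↔ lev i = 1 := by
    intro c d hc hd i
    rw [Equiv.swap_apply_def]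
    split_ifs with h1 h2
    · simp [h1, hc, hd]
    · simp [h2, hc, hd]
    · rfl
  have hb' := (hsw a u ha hu b).2 hb
  have hne : u ≠ Equiv.swap a u b := by
    intro h
    apply hab
    apply (Equiv.swap a u).injective
    rw [← h, Equiv.swap_apply_left]
  refine ⟨(Equiv.swap a u).trans (Equiv.swap (Equiv.swap a u b) v), fun i => ?_, ?_, ?_⟩
  · rw [Equiv.trans_apply, hsw _ _ hb' hv, hsw _ _ ha hu]
  · rw [Equiv.trans_apply, Equiv.swap_apply_left, Equiv.swap_apply_of_ne_of_ne hne huv]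
  · rw [Equiv.trans_apply, Equiv.swap_apply_left]

variable {Q : Type*} [Fintype Q] [Fintype ι] [DecidableEq ι]

/-- The invariant of the halving argument. -/
def Inv (S : Submonoid (Dg Q × Rl ι)) (lev : ι → ℕ) (z : ℕ) : Prop :=
  ∃ e ∈ S, ∃ x ∈ S, ∃ u v, ∃ Z : Finset (Bool × Q), lev u = 1 ∧ lev v = 1 ∧ u ≠ v ∧ e * e = e ∧
    Loc e x ∧ Lifts lev e.2 Eq ∧ Lifts lev x.2 (fun i j => i = j ∨ (i = u ∧ j = v)) ∧
    Z.card ≤ z ∧ Full e.1 x.1 Z

variable {S : Submonoid (Dg Q × Rl ι)} {κ : ℕ}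

omit [Fintype Q] [Fintype ι] [DecidableEq ι] in
lemma exists_letter (hsurj : ∀ r : Rl ι, ∃ t ∈ S, t.2 = r) (lev : ι → ℕ) (r : ι → ι → Prop) :
    ∃ t ∈ S, Lifts lev t.2 r := by
  obtain ⟨t, ht, h⟩ := hsurj ⟨fun i j => lev i = 1 ∧ lev j = 1 ∧ r i j⟩
  refine ⟨t, ht, ?_⟩
  rw [h]
  exact ⟨fun i j h => by rw [h.1, h.2.1], fun i j hi hj => by simp [hi, hj]⟩

lemma normalise (hsurj : ∀ r : Rl ι, ∃ t ∈ S, t.2 = r)
    (hκ : κ = 2 ∨ (κ = 1 ∧ ∀ t ∈ S, Det t.1)) {lev : ι → ℕ} {z : ℕ} (h : Inv S lev z) :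
    ∃ ε ∈ S, ε * ε = ε ∧ Lifts lev ε.2 Eq ∧ ∀ a b, lev a = 1 → lev b = 1 → a ≠ b →
      ∃ x ∈ S, ∃ Z : Finset (Bool × Q), Loc ε x ∧
        Lifts lev x.2 (fun i j => i = j ∨ (i = a ∧ j = b)) ∧ Z.card ≤ κ * z ∧ Full ε.1 x.1 Z := by
  obtain ⟨e, heS, x, hxS, u, v, Z, hu, hv, huv, he, hx, hle, hlx, hZ, hF⟩ := h
  obtain ⟨ε, ⟨hεS, hε, hlε⟩, hmin⟩ := Set.exists_min_image
    {ε : Dg Q × Rl ι | ε ∈ S ∧ ε * ε = ε ∧ Lifts lev ε.2 Eq} (fun ε => (Cls ε.1).card)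
    (Set.toFinite _) ⟨e, heS, he, hle⟩
  refine ⟨ε, hεS, hε, hlε, fun a b ha hb hab => ?_⟩
  obtain ⟨σ, hσ, hσa, hσb⟩ := exists_perm ha hb hu hv hab huv
  obtain ⟨s, hsS, hs⟩ := exists_letter hsurj lev fun i j => σ i = j
  obtain ⟨s', hs'S, hs'⟩ := exists_letter hsurj lev fun i j => i = σ j
  set y := ε * (s * e * s') * ε with hy
  have hyS : y ∈ S := S.mul_mem (S.mul_mem hεS (S.mul_mem (S.mul_mem hsS heS) hs'S)) hεS
  have hly : Lifts lev y.2 Eq :=
    (hlε.eq_mul ((Lifts.conj σ hσ hs hle hs').congr fun i k _ _ => σ.apply_eq_iff_eq)).mul_eq hlε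
  have hεy : Loc ε y := Loc.sandwich hε _
  obtain ⟨n, hn⟩ := exists_idem_pow y
  have hf : y ^ (n + 1) = (ε * s) * e * (s' * ε * y ^ n) := by
    rw [pow_succ', hy]; simp only [mul_assoc]
  have hrig := rigid (congrArg Prod.fst hε) (congrArg Prod.fst hn) (hεy.pow n).fst
    (hmin _ ⟨S.pow_mem hyS _, hn, hly.pow_eq _⟩)
  have hfS := S.pow_mem hyS (n + 1)
  rw [hf] at hrig hfS
  obtain ⟨Z', hZ', hZ''⟩ := skeleton (u := (ε * s).1) (v := (s' * ε * y ^ n).1)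
    (congrArg Prod.fst he) hrig.1 hrig.2
    (hκ.imp_right fun h => ⟨h.1, h.2 _ hfS⟩) Z
  refine ⟨(ε * s) * x * (s' * ε * y ^ n), S.mul_mem (S.mul_mem (S.mul_mem hεS hsS) hxS)
    (S.mul_mem (S.mul_mem hs'S hεS) (S.pow_mem hyS n)), Z', ⟨?_, ?_⟩, ?_,
    hZ'.trans (Nat.mul_le_mul_left _ hZ), hZ'' _ hx.fst hF⟩
  · simp only [← mul_assoc, hε]
  · have : ε * y ^ n * ε = ε * y ^ n := by
      cases n with
      | zero => simpa using hε
      | succ n => rw [mul_assoc, (hεy.pow n).2]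
    simp only [mul_assoc] at this ⊢
    rw [this]
  · have h1 : (ε * s) * x * (s' * ε * y ^ n) = ε * (s * x * s') * ε * y ^ n := by
      simp only [mul_assoc]
    rw [h1]
    refine ((hlε.eq_mul ((Lifts.conj σ hσ hs hlx hs').congr fun i k _ _ => ?_)).mul_eq
      hlε).mul_eq (hly.pow_eq n)
    rw [← hσa, ← hσb]
    simp only [σ.apply_eq_iff_eq]

/-- The identity away from `q` together with a set of extra edges. -/
def Gr (q : ι) (E : Finset (ι × ι)) (i j : ι) : Prop := (i = j ∧ i ≠ q) ∨ (i, j) ∈ E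

omit [Fintype ι] in
lemma Lifts.gr_mul {lev : ι → ℕ} {q : ι} {P T : Finset ι} (hPT : Disjoint P T) (hqP : q ∉ P)
    (hqT : q ∉ T) {E E' : Finset (ι × ι)} (hE : E ⊆ P ×ˢ T) (hE' : E' ⊆ P ×ˢ T) {t t' : Rl ι}
    (h : Lifts lev t (Gr q E)) (h' : Lifts lev t' (Gr q E')) :
    Lifts lev (t * t') (Gr q (E ∪ E')) := by
  refine h.mul h' fun i k hi hk => ⟨?_, ?_⟩
  · rintro ⟨j, -, ⟨rfl, h1⟩ | h1, ⟨rfl, h2⟩ | h2⟩
    · exact Or.inl ⟨rfl, h1⟩
    · exact Or.inr (Finset.mem_union_right _ h2)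
    · exact Or.inr (Finset.mem_union_left _ h1)
    · exact absurd (Finset.mem_product.1 (hE h1)).2
        (Finset.disjoint_left.1 hPT (Finset.mem_product.1 (hE' h2)).1)
  · rintro (⟨rfl, h1⟩ | h1)
    · exact ⟨i, hi, Or.inl ⟨rfl, h1⟩, Or.inl ⟨rfl, h1⟩⟩
    · rcases Finset.mem_union.1 h1 with h1 | h1
      · refine ⟨k, hk, Or.inr h1, Or.inl ⟨rfl, ?_⟩⟩
        rintro rfl
        exact hqT (Finset.mem_product.1 (hE h1)).2
      · refine ⟨i, hi, Or.inl ⟨rfl, ?_⟩, Or.inr h1⟩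
        rintro rfl
        exact hqP (Finset.mem_product.1 (hE' h1)).1

omit [Fintype ι] in
lemma Lifts.gr_pow {lev : ι → ℕ} {q : ι} {P T : Finset ι} (hPT : Disjoint P T) (hqP : q ∉ P)
    (hqT : q ∉ T) {E : Finset (ι × ι)} (hE : E ⊆ P ×ˢ T) {t : Rl ι}
    (h : Lifts lev t (Gr q E)) (n : ℕ) : Lifts lev (t ^ (n + 1)) (Gr q E) := by
  induction n with
  | zero => simpa using h
  | succ n ih =>
    rw [pow_succ]
    simpa using Lifts.gr_mul hPT hqP hqT hE hE ih h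

lemma grid (hsurj : ∀ r : Rl ι, ∃ t ∈ S, t.2 = r)
    (hκ : κ = 2 ∨ (κ = 1 ∧ ∀ t ∈ S, Det t.1)) {lev : ι → ℕ} {z : ℕ} (h : Inv S lev z)
    {q : ι} {P T : Finset ι} (hq : lev q = 1) (hP : ∀ a ∈ P, lev a = 1) (hT : ∀ a ∈ T, lev a = 1)
    (hPT : Disjoint P T) (hqP : q ∉ P) (hqT : q ∉ T) :
    ∃ W ∈ S, ∃ U : Finset (Bool × Q), W * W = W ∧ Lifts lev W.2 (Gr q ∅) ∧
      U.card ≤ κ * ((P.card + T.card) * (κ * z)) ∧ ∀ a ∈ P, ∀ p ∈ T, ∃ L ∈ S, Loc W L ∧
        Lifts lev L.2 (Gr q {(a, p)}) ∧ Full W.1 L.1 U := by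
  classical
  obtain ⟨ε, hεS, hε, hlε, hx⟩ := normalise hsurj hκ h
  choose! x hxS Z hxl hxr hZ hF using hx
  obtain ⟨l, hlS, hl⟩ := exists_letter hsurj lev (Gr q ∅)
  obtain ⟨n, hn⟩ := exists_idem_pow (ε * l * ε)
  set W := (ε * l * ε) ^ (n + 1) with hW
  have hWS : W ∈ S := S.pow_mem (S.mul_mem (S.mul_mem hεS hlS) hεS) _
  have hεW : Loc ε W := (Loc.sandwich hε l).pow n
  have hlW : Lifts lev W.2 (Gr q ∅) :=
    Lifts.gr_pow hPT hqP hqT (Finset.empty_subset _) ((hlε.eq_mul hl).mul_eq hlε) n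
  have hWW : W.1 * ε.1 * W.1 = W.1 := by
    rw [hεW.fst.2]; exact congrArg Prod.fst hn
  let Zall := P.biUnion (fun a => Z a q) ∪ T.biUnion fun p => Z q p
  have hPq : ∀ a ∈ P, a ≠ q := fun a ha h => hqP (h ▸ ha)
  have hTq : ∀ p ∈ T, q ≠ p := fun p hp h => hqT (h ▸ hp)
  have hZall : Zall.card ≤ (P.card + T.card) * (κ * z) := by
    refine (Finset.card_union_le _ _).trans ?_
    rw [add_mul]
    exact add_le_add
      (Finset.card_biUnion_le_card_mul _ _ _ fun a ha => hZ a q (hP a ha) hq (hPq a ha))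
      (Finset.card_biUnion_le_card_mul _ _ _ fun p hp => hZ q p hq (hT p hp) (hTq p hp))
  obtain ⟨U, hU, hU'⟩ := skeleton (u := W.1) (v := W.1) (e' := W.1) (congrArg Prod.fst hε)
    (by rw [hWW]; exact full_self _ _) (by rw [hWW]; exact nonMut_self _)
    (hκ.imp_right fun h => ⟨h.1, by rw [hWW]; exact h.2 _ hWS⟩) Zall
  refine ⟨W, hWS, U, hn, hlW, hU.trans (Nat.mul_le_mul_left _ hZall), fun a ha p hp => ?_⟩
  have a1 := hP a ha
  have a2 := hPq a ha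
  have p1 := hT p hp
  have p2 := hTq p hp
  refine ⟨W * (x a q * x q p) * W,
    S.mul_mem (S.mul_mem hWS (S.mul_mem (hxS a q a1 hq a2) (hxS q p hq p1 p2))) hWS,
    Loc.sandwich hn _, ?_, hU' _ ((hxl a q a1 hq a2).mul (hxl q p hq p1 p2)).fst ?_⟩
  · have k1 := (hxr a q a1 hq a2).mul (hxr q p hq p1 p2)
      (r'' := fun i k => i = k ∨ (i = q ∧ k = p) ∨ (i = a ∧ k = q) ∨ (i = a ∧ k = p))
      (fun i k hi hk => ⟨by
        rintro ⟨j, -, rfl | ⟨rfl, rfl⟩, rfl | ⟨h1, rfl⟩⟩ <;> simp_all, by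
        rintro (rfl | ⟨rfl, rfl⟩ | ⟨rfl, rfl⟩ | ⟨rfl, rfl⟩)
        · exact ⟨i, hi, Or.inl rfl, Or.inl rfl⟩
        · exact ⟨i, hi, Or.inl rfl, Or.inr ⟨rfl, rfl⟩⟩
        · exact ⟨k, hk, Or.inr ⟨rfl, rfl⟩, Or.inl rfl⟩
        · exact ⟨q, hq, Or.inr ⟨rfl, rfl⟩, Or.inr ⟨rfl, rfl⟩⟩⟩)
    have k2 := hlW.mul k1
      (r'' := fun i k => (i = k ∧ i ≠ q) ∨ (i = a ∧ k = q) ∨ (i = a ∧ k = p))
      (fun i k hi hk => ⟨by
        rintro ⟨j, -, ⟨rfl, h0⟩ | h0, h1⟩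
        · rcases h1 with rfl | ⟨rfl, rfl⟩ | h1
          · exact Or.inl ⟨rfl, h0⟩
          · exact absurd rfl h0
          · exact Or.inr h1
        · simp at h0, by
        rintro (⟨rfl, h0⟩ | ⟨rfl, rfl⟩ | ⟨rfl, rfl⟩)
        · exact ⟨i, hi, Or.inl ⟨rfl, h0⟩, Or.inl rfl⟩
        · exact ⟨i, hi, Or.inl ⟨rfl, a2⟩, Or.inr (Or.inr (Or.inl ⟨rfl, rfl⟩))⟩
        · exact ⟨i, hi, Or.inl ⟨rfl, a2⟩, Or.inr (Or.inr (Or.inr ⟨rfl, rfl⟩))⟩⟩)
    refine k2.mul hlW fun i k hi hk => ⟨?_, ?_⟩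
    · rintro ⟨j, -, h1, ⟨rfl, h0⟩ | h0⟩
      · rcases h1 with h1 | ⟨rfl, rfl⟩ | ⟨rfl, rfl⟩
        · exact Or.inl h1
        · exact absurd rfl h0
        · exact Or.inr (by simp)
      · simp at h0
    · rintro (⟨rfl, h0⟩ | h0)
      · exact ⟨i, hi, Or.inl ⟨rfl, h0⟩, Or.inl ⟨rfl, h0⟩⟩
      · obtain ⟨rfl, rfl⟩ := Prod.mk.inj (Finset.mem_singleton.1 h0)
        exact ⟨k, hk, Or.inr (Or.inr ⟨rfl, rfl⟩), Or.inl ⟨rfl, p2.symm⟩⟩
  · refine Full.mul (hxl a q a1 hq a2).fst (hxl q p hq p1 p2).fst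
      ((hF a q a1 hq a2).mono ?_) ((hF q p hq p1 p2).mono ?_)
    · exact (Finset.subset_biUnion_of_mem (fun a => Z a q) ha).trans Finset.subset_union_left
    · exact (Finset.subset_biUnion_of_mem (fun p => Z q p) hp).trans Finset.subset_union_right

/-- The new levels after fixing the edge `(a, p)`. -/
def newLev (lev : ι → ℕ) (q : ι) (P T : Finset ι) (a p : ι) (i : ι) : ℕ :=
  if i = q ∨ i ∈ P.erase a then 0 else if i ∈ T.erase p then 2 else lev i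

omit [Fintype ι] in
lemma Lifts.newLev {lev : ι → ℕ} {q : ι} {P T : Finset ι} (hq : lev q = 1)
    (hP : ∀ a ∈ P, lev a = 1) (hT : ∀ a ∈ T, lev a = 1) (hPT : Disjoint P T) (hqT : q ∉ T)
    {E : Finset (ι × ι)} (hE : E ⊆ P ×ˢ T) {t : Rl ι} (h : Lifts lev t (Gr q E)) (a p : ι) :
    Lifts (newLev lev q P T a p) t fun i j => i = j ∨ (i = a ∧ j = p ∧ (a, p) ∈ E) := by
  have hcase : ∀ i, lev i ≠ 1 → TW.newLev lev q P T a p i = lev i := by
    intro i hi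
    have h1 : i ≠ q := fun h => hi (h ▸ hq)
    have h2 : i ∉ P := fun h => hi (hP i h)
    have h3 : i ∉ T := fun h => hi (hT i h)
    simp [TW.newLev, h1, h2, h3]
  have hle : ∀ i, lev i = 1 → TW.newLev lev q P T a p i ≤ 2 := by
    intro i hi
    unfold TW.newLev
    split_ifs <;> omega
  have hone : ∀ i, TW.newLev lev q P T a p i = 1 →
      lev i = 1 ∧ i ≠ q ∧ (i ∈ P → i = a) ∧ (i ∈ T → i = p) := by
    intro i hi
    unfold TW.newLev at hi
    by_cases h1 : i = q ∨ i ∈ P.erase a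
    · rw [if_pos h1] at hi; omega
    by_cases h2 : i ∈ T.erase p
    · rw [if_neg h1, if_pos h2] at hi; omega
    rw [if_neg h1, if_neg h2] at hi
    simp only [not_or, Finset.mem_erase, not_and] at h1 h2
    exact ⟨hi, h1.1, fun h => by_contra fun h' => h1.2 h' h, fun h => by_contra fun h' => h2 h' h⟩
  constructor
  · intro i j hij
    have h0 := h.1 i j hij
    by_cases hi : lev i = 1
    · by_cases hj : lev j = 1
      · rcases (h.2 i j hi hj).1 hij with ⟨rfl, -⟩ | h1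
        · exact le_rfl
        · obtain ⟨h2, h3⟩ := Finset.mem_product.1 (hE h1)
          have h4 : i ∉ T := Finset.disjoint_left.1 hPT h2
          have h5 : j ∉ P := Finset.disjoint_right.1 hPT h3
          have h6 : j ≠ q := fun h => hqT (h ▸ h3)
          have h7 : TW.newLev lev q P T a p i ≤ 1 := by
            simp only [TW.newLev, Finset.mem_erase, h4, and_false, if_false]
            split_ifs <;> omega
          have h8 : 1 ≤ TW.newLev lev q P T a p j := by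
            simp only [TW.newLev, Finset.mem_erase, h5, h6, and_false, or_false, if_false]
            split_ifs <;> omega
          omega
      · have := hle i hi
        rw [hcase j hj]
        omega
    · rw [hcase i hi]
      by_cases hj : lev j = 1
      · omega
      · rw [hcase j hj]; exact h0
  · intro i j hi hj
    obtain ⟨i1, i2, i3, -⟩ := hone i hi
    obtain ⟨j1, -, -, j4⟩ := hone j hj
    rw [h.2 i j i1 j1]
    constructor
    · rintro (⟨h1, -⟩ | h1)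
      · exact Or.inl h1
      · obtain ⟨h2, h3⟩ := Finset.mem_product.1 (hE h1)
        obtain rfl := i3 h2
        obtain rfl := j4 h3
        exact Or.inr ⟨rfl, rfl, h1⟩
    · rintro (h1 | ⟨rfl, rfl, h1⟩)
      · exact Or.inl ⟨h1, i2⟩
      · exact Or.inr h1

/-- The active set. -/
def act (lev : ι → ℕ) : Finset ι := Finset.univ.filter fun i => lev i = 1

lemma card_act_newLev (lev : ι → ℕ) (q : ι) {P T : Finset ι} {a p : ι} (ha : a ∈ P) (hp : p ∈ T) :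
    (act lev).card + 1 ≤ (act (newLev lev q P T a p)).card + P.card + T.card := by
  have h1 : act lev ⊆ act (newLev lev q P T a p) ∪ (insert q (P.erase a) ∪ T.erase p) := by
    intro i hi
    by_cases h : i ∈ insert q (P.erase a) ∪ T.erase p
    · exact Finset.mem_union_right _ h
    · refine Finset.mem_union_left _ ?_
      simp only [act, Finset.mem_filter, Finset.mem_univ, true_and] at hi ⊢
      rw [Finset.mem_union, Finset.mem_insert, not_or] at h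
      rw [newLev, if_neg h.1, if_neg h.2, hi]
  have h2 := Finset.card_le_card h1
  have h3 := Finset.card_union_le (act (newLev lev q P T a p)) (insert q (P.erase a) ∪ T.erase p)
  have h4 := Finset.card_union_le (insert q (P.erase a)) (T.erase p)
  have h5 := Finset.card_insert_le q (P.erase a)
  have h6 := Finset.card_erase_add_one ha
  have h7 := Finset.card_erase_add_one hp
  omega

lemma halving (hsurj : ∀ r : Rl ι, ∃ t ∈ S, t.2 = r)
    (hκ : κ = 2 ∨ (κ = 1 ∧ ∀ t ∈ S, Det t.1)) {lev : ι → ℕ} {z : ℕ} (h : Inv S lev z)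
    (hc : 16 * κ ^ 2 + 1 ≤ (act lev).card) :
    ∃ lev', (act lev).card + 1 ≤ (act lev').card + 16 * κ ^ 2 ∧ Inv S lev' (z / 2) := by
  classical
  obtain ⟨q, hqA⟩ : (act lev).Nonempty := Finset.card_pos.1 (by omega)
  obtain ⟨P, hPA, hPc⟩ := Finset.exists_subset_card_eq (s := (act lev).erase q) (n := 8 * κ ^ 2)
    (by have := Finset.card_erase_add_one hqA; omega)
  obtain ⟨T, hTA, hTc⟩ := Finset.exists_subset_card_eq (s := (act lev).erase q \ P) (n := 8 * κ ^ 2)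
    (by
      have := Finset.card_erase_add_one hqA
      have := Finset.card_sdiff_add_card_eq_card hPA
      omega)
  have hq : lev q = 1 := (Finset.mem_filter.1 hqA).2
  have hP : ∀ a ∈ P, lev a = 1 := fun a ha =>
    (Finset.mem_filter.1 (Finset.mem_erase.1 (hPA ha)).2).2
  have hT : ∀ a ∈ T, lev a = 1 := fun a ha =>
    (Finset.mem_filter.1 (Finset.mem_erase.1 (Finset.mem_sdiff.1 (hTA ha)).1).2).2
  have hPT : Disjoint P T := Finset.disjoint_right.2 fun a ha => (Finset.mem_sdiff.1 (hTA ha)).2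
  have hqP : q ∉ P := fun h => (Finset.mem_erase.1 (hPA h)).1 rfl
  have hqT : q ∉ T := fun h => (Finset.mem_erase.1 (Finset.mem_sdiff.1 (hTA h)).1).1 rfl
  obtain ⟨W, hWS, U, hW, hlW, hU, hL⟩ := grid hsurj hκ h hq hP hT hPT hqP hqT
  by_contra hno
  have key : ∀ E : Finset (ι × ι), E ⊆ P ×ˢ T → ∃ X ∈ S, X * X = X ∧ Loc W X ∧ Full W.1 X.1 U ∧
      Lifts lev X.2 (Gr q E) ∧ 2 * Phi W.1 U X.1 + E.card * (z / 2 + 1) ≤ 2 * U.card := by
    intro E
    induction E using Finset.induction_on with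
    | empty =>
      intro _
      have := phi_self W.1 U
      exact ⟨W, hWS, hW, ⟨hW, hW⟩, full_self _ _, hlW, by simp; omega⟩
    | insert g E hg ih =>
      intro hE
      obtain ⟨a, p⟩ := g
      have hE' : E ⊆ P ×ˢ T := (Finset.subset_insert _ _).trans hE
      obtain ⟨ha, hp⟩ := Finset.mem_product.1 (hE (Finset.mem_insert_self _ _))
      obtain ⟨X, hXS, hX, hWX, hFX, hlX, hΦ⟩ := ih hE'
      obtain ⟨L, hLS, hWL, hlL, hFL⟩ := hL a ha p hp
      obtain ⟨n, hn⟩ := exists_idem_pow (X * L * X)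
      have hYS : (X * L * X) ^ (n + 1) ∈ S := S.pow_mem (S.mul_mem (S.mul_mem hXS hLS) hXS) _
      have hXY : Loc X ((X * L * X) ^ (n + 1)) := (Loc.sandwich hX L).pow n
      have hW3 : Loc W (X * L * X) := (hWX.mul hWL).mul hWX
      have hF3 : Full W.1 (X * L * X).1 U :=
        Full.mul (hWX.mul hWL).fst hWX.fst (Full.mul hWX.fst hWL.fst hFX hFL) hFX
      have hFY : ∀ n, Full W.1 ((X * L * X) ^ (n + 1)).1 U := by
        intro n
        induction n with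
        | zero => simpa using hF3
        | succ n ih => rw [pow_succ]; exact Full.mul (hW3.pow n).fst hW3.fst ih hF3
      have hs : ({(a, p)} : Finset (ι × ι)) ⊆ P ×ˢ T :=
        Finset.singleton_subset_iff.2 (Finset.mem_product.2 ⟨ha, hp⟩)
      have hlY : Lifts lev ((X * L * X) ^ (n + 1)).2 (Gr q (insert (a, p) E)) := by
        have k1 := Lifts.gr_mul hPT hqP hqT (Finset.union_subset hE' hs) hE'
          (Lifts.gr_mul hPT hqP hqT hE' hs hlX hlL) hlX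
        have k2 : E ∪ {(a, p)} ∪ E = insert (a, p) E := by
          ext g; simp only [Finset.mem_union, Finset.mem_singleton, Finset.mem_insert]; tauto
        rw [k2] at k1
        exact Lifts.gr_pow hPT hqP hqT hE k1 n
      obtain ⟨Z, hZ1, hZ2⟩ := potential (congrArg Prod.fst hX) (congrArg Prod.fst hn) hWX.fst
        hXY.fst (hFY n)
      refine ⟨_, hYS, hn, hW3.pow n, hFY n, hlY, ?_⟩
      have hZ3 : z / 2 + 1 ≤ Z.card := by
        by_contra hlt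
        refine hno ⟨newLev lev q P T a p, ?_, X, hXS, _, hYS, a, p, Z, ?_, ?_, ?_, hX, hXY, ?_, ?_,
          by omega, hZ1⟩
        · have := card_act_newLev (a := a) (p := p) lev q ha hp
          omega
        · have h1 : a ≠ q := fun h => hqP (h ▸ ha)
          have h2 : a ∉ T := Finset.disjoint_left.1 hPT ha
          simp [newLev, h1, h2, hP a ha]
        · have h1 : p ≠ q := fun h => hqT (h ▸ hp)
          have h2 : p ∉ P := Finset.disjoint_right.1 hPT hp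
          simp [newLev, h1, h2, hT p hp]
        · rintro rfl
          exact Finset.disjoint_left.1 hPT ha hp
        · exact (hlX.newLev hq hP hT hPT hqT hE' a p).congr fun i k _ _ => by simp [hg]
        · exact (hlY.newLev hq hP hT hPT hqT hE a p).congr fun i k _ _ => by simp
      rw [Finset.card_insert_of_notMem hg, add_mul]
      omega
  obtain ⟨X, -, -, -, -, -, hΦ⟩ := key _ subset_rfl
  rw [Finset.card_product, hPc, hTc] at hΦ
  rw [hPc, hTc] at hU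
  rcases hκ with rfl | ⟨rfl, -⟩ <;> omega

theorem main_bound (hsurj : ∀ r : Rl ι, ∃ t ∈ S, t.2 = r)
    (hκ : κ = 2 ∨ (κ = 1 ∧ ∀ t ∈ S, Det t.1))
    (hbase : ∀ e ∈ S, ∀ x ∈ S, Loc e x → Le e.1 x.1 → ∀ u v, x.2.r u v → e.2.r u v)
    (h2 : 2 ≤ Fintype.card ι) :
    2 ^ ((Fintype.card ι - 2) / (16 * κ ^ 2 - 1)) ≤ 2 * Fintype.card Q := by
  have hκ1 : 1 ≤ κ ^ 2 := by rcases hκ with rfl | ⟨rfl, -⟩ <;> norm_num
  obtain ⟨c, hc⟩ : ∃ c, 16 * κ ^ 2 = c + 1 := ⟨16 * κ ^ 2 - 1, by omega⟩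
  have key : ∀ k, k * c + 2 ≤ Fintype.card ι →
      ∃ lev, Fintype.card ι ≤ (act lev).card + k * c ∧ Inv S lev (2 * Fintype.card Q / 2 ^ k) := by
    intro k
    induction k with
    | zero =>
      intro _
      obtain ⟨u, v, huv⟩ := Fintype.exists_pair_of_one_lt_card (α := ι) (by omega)
      obtain ⟨x, hxS, hx⟩ := exists_letter hsurj (fun _ => 1) fun i j => i = j ∨ (i = u ∧ j = v)
      refine ⟨fun _ => 1, by simp [act], 1, S.one_mem, x, hxS, u, v, Cls 1, rfl, rfl, huv,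
        mul_one _, ⟨one_mul _, mul_one _⟩, Lifts.one _, hx, by simpa using card_Cls _,
        fun c hc hc' => absurd hc hc'⟩
    | succ k ih =>
      intro hk
      rw [add_mul] at hk ⊢
      obtain ⟨lev, h3, h4⟩ := ih (by omega)
      obtain ⟨lev', h5, h6⟩ := halving hsurj hκ h4 (by omega)
      refine ⟨lev', by omega, ?_⟩
      rwa [pow_succ, ← Nat.div_div_eq_div_mul]
  rw [hc, Nat.add_sub_cancel]
  obtain ⟨lev, -, e, heS, x, hxS, u, v, Z, hu, hv, huv, he, hx, hle, hlx, hZ, hF⟩ :=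
    key ((Fintype.card ι - 2) / c) (by have := Nat.div_mul_le_self (Fintype.card ι - 2) c; omega)
  by_contra hlt
  rw [Nat.div_eq_of_lt (not_le.1 hlt)] at hZ
  obtain rfl : Z = ∅ := Finset.card_eq_zero.1 (by omega)
  exact huv ((hle.2 u v hu hv).1 (hbase e heS x hxS hx (hF.le (congrArg Prod.fst he) hx.fst) u v
    ((hlx.2 u v hu hv).2 (Or.inr ⟨rfl, rfl⟩))))

end Crest.Agent.H9.TW
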