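import Crest.Agent.H9.UFFresnel

/-! Stationary phase for a tapered chirp (module M3c of row 75). -/

set_option autoImplicit false

namespace Crest.Agent.H9.UF

open Crest.Agent.Lead.UF MeasureTheory Filter Topology

lemma norm_e_sub_e_le (s t : ℝ) : ‖e s - e t‖ ≤ 2 * Real.pi * |s - t| := by
  have : e s - e t = e t * (e (s - t) - 1) := by
    rw [mul_sub, ← e_add]; simp
  rw [this, norm_mul, norm_e, one_mul]
  exact norm_e_sub_one_le _

lemma abs_le_of_deriv {φ φ' : ℝ → ℝ} {r ω : ℝ} (h : ∀ x, HasDerivAt φ (φ' x) x) (h0 : φ 0 = 0)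
    (hb : ∀ x ∈ Set.Icc (-r) r, |φ' x| ≤ ω) : ∀ x ∈ Set.Icc (-r) r, |φ x| ≤ ω * r := by
  intro x hx
  have hr : 0 ≤ r := by linarith [hx.1, hx.2]
  have h0' : (0 : ℝ) ∈ Set.Icc (-r) r := ⟨by linarith, hr⟩
  have := Convex.norm_image_sub_le_of_norm_hasDerivWithin_le (f := φ) (f' := φ') (C := ω)
    (s := Set.Icc (-r) r) (fun x _ => (h x).hasDerivWithinAt) hb (convex_Icc _ _) h0' hx
  rw [h0, sub_zero, sub_zero, Real.norm_eq_abs, Real.norm_eq_abs] at this
  have hω : 0 ≤ ω := (abs_nonneg _).trans (hb 0 h0')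
  exact this.trans (mul_le_mul_of_nonneg_left (abs_le.2 hx) hω)

section core

variable {G K K' : ℝ → ℝ} {Λ : ℝ}

lemma phase_d1 (hG : ∀ x, HasDerivAt G (K x) x) (c κ x : ℝ) :
    HasDerivAt (fun τ => c * (G τ - κ * τ)) (c * (K x - κ)) x := by
  have := ((hG x).sub ((hasDerivAt_id x).const_mul κ)).const_mul c
  simpa using this

lemma phase_d2 (hK : ∀ x, HasDerivAt K (K' x) x) (c κ x : ℝ) :
    HasDerivAt (fun τ => c * (K τ - κ)) (c * K' x) x :=
  ((hK x).sub_const κ).const_mul c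

lemma right_piece (hG : ∀ x, HasDerivAt G (K x) x) (hK : ∀ x, HasDerivAt K (K' x) x)
    (hc : Continuous K') (hΛ : 0 < Λ) (hl : ∀ x, Λ ≤ K' x) {c κ t r b : ℝ} (hc0 : 0 < c)
    (hr : 0 < r) (hκ : κ ≤ K t) (hb : t + r ≤ b) :
    ‖∫ τ in (t + r)..b, e (c * (G τ - κ * τ))‖ ≤ 1 / (c * Λ * r) := by
  refine firstDeriv _ (fun x => c * (K x - κ)) (fun x => c * K' x) _ _ _ hb (by positivity)
    (phase_d1 hG c κ) (phase_d2 hK c κ) (continuous_const.mul hc)
    (fun x _ => mul_nonneg hc0.le (hΛ.le.trans (hl x))) (Or.inl fun x hx => ?_)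
  have h1 := incr_of_deriv (a := t) (b := x) hK (fun x _ => hl x) le_rfl
    (show t ≤ x by linarith [hx.1]) le_rfl
  have h2 : Λ * r ≤ Λ * (x - t) := mul_le_mul_of_nonneg_left (by linarith [hx.1]) hΛ.le
  rw [mul_assoc]
  exact mul_le_mul_of_nonneg_left (by linarith) hc0.le

lemma left_piece (hG : ∀ x, HasDerivAt G (K x) x) (hK : ∀ x, HasDerivAt K (K' x) x)
    (hc : Continuous K') (hΛ : 0 < Λ) (hl : ∀ x, Λ ≤ K' x) {c κ t r a : ℝ} (hc0 : 0 < c)
    (hr : 0 < r) (hκ : K t ≤ κ) (ha : a ≤ t - r) :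
    ‖∫ τ in a..(t - r), e (c * (G τ - κ * τ))‖ ≤ 1 / (c * Λ * r) := by
  refine firstDeriv _ (fun x => c * (K x - κ)) (fun x => c * K' x) _ _ _ ha (by positivity)
    (phase_d1 hG c κ) (phase_d2 hK c κ) (continuous_const.mul hc)
    (fun x _ => mul_nonneg hc0.le (hΛ.le.trans (hl x))) (Or.inr fun x hx => ?_)
  have h1 := incr_of_deriv (a := x) (b := t) hK (fun x _ => hl x) le_rfl
    (show x ≤ t by linarith [hx.2]) le_rfl
  have h2 : Λ * r ≤ Λ * (t - x) := mul_le_mul_of_nonneg_left (by linarith [hx.2]) hΛ.le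
  have h3 : c * (K x - κ) ≤ c * (-(Λ * r)) := mul_le_mul_of_nonneg_left (by linarith) hc0.le
  linarith

lemma fast_piece (hG : ∀ x, HasDerivAt G (K x) x) (hK : ∀ x, HasDerivAt K (K' x) x)
    (hc : Continuous K') {c κ a b H : ℝ} (hc0 : 0 < c) (hH : 0 < H) (hab : a ≤ b)
    (h : ∀ x ∈ Set.Icc a b, H ≤ K' x) :
    ‖∫ τ in a..b, e (c * (G τ - κ * τ))‖ ≤ 4 / √(c * H) :=
  vdc _ (fun x => c * (K x - κ)) (fun x => c * K' x) _ _ _ hab (by positivity)
    (phase_d1 hG c κ) (phase_d2 hK c κ) (continuous_const.mul hc)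
    (fun x hx => mul_le_mul_of_nonneg_left (h x hx) hc0.le)

lemma mid_piece (hG : ∀ x, HasDerivAt G (K x) x) (hK : ∀ x, HasDerivAt K (K' x) x)
    {c t r ω : ℝ} (hc0 : 0 < c) (hr : 0 < r)
    (hω : ∀ x ∈ Set.Icc (-r) r, |K' (t + x) - K' t| ≤ ω) :
    ‖(∫ τ in (t - r)..(t + r), e (c * (G τ - K t * τ)))
      - e (c * (G t - K t * t)) * ∫ x in (-r)..r, e (c * K' t * x ^ 2 / 2)‖
      ≤ 2 * Real.pi * c * (ω * r * r) * (2 * r) := by
  have hGc : Continuous G := continuous_iff_continuousAt.2 fun x => (hG x).continuousAt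
  have h1 : ∀ x ∈ Set.Icc (-r) r, |K (t + x) - K t - K' t * x| ≤ ω * r := by
    refine abs_le_of_deriv (φ' := fun x => K' (t + x) - K' t) (fun x => ?_) (by simp) hω
    have := (((hK (t + x)).comp_const_add t x).sub_const (K t)).sub
      ((hasDerivAt_id x).const_mul (K' t))
    exact this.congr_deriv (by simp)
  have h2 : ∀ x ∈ Set.Icc (-r) r,
      |G (t + x) - G t - K t * x - K' t * x ^ 2 / 2| ≤ ω * r * r := by
    refine abs_le_of_deriv (φ' := fun x => K (t + x) - K t - K' t * x) (fun x => ?_) (by simp) h1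
    have h3 : HasDerivAt (fun x : ℝ => K' t * x ^ 2 / 2) (K' t * x) x := by
      have := ((hasDerivAt_pow 2 x).const_mul (K' t)).div_const 2
      refine this.congr_deriv ?_
      simp; ring
    have := ((((hG (t + x)).comp_const_add t x).sub_const (G t)).sub
      ((hasDerivAt_id x).const_mul (K t))).sub h3
    exact this.congr_deriv (by simp)
  have h4 : ∫ τ in (t - r)..(t + r), e (c * (G τ - K t * τ))
      = ∫ x in (-r)..r, e (c * (G (t + x) - K t * (t + x))) := by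
    rw [intervalIntegral.integral_comp_add_left (fun τ => e (c * (G τ - K t * τ))) t]
    congr 1
  have i1 : IntervalIntegrable (fun x => e (c * (G (t + x) - K t * (t + x)))) volume (-r) r :=
    (continuous_e.comp (by fun_prop)).intervalIntegrable _ _
  have i2 : IntervalIntegrable (fun x => e (c * (G t - K t * t)) * e (c * K' t * x ^ 2 / 2))
      volume (-r) r :=
    (continuous_const.mul (continuous_e.comp (by fun_prop))).intervalIntegrable _ _
  rw [h4, ← intervalIntegral.integral_const_mul, ← intervalIntegral.integral_sub i1 i2]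
  have h5 := intervalIntegral.norm_integral_le_of_norm_le_const (a := -r) (b := r)
    (C := 2 * Real.pi * c * (ω * r * r))
    (f := fun x => e (c * (G (t + x) - K t * (t + x)))
      - e (c * (G t - K t * t)) * e (c * K' t * x ^ 2 / 2)) (fun x hx => by
      rw [Set.uIoc_of_le (by linarith)] at hx
      rw [← e_add]
      refine (norm_e_sub_e_le _ _).trans ?_
      have : c * (G (t + x) - K t * (t + x)) - (c * (G t - K t * t) + c * K' t * x ^ 2 / 2)
          = c * (G (t + x) - G t - K t * x - K' t * x ^ 2 / 2) := by ring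
      rw [this, abs_mul, abs_of_pos hc0, mul_assoc (2 * Real.pi)]
      have := h2 x (Set.Ioc_subset_Icc_self hx)
      have := Real.pi_pos
      gcongr)
  rwa [abs_of_nonneg (by linarith), show r - -r = 2 * r by ring] at h5

lemma scale_fresnel {F : ℂ} (hF : ∀ T : ℝ, 0 < T → ‖(∫ x in (-T)..T, e (x ^ 2 / 2)) - F‖ ≤ 1 / T)
    {m r : ℝ} (hm : 0 < m) (hr : 0 < r) :
    ‖(∫ x in (-r)..r, e (m * x ^ 2 / 2)) - ((√m)⁻¹ : ℝ) * F‖ ≤ 1 / (m * r) := by
  set q := √m with hq
  have hq0 : 0 < q := Real.sqrt_pos.2 hm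
  have hqq : q * q = m := Real.mul_self_sqrt hm.le
  have h1 : ∫ x in (-r)..r, e (m * x ^ 2 / 2)
      = ((q⁻¹ : ℝ) : ℂ) * ∫ x in (-(q * r))..(q * r), e (x ^ 2 / 2) := by
    have := intervalIntegral.integral_comp_mul_left (fun x => e (x ^ 2 / 2)) (a := -r) (b := r)
      hq0.ne'
    rw [mul_neg] at this
    rw [← Complex.real_smul, ← this]
    congr 1
    funext x
    congr 1
    rw [← hqq]; ring
  rw [h1, ← mul_sub, norm_mul, Complex.norm_real, Real.norm_eq_abs, abs_of_pos (inv_pos.2 hq0)]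
  refine (mul_le_mul_of_nonneg_left (hF _ (by positivity)) (by positivity)).trans (le_of_eq ?_)
  rw [← hqq]; field_simp

lemma chirp_mid {F : ℂ} (hF : ∀ T : ℝ, 0 < T → ‖(∫ x in (-T)..T, e (x ^ 2 / 2)) - F‖ ≤ 1 / T)
    (hG : ∀ x, HasDerivAt G (K x) x) (hK : ∀ x, HasDerivAt K (K' x) x)
    (hc : Continuous K') (hΛ : 0 < Λ) (hl : ∀ x, Λ ≤ K' x) {ρ s L t w ω : ℝ} (hρ : 0 < ρ)
    (hs : 0 < s) (hL : 0 < L) (h0 : 0 ≤ t - L / s) (hw : t + L / s ≤ w)
    (hω : ∀ x ∈ Set.Icc (-(L / s)) (L / s), |K' (t + x) - K' t| ≤ ω) :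
    ‖((ρ * s : ℝ) : ℂ) * (∫ τ in (0 : ℝ)..w, e (ρ * s ^ 2 * (G τ - K t * τ)))
      - F * ((√(ρ / Λ) * √(Λ / K' t) : ℝ) : ℂ) * e (ρ * (s ^ 2 * (G t - K t * t)))‖
      ≤ 3 / (Λ * L) + 4 * Real.pi * ρ ^ 2 * L ^ 3 * ω := by
  have hGc : Continuous G := continuous_iff_continuousAt.2 fun x => (hG x).continuousAt
  set r := L / s with hr
  have hr0 : 0 < r := by positivity
  set c := ρ * s ^ 2 with hc'
  have hc0 : 0 < c := by positivity
  have hk : 0 < K' t := hΛ.trans_le (hl t)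
  have hI : ∀ x y, IntervalIntegrable (fun τ => e (c * (G τ - K t * τ))) volume x y :=
    fun x y => (continuous_e.comp (by fun_prop)).intervalIntegrable _ _
  have e1 := left_piece hG hK hc hΛ hl hc0 hr0 (le_refl (K t)) h0
  have e3 := right_piece hG hK hc hΛ hl hc0 hr0 (le_refl (K t)) hw
  have e2 := mid_piece hG hK hc0 hr0 hω
  have e4 := scale_fresnel hF (m := c * K' t) (by positivity) hr0
  rw [← intervalIntegral.integral_add_adjacent_intervals (hI 0 (t - r)) (hI (t - r) w),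
    ← intervalIntegral.integral_add_adjacent_intervals (hI (t - r) (t + r)) (hI (t + r) w)]
  set I1 := ∫ τ in (0 : ℝ)..(t - r), e (c * (G τ - K t * τ))
  set I2 := ∫ τ in (t - r)..(t + r), e (c * (G τ - K t * τ))
  set I3 := ∫ τ in (t + r)..w, e (c * (G τ - K t * τ))
  set J := ∫ x in (-r)..r, e (c * K' t * x ^ 2 / 2)
  have hsq : √(ρ / Λ) * √(Λ / K' t) = ρ * s * (√(c * K' t))⁻¹ := by
    rw [← Real.sqrt_mul (by positivity), ← Real.sqrt_inv,
      ← Real.sqrt_sq (show 0 ≤ ρ * s by positivity), ← Real.sqrt_mul (by positivity)]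
    congr 1
    rw [hc']; field_simp
  rw [hsq, ← mul_assoc ρ (s ^ 2), ← hc']
  set E := e (c * (G t - K t * t)) with hE
  have hEn : ‖E‖ = 1 := norm_e _
  have : ((ρ * s : ℝ) : ℂ) * (I1 + (I2 + I3)) - F * ((ρ * s * (√(c * K' t))⁻¹ : ℝ) : ℂ) * E
      = ((ρ * s : ℝ) : ℂ) * (I1 + I3 + (I2 - E * J) + E * (J - ((√(c * K' t))⁻¹ : ℝ) * F)) := by
    push_cast; ring
  rw [this, norm_mul, Complex.norm_real, Real.norm_eq_abs, abs_of_pos (by positivity)]
  have h5 : ‖I1 + I3 + (I2 - E * J) + E * (J - ((√(c * K' t))⁻¹ : ℝ) * F)‖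
      ≤ 1 / (c * Λ * r) + 1 / (c * Λ * r) + 2 * Real.pi * c * (ω * r * r) * (2 * r)
        + 1 / (c * Λ * r) := by
    refine (norm_add_le _ _).trans (add_le_add ((norm_add_le _ _).trans
      (add_le_add ((norm_add_le _ _).trans (add_le_add e1 e3)) e2)) ?_)
    rw [norm_mul, hEn, one_mul]
    refine e4.trans (one_div_le_one_div_of_le (by positivity) ?_)
    have := hl t
    gcongr
  refine (mul_le_mul_of_nonneg_left h5 (by positivity)).trans (le_of_eq ?_)
  rw [hc', hr]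
  field_simp
  ring

lemma chirp_end {ρ s H r0 R η : ℝ} {I1 I2 : ℂ} (hρ : 0 < ρ) (hρR : ρ ≤ R) (hs : 0 < s)
    (hH : 0 < H) (hr0 : 0 < r0) (hΛ : 0 < Λ) (hη : 0 < η) (hHη : 64 * R ≤ η ^ 2 * H)
    (hsη : 2 ≤ η * (s * Λ * r0))
    (h1 : ‖I1‖ ≤ 4 / √(ρ * s ^ 2 * H)) (h2 : ‖I2‖ ≤ 1 / (ρ * s ^ 2 * Λ * r0)) :
    ‖((ρ * s : ℝ) : ℂ) * (I1 + I2)‖ ≤ η := by
  rw [norm_mul, Complex.norm_real, Real.norm_eq_abs, abs_of_pos (by positivity)]
  have h3 : ρ * s * (4 / √(ρ * s ^ 2 * H)) ≤ η / 2 := by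
    have hp : 0 < √(ρ * s ^ 2 * H) := Real.sqrt_pos.2 (by positivity)
    rw [← mul_div_assoc, div_le_iff₀ hp]
    have : 8 * ρ * s / η ≤ √(ρ * s ^ 2 * H) := by
      refine Real.le_sqrt_of_sq_le ?_
      rw [div_pow, div_le_iff₀ (by positivity)]
      have h4 : 64 * ρ ≤ η ^ 2 * H := by linarith
      have := mul_le_mul_of_nonneg_left h4 (show 0 ≤ ρ * s ^ 2 by positivity)
      nlinarith
    rw [div_le_iff₀ hη] at this
    nlinarith
  have h4 : ρ * s * (1 / (ρ * s ^ 2 * Λ * r0)) ≤ η / 2 := by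
    have : ρ * s * (1 / (ρ * s ^ 2 * Λ * r0)) = 1 / (s * Λ * r0) := by field_simp
    rw [this, div_le_iff₀ (by positivity)]
    linarith
  have h5 : ‖I1 + I2‖ ≤ 4 / √(ρ * s ^ 2 * H) + 1 / (ρ * s ^ 2 * Λ * r0) :=
    (norm_add_le _ _).trans (add_le_add h1 h2)
  have := mul_le_mul_of_nonneg_left h5 (show 0 ≤ ρ * s by positivity)
  linarith [mul_add (ρ * s) (4 / √(ρ * s ^ 2 * H)) (1 / (ρ * s ^ 2 * Λ * r0))]

lemma chirp_core {F : ℂ} (hF : ∀ T : ℝ, 0 < T → ‖(∫ x in (-T)..T, e (x ^ 2 / 2)) - F‖ ≤ 1 / T)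
    (hG : ∀ x, HasDerivAt G (K x) x) (hK : ∀ x, HasDerivAt K (K' x) x)
    (hc : Continuous K') (hΛ : 0 < Λ) (hl : ∀ x, Λ ≤ K' x) {w R η H r0 : ℝ} (hη : 0 < η)
    (hH : 0 < H) (hr0 : 0 < r0) (hrw : 2 * r0 ≤ w) (hHη : 64 * R ≤ η ^ 2 * H)
    (hlo : ∀ x ∈ Set.Icc 0 (2 * r0), H ≤ K' x) (hhi : ∀ x ∈ Set.Icc (w - 2 * r0) w, H ≤ K' x) :
    ∃ s₀ : ℝ, ∀ s : ℝ, 0 < s → s₀ ≤ s → ∀ κ : ℝ, ∃ a β : ℝ, 0 ≤ a ∧ a ≤ 1 ∧
      ∀ ρ : ℝ, 1 ≤ ρ → ρ ≤ R →
        ‖((ρ * s : ℝ) : ℂ) * (∫ τ in (0 : ℝ)..w, e (ρ * s ^ 2 * (G τ - κ * τ)))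
          - F * ((√(ρ / Λ) * a : ℝ) : ℂ) * e (ρ * β)‖ ≤ η := by
  have hGc : Continuous G := continuous_iff_continuousAt.2 fun x => (hG x).continuousAt
  have hKc : Continuous K := continuous_iff_continuousAt.2 fun x => (hK x).continuousAt
  have hpi := Real.pi_pos
  set L := 4 / (Λ * η) with hL
  have hL0 : 0 < L := by positivity
  set ω := η / (16 * Real.pi * (R ^ 2 + 1) * L ^ 3) with hω
  have hω0 : 0 < ω := by positivity
  obtain ⟨d, hd0, hd⟩ := Metric.uniformContinuousOn_iff_le.1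
    ((isCompact_Icc (a := 0) (b := w)).uniformContinuousOn_of_continuous hc.continuousOn) ω hω0
  refine ⟨max (2 / (η * Λ * r0)) (max (L / r0) (L / d)), fun s hs hs₀ κ => ?_⟩
  have s1 : 2 ≤ η * (s * Λ * r0) := by
    have := (le_max_left _ _).trans hs₀
    rw [div_le_iff₀ (by positivity)] at this
    linarith
  have s2 : L / s ≤ r0 := by
    have := ((le_max_left _ _).trans (le_max_right _ _)).trans hs₀
    rw [div_le_iff₀ hr0] at this
    rw [div_le_iff₀ hs]
    linarith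
  have s3 : L / s ≤ d := by
    have := ((le_max_right _ _).trans (le_max_right _ _)).trans hs₀
    rw [div_le_iff₀ hd0] at this
    rw [div_le_iff₀ hs]
    linarith
  have hI : ∀ c x y, IntervalIntegrable (fun τ => e (c * (G τ - κ * τ))) volume x y :=
    fun c x y => (continuous_e.comp (by fun_prop)).intervalIntegrable _ _
  by_cases c1 : κ ≤ K r0
  · refine ⟨0, 0, le_rfl, zero_le_one, fun ρ h1 hR => ?_⟩
    have hρ : 0 < ρ := by linarith
    rw [mul_zero, Complex.ofReal_zero, mul_zero, zero_mul, sub_zero,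
      ← intervalIntegral.integral_add_adjacent_intervals (hI _ 0 (r0 + r0)) (hI _ (r0 + r0) w)]
    refine chirp_end hρ hR hs hH hr0 hΛ hη hHη s1 ?_ ?_
    · exact fast_piece hG hK hc (by positivity) hH (by linarith)
        (fun x hx => hlo x ⟨hx.1, by linarith [hx.2]⟩)
    · exact right_piece hG hK hc hΛ hl (by positivity) hr0 c1 (by linarith)
  by_cases c2 : K (w - r0) ≤ κ
  · refine ⟨0, 0, le_rfl, zero_le_one, fun ρ h1 hR => ?_⟩
    have hρ : 0 < ρ := by linarith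
    rw [mul_zero, Complex.ofReal_zero, mul_zero, zero_mul, sub_zero,
      ← intervalIntegral.integral_add_adjacent_intervals (hI _ 0 (w - r0 - r0))
        (hI _ (w - r0 - r0) w), add_comm]
    refine chirp_end hρ hR hs hH hr0 hΛ hη hHη s1 ?_ ?_
    · exact fast_piece hG hK hc (by positivity) hH (by linarith)
        (fun x hx => hhi x ⟨by linarith [hx.1], hx.2⟩)
    · exact left_piece hG hK hc hΛ hl (by positivity) hr0 c2 (by linarith)
  obtain ⟨t, ht, rfl⟩ := intermediate_value_Icc (show r0 ≤ w - r0 by linarith) hKc.continuousOn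
    (show κ ∈ Set.Icc (K r0) (K (w - r0)) from ⟨(not_le.1 c1).le, (not_le.1 c2).le⟩)
  have hk : 0 < K' t := hΛ.trans_le (hl t)
  refine ⟨√(Λ / K' t), s ^ 2 * (G t - K t * t), Real.sqrt_nonneg _, ?_, fun ρ h1 hR => ?_⟩
  · rw [Real.sqrt_le_one, div_le_one hk]
    exact hl t
  have hρ : 0 < ρ := by linarith
  refine (chirp_mid (ω := ω) hF hG hK hc hΛ hl hρ hs hL0 (by linarith [ht.1]) (by linarith [ht.2])
    (fun x hx => ?_)).trans ?_
  · have := hd (t + x) ⟨by linarith [ht.1, hx.1], by linarith [ht.2, hx.2]⟩ t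
      ⟨by linarith [ht.1], by linarith [ht.2]⟩
      (by rw [Real.dist_eq, add_sub_cancel_left, abs_le]; constructor <;> linarith [hx.1, hx.2])
    rwa [Real.dist_eq] at this
  · have a1 : 3 / (Λ * L) = 3 * η / 4 := by rw [hL]; field_simp
    have a2 : 4 * Real.pi * ρ ^ 2 * L ^ 3 * ω = η / 4 * (ρ ^ 2 / (R ^ 2 + 1)) := by
      rw [hω]; field_simp; ring
    have a3 : ρ ^ 2 / (R ^ 2 + 1) ≤ 1 := by
      rw [div_le_one (by positivity)]; nlinarith
    have a4 := mul_le_of_le_one_right (show 0 ≤ η / 4 by positivity) a3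
    rw [a1, a2]
    linarith

end core

theorem chirp : Chirp := by
  obtain ⟨F, hF1, hF⟩ := fresnel
  refine ⟨F, hF1, fun w Λ R η ε hw hΛ hη hε => ?_⟩
  set H := 128 * (|R| + 1) / (η ^ 2 * Λ) with hH
  have hH0 : 0 < H := by positivity
  set c := 2 * H / (ε * w) + 1 / w with hc
  have hc0 : 0 < c := by positivity
  set K : ℝ → ℝ := fun x =>
    Λ * (x + H / c * (1 - Real.exp (-c * x) + Real.exp (-c * (w - x)) - Real.exp (-c * w)))
    with hKdef
  set K' : ℝ → ℝ := fun x => Λ * (1 + H * (Real.exp (-c * x) + Real.exp (-c * (w - x))))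
    with hK'def
  have hK : ∀ x, HasDerivAt K (K' x) x := by
    intro x
    have h1 : HasDerivAt (fun x => Real.exp (-c * x)) (Real.exp (-c * x) * (-c)) x := by
      simpa using ((hasDerivAt_id x).const_mul (-c)).exp
    have h2 : HasDerivAt (fun x => Real.exp (-c * (w - x))) (Real.exp (-c * (w - x)) * c) x := by
      simpa using (((hasDerivAt_id x).const_sub w).const_mul (-c)).exp
    have h3 := (((hasDerivAt_id x).add
      (((((h1.const_sub 1).add h2).sub_const (Real.exp (-c * w)))).const_mul (H / c))).const_mul Λ)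
    refine h3.congr_deriv ?_
    simp only [hK'def]
    field_simp
  have hK'c : Continuous K' := by simp only [hK'def]; fun_prop
  have hKc : Continuous K := continuous_iff_continuousAt.2 fun x => (hK x).continuousAt
  have hl : ∀ x, Λ ≤ K' x := by
    intro x
    simp only [hK'def]
    have := Real.exp_pos (-c * x)
    have := Real.exp_pos (-c * (w - x))
    exact le_mul_of_one_le_right hΛ.le (le_add_of_nonneg_right (by positivity))
  have hcw : 1 ≤ c * w := by
    have : c * w = 2 * H / ε + 1 := by rw [hc]; field_simp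
    rw [this]
    exact le_add_of_nonneg_left (by positivity)
  have hexp : ∀ x, x ≤ 2 * (1 / (4 * c)) → 1 / 2 ≤ Real.exp (-c * x) := by
    intro x hx
    have h1 := Real.add_one_le_exp (-c * x)
    have h2 : c * x ≤ 1 / 2 := by
      have := mul_le_mul_of_nonneg_left hx hc0.le
      have h3 : c * (2 * (1 / (4 * c))) = 1 / 2 := by field_simp; ring
      linarith
    linarith
  refine ⟨K, K', hK, hK'c, by simp [hKdef], fun x => hΛ.le.trans (hl x), ?_, ?_⟩
  · simp only [hKdef, sub_self, mul_zero, Real.exp_zero]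
    have h1 := Real.exp_pos (-c * w)
    have h2 : H / c * 2 ≤ ε * w := by
      rw [div_mul_eq_mul_div, div_le_iff₀ hc0, hc]
      have : ε * w * (2 * H / (ε * w) + 1 / w) = H * 2 + ε := by field_simp
      rw [this]; linarith
    have h3 : H / c * (1 - Real.exp (-c * w) + 1 - Real.exp (-c * w)) ≤ H / c * 2 :=
      mul_le_mul_of_nonneg_left (by linarith) (by positivity)
    have h4 : (1 + ε) * Λ * w = Λ * (w + ε * w) := by ring
    rw [h4]
    exact mul_le_mul_of_nonneg_left (by linarith) hΛ.le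
  obtain ⟨s₀, hs₀⟩ := chirp_core (G := fun τ => ∫ r in (0 : ℝ)..τ, K r) (w := w) (R := R)
    (H := Λ * H / 2) (r0 := 1 / (4 * c)) hF
    (fun x => (hKc.integral_hasStrictDerivAt 0 x).hasDerivAt) hK hK'c hΛ hl hη (by positivity)
    (by positivity)
    (by
      have : 2 * (1 / (4 * c)) = 1 / (2 * c) := by field_simp; ring
      rw [this, div_le_iff₀ (by positivity)]
      nlinarith)
    (by
      have : η ^ 2 * (Λ * H / 2) = 64 * (|R| + 1) := by rw [hH]; field_simp; ring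
      rw [this]
      linarith [le_abs_self R])
    (fun x hx => by
      simp only [hK'def]
      have h1 := hexp x hx.2
      have h2 := Real.exp_pos (-c * (w - x))
      rw [mul_div_assoc]
      refine mul_le_mul_of_nonneg_left ?_ hΛ.le
      nlinarith)
    (fun x hx => by
      simp only [hK'def]
      have h1 := hexp (w - x) (by linarith [hx.1])
      have h2 := Real.exp_pos (-c * x)
      rw [mul_div_assoc]
      refine mul_le_mul_of_nonneg_left ?_ hΛ.le
      nlinarith)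
  refine ⟨⌈s₀ ^ 2⌉₊ + 1, fun N hN κ => ?_⟩
  have hN0 : (0 : ℝ) < N := by
    have : 0 < N := by omega
    exact_mod_cast this
  have hN1 : s₀ ≤ √N := by
    refine Real.le_sqrt_of_sq_le ((Nat.le_ceil _).trans ?_)
    exact_mod_cast (by omega : ⌈s₀ ^ 2⌉₊ ≤ N)
  have := hs₀ (√N) (Real.sqrt_pos.2 hN0) hN1 κ
  rwa [Real.sq_sqrt hN0.le] at this

end Crest.Agent.H9.UF
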