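import Crest.Agent.H9.UFVdC

/-! The Fresnel integral with an explicit rate. -/

set_option autoImplicit false

namespace Crest.Agent.H9.UF

open Crest.Agent.Lead.UF MeasureTheory Filter Topology

lemma gauss_tail {b : ℂ} (hb : 0 ≤ b.re) (hb0 : b ≠ 0) {T S : ℝ} (hT : 0 < T) (hTS : T ≤ S) :
    ‖∫ x in T..S, Complex.exp (-b * (x : ℂ) ^ 2)‖ ≤ 1 / (‖b‖ * T) := by
  have huI : Set.uIcc T S = Set.Icc T S := Set.uIcc_of_le hTS
  have hbn : 0 < ‖b‖ := norm_pos_iff.2 hb0
  set E : ℝ → ℂ := fun x => Complex.exp (-b * (x : ℂ) ^ 2) with hE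
  have hEc : Continuous E := by simp only [hE]; fun_prop
  have hEn : ∀ x, ‖E x‖ ≤ 1 := by
    intro x
    simp only [hE]
    rw [Complex.norm_exp, Real.exp_le_one_iff, ← Complex.ofReal_pow, Complex.re_mul_ofReal,
      Complex.neg_re]
    nlinarith [sq_nonneg x]
  have hEd : ∀ x : ℝ, HasDerivAt E (E x * (-b * (2 * x))) x := by
    intro x
    have h1 : HasDerivAt (fun x : ℝ => -b * (x : ℂ) ^ 2) (-b * (2 * x)) x := by
      have h0 : HasDerivAt (fun x : ℝ => ((x ^ 2 : ℝ) : ℂ)) ((2 * x : ℝ) : ℂ) x := by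
        have : HasDerivAt (fun x : ℝ => x ^ 2) (2 * x) x := by
          simpa using hasDerivAt_pow 2 x
        exact this.ofReal_comp
      have := h0.const_mul (-b)
      simpa using this
    exact h1.cexp
  set g : ℝ → ℂ := fun x => E x * ((x⁻¹ : ℝ) : ℂ) / (-2 * b) with hg
  set r : ℝ → ℂ := fun x => E x * (((x ^ 2)⁻¹ : ℝ) : ℂ) / (2 * b) with hr
  have hpos : ∀ x ∈ Set.Icc T S, 0 < x := fun x hx => hT.trans_le hx.1
  have hgd : ∀ x ∈ Set.uIcc T S, HasDerivAt g (E x + r x) x := by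
    intro x hx
    rw [huI] at hx
    have hx0 := (hpos x hx).ne'
    have h2 : HasDerivAt (fun x : ℝ => ((x⁻¹ : ℝ) : ℂ)) ((-(x ^ 2)⁻¹ : ℝ) : ℂ) x :=
      (hasDerivAt_inv hx0).ofReal_comp
    have h3 := ((hEd x).mul h2).div_const (-2 * b)
    refine h3.congr_deriv ?_
    have h4 : (x : ℂ) ≠ 0 := by exact_mod_cast hx0
    simp only [hr]
    push_cast
    field_simp
    ring
  have hq : ContinuousOn (fun x : ℝ => (x ^ 2)⁻¹) (Set.uIcc T S) := by
    rw [huI]
    exact (continuousOn_id.pow 2).inv₀ fun x hx => pow_ne_zero 2 (hpos x hx).ne'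
  have hrc : ContinuousOn r (Set.uIcc T S) :=
    (hEc.continuousOn.mul (Complex.continuous_ofReal.comp_continuousOn hq)).div_const _
  have hei : IntervalIntegrable E volume T S := hEc.intervalIntegrable _ _
  have hri : IntervalIntegrable r volume T S := hrc.intervalIntegrable
  have hftc := intervalIntegral.integral_eq_sub_of_hasDerivAt hgd (hei.add hri)
  rw [intervalIntegral.integral_add hei hri] at hftc
  have heq : ∫ x in T..S, E x = g S - g T - ∫ x in T..S, r x := by rw [← hftc]; ring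
  have hgn : ∀ x ∈ Set.Icc T S, ‖g x‖ ≤ x⁻¹ / (2 * ‖b‖) := by
    intro x hx
    simp only [hg]
    have hx0 := hpos x hx
    rw [norm_div, norm_mul, Complex.norm_real, Real.norm_eq_abs, abs_of_pos (inv_pos.2 hx0),
      norm_mul, norm_neg, Complex.norm_two]
    exact div_le_div_of_nonneg_right (mul_le_of_le_one_left (by positivity) (hEn x))
      (by positivity)
  have hq2 : ∫ x in T..S, (x ^ 2)⁻¹ = T⁻¹ - S⁻¹ := by
    have := intervalIntegral.integral_eq_sub_of_hasDerivAt (f := fun x : ℝ => -x⁻¹)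
      (f' := fun x => (x ^ 2)⁻¹) (a := T) (b := S)
      (fun x hx => by
        rw [huI] at hx
        exact (hasDerivAt_inv (hpos x hx).ne').neg.congr_deriv (neg_neg _)) hq.intervalIntegrable
    rw [this]; ring
  have hrn : ‖∫ x in T..S, r x‖ ≤ (T⁻¹ - S⁻¹) / (2 * ‖b‖) := by
    have h1 : ‖∫ x in T..S, r x‖ ≤ ∫ x in T..S, (x ^ 2)⁻¹ / (2 * ‖b‖) := by
      refine intervalIntegral.norm_integral_le_of_norm_le hTS ?_ ?_
      · refine Filter.Eventually.of_forall fun x hx => ?_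
        simp only [hr]
        rw [norm_div, norm_mul, Complex.norm_real, Real.norm_eq_abs,
          abs_of_nonneg (by positivity), norm_mul, Complex.norm_two]
        exact div_le_div_of_nonneg_right (mul_le_of_le_one_left (by positivity) (hEn x))
          (by positivity)
      · exact (hq.div_const _).intervalIntegrable
    rwa [intervalIntegral.integral_div (2 * ‖b‖), hq2] at h1
  rw [heq]
  have a1 := hgn T ⟨le_rfl, hTS⟩
  have a2 := hgn S ⟨hTS, le_rfl⟩
  have a3 : ‖g S - g T - ∫ x in T..S, r x‖ ≤ ‖g S‖ + ‖g T‖ + ‖∫ x in T..S, r x‖ :=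
    (norm_sub_le _ _).trans (by gcongr; exact norm_sub_le _ _)
  have a4 : S⁻¹ / (2 * ‖b‖) + T⁻¹ / (2 * ‖b‖) + (T⁻¹ - S⁻¹) / (2 * ‖b‖) = 1 / (‖b‖ * T) := by
    have : S ≠ 0 := (hT.trans_le hTS).ne'
    field_simp; ring
  linarith

lemma gauss_trunc {b : ℂ} (hb : 0 < b.re) {T : ℝ} (hT : 0 < T) :
    ‖(∫ x in (-T)..T, Complex.exp (-b * (x : ℂ) ^ 2)) - (Real.pi / b) ^ (1 / 2 : ℂ)‖
      ≤ 2 / (‖b‖ * T) := by
  have hb0 : b ≠ 0 := by rintro rfl; simp at hb
  rw [← integral_gaussian_complex hb]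
  set E : ℝ → ℂ := fun x => Complex.exp (-b * (x : ℂ) ^ 2) with hE
  have hEc : Continuous E := by simp only [hE]; fun_prop
  have hlim := intervalIntegral_tendsto_integral (μ := volume) (f := E) (l := atTop)
    (a := fun S : ℝ => -S) (b := fun S : ℝ => S) (integrable_cexp_neg_mul_sq hb)
    tendsto_neg_atTop_atBot tendsto_id
  have h2 := (hlim.const_sub (∫ x in (-T)..T, E x)).norm
  refine le_of_tendsto h2 ?_
  filter_upwards [eventually_ge_atTop T] with S hS
  have hI : ∀ x y, IntervalIntegrable E volume x y := fun x y => hEc.intervalIntegrable _ _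
  rw [← intervalIntegral.integral_add_adjacent_intervals (hI (-S) (-T)) (hI (-T) S),
    ← intervalIntegral.integral_add_adjacent_intervals (hI (-T) T) (hI T S)]
  have h3 : ∫ x in (-S)..(-T), E x = ∫ x in T..S, E x := by
    rw [← intervalIntegral.integral_comp_neg]
    simp [hE]
  rw [h3]
  have h4 := gauss_tail hb.le hb0 hT hS
  have : (∫ x in (-T)..T, E x) - ((∫ x in T..S, E x) + ((∫ x in (-T)..T, E x) + ∫ x in T..S, E x))
      = -(2 * ∫ x in T..S, E x) := by ring
  rw [this, norm_neg, norm_mul, Complex.norm_two]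
  have : 2 / (‖b‖ * T) = 2 * (1 / (‖b‖ * T)) := by ring
  rw [this]
  exact mul_le_mul_of_nonneg_left h4 (by norm_num)

theorem fresnel : ∃ F : ℂ, ‖F‖ = 1 ∧ ∀ T : ℝ, 0 < T →
    ‖(∫ x in (-T)..T, e (x ^ 2 / 2)) - F‖ ≤ 1 / T := by
  have hpi : (0 : ℝ) < Real.pi := Real.pi_pos
  have hpic : (Real.pi : ℂ) ≠ 0 := by exact_mod_cast hpi.ne'
  refine ⟨Complex.I ^ (1 / 2 : ℂ), ?_, fun T hT => ?_⟩
  · rw [Complex.norm_cpow_of_ne_zero Complex.I_ne_zero]
    simp
  set bb : ℝ → ℂ := fun γ => (γ : ℂ) - Real.pi * Complex.I with hbb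
  have hbc : Continuous bb := by simp only [hbb]; fun_prop
  have hb0 : ∀ γ, bb γ ≠ 0 := by
    intro γ h
    have := congrArg Complex.im h
    simp [hbb] at this
  have hdiv : (Real.pi : ℂ) / bb 0 = Complex.I := by
    rw [div_eq_iff (hb0 0)]
    simp only [hbb]
    push_cast
    linear_combination (Real.pi : ℂ) * Complex.I_mul_I
  have c1 : ContinuousAt (fun γ : ℝ => ((Real.pi : ℂ) / bb γ) ^ (1 / 2 : ℂ)) 0 := by
    refine ContinuousAt.cpow (continuousAt_const.div hbc.continuousAt (hb0 0)) continuousAt_const ?_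
    rw [hdiv]
    exact Or.inr (by simp)
  have c2 : Continuous fun γ : ℝ => ∫ x in (-T)..T, Complex.exp (-bb γ * (x : ℂ) ^ 2) := by
    refine intervalIntegral.continuous_parametric_intervalIntegral_of_continuous' ?_ _ _
    simp only [hbb]
    fun_prop
  have c3 := ((c2.continuousAt (x := 0)).sub c1).norm.tendsto
  have c4 := c3.mono_left (nhdsWithin_le_nhds (s := Set.Ioi (0 : ℝ)))
  have c5 : ‖(∫ x in (-T)..T, Complex.exp (-bb 0 * (x : ℂ) ^ 2))
      - ((Real.pi : ℂ) / bb 0) ^ (1 / 2 : ℂ)‖ ≤ 1 / T := by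
    refine le_of_tendsto c4 ?_
    filter_upwards [self_mem_nhdsWithin] with γ hγ
    have hre : 0 < (bb γ).re := by simpa [hbb] using hγ
    refine (gauss_trunc hre hT).trans ?_
    have h1 : Real.pi ≤ ‖bb γ‖ := by
      have := Complex.abs_im_le_norm (bb γ)
      simpa [hbb, abs_of_pos hpi] using this
    rw [div_le_div_iff₀ (by have := hpi.trans_le h1; positivity) hT]
    nlinarith [Real.pi_gt_three]
  rw [hdiv] at c5
  convert c5 using 4
  funext x
  simp only [e, hbb]
  congr 1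
  push_cast
  ring

end Crest.Agent.H9.UF
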