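import Crest.Agent.H9.UFChirp

/-! One slot of the phase derivative (module M3d of row 75). -/

set_option autoImplicit false

namespace Crest.Agent.H9.UF

open Crest.Agent.Lead.UF MeasureTheory Filter Topology

/-- Clamp to `[0, h]`. -/
noncomputable def cl (h x : ℝ) : ℝ := max 0 (min x h)

lemma cl_mem {h : ℝ} (hh : 0 ≤ h) (x : ℝ) : cl h x ∈ Set.Icc 0 h :=
  ⟨le_max_left _ _, max_le hh (min_le_right _ _)⟩

lemma cl_of_le {h x : ℝ} (hx : x ≤ 0) : cl h x = 0 :=
  max_eq_left ((min_le_left _ _).trans hx)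

lemma cl_of_ge {h x : ℝ} (hh : 0 ≤ h) (hx : h ≤ x) : cl h x = h := by
  rw [cl, min_eq_right hx, max_eq_right hh]

lemma cl_of_mem {h x : ℝ} (h0 : 0 ≤ x) (hx : x ≤ h) : cl h x = x := by
  rw [cl, min_eq_left hx, max_eq_right h0]

lemma cl_lip (h x x' : ℝ) : |cl h x - cl h x'| ≤ |x - x'| := by
  unfold cl
  rw [max_comm 0, max_comm 0]
  refine (abs_max_sub_max_le_abs _ _ _).trans ?_
  refine (abs_min_sub_min_le_max _ _ _ _).trans ?_
  simp

lemma continuous_cl (h : ℝ) : Continuous (cl h) := by unfold cl; fun_prop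

/-- The fast pieces. -/
noncomputable def qq (u A t x : ℝ) : ℝ := A * x / u + t * x * (u - x)

/-- Primitive of the fast pieces. -/
noncomputable def QQ (u A t x : ℝ) : ℝ := A * x ^ 2 / (2 * u) + t * (u * x ^ 2 / 2 - x ^ 3 / 3)

lemma QQ_deriv (u A t x : ℝ) : HasDerivAt (QQ u A t) (qq u A t x) x := by
  unfold QQ qq
  have h2 := hasDerivAt_pow 2 x
  have h3 := hasDerivAt_pow 3 x
  have := ((h2.const_mul A).div_const (2 * u)).add
    ((((h2.const_mul u).div_const 2).sub (h3.div_const 3)).const_mul t)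
  refine this.congr_deriv ?_
  simp
  by_cases hu : u = 0
  · simp [hu]; ring
  · field_simp

lemma qq_deriv (u A t x : ℝ) : HasDerivAt (qq u A t) (A / u + t * (u - 2 * x)) x := by
  unfold qq
  have h1 := hasDerivAt_id x
  have := ((h1.const_mul A).div_const u).add ((h1.const_mul t).mul (h1.const_sub u))
  refine this.congr_deriv ?_
  simp; ring

lemma continuous_qq (u A t : ℝ) : Continuous (qq u A t) := by unfold qq; fun_prop

lemma qq_lip {u A t x x' : ℝ} (hu : 0 < u) (ht : 0 ≤ t) (hx : x ∈ Set.Icc 0 u)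
    (hx' : x' ∈ Set.Icc 0 u) : |qq u A t x - qq u A t x'| ≤ (|A| / u + t * u) * |x - x'| := by
  have : qq u A t x - qq u A t x' = (A / u + t * (u - x - x')) * (x - x') := by
    unfold qq; ring
  rw [this, abs_mul]
  refine mul_le_mul_of_nonneg_right ((abs_add_le _ _).trans (add_le_add ?_ ?_)) (abs_nonneg _)
  · rw [abs_div, abs_of_pos hu]
  · rw [abs_mul, abs_of_nonneg ht]
    refine mul_le_mul_of_nonneg_left (abs_le.2 ⟨?_, ?_⟩) ht <;> linarith [hx.1, hx.2, hx'.1, hx'.2]

lemma integral_qq (u A t x : ℝ) : ∫ r in (0 : ℝ)..x, qq u A t r = QQ u A t x := by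
  rw [intervalIntegral.integral_eq_sub_of_hasDerivAt (fun r _ => QQ_deriv u A t r)
    ((continuous_qq u A t).intervalIntegrable _ _)]
  simp [QQ]

/-- The profile of a slot. -/
noncomputable def bb (K : ℝ → ℝ) (u v y t1 t2 x : ℝ) : ℝ :=
  qq u y t1 (cl u x) + K (cl v (x - u)) + qq u (-(y + K v)) t2 (cl u (x - (u + v)))

section profile

variable {K : ℝ → ℝ} {u v y t1 t2 : ℝ}

lemma qq_zero (u A t : ℝ) : qq u A t 0 = 0 := by simp [qq]

lemma qq_u (hu : 0 < u) (A t : ℝ) : qq u A t u = A := by simp [qq, hu.ne']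

lemma continuous_bb (hK : Continuous K) : Continuous (bb K u v y t1 t2) := by
  unfold bb
  have := continuous_cl u
  have := continuous_cl v
  have := continuous_qq u y t1
  have := continuous_qq u (-(y + K v)) t2
  fun_prop

lemma bb_1 (hK0 : K 0 = 0) (hv : 0 ≤ v) {x : ℝ} (hx : x ≤ u) :
    bb K u v y t1 t2 x = qq u y t1 (cl u x) := by
  rw [bb, cl_of_le (x := x - u) (by linarith), cl_of_le (x := x - (u + v)) (by linarith), hK0,
    qq_zero]
  ring

lemma bb_2 (hu : 0 < u) {x : ℝ} (h0 : 0 ≤ x) (hx : x ≤ v) :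
    bb K u v y t1 t2 (u + x) = y + K x := by
  rw [bb, cl_of_ge hu.le (by linarith), cl_of_le (x := u + x - (u + v)) (by linarith),
    add_sub_cancel_left, cl_of_mem h0 hx, qq_zero, qq_u hu]
  ring

lemma bb_3 (hu : 0 < u) (hv : 0 ≤ v) {x : ℝ} (h0 : 0 ≤ x) :
    bb K u v y t1 t2 (u + v + x) = y + K v + qq u (-(y + K v)) t2 (cl u x) := by
  rw [bb, cl_of_ge hu.le (by linarith), cl_of_ge hv (by linarith), add_sub_cancel_left, qq_u hu]

lemma int_bb_1 (hK0 : K 0 = 0) (hv : 0 ≤ v) {x : ℝ} (h0 : 0 ≤ x) (hx : x ≤ u) :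
    ∫ r in (0 : ℝ)..x, bb K u v y t1 t2 r = QQ u y t1 x := by
  rw [← integral_qq]
  refine intervalIntegral.integral_congr fun r hr => ?_
  rw [Set.uIcc_of_le h0] at hr
  rw [bb_1 hK0 hv (hr.2.trans hx), cl_of_mem hr.1 (hr.2.trans hx)]

lemma int_bb_2 (hK : Continuous K) (hK0 : K 0 = 0) (hu : 0 < u) (hv : 0 ≤ v) {x : ℝ} (h0 : 0 ≤ x)
    (hx : x ≤ v) :
    ∫ r in (0 : ℝ)..(u + x), bb K u v y t1 t2 r
      = QQ u y t1 u + (y * x + ∫ r in (0 : ℝ)..x, K r) := by
  have hI : ∀ a b, IntervalIntegrable (bb K u v y t1 t2) volume a b :=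
    fun a b => (continuous_bb hK).intervalIntegrable _ _
  rw [← intervalIntegral.integral_add_adjacent_intervals (hI 0 u) (hI u (u + x)),
    int_bb_1 hK0 hv hu.le le_rfl]
  congr 1
  have h1 := intervalIntegral.integral_comp_add_left (a := 0) (b := x) (bb K u v y t1 t2) u
  rw [add_zero] at h1
  rw [← h1, intervalIntegral.integral_congr (g := fun r => y + K r) (fun r hr => by
    rw [Set.uIcc_of_le h0] at hr
    exact bb_2 hu hr.1 (hr.2.trans hx)),
    intervalIntegral.integral_add (continuous_const.intervalIntegrable _ _)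
      (hK.intervalIntegrable _ _)]
  simp [mul_comm]

lemma int_bb_3 (hK : Continuous K) (hK0 : K 0 = 0) (hu : 0 < u) (hv : 0 ≤ v) {x : ℝ} (h0 : 0 ≤ x)
    (hx : x ≤ u) :
    ∫ r in (0 : ℝ)..(u + v + x), bb K u v y t1 t2 r
      = QQ u y t1 u + (y * v + ∫ r in (0 : ℝ)..v, K r)
        + ((y + K v) * x + QQ u (-(y + K v)) t2 x) := by
  have hI : ∀ a b, IntervalIntegrable (bb K u v y t1 t2) volume a b :=
    fun a b => (continuous_bb hK).intervalIntegrable _ _
  rw [← intervalIntegral.integral_add_adjacent_intervals (hI 0 (u + v)) (hI (u + v) (u + v + x)),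
    int_bb_2 hK hK0 hu hv hv le_rfl]
  congr 1
  have h1 := intervalIntegral.integral_comp_add_left (a := 0) (b := x) (bb K u v y t1 t2) (u + v)
  rw [add_zero] at h1
  rw [← h1, intervalIntegral.integral_congr (g := fun r => y + K v + qq u (-(y + K v)) t2 r)
    (fun r hr => by
      rw [Set.uIcc_of_le h0] at hr
      simp only
      rw [bb_3 hu hv hr.1, cl_of_mem hr.1 (hr.2.trans hx)]),
    intervalIntegral.integral_add (continuous_const.intervalIntegrable _ _)
      ((continuous_qq _ _ _).intervalIntegrable _ _), integral_qq,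
    intervalIntegral.integral_const, sub_zero, smul_eq_mul, mul_comm]

lemma bb_bounds (hK0 : K 0 = 0) (hmono : Monotone K) (hu : 0 < u) (hv : 0 ≤ v) (hy : 0 ≤ y)
    (h1 : 0 ≤ t1) (h2 : 0 ≤ t2) (h1' : t1 * u ≤ y / u) (h2' : t2 * u ≤ y / u) (x : ℝ) :
    0 ≤ bb K u v y t1 t2 x ∧ bb K u v y t1 t2 x ≤ y + K v := by
  have hKv : 0 ≤ K v := hK0 ▸ hmono hv
  by_cases c1 : x ≤ u
  · rw [bb_1 hK0 hv c1]
    obtain ⟨a1, a2⟩ := cl_mem hu.le x
    set z := cl u x
    have a3 : 0 ≤ u - z := by linarith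
    constructor
    · unfold qq; positivity
    · have : y - qq u y t1 z = (u - z) * (y / u - t1 * z) := by unfold qq; field_simp; ring
      have a4 : t1 * z ≤ t1 * u := mul_le_mul_of_nonneg_left a2 h1
      have : 0 ≤ (u - z) * (y / u - t1 * z) := mul_nonneg a3 (by linarith)
      linarith
  by_cases c2 : x ≤ u + v
  · obtain ⟨z, rfl⟩ : ∃ z, x = u + z := ⟨x - u, by ring⟩
    rw [bb_2 hu (by linarith) (by linarith)]
    have a1 : K 0 ≤ K z := hmono (by linarith)
    have a2 : K z ≤ K v := hmono (by linarith)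
    constructor <;> linarith
  · obtain ⟨z', rfl⟩ : ∃ z, x = u + v + z := ⟨x - (u + v), by ring⟩
    rw [bb_3 hu hv (by linarith)]
    obtain ⟨a1, a2⟩ := cl_mem hu.le z'
    set z := cl u z'
    have a3 : 0 ≤ u - z := by linarith
    constructor
    · have : y + K v + qq u (-(y + K v)) t2 z = (y + K v) * (u - z) / u + t2 * z * (u - z) := by
        unfold qq; field_simp; ring
      rw [this]; positivity
    · have : qq u (-(y + K v)) t2 z = -(z * (y / u + K v / u - t2 * (u - z))) := by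
        unfold qq; field_simp; ring
      have a4 : t2 * (u - z) ≤ t2 * u := mul_le_mul_of_nonneg_left (by linarith) h2
      have a5 : 0 ≤ K v / u := by positivity
      have : 0 ≤ z * (y / u + K v / u - t2 * (u - z)) := mul_nonneg a1 (by linarith)
      linarith

lemma bb_lip {M : ℝ} (hu : 0 < u) (hv : 0 ≤ v) (h1 : 0 ≤ t1) (h2 : 0 ≤ t2) (hM0 : 0 ≤ M)
    (hM : ∀ x ∈ Set.Icc 0 v, ∀ x' ∈ Set.Icc 0 v, |K x - K x'| ≤ M * |x - x'|) (x x' : ℝ) :
    |bb K u v y t1 t2 x - bb K u v y t1 t2 x'|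
      ≤ (|y| / u + t1 * u + M + (|y + K v| / u + t2 * u)) * |x - x'| := by
  have a1 := (qq_lip (A := y) hu h1 (cl_mem hu.le x) (cl_mem hu.le x')).trans
    (mul_le_mul_of_nonneg_left (cl_lip u x x') (by positivity))
  have a2 := (hM _ (cl_mem hv (x - u)) _ (cl_mem hv (x' - u))).trans
    (mul_le_mul_of_nonneg_left (cl_lip v _ _) hM0)
  have a3 := (qq_lip (A := -(y + K v)) hu h2 (cl_mem hu.le (x - (u + v)))
    (cl_mem hu.le (x' - (u + v)))).trans
    (mul_le_mul_of_nonneg_left (cl_lip u _ _) (by positivity))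
  rw [sub_sub_sub_cancel_right] at a2 a3
  rw [abs_neg] at a3
  have : bb K u v y t1 t2 x - bb K u v y t1 t2 x'
      = (qq u y t1 (cl u x) - qq u y t1 (cl u x')) + (K (cl v (x - u)) - K (cl v (x' - u)))
        + (qq u (-(y + K v)) t2 (cl u (x - (u + v)))
          - qq u (-(y + K v)) t2 (cl u (x' - (u + v)))) := by
    unfold bb; ring
  rw [this]
  refine (abs_add_three _ _ _).trans ?_
  linarith

end profile

lemma fast_in {u A t c m d lam : ℝ} (hu : 0 < u) (hc : 0 < c) (hlam : 0 < lam) (ht : 0 ≤ t)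
    (h : lam + t * u ≤ A / u) :
    ‖∫ x in (0 : ℝ)..u, e (c * QQ u A t x + m * x + d)‖ ≤ 4 / √(c * lam) := by
  refine vdc _ (fun x => c * qq u A t x + m) (fun x => c * (A / u + t * (u - 2 * x))) _ _ _ hu.le
    (by positivity) (fun x => ?_) (fun x => ?_) (by fun_prop) (fun x hx => ?_)
  · exact ((((QQ_deriv u A t x).const_mul c).add ((hasDerivAt_id x).const_mul m)).add_const
      d).congr_deriv (by simp)
  · exact ((qq_deriv u A t x).const_mul c).add_const m
  · refine mul_le_mul_of_nonneg_left ?_ hc.le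
    have : t * (-u) ≤ t * (u - 2 * x) := mul_le_mul_of_nonneg_left (by linarith [hx.2]) ht
    linarith

lemma fast_out {u A t c m d lam : ℝ} (hu : 0 < u) (hc : 0 < c) (hlam : 0 < lam) (ht : 0 ≤ t)
    (h : lam + t * u ≤ A / u) :
    ‖∫ x in (0 : ℝ)..u, e (c * QQ u (-A) t x + m * x + d)‖ ≤ 4 / √(c * lam) := by
  refine vdc_neg _ (fun x => c * qq u (-A) t x + m) (fun x => c * (-A / u + t * (u - 2 * x))) _ _ _
    hu.le (by positivity) (fun x => ?_) (fun x => ?_) (by fun_prop) (fun x hx => ?_)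
  · exact ((((QQ_deriv u (-A) t x).const_mul c).add ((hasDerivAt_id x).const_mul m)).add_const
      d).congr_deriv (by simp)
  · exact ((qq_deriv u (-A) t x).const_mul c).add_const m
  · rw [← mul_neg]
    refine mul_le_mul_of_nonneg_left ?_ hc.le
    have : t * (u - 2 * x) ≤ t * u := mul_le_mul_of_nonneg_left (by linarith [hx.1]) ht
    rw [neg_div]
    linarith

lemma exists_tune {u c : ℝ} (hu : 0 < u) (hc : 0 < c) (α : ℝ) :
    ∃ t : ℝ, 0 ≤ t ∧ t * u ≤ 6 / (c * u ^ 2) ∧ ∃ z : ℤ, c * (t * u ^ 3 / 6) = α + z := by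
  refine ⟨6 * Int.fract α / (c * u ^ 3), ?_, ?_, -⌊α⌋, ?_⟩
  · have := Int.fract_nonneg α
    positivity
  · have : 6 * Int.fract α / (c * u ^ 3) * u = 6 / (c * u ^ 2) * Int.fract α := by field_simp
    rw [this]
    exact mul_le_of_le_one_right (by positivity) (Int.fract_lt_one α).le
  · have : c * (6 * Int.fract α / (c * u ^ 3) * u ^ 3 / 6) = Int.fract α := by field_simp
    rw [this, Int.fract]; push_cast; ring

lemma QQ_u {u : ℝ} (hu : 0 < u) (A t : ℝ) : QQ u A t u = A * u / 2 + t * u ^ 3 / 6 := by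
  unfold QQ; field_simp; ring

theorem slot : Slot := by
  intro w u δ Y K K' hu huw hδ hK hK'c hK0 hK'0
  have hKc : Continuous K := continuous_iff_continuousAt.2 fun x => (hK x).continuousAt
  obtain ⟨v, rfl⟩ : ∃ v, w = u + v + u := ⟨w - 2 * u, by ring⟩
  have hv : 0 < v := by linarith
  rw [show u + v + u - 2 * u = v by ring]
  have hmono : Monotone K := by
    intro x x' hx
    have := incr_of_deriv (a := x) (b := x') (lam := 0) hK (fun z _ => hK'0 z) le_rfl hx le_rfl
    linarith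
  have hKv : 0 ≤ K v := hK0 ▸ hmono hv.le
  obtain ⟨M, hM⟩ := (isCompact_Icc (a := 0) (b := v)).exists_bound_of_continuousOn
    hK'c.continuousOn
  have hM0 : 0 ≤ M := (norm_nonneg _).trans (hM 0 ⟨le_rfl, hv.le⟩)
  have hML : ∀ x ∈ Set.Icc 0 v, ∀ x' ∈ Set.Icc 0 v, |K x - K x'| ≤ M * |x - x'| :=
    fun x hx x' hx' => Convex.norm_image_sub_le_of_norm_hasDerivWithin_le (f := K) (f' := K')
      (fun z _ => (hK z).hasDerivWithinAt) hM (convex_Icc _ _) hx' hx
  refine ⟨Y / u + δ / (2 * u) + M + ((Y + K v) / u + δ / (2 * u)), ⌈12 / (δ * u)⌉₊ + 1,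
    fun N hN ρ y θ₀ α hρ1 hy hY => ?_⟩
  have hρ : 0 < ρ := by linarith
  have hN0 : (0 : ℝ) < N := by
    have : 0 < N := by omega
    exact_mod_cast this
  have hN1 : 12 / (δ * u) ≤ N := (Nat.le_ceil _).trans (by exact_mod_cast (by omega))
  have hy0 : 0 < y := hδ.trans_le hy
  set c := ρ * N with hc
  have hc0 : 0 < c := by positivity
  have hcu : 6 / (c * u ^ 2) ≤ δ / (2 * u) := by
    rw [div_le_iff₀ (by positivity)] at hN1
    rw [div_le_div_iff₀ (by positivity) (by positivity)]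
    have h1 : (N : ℝ) ≤ c := le_mul_of_one_le_left hN0.le hρ1
    have h2 : N * (δ * u) ≤ c * (δ * u) := mul_le_mul_of_nonneg_right h1 (by positivity)
    have h3 := mul_le_mul_of_nonneg_right (hN1.trans h2) hu.le
    nlinarith
  obtain ⟨t1, h1, h1', z1, hz1⟩ := exists_tune hu hc0 (α - c * (y * u / 2))
  obtain ⟨t2, h2, h2', z2, hz2⟩ := exists_tune hu hc0
    (-(c * (QQ u y t1 u + (y * v + ∫ r in (0 : ℝ)..v, K r) + (y + K v) * u / 2)))
  have h1'' := h1'.trans hcu
  have h2'' := h2'.trans hcu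
  have hδu : δ / (2 * u) + δ / (2 * u) ≤ y / u := by
    rw [show δ / (2 * u) + δ / (2 * u) = δ / u by field_simp; ring]
    gcongr
  have hδu0 : 0 < δ / (2 * u) := by positivity
  set B := bb K u v y t1 t2 with hB
  have hBc : Continuous B := continuous_bb hKc
  have hsub : ∀ x, ∫ r in θ₀..(ρ * x + θ₀), (N : ℝ) * B ((r - θ₀) / ρ)
      = c * ∫ r in (0 : ℝ)..x, B r := by
    intro x
    have := intervalIntegral.smul_integral_comp_mul_add (a := 0) (b := x)
      (fun r => (N : ℝ) * B ((r - θ₀) / ρ)) ρ θ₀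
    rw [mul_zero, zero_add] at this
    rw [← this]
    simp only [add_sub_cancel_right, mul_div_cancel_left₀ _ hρ.ne', smul_eq_mul]
    rw [intervalIntegral.integral_const_mul, hc, mul_assoc]
  refine ⟨fun θ => N * B ((θ - θ₀) / ρ), fun x x' => ?_, fun x hx => ?_, fun x => ?_, ?_,
    fun κ => ?_⟩
  · rw [← mul_sub, abs_mul, abs_of_pos hN0]
    have a1 := bb_lip (y := y) hu hv.le h1 h2 hM0 hML ((x - θ₀) / ρ) ((x' - θ₀) / ρ)
    rw [abs_of_pos hy0, abs_of_pos (by positivity : 0 < y + K v), ← sub_div,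
      sub_sub_sub_cancel_right, abs_div, abs_of_pos hρ] at a1
    have a2 : |x - x'| / ρ ≤ |x - x'| := div_le_self (abs_nonneg _) hρ1
    have a3 : y / u + t1 * u + M + ((y + K v) / u + t2 * u)
        ≤ Y / u + δ / (2 * u) + M + ((Y + K v) / u + δ / (2 * u)) := by gcongr
    have a4 := mul_le_mul a3 a2 (by positivity) ((by positivity : (0 : ℝ) ≤ _).trans a3)
    rw [mul_comm _ (N : ℝ), mul_assoc]
    exact mul_le_mul_of_nonneg_left (a1.trans a4) hN0.le
  · simp only
    rcases hx with hx | hx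
    · have : (x - θ₀) / ρ ≤ 0 := div_nonpos_of_nonpos_of_nonneg (by linarith) hρ.le
      rw [hB, bb_1 hK0 hv.le (by linarith), cl_of_le this, qq_zero, mul_zero]
    · obtain ⟨z, hz⟩ : ∃ z, (x - θ₀) / ρ = u + v + z := ⟨(x - θ₀) / ρ - (u + v), by ring⟩
      have : u + v + u ≤ (x - θ₀) / ρ := by rw [le_div_iff₀ hρ]; linarith
      rw [hz, hB, bb_3 hu hv.le (by linarith), cl_of_ge hu.le (by linarith), qq_u hu]
      ring
  · have := bb_bounds hK0 hmono hu hv.le hy0.le h1 h2 (by linarith) (by linarith) ((x - θ₀) / ρ)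
    exact ⟨mul_nonneg hN0.le this.1, mul_le_mul_of_nonneg_left this.2 hN0.le⟩
  · refine ⟨z2, ?_⟩
    rw [add_comm θ₀, hsub, hB, int_bb_3 hKc hK0 hu hv.le hu.le le_rfl, QQ_u hu (-(y + K v))]
    linear_combination hz2
  · have hΦc : Continuous fun x => ∫ r in (0 : ℝ)..x, B r :=
      continuous_iff_continuousAt.2 fun x =>
        (hBc.integral_hasStrictDerivAt 0 x).hasDerivAt.continuousAt
    have hout := intervalIntegral.smul_integral_comp_mul_add (a := 0) (b := u + v + u)
      (fun θ => e ((∫ r in θ₀..θ, (N : ℝ) * B ((r - θ₀) / ρ)) - κ * θ)) ρ θ₀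
    rw [mul_zero, zero_add] at hout
    simp only [hsub] at hout
    rw [add_comm θ₀, ← hout]
    set E : ℝ → ℂ := fun x => e (c * (∫ r in (0 : ℝ)..x, B r) - κ * (ρ * x + θ₀)) with hE
    have hEc : Continuous E := continuous_e.comp (by fun_prop)
    have hI : ∀ a b, IntervalIntegrable E volume a b := fun a b => hEc.intervalIntegrable _ _
    rw [← intervalIntegral.integral_add_adjacent_intervals (hI 0 (u + v)) (hI (u + v) (u + v + u)),
      ← intervalIntegral.integral_add_adjacent_intervals (hI 0 u) (hI u (u + v))]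
    have e1 : ‖∫ x in (0 : ℝ)..u, E x‖ ≤ 4 / √(c * (δ / (2 * u))) := by
      rw [intervalIntegral.integral_congr
        (g := fun x => e (c * QQ u y t1 x + (-(κ * ρ)) * x + (-(κ * θ₀)))) (fun x hx => by
          rw [Set.uIcc_of_le hu.le] at hx
          simp only [hE, hB]
          rw [int_bb_1 hK0 hv.le hx.1 hx.2]
          congr 1; ring)]
      exact fast_in hu hc0 hδu0 h1 (by linarith)
    have e3 : ‖∫ x in (u + v)..(u + v + u), E x‖ ≤ 4 / √(c * (δ / (2 * u))) := by
      have a1 := intervalIntegral.integral_comp_add_left (a := 0) (b := u) E (u + v)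
      rw [add_zero] at a1
      rw [← a1, intervalIntegral.integral_congr
        (g := fun x => e (c * QQ u (-(y + K v)) t2 x + (c * (y + K v) - κ * ρ) * x
          + (c * (QQ u y t1 u + (y * v + ∫ r in (0 : ℝ)..v, K r)) - κ * (ρ * (u + v) + θ₀))))
        (fun x hx => by
          rw [Set.uIcc_of_le hu.le] at hx
          simp only [hE, hB]
          rw [int_bb_3 hKc hK0 hu hv.le hx.1 hx.2]
          congr 1; ring)]
      refine fast_out hu hc0 hδu0 h2 ?_
      have : y / u ≤ (y + K v) / u := by gcongr; linarith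
      linarith
    have e2 : ∫ x in u..(u + v), E x = e (α - κ * (θ₀ + ρ * u)) * ∫ τ in (0 : ℝ)..v,
        e (c * ((∫ r in (0 : ℝ)..τ, K r) - (κ / N - y) * τ)) := by
      have a1 := intervalIntegral.integral_comp_add_left (a := 0) (b := v) E u
      rw [add_zero] at a1
      rw [← a1, ← intervalIntegral.integral_const_mul]
      refine intervalIntegral.integral_congr fun x hx => ?_
      rw [Set.uIcc_of_le hv.le] at hx
      simp only [hE, hB]
      rw [int_bb_2 hKc hK0 hu hv.le hx.1 hx.2, ← e_add, ← e_add_int _ (-z1), QQ_u hu]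
      congr 1
      have a2 : c * (κ / N) = ρ * κ := by rw [hc]; field_simp
      push_cast
      linear_combination hz1 + x * a2
    rw [e2, Complex.real_smul]
    set I1 := ∫ x in (0 : ℝ)..u, E x
    set I3 := ∫ x in (u + v)..(u + v + u), E x
    set J := ∫ τ in (0 : ℝ)..v, e (c * ((∫ r in (0 : ℝ)..τ, K r) - (κ / N - y) * τ))
    have : (ρ : ℂ) * (I1 + e (α - κ * (θ₀ + ρ * u)) * J + I3)
        - e (α - κ * (θ₀ + ρ * u)) * (ρ * J) = ρ * (I1 + I3) := by ring
    rw [this, norm_mul, Complex.norm_real, Real.norm_eq_abs, abs_of_pos hρ]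
    have a5 : ‖I1 + I3‖ ≤ 2 * (4 / √(c * (δ / (2 * u)))) := by
      have := norm_add_le I1 I3
      linarith
    refine (mul_le_mul_of_nonneg_left a5 hρ.le).trans ?_
    have p1 : 0 < √(c * (δ / (2 * u))) := Real.sqrt_pos.2 (by positivity)
    have p2 : 0 < √(N : ℝ) := Real.sqrt_pos.2 hN0
    rw [show ρ * (2 * (4 / √(c * (δ / (2 * u))))) = 8 * ρ / √(c * (δ / (2 * u))) by ring,
      div_le_div_iff₀ p1 p2, mul_assoc 16, ← Real.sqrt_mul (by positivity)]
    have a6 : ρ * √(N : ℝ) ≤ 2 * √(ρ * u / δ * (c * (δ / (2 * u)))) := by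
      rw [← Real.sqrt_sq hρ.le, ← Real.sqrt_mul (by positivity), Real.sqrt_sq hρ.le,
        ← Real.sqrt_sq (show (0 : ℝ) ≤ 2 by norm_num), ← Real.sqrt_mul (by positivity),
        Real.sqrt_sq (show (0 : ℝ) ≤ 2 by norm_num)]
      refine Real.sqrt_le_sqrt ?_
      have : (2 : ℝ) ^ 2 * (ρ * u / δ * (c * (δ / (2 * u)))) = 2 * (ρ ^ 2 * N) := by
        rw [hc]; field_simp
      rw [this]
      have : 0 ≤ ρ ^ 2 * N := by positivity
      linarith
    linarith

end Crest.Agent.H9.UF
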