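import Crest.Agent.Lead.UFDefs

/-! First and second derivative tests for oscillatory integrals (module M3 of row 75). -/

set_option autoImplicit false

namespace Crest.Agent.H9.UF

open Crest.Agent.Lead.UF MeasureTheory

lemma hasDerivAt_e_comp {f : ℝ → ℝ} {f' x : ℝ} (h : HasDerivAt f f' x) :
    HasDerivAt (fun x => e (f x)) (2 * Real.pi * Complex.I * e (f x) * f') x := by
  have := (hasDerivAt_e (f x)).scomp x h
  refine this.congr_deriv ?_
  simp [mul_comm]

theorem firstDeriv : FirstDeriv := by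
  intro f f' f'' a b μ hab hμ hf hf' hc hpos hs
  have hfc : Continuous f := continuous_iff_continuousAt.2 fun x => (hf x).continuousAt
  have hf'c : Continuous f' := continuous_iff_continuousAt.2 fun x => (hf' x).continuousAt
  have habs : ∀ x ∈ Set.Icc a b, μ ≤ |f' x| := by
    intro x hx
    rcases hs with hs | hs
    · exact (hs x hx).trans (le_abs_self _)
    · exact le_trans (by linarith [hs x hx]) (neg_le_abs _)
  have hne : ∀ x ∈ Set.Icc a b, f' x ≠ 0 := by
    intro x hx h
    have := habs x hx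
    rw [h, abs_zero] at this
    linarith
  have hpi : (0 : ℝ) < Real.pi := Real.pi_pos
  have hc2 : (2 * Real.pi * Complex.I : ℂ) ≠ 0 := Complex.two_pi_I_ne_zero
  have huI : Set.uIcc a b = Set.Icc a b := Set.uIcc_of_le hab
  -- the primitive
  set g : ℝ → ℂ := fun x => e (f x) * ((f' x)⁻¹ : ℝ) / (2 * Real.pi * Complex.I) with hg
  set r : ℝ → ℂ := fun x => e (f x) * ((f'' x / (f' x) ^ 2 : ℝ)) / (2 * Real.pi * Complex.I)
    with hr
  have hinv : ∀ x ∈ Set.Icc a b, HasDerivAt (fun x => (f' x)⁻¹) (-(f'' x / (f' x) ^ 2)) x := by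
    intro x hx
    have := (hf' x).inv (hne x hx)
    refine this.congr_deriv ?_
    ring
  have hgd : ∀ x ∈ Set.uIcc a b, HasDerivAt g (e (f x) - r x) x := by
    intro x hx
    rw [huI] at hx
    have h1 := hasDerivAt_e_comp (hf x)
    have h2 : HasDerivAt (fun x => (((f' x)⁻¹ : ℝ) : ℂ)) ((-(f'' x / (f' x) ^ 2) : ℝ) : ℂ) x :=
      (hinv x hx).ofReal_comp
    have h3 := (h1.mul h2).div_const (2 * Real.pi * Complex.I)
    refine h3.congr_deriv ?_
    have h4 : (f' x : ℂ) ≠ 0 := by exact_mod_cast hne x hx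
    simp only [hr]
    push_cast
    field_simp
    ring
  have hq : ContinuousOn (fun x => f'' x / (f' x) ^ 2) (Set.uIcc a b) := by
    rw [huI]
    exact hc.continuousOn.div (hf'c.pow 2).continuousOn fun x hx => pow_ne_zero 2 (hne x hx)
  have hec : Continuous fun x => e (f x) := continuous_e.comp hfc
  have hrc : ContinuousOn r (Set.uIcc a b) :=
    (hec.continuousOn.mul (Complex.continuous_ofReal.comp_continuousOn hq)).div_const _
  have hei : IntervalIntegrable (fun x => e (f x)) volume a b := hec.intervalIntegrable _ _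
  have hri : IntervalIntegrable r volume a b := hrc.intervalIntegrable
  have hftc := intervalIntegral.integral_eq_sub_of_hasDerivAt hgd (hei.sub hri)
  rw [intervalIntegral.integral_sub hei hri] at hftc
  have heq : ∫ x in a..b, e (f x) = g b - g a + ∫ x in a..b, r x := by rw [← hftc]; ring
  have hn2 : ‖(2 * Real.pi * Complex.I : ℂ)‖ = 2 * Real.pi := by
    simp [abs_of_pos hpi]
  have hinvle : ∀ x ∈ Set.Icc a b, |(f' x)⁻¹| ≤ 1 / μ := by
    intro x hx
    rw [abs_inv, one_div]
    exact inv_anti₀ hμ (habs x hx)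
  have hgn : ∀ x ∈ Set.Icc a b, ‖g x‖ ≤ 1 / μ / (2 * Real.pi) := by
    intro x hx
    simp only [hg]
    rw [norm_div, norm_mul, norm_e, one_mul, hn2, Complex.norm_real, Real.norm_eq_abs]
    exact div_le_div_of_nonneg_right (hinvle x hx) (by positivity)
  have hq2 : ∫ x in a..b, f'' x / (f' x) ^ 2 = (f' a)⁻¹ - (f' b)⁻¹ := by
    have := intervalIntegral.integral_eq_sub_of_hasDerivAt (f := fun x => -(f' x)⁻¹)
      (f' := fun x => f'' x / (f' x) ^ 2) (a := a) (b := b)
      (fun x hx => by
        rw [huI] at hx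
        exact (hinv x hx).neg.congr_deriv (neg_neg _)) hq.intervalIntegrable
    rw [this]; ring
  have hrn : ‖∫ x in a..b, r x‖ ≤ 2 / μ / (2 * Real.pi) := by
    have h1 : ‖∫ x in a..b, r x‖ ≤ ∫ x in a..b, (f'' x / (f' x) ^ 2) / (2 * Real.pi) := by
      refine intervalIntegral.norm_integral_le_of_norm_le hab ?_ ?_
      · refine Filter.Eventually.of_forall fun x hx => ?_
        have hx' : x ∈ Set.Icc a b := Set.Ioc_subset_Icc_self hx
        simp only [hr]
        rw [norm_div, norm_mul, norm_e, one_mul, hn2, Complex.norm_real, Real.norm_eq_abs,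
          abs_of_nonneg (div_nonneg (hpos x hx') (sq_nonneg _))]
      · exact (hq.div_const _).intervalIntegrable
    rw [intervalIntegral.integral_div (2 * Real.pi), hq2] at h1
    refine h1.trans (div_le_div_of_nonneg_right ?_ (by positivity))
    have a1 := abs_le.1 (hinvle a ⟨le_rfl, hab⟩)
    have a2 := abs_le.1 (hinvle b ⟨hab, le_rfl⟩)
    have : 2 / μ = 1 / μ + 1 / μ := by ring
    linarith [a1.2, a2.1]
  rw [heq]
  have a1 := hgn a ⟨le_rfl, hab⟩
  have a2 := hgn b ⟨hab, le_rfl⟩
  have a3 : ‖g b - g a + ∫ x in a..b, r x‖ ≤ ‖g b‖ + ‖g a‖ + ‖∫ x in a..b, r x‖ :=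
    (norm_add_le _ _).trans (by gcongr; exact norm_sub_le _ _)
  have a4 : 1 / μ / (2 * Real.pi) + 1 / μ / (2 * Real.pi) + 2 / μ / (2 * Real.pi) ≤ 1 / μ := by
    have : 1 / μ / (2 * Real.pi) + 1 / μ / (2 * Real.pi) + 2 / μ / (2 * Real.pi)
        = 1 / μ * (2 / Real.pi) := by field_simp; ring
    rw [this]
    have h3 : 2 / Real.pi ≤ 1 := by
      rw [div_le_one hpi]; linarith [Real.pi_gt_three]
    exact mul_le_of_le_one_right (by positivity) h3
  linarith

lemma incr_of_deriv {g g' : ℝ → ℝ} {a b lam : ℝ} (hg : ∀ x, HasDerivAt g (g' x) x)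
    (h : ∀ x ∈ Set.Icc a b, lam ≤ g' x) {x y : ℝ} (hx : a ≤ x) (hxy : x ≤ y) (hy : y ≤ b) :
    lam * (y - x) ≤ g y - g x := by
  rcases hxy.eq_or_lt with rfl | hlt
  · simp
  obtain ⟨c, hc, hc'⟩ := exists_hasDerivAt_eq_slope g g' hlt
    (fun z _ => (hg z).continuousAt.continuousWithinAt) (fun z _ => hg z)
  have := h c ⟨hx.trans hc.1.le, hc.2.le.trans hy⟩
  rw [hc', le_div_iff₀ (by linarith)] at this
  exact this

theorem vdc : VdC := by
  intro f f' f'' a b lam hab hlam hf hf' hc hl
  have hfc : Continuous f := continuous_iff_continuousAt.2 fun x => (hf x).continuousAt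
  have hf'c : Continuous f' := continuous_iff_continuousAt.2 fun x => (hf' x).continuousAt
  have hec : Continuous fun x => e (f x) := continuous_e.comp hfc
  set s := √lam with hs
  have hs0 : 0 < s := Real.sqrt_pos.2 hlam
  have hss : s * s = lam := Real.mul_self_sqrt hlam.le
  have hinc := fun x y => incr_of_deriv (x := x) (y := y) hf' hl
  obtain ⟨c, hac, hcb, h1, h2⟩ : ∃ c, a ≤ c ∧ c ≤ b ∧ (c = a ∨ f' c ≤ -s) ∧ (c = b ∨ -s ≤ f' c) := by
    by_cases ha : -s ≤ f' a
    · exact ⟨a, le_rfl, hab, Or.inl rfl, Or.inr ha⟩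
    by_cases hb : f' b ≤ -s
    · exact ⟨b, hab, le_rfl, Or.inr hb, Or.inl rfl⟩
    obtain ⟨c, hc1, hc2⟩ := intermediate_value_Icc hab hf'c.continuousOn
      (show -s ∈ Set.Icc (f' a) (f' b) from ⟨(not_le.1 ha).le, (not_le.1 hb).le⟩)
    exact ⟨c, hc1.1, hc1.2, Or.inr hc2.le, Or.inr hc2.ge⟩
  set d := min b (c + 2 / s) with hd
  have hcd : c ≤ d := le_min hcb (by have : 0 < 2 / s := by positivity
                                     linarith)
  have hdb : d ≤ b := min_le_left _ _
  have hI : ∀ x y, IntervalIntegrable (fun x => e (f x)) volume x y :=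
    fun x y => hec.intervalIntegrable _ _
  have e1 : ‖∫ x in a..c, e (f x)‖ ≤ 1 / s := by
    rcases h1 with h1 | h1
    · rw [h1]; simp; positivity
    · refine firstDeriv f f' f'' a c s hac hs0 hf hf' hc
        (fun x hx => hlam.le.trans (hl x ⟨hx.1, hx.2.trans hcb⟩)) (Or.inr fun x hx => ?_)
      have := hinc x c hx.1 hx.2 hcb
      have : 0 ≤ lam * (c - x) := mul_nonneg hlam.le (by linarith [hx.2])
      linarith
  have e2 : ‖∫ x in c..d, e (f x)‖ ≤ 2 / s := by
    have := intervalIntegral.norm_integral_le_of_norm_le_const (a := c) (b := d) (C := 1)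
      (f := fun x => e (f x)) (fun x _ => by simp)
    rw [one_mul, abs_of_nonneg (by linarith)] at this
    have h3 : d ≤ c + 2 / s := min_le_right _ _
    linarith
  have e3 : ‖∫ x in d..b, e (f x)‖ ≤ 1 / s := by
    by_cases hdb' : d = b
    · rw [hdb']; simp; positivity
    have hd2 : d = c + 2 / s := by
      rcases min_cases b (c + 2 / s) with h | h
      · exact absurd h.1 hdb'
      · exact h.1
    have hcb' : c ≠ b := by
      intro h
      apply hdb'
      exact le_antisymm hdb (h ▸ hcd)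
    have h2' : -s ≤ f' c := h2.resolve_left hcb'
    refine firstDeriv f f' f'' d b s hdb hs0 hf hf' hc
      (fun x hx => hlam.le.trans (hl x ⟨hac.trans (hcd.trans hx.1), hx.2⟩)) (Or.inl fun x hx => ?_)
    have h4 := hinc c x hac (hcd.trans hx.1) hx.2
    have h5 : lam * (2 / s) ≤ lam * (x - c) :=
      mul_le_mul_of_nonneg_left (by linarith [hx.1]) hlam.le
    have h6 : lam * (2 / s) = 2 * s := by rw [← hss]; field_simp
    linarith
  rw [← intervalIntegral.integral_add_adjacent_intervals (hI a c) (hI c b),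
    ← intervalIntegral.integral_add_adjacent_intervals (hI c d) (hI d b)]
  have : 4 / s = 1 / s + (2 / s + 1 / s) := by ring
  rw [this]
  exact (norm_add_le _ _).trans (add_le_add e1 ((norm_add_le _ _).trans (add_le_add e2 e3)))

/-- The concave version of the second derivative test. -/
theorem vdc_neg (f f' f'' : ℝ → ℝ) (a b lam : ℝ) (hab : a ≤ b) (hlam : 0 < lam)
    (hf : ∀ x, HasDerivAt f (f' x) x) (hf' : ∀ x, HasDerivAt f' (f'' x) x) (hc : Continuous f'')
    (hl : ∀ x ∈ Set.Icc a b, f'' x ≤ -lam) : ‖∫ x in a..b, e (f x)‖ ≤ 4 / √lam := by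
  have := vdc (fun x => -f x) (fun x => -f' x) (fun x => -f'' x) a b lam hab hlam
    (fun x => (hf x).neg) (fun x => (hf' x).neg) hc.neg (fun x hx => by linarith [hl x hx])
  simp only [← conj_e] at this
  rw [intervalIntegral.integral_of_le hab, integral_conj, RCLike.norm_conj,
    ← intervalIntegral.integral_of_le hab] at this
  exact this

end Crest.Agent.H9.UF
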